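import Vale.Agent.P366Z.Calc2

/-!
# P366Z: derivatives of `dens` and `up`, the Laplacian as the trace of the Hessian
-/

open MeasureTheory Metric Filter Topology Set
open scoped ContDiff ENNReal
open Vale.Agent.P366.Stmt

noncomputable section

namespace Vale.Agent.P366Z

variable {n : ℕ} {f h u v w U : E n → ℝ} {x : E n} {g : Field n} {ρ : ℝ}

/-- the formula of Jacobi -/
theorem hasDerivAt_det {A : ℝ → Matrix (Fin n) (Fin n) ℝ} {A' : Matrix (Fin n) (Fin n) ℝ} {t : ℝ}
    (h : ∀ i j, HasDerivAt (fun s => A s i j) (A' i j) t) :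
    HasDerivAt (fun s => (A s).det) (∑ i, ∑ k, (A t).adjugate i k * A' k i) t := by
  have h1 : HasDerivAt (fun s => (A s).det) (∑ σ : Equiv.Perm (Fin n),
      ((Equiv.Perm.sign σ : ℤ) : ℝ) * ∑ i, (∏ j ∈ Finset.univ.erase i, A t (σ j) j) •
        A' (σ i) i) t := by
    have e : (fun s => (A s).det) = fun s => ∑ σ : Equiv.Perm (Fin n),
        ((Equiv.Perm.sign σ : ℤ) : ℝ) * ∏ i, A s (σ i) i := by
      funext s
      rw [Matrix.det_apply']
    rw [e]
    refine HasDerivAt.fun_sum fun σ _ => ?_
    exact (HasDerivAt.fun_finsetProd (u := Finset.univ) fun i _ => h (σ i) i).const_mul _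
  refine h1.congr_deriv ?_
  have h2 : ∀ i, ∑ k, (A t).adjugate i k * A' k i = ((A t).updateCol i (fun k => A' k i)).det := by
    intro i
    rw [← Matrix.cramer_apply, Matrix.cramer_eq_adjugate_mulVec]
    rfl
  simp only [h2, Matrix.det_apply']
  rw [Finset.sum_comm]
  refine Finset.sum_congr rfl fun σ _ => ?_
  rw [Finset.mul_sum]
  refine Finset.sum_congr rfl fun i _ => ?_
  rw [← Finset.mul_prod_erase Finset.univ _ (Finset.mem_univ i)]
  have h3 : ∏ j ∈ Finset.univ.erase i, (A t).updateCol i (fun k => A' k i) (σ j) j =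
      ∏ j ∈ Finset.univ.erase i, A t (σ j) j := by
    refine Finset.prod_congr rfl fun j hj => ?_
    rw [Matrix.updateCol_ne (Finset.ne_of_mem_erase hj)]
  rw [h3, Matrix.updateCol_self, smul_eq_mul, mul_comm (A' (σ i) i)]

theorem Met.pd_det (hg : Met g) (k : Fin n) (x : E n) : pd k (fun y => (mat g y).det) x =
    (mat g x).det * ∑ i, ∑ j, up g i j x * pd k (fun y => g y i j) x := by
  have h1 := hasDerivAt_det (A := fun t : ℝ => mat g (x + t • EuclideanSpace.single k 1))
    (A' := Matrix.of fun i j => pd k (fun y => g y i j) x) (t := 0)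
    (fun i j => ((hg.sm i j).diff x).lineDifferentiableAt.hasLineDerivAt)
  have hd := (hg.det_pos x).ne'
  have h2 : ∀ k l, (mat g x).adjugate k l = (mat g x).det * up g k l x := by
    intro k l
    have h3 : (mat g x)⁻¹ = ((mat g x).det)⁻¹ • (mat g x).adjugate := by
      rw [Matrix.inv_def, Ring.inverse_eq_inv']
    unfold up
    rw [h3, Matrix.smul_apply, smul_eq_mul]
    field_simp
  have h3 : pd k (fun y => (mat g y).det) x = _ := h1.deriv
  rw [h3]
  simp only [zero_smul, add_zero, h2, Matrix.of_apply, Finset.mul_sum]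
  refine Finset.sum_congr rfl fun i _ => Finset.sum_congr rfl fun j _ => ?_
  have : (fun y => g y j i) = fun y => g y i j := funext fun y => hg.sy y j i
  rw [this]; ring

theorem Met.pd_dens (hg : Met g) (k : Fin n) (x : E n) : pd k (dens g) x =
    dens g x * (∑ i, ∑ j, up g i j x * pd k (fun y => g y i j) x) / 2 := by
  have h1 : (fun y => dens g y ^ 2) = fun y => (mat g y).det :=
    funext fun y => Real.sq_sqrt (hg.det_pos y).le
  have h2 := pd_pow (hg.sm_dens.diff x) 2 k
  rw [h1, hg.pd_det, ← congrFun h1 x] at h2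
  have h3 := (hg.dens_pos x).ne'
  refine mul_left_cancel₀ h3 ?_
  norm_num at h2
  linarith

/-- lowering the index of the Christoffel symbols -/
theorem Met.g_chr (hg : Met g) (l i j : Fin n) (x : E n) : ∑ k, g x l k * chr g k i j x =
    (pd i (fun y => g y j l) x + pd j (fun y => g y i l) x - pd l (fun y => g y i j) x) / 2 := by
  unfold chr
  simp only [mul_div_assoc', Finset.mul_sum, ← Finset.sum_div]
  congr 1
  rw [Finset.sum_comm]
  simp only [← mul_assoc, ← Finset.sum_mul, hg.mul_up]
  simp

/-- the metric is parallel -/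
theorem Met.pd_g (hg : Met g) (k i j : Fin n) (x : E n) : pd k (fun y => g y i j) x =
    ∑ l, g x j l * chr g l k i x + ∑ l, g x i l * chr g l k j x := by
  rw [hg.g_chr, hg.g_chr]
  have : ∀ a b, (fun y => g y a b) = fun y => g y b a := fun a b => funext fun y => hg.sy y a b
  rw [this j i, this k j, this k i]; ring

theorem Met.up_g_mul (hg : Met g) (x : E n) (i : Fin n) (a : Fin n → ℝ) :
    ∑ k, up g i k x * ∑ l, g x k l * a l = a i := by
  simp only [Finset.mul_sum]
  rw [Finset.sum_comm]
  simp only [← mul_assoc, ← Finset.sum_mul, hg.up_mul]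
  simp

theorem Met.g_up_mul (hg : Met g) (x : E n) (i : Fin n) (a : Fin n → ℝ) :
    ∑ k, g x i k * ∑ l, up g k l x * a l = a i := by
  simp only [Finset.mul_sum]
  rw [Finset.sum_comm]
  simp only [← mul_assoc, ← Finset.sum_mul, hg.mul_up]
  simp

theorem Met.pd_up' (hg : Met g) (k i j : Fin n) (x : E n) : pd k (up g i j) x =
    -∑ a, ∑ b, up g i a x * pd k (fun y => g y a b) x * up g b j x := by
  have h1 : ∀ a, ∑ b, (pd k (fun y => g y a b) x * up g b j x + g x a b * pd k (up g b j) x) = 0 :=
    fun a => by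
      have h2 : (fun y => ∑ b ∈ Finset.univ, g y a b * up g b j y) =
          fun _ => if a = j then 1 else 0 := funext fun y => hg.mul_up a j y
      have h3 := pd_sum (x := x) (F := fun b y => g y a b * up g b j y) Finset.univ
        (fun b _ => ((hg.sm a b).diff x).fun_mul ((hg.sm_up b j).diff x)) k
      rw [h2, pd_const] at h3
      rw [h3]
      exact Finset.sum_congr rfl fun b _ =>
        (pd_mul ((hg.sm a b).diff x) ((hg.sm_up b j).diff x) k).symm
  rw [← hg.up_g_mul x i fun b => pd k (up g b j) x, ← Finset.sum_neg_distrib]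
  refine Finset.sum_congr rfl fun a _ => ?_
  have h4 := h1 a
  rw [Finset.sum_add_distrib] at h4
  rw [eq_neg_of_add_eq_zero_right h4, mul_neg, Finset.mul_sum]
  simp only [mul_assoc]

/-- the inverse metric is parallel -/
theorem Met.pd_up (hg : Met g) (k i j : Fin n) (x : E n) : pd k (up g i j) x =
    -∑ l, chr g i k l x * up g l j x - ∑ l, chr g j k l x * up g i l x := by
  rw [hg.pd_up']
  simp only [hg.pd_g k, mul_add, add_mul, Finset.sum_add_distrib]
  have h1 : ∑ a, ∑ b, up g i a x * (∑ l, g x b l * chr g l k a x) * up g b j x =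
      ∑ l, chr g j k l x * up g i l x := Finset.sum_congr rfl fun a _ => by
    rw [← hg.up_g_mul x j fun l => chr g l k a x, Finset.sum_mul]
    exact Finset.sum_congr rfl fun b _ => by rw [hg.up_sy j b]; ring
  have h2 : ∑ a, ∑ b, up g i a x * (∑ l, g x a l * chr g l k b x) * up g b j x =
      ∑ l, chr g i k l x * up g l j x := by
    rw [Finset.sum_comm]
    exact Finset.sum_congr rfl fun b _ => by
      rw [← Finset.sum_mul, hg.up_g_mul x i fun l => chr g l k b x]
  rw [h1, h2]; ring

theorem Met.sum_chr (hg : Met g) (k : Fin n) (x : E n) :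
    ∑ i, chr g i k i x = pd k (dens g) x / dens g x := by
  rw [hg.pd_dens]
  have h0 := (hg.dens_pos x).ne'
  simp only [hg.pd_g k, mul_add, Finset.sum_add_distrib]
  have h1 : ∑ i, ∑ j, up g i j x * ∑ l, g x j l * chr g l k i x = ∑ i, chr g i k i x :=
    Finset.sum_congr rfl fun i _ => hg.up_g_mul x i fun l => chr g l k i x
  have h2 : ∑ i, ∑ j, up g i j x * ∑ l, g x i l * chr g l k j x = ∑ i, chr g i k i x := by
    rw [Finset.sum_comm]
    refine Finset.sum_congr rfl fun j _ => ?_
    rw [← hg.up_g_mul x j fun l => chr g l k j x]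
    exact Finset.sum_congr rfl fun i _ => by rw [hg.up_sy]
  rw [h1, h2]; field_simp; ring

/-- the divergence through the Christoffel symbols -/
theorem Met.dv_chr (hg : Met g) {X : Fin n → E n → ℝ} (hX : ∀ i, DifferentiableAt ℝ (X i) x) :
    dv g X x = ∑ i, (pd i (X i) x + ∑ k, chr g i i k x * X k x) := by
  rw [hg.dv_eq hX, Finset.sum_add_distrib, Finset.sum_comm, Finset.sum_div]
  congr 1
  refine Finset.sum_congr rfl fun k _ => ?_
  rw [← Finset.sum_mul, mul_div_right_comm, ← hg.sum_chr]
  simp only [hg.chr_sy _ k]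

theorem Met.bv_eq (hg : Met g) (j : Fin n) (x : E n) :
    bv g j x = -∑ k, ∑ l, up g k l x * chr g j k l x := by
  unfold bv
  rw [hg.dv_chr fun i => (hg.sm_up i j).diff x, ← Finset.sum_neg_distrib]
  refine Finset.sum_congr rfl fun i _ => ?_
  rw [hg.pd_up]
  simp only [mul_comm (chr g j i _ x)]
  ring

/-- the Laplacian is the trace of the Hessian -/
theorem Met.lap_eq_tr (hg : Met g) (hu : ContDiffAt ℝ 2 u x) :
    lap g u x = tr g (hess g u) x := by
  rw [hg.lap_eq hu]
  unfold tr hess
  simp only [mul_sub, Finset.sum_sub_distrib, hg.bv_eq, neg_mul, Finset.sum_neg_distrib,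
    Finset.mul_sum, Finset.sum_mul]
  rw [sub_eq_add_neg]
  congr 2
  rw [Finset.sum_comm]
  refine Finset.sum_congr rfl fun i _ => ?_
  rw [Finset.sum_comm]
  exact Finset.sum_congr rfl fun j _ => Finset.sum_congr rfl fun k _ => by ring

theorem Met.hess_sy (hg : Met g) (hu : ContDiffAt ℝ 2 u x) (i j : Fin n) :
    hess g u x i j = hess g u x j i := by
  unfold hess
  rw [pd_comm hu]
  simp only [hg.chr_sy _ i j]

theorem Met.sm_hess (hg : Met g) (hu : Smooth u) (i j : Fin n) :
    Smooth fun x => hess g u x i j :=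
  ContDiff.sub ((hu.pd j).pd i) (ContDiff.sum fun k _ => ContDiff.mul (hg.sm_chr k i j) (hu.pd k))

/-- the derivative of the gradient -/
theorem Met.pd_gr (hg : Met g) (hu : ContDiffAt ℝ 2 u x) (k i : Fin n) : pd k (gr g u i) x =
    ∑ j, up g i j x * hess g u x k j - ∑ l, chr g i k l x * gr g u l x := by
  have h1 := pd_sum (x := x) (F := fun j y => up g i j y * pd j u y) Finset.univ
    (fun j _ => ((hg.sm_up i j).diff x).fun_mul (diffAt_pd hu j)) k
  have h2 : pd k (gr g u i) x = _ := h1
  rw [h2]
  simp only [pd_mul ((hg.sm_up i _).diff x) (diffAt_pd hu _), hg.pd_up]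
  unfold hess gr
  simp only [mul_sub, sub_mul, neg_mul, Finset.sum_add_distrib, Finset.sum_sub_distrib,
    Finset.sum_neg_distrib, Finset.mul_sum, Finset.sum_mul]
  have e1 : ∑ j, ∑ l, chr g i k l x * up g l j x * pd j u x =
      ∑ l, ∑ j, chr g i k l x * (up g l j x * pd j u x) := by
    rw [Finset.sum_comm]; simp only [mul_assoc]
  have e2 : ∑ j, ∑ l, chr g j k l x * up g i l x * pd j u x =
      ∑ l, ∑ j, up g i l x * (chr g j k l x * pd j u x) := by
    rw [Finset.sum_comm]
    exact Finset.sum_congr rfl fun _ _ => Finset.sum_congr rfl fun _ _ => by ring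
  rw [e1, e2]; ring

/-- the derivative of the inner product of two gradients -/
theorem Met.pd_ip (hg : Met g) (hu : ContDiffAt ℝ 2 u x) (hv : ContDiffAt ℝ 2 v x) (k : Fin n) :
    pd k (ip g u v) x =
      ∑ i, hess g u x k i * gr g v i x + ∑ i, hess g v x k i * gr g u i x := by
  have h0 : ip g u v = fun y => ∑ i ∈ Finset.univ, pd i u y * gr g v i y :=
    funext (ip_eq_gr g u v)
  rw [h0, pd_sum (F := fun i y => pd i u y * gr g v i y) _
    fun i _ => (diffAt_pd hu i).fun_mul (hg.diff_gr hv i)]
  simp only [pd_mul (diffAt_pd hu _) (hg.diff_gr hv _), hg.pd_gr hv]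
  have e1 : ∑ i, pd i u x * ∑ j, up g i j x * hess g v x k j =
      ∑ i, hess g v x k i * gr g u i x := by
    unfold gr
    simp only [Finset.mul_sum]
    rw [Finset.sum_comm]
    exact Finset.sum_congr rfl fun a _ => Finset.sum_congr rfl fun b _ => by
      rw [hg.up_sy b a]; ring
  have e2 : ∑ i, hess g u x k i * gr g v i x =
      ∑ i, pd k (pd i u) x * gr g v i x - ∑ i, pd i u x * ∑ l, chr g i k l x * gr g v l x := by
    unfold hess
    simp only [sub_mul, Finset.sum_sub_distrib, Finset.mul_sum, Finset.sum_mul]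
    congr 1
    rw [Finset.sum_comm]
    exact Finset.sum_congr rfl fun a _ => Finset.sum_congr rfl fun b _ => by ring
  simp only [mul_sub, Finset.sum_add_distrib, Finset.sum_sub_distrib]
  rw [e1, e2]; ring

end Vale.Agent.P366Z
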