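import Vale.Agent.P366Z.Calc

/-!
# P366Z: conformal metrics, flat regions, radial functions, ellipticity
-/

open MeasureTheory Metric Filter Topology Set
open scoped ContDiff ENNReal
open Vale.Agent.P366.Stmt

noncomputable section

namespace Vale.Agent.P366Z

variable {n : ℕ} {f h u v w U : E n → ℝ} {x : E n} {g : Field n} {ρ : ℝ}

/-! ### the exponents -/

theorem nm2_pos (hn : 3 ≤ n) : (0 : ℝ) < (n : ℝ) - 2 := by
  have : (3 : ℝ) ≤ n := by exact_mod_cast hn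
  linarith

theorem bb_pos (hn : 3 ≤ n) : 0 < bb n := div_pos two_pos (nm2_pos hn)

theorem bb_le (hn : 3 ≤ n) : bb n ≤ 2 := by
  have : (3 : ℝ) ≤ n := by exact_mod_cast hn
  unfold bb; rw [div_le_iff₀ (nm2_pos hn)]; linarith

theorem gam_eq (hn : 3 ≤ n) : gam n = 1 + bb n / 2 := by
  have := (nm2_pos hn).ne'
  unfold gam bb; field_simp; ring

theorem one_lt_gam (hn : 3 ≤ n) : 1 < gam n := by
  rw [gam_eq hn]; linarith [bb_pos hn]

theorem gam_le (hn : 3 ≤ n) : gam n ≤ 2 := by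
  rw [gam_eq hn]; linarith [bb_le hn]

theorem n_bb (hn : 3 ≤ n) : n * bb n = 2 + 2 * bb n := by
  have := (nm2_pos hn).ne'
  unfold bb; field_simp; ring

theorem nm2_bb (hn : 3 ≤ n) : ((n : ℝ) - 2) * bb n = 2 := by
  have := (nm2_pos hn).ne'
  unfold bb; field_simp

theorem nm1_bb (hn : 3 ≤ n) : ((n : ℝ) - 1) * bb n = 2 * gam n := by
  have := (nm2_pos hn).ne'
  unfold bb gam; field_simp

theorem nm2_gam (hn : 3 ≤ n) : ((n : ℝ) - 2) * gam n = n - 1 := by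
  have := (nm2_pos hn).ne'
  unfold gam; field_simp

/-! ### the conformal metric -/

theorem mat_cf (U : E n → ℝ) (g : Field n) (x : E n) :
    mat (cf U g) x = U x ^ (2 * bb n) • mat g x := by
  ext i j; rfl

theorem Met.cf (hg : Met g) (hU : Smooth U) (h0 : ∀ x, 0 < U x) : Met (cf U g) where
  sm i j := ContDiff.mul (hU.rpow h0 _) (hg.sm i j)
  sy x i j := by unfold P366Z.cf; rw [hg.sy]
  pos x := by rw [mat_cf]; exact (hg.pos x).smul (Real.rpow_pos_of_pos (h0 x) _)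

theorem Met.up_cf (hg : Met g) (h0 : 0 < U x) (i j : Fin n) :
    up (P366Z.cf U g) i j x = U x ^ (-(2 * bb n)) * up g i j x := by
  have hp : 0 < U x ^ (2 * bb n) := Real.rpow_pos_of_pos h0 _
  have : (mat (P366Z.cf U g) x)⁻¹ = (U x ^ (2 * bb n))⁻¹ • (mat g x)⁻¹ := by
    rw [mat_cf]
    refine Matrix.inv_eq_left_inv ?_
    rw [smul_mul_smul_comm, inv_mul_cancel₀ hp.ne', one_smul,
      Matrix.nonsing_inv_mul _ (isUnit_iff_ne_zero.2 (hg.det_pos x).ne')]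
  unfold up
  rw [this, Real.rpow_neg h0.le]; rfl

theorem dens_cf (h0 : 0 < U x) : dens (cf U g) x = U x ^ (n * bb n) * dens g x := by
  unfold dens
  rw [mat_cf, Matrix.det_smul, Fintype.card_fin, Real.sqrt_mul (by positivity)]
  congr 1
  rw [← Real.rpow_natCast, ← Real.rpow_mul h0.le, Real.sqrt_eq_rpow, ← Real.rpow_mul h0.le]
  congr 1; ring

theorem Met.ip_cf (hg : Met g) (h0 : 0 < U x) (u v : E n → ℝ) :
    ip (P366Z.cf U g) u v x = U x ^ (-(2 * bb n)) * ip g u v x := by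
  unfold ip
  simp only [hg.up_cf h0, Finset.mul_sum]
  exact Finset.sum_congr rfl fun i _ => Finset.sum_congr rfl fun j _ => by ring

theorem Met.gn_cf (hg : Met g) (h0 : 0 < U x) (u : E n → ℝ) :
    gn (P366Z.cf U g) u x = U x ^ (-bb n) * gn g u x := by
  unfold gn
  rw [hg.ip_cf h0, Real.sqrt_mul (by positivity), Real.sqrt_eq_rpow, ← Real.rpow_mul h0.le]
  congr 2; ring

theorem Met.gr_cf (hg : Met g) (h0 : 0 < U x) (u : E n → ℝ) (i : Fin n) :
    gr (P366Z.cf U g) u i x = U x ^ (-(2 * bb n)) * gr g u i x := by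
  unfold gr
  simp only [hg.up_cf h0, Finset.mul_sum]
  exact Finset.sum_congr rfl fun i _ => by ring

theorem dv_cf (h0 : ∀ x, 0 < U x) (X : Fin n → E n → ℝ) :
    dv (cf U g) X x = U x ^ (-(n * bb n)) * dv g (fun i y => U y ^ (n * bb n) * X i y) x := by
  unfold dv
  have : ∀ i, (fun y => dens (cf U g) y * X i y) =
      fun y => dens g y * (U y ^ (n * bb n) * X i y) := fun i => funext fun y => by
    rw [dens_cf (h0 y)]; ring
  simp only [this]
  rw [dens_cf (h0 x), Real.rpow_neg (h0 x).le]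
  ring

theorem Met.lap_cf (hg : Met g) (hn : 3 ≤ n) (h0 : ∀ x, 0 < U x) (u : E n → ℝ) :
    lap (P366Z.cf U g) u x = U x ^ (-(n * bb n)) * wl g U u x := by
  unfold lap wl
  rw [dv_cf h0]
  congr 2
  funext i y
  rw [hg.gr_cf (h0 y), ← mul_assoc, ← Real.rpow_add (h0 y), n_bb hn]
  congr 1
  rw [← Real.rpow_natCast]; congr 1; push_cast; ring

/-! ### the Euclidean metric -/

theorem mat_eu (x : E n) : mat (eu n) x = 1 := by
  ext i j; simp [mat, eu, Matrix.one_apply]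

theorem met_eu : Met (eu n) where
  sm _ _ := contDiff_const
  sy _ i j := by simp [eu, eq_comm]
  pos x := by rw [mat_eu]; exact Matrix.PosDef.one

theorem flat_eu (ρ : ℝ) : Flat (eu n) ρ := fun _ _ => rfl

theorem up_eu (i j : Fin n) (x : E n) : up (eu n) i j x = if i = j then 1 else 0 := by
  unfold up; rw [mat_eu, inv_one, Matrix.one_apply]

theorem dens_eu (x : E n) : dens (eu n) x = 1 := by
  unfold dens; rw [mat_eu]; simp

theorem ip_eu (u v : E n → ℝ) (x : E n) : ip (eu n) u v x = ∑ i, pd i u x * pd i v x := by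
  unfold ip; simp [up_eu]

theorem gr_eu (u : E n → ℝ) (i : Fin n) : gr (eu n) u i = pd i u := by
  funext x; unfold gr; simp [up_eu]

theorem dv_eu (X : Fin n → E n → ℝ) (x : E n) : dv (eu n) X x = ∑ i, pd i (X i) x := by
  unfold dv; simp [dens_eu]

theorem lap_eu (u : E n → ℝ) (x : E n) : lap (eu n) u x = ∑ i, pd i (pd i u) x := by
  unfold lap; rw [dv_eu]; simp only [gr_eu]

theorem wl_eu (U u : E n → ℝ) (x : E n) :
    wl (eu n) U u x = ∑ i, pd i (fun y => U y ^ 2 * pd i u y) x := by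
  unfold wl; rw [dv_eu]; simp only [gr_eu]

theorem gn_eu (hu : DifferentiableAt ℝ u x) : gn (eu n) u x = ‖fderiv ℝ u x‖ := by
  unfold gn
  rw [ip_eu, ← Real.sqrt_sq (norm_nonneg (fderiv ℝ u x)), norm_fderiv_sq hu]
  simp only [sq]

theorem chr_eu (k i j : Fin n) : chr (eu n) k i j = fun _ => 0 := by
  funext x; unfold chr eu; simp [pd_const]

theorem scal_eu (x : E n) : scal (eu n) x = 0 := by
  unfold scal; simp [chr_eu, pd_const]

/-! ### dependence on the germ of the metric -/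

section germ

variable {g' : Field n}

theorem up_of_eq (e : g x = g' x) (i j : Fin n) : up g i j x = up g' i j x := by
  unfold up mat; rw [e]

theorem dens_of_eq (e : g x = g' x) : dens g x = dens g' x := by
  unfold dens mat; rw [e]

theorem ip_of_eq (e : g x = g' x) (u v : E n → ℝ) : ip g u v x = ip g' u v x := by
  unfold ip; simp only [up_of_eq e]

theorem gn_of_eq (e : g x = g' x) (u : E n → ℝ) : gn g u x = gn g' u x := by
  unfold gn; rw [ip_of_eq e]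

theorem gr_of_eq (e : g x = g' x) (u : E n → ℝ) (i : Fin n) : gr g u i x = gr g' u i x := by
  unfold gr; simp only [up_of_eq e]

theorem dv_of_ev (e : g =ᶠ[𝓝 x] g') {X Y : Fin n → E n → ℝ} (eX : ∀ i, X i =ᶠ[𝓝 x] Y i) :
    dv g X x = dv g' Y x := by
  unfold dv
  rw [dens_of_eq e.eq_of_nhds]
  congr 1
  refine Finset.sum_congr rfl fun i _ => pd_congr ?_ i
  filter_upwards [e, eX i] with y h1 h2
  rw [dens_of_eq h1, h2]

theorem lap_of_ev (e : g =ᶠ[𝓝 x] g') (u : E n → ℝ) : lap g u x = lap g' u x :=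
  dv_of_ev e fun i => e.mono fun _ hy => gr_of_eq hy u i

theorem wl_of_ev (e : g =ᶠ[𝓝 x] g') (U u : E n → ℝ) : wl g U u x = wl g' U u x :=
  dv_of_ev e fun i => e.mono fun y hy => by simp only [gr_of_eq hy u i]

theorem chr_of_ev (e : g =ᶠ[𝓝 x] g') (k i j : Fin n) : chr g k i j x = chr g' k i j x := by
  have h1 : ∀ a b c, pd c (fun y => g y a b) x = pd c (fun y => g' y a b) x := fun a b c =>
    pd_congr (e.mono fun y hy => by simp only [hy]) c
  unfold chr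
  simp only [h1, up_of_eq e.eq_of_nhds]

theorem scal_of_ev (e : g =ᶠ[𝓝 x] g') : scal g x = scal g' x := by
  have h1 : ∀ k i j c, pd c (chr g k i j) x = pd c (chr g' k i j) x := fun k i j c =>
    pd_congr (e.eventuallyEq_nhds.mono fun y hy => chr_of_ev hy k i j) c
  unfold scal
  simp only [h1, up_of_eq e.eq_of_nhds, chr_of_ev e]

end germ

theorem Flat.mono (hf : Flat g ρ) {ρ' : ℝ} (hρ : ρ ≤ ρ') : Flat g ρ' :=
  fun x hx => hf x (hρ.trans hx)

theorem Flat.ev (hf : Flat g ρ) (hx : ρ < ‖x‖) : g =ᶠ[𝓝 x] eu n := by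
  filter_upwards [(isOpen_lt continuous_const continuous_norm).mem_nhds hx] with y hy
  exact hf y (le_of_lt hy)

theorem Flat.dens_eq (hf : Flat g ρ) (hx : ρ ≤ ‖x‖) : dens g x = 1 := by
  rw [dens_of_eq (hf x hx), dens_eu]

theorem Flat.ip_eq (hf : Flat g ρ) (hx : ρ ≤ ‖x‖) (u v : E n → ℝ) :
    ip g u v x = ip (eu n) u v x := ip_of_eq (hf x hx) u v

theorem Flat.gn_eq (hf : Flat g ρ) (hx : ρ ≤ ‖x‖) (u : E n → ℝ) : gn g u x = gn (eu n) u x :=
  gn_of_eq (hf x hx) u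

theorem Flat.lap_eq (hf : Flat g ρ) (hx : ρ < ‖x‖) (u : E n → ℝ) : lap g u x = lap (eu n) u x :=
  lap_of_ev (hf.ev hx) u

theorem Flat.wl_eq (hf : Flat g ρ) (hx : ρ < ‖x‖) (U u : E n → ℝ) :
    wl g U u x = wl (eu n) U u x := wl_of_ev (hf.ev hx) U u

theorem Flat.scal_eq (hf : Flat g ρ) (hx : ρ < ‖x‖) : scal g x = 0 := by
  rw [scal_of_ev (hf.ev hx), scal_eu]

/-- two continuous functions that agree for `ρ < ‖x‖` agree for `ρ ≤ ‖x‖` -/
theorem eq_of_out (hn : 0 < n) (hf : Continuous f) (hh : Continuous h)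
    (e : ∀ y, ρ < ‖y‖ → f y = h y) (hx : ρ ≤ ‖x‖) : f x = h x := by
  have : Nonempty (Fin n) := ⟨⟨0, hn⟩⟩
  have hc : IsClosed {y | f y = h y} := isClosed_eq hf hh
  have h1 : x ∈ closure {y : E n | ρ < ‖y‖} := by
    have h2 : {y : E n | ρ < ‖y‖} = (closedBall 0 ρ)ᶜ := by ext y; simp
    rw [h2, closure_compl, interior_closedBall', mem_compl_iff, mem_ball_zero_iff]
    exact not_lt.2 hx
  exact hc.closure_subset_iff.2 (fun y hy => e y hy) h1

theorem Flat.lap_eq' (hf : Flat g ρ) (hn : 0 < n) (hg : Met g) (hu : Smooth u) (hx : ρ ≤ ‖x‖) :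
    lap g u x = lap (eu n) u x :=
  eq_of_out hn (hg.sm_lap hu).cont (met_eu.sm_lap hu).cont (fun _ hy => hf.lap_eq hy u) hx

theorem Flat.wl_eq' (hf : Flat g ρ) (hn : 0 < n) (hg : Met g) (hU : Smooth U) (hu : Smooth u)
    (hx : ρ ≤ ‖x‖) : wl g U u x = wl (eu n) U u x :=
  eq_of_out hn (hg.sm_wl hU hu).cont (met_eu.sm_wl hU hu).cont (fun _ hy => hf.wl_eq hy U u) hx

theorem Flat.scal_eq' (hf : Flat g ρ) (hn : 0 < n) (hg : Met g) (hx : ρ ≤ ‖x‖) : scal g x = 0 :=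
  eq_of_out hn hg.sm_scal.cont continuous_const (fun _ hy => hf.scal_eq hy) hx

/-! ### bounds -/

/-- a continuous function that is bounded outside a ball is bounded -/
theorem bdd_of_out {V : Type*} [NormedAddCommGroup V] {F : E n → V} (hF : Continuous F)
    {R C : ℝ} (e : ∀ y, R < ‖y‖ → ‖F y‖ ≤ C) : ∃ K, 0 < K ∧ ∀ y, ‖F y‖ ≤ K := by
  obtain ⟨K, hK⟩ := (isCompact_closedBall (0 : E n) R).exists_bound_of_continuousOn
    hF.continuousOn
  refine ⟨max (max K C) 1, by positivity, fun y => ?_⟩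
  by_cases hy : R < ‖y‖
  · exact (e y hy).trans ((le_max_right _ _).trans (le_max_left _ _))
  · exact (hK y (by simpa using hy)).trans ((le_max_left _ _).trans (le_max_left _ _))

/-- a smooth function that is constant outside a ball is bounded with its derivative -/
theorem bdd_of_const (hf : Smooth f) {R c : ℝ} (e : ∀ y, R < ‖y‖ → f y = c) :
    ∃ K, 0 < K ∧ ∀ y, |f y| ≤ K ∧ ‖fderiv ℝ f y‖ ≤ K := by
  obtain ⟨K, hK, h1⟩ := bdd_of_out hf.cont (R := R) (C := |c|) fun y hy => by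
    rw [e y hy]; exact le_rfl
  obtain ⟨K', -, h2⟩ := bdd_of_out (ContDiff.continuous_fderiv hf (by simp)) (R := R) (C := 0)
    fun y hy => by
      have : f =ᶠ[𝓝 y] fun _ => c := by
        filter_upwards [(isOpen_lt continuous_const continuous_norm).mem_nhds hy] with z hz
        exact e z hz
      rw [this.fderiv_eq]; simp
  exact ⟨max K K', by positivity, fun y => ⟨(h1 y).trans (le_max_left _ _),
    (h2 y).trans (le_max_right _ _)⟩⟩

/-- a continuous positive function that is constant outside a ball is bounded below -/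
theorem low_of_const (hf : Continuous f) (h0 : ∀ y, 0 < f y) {R c : ℝ} (hc : 0 < c)
    (e : ∀ y, R < ‖y‖ → c ≤ f y) : ∃ k, 0 < k ∧ ∀ y, k ≤ f y := by
  by_cases hR : 0 ≤ R
  · obtain ⟨z, -, hz⟩ := (isCompact_closedBall (0 : E n) R).exists_isMinOn
      ⟨0, by simpa using hR⟩ hf.continuousOn
    refine ⟨min c (f z), lt_min hc (h0 z), fun y => ?_⟩
    by_cases hy : R < ‖y‖
    · exact (min_le_left _ _).trans (e y hy)
    · exact (min_le_right _ _).trans (hz (by simpa using hy))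
  · exact ⟨c, hc, fun y => e y ((not_le.1 hR).trans_le (norm_nonneg _))⟩

theorem quad_le_of_bd {M : Fin n → Fin n → ℝ} {K : ℝ} (hK : ∀ i j, |M i j| ≤ K)
    (ξ : Fin n → ℝ) : ∑ i, ∑ j, M i j * ξ i * ξ j ≤ n * K * ∑ i, ξ i ^ 2 := by
  have h1 : ∀ i j, M i j * ξ i * ξ j ≤ K * (ξ i ^ 2 / 2 + ξ j ^ 2 / 2) := fun i j => by
    have h2 : M i j * ξ i * ξ j ≤ |M i j| * |ξ i * ξ j| := by
      rw [← abs_mul, ← mul_assoc]; exact le_abs_self _
    have h3 : |ξ i * ξ j| ≤ ξ i ^ 2 / 2 + ξ j ^ 2 / 2 := by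
      rw [abs_le]; constructor <;> nlinarith [sq_nonneg (ξ i + ξ j), sq_nonneg (ξ i - ξ j)]
    exact h2.trans (mul_le_mul (hK i j) h3 (abs_nonneg _) ((abs_nonneg _).trans (hK i j)))
  refine (Finset.sum_le_sum fun i _ => Finset.sum_le_sum fun j _ => h1 i j).trans (le_of_eq ?_)
  simp only [mul_add, Finset.sum_add_distrib, Finset.sum_const, Finset.card_univ,
    Fintype.card_fin, nsmul_eq_mul, ← Finset.mul_sum, ← Finset.sum_div]
  ring

/-- `|ξ|⁴ ≤ g (ξ, ξ) g⁻¹ (ξ, ξ)` -/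
theorem Met.sq_le (hg : Met g) (x : E n) (ξ : Fin n → ℝ) : (∑ i, ξ i ^ 2) ^ 2 ≤
    (∑ i, ∑ j, g x i j * ξ i * ξ j) * ∑ i, ∑ j, up g i j x * ξ i * ξ j := by
  have h1 := hg.up_cs x (fun i => ∑ k, g x i k * ξ k) ξ
  have h2 : ∀ j, ∑ i, up g i j x * ∑ k, g x i k * ξ k = ξ j := fun j => by
    simp only [Finset.mul_sum]
    rw [Finset.sum_comm]
    have : ∀ k, ∑ i, up g i j x * (g x i k * ξ k) = (if j = k then 1 else 0) * ξ k := fun k => by
      rw [← hg.up_mul j k x, Finset.sum_mul]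
      exact Finset.sum_congr rfl fun i _ => by rw [hg.up_sy i j]; ring
    simp [this]
  have h3 : ∀ b : Fin n → ℝ, ∑ i, ∑ j, up g i j x * (∑ k, g x i k * ξ k) * b j =
      ∑ j, ξ j * b j := fun b => by
    rw [Finset.sum_comm]
    exact Finset.sum_congr rfl fun j _ => by rw [← Finset.sum_mul, h2]
  rw [h3, h3] at h1
  have h4 : ∑ j, ξ j * ∑ k, g x j k * ξ k = ∑ i, ∑ j, g x i j * ξ i * ξ j :=
    Finset.sum_congr rfl fun i _ => by
      rw [Finset.mul_sum]; exact Finset.sum_congr rfl fun j _ => by ring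
  rw [h4] at h1
  simpa only [sq] using h1

/-- uniform bounds for a metric that is Euclidean outside a ball -/
structure Ell (g : Field n) (Λ : ℝ) : Prop where
  one : 1 ≤ Λ
  g_hi : ∀ x (ξ : Fin n → ℝ), ∑ i, ∑ j, g x i j * ξ i * ξ j ≤ Λ * ∑ i, ξ i ^ 2
  g_lo : ∀ x (ξ : Fin n → ℝ), ∑ i, ξ i ^ 2 ≤ Λ * ∑ i, ∑ j, g x i j * ξ i * ξ j
  up_hi : ∀ x (ξ : Fin n → ℝ), ∑ i, ∑ j, up g i j x * ξ i * ξ j ≤ Λ * ∑ i, ξ i ^ 2
  up_lo : ∀ x (ξ : Fin n → ℝ), ∑ i, ξ i ^ 2 ≤ Λ * ∑ i, ∑ j, up g i j x * ξ i * ξ j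
  dens_hi : ∀ x, dens g x ≤ Λ
  dens_lo : ∀ x, 1 ≤ Λ * dens g x
  ddens : ∀ x, ‖fderiv ℝ (dens g) x‖ ≤ Λ
  g_bd : ∀ x i j, |g x i j| ≤ Λ ∧ ‖fderiv ℝ (fun y => g y i j) x‖ ≤ Λ
  up_bd : ∀ x i j, |up g i j x| ≤ Λ ∧ ‖fderiv ℝ (up g i j) x‖ ≤ Λ
  bv_bd : ∀ x j, |bv g j x| ≤ Λ ∧ ‖fderiv ℝ (bv g j) x‖ ≤ Λ

theorem lo_of_hi {a b s K : ℝ} (hs : 0 ≤ s) (hb : 0 ≤ b) (h1 : s ^ 2 ≤ a * b) (h2 : a ≤ K * s)
    (hK : 0 ≤ K) : s ≤ K * b := by
  rcases hs.eq_or_lt with h | h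
  · rw [← h]; positivity
  · have : s * s ≤ s * (K * b) := by nlinarith
    exact le_of_mul_le_mul_left this h

theorem Met.ell (hg : Met g) (hf : Flat g ρ) : ∃ Λ, Ell g Λ := by
  choose K1 p1 h1 using fun i j => bdd_of_const (hg.sm i j) (R := ρ) (c := eu n 0 i j)
    fun y hy => by rw [hf y hy.le]; rfl
  choose K2 p2 h2 using fun i j => bdd_of_const (hg.sm_up i j) (R := ρ) (c := eu n 0 i j)
    fun y hy => by rw [up_of_eq (hf y hy.le), up_eu]; rfl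
  choose K3 p3 h3 using fun j => bdd_of_const (hg.sm_bv j) (R := ρ) (c := 0) fun y hy => by
    unfold bv
    rw [dv_of_ev (hf.ev hy) (Y := fun i _ => if i = j then 1 else 0) fun i =>
      (hf.ev hy).mono fun z hz => by rw [up_of_eq hz, up_eu], dv_eu]
    simp [pd_const]
  obtain ⟨K4, p4, h4⟩ := bdd_of_const hg.sm_dens (R := ρ) (c := 1) fun y hy => hf.dens_eq hy.le
  obtain ⟨k, pk, hk⟩ := low_of_const hg.sm_dens.cont hg.dens_pos (R := ρ) one_pos
    fun y hy => (hf.dens_eq hy.le).ge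
  set S := ∑ i, ∑ j, (K1 i j + K2 i j) + ∑ j, K3 j + K4 + k⁻¹ + 1 with hS
  have q1 : ∀ i j, K1 i j + K2 i j ≤ ∑ i, ∑ j, (K1 i j + K2 i j) := fun i j =>
    (Finset.single_le_sum (f := fun j => K1 i j + K2 i j)
      (fun j _ => (add_pos (p1 i j) (p2 i j)).le) (Finset.mem_univ j)).trans
      (Finset.single_le_sum (f := fun i => ∑ j, (K1 i j + K2 i j))
        (fun i _ => Finset.sum_nonneg fun j _ => (add_pos (p1 i j) (p2 i j)).le)
        (Finset.mem_univ i))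
  have q2 : ∀ j, K3 j ≤ ∑ j, K3 j := fun j =>
    Finset.single_le_sum (fun j _ => (p3 j).le) (Finset.mem_univ j)
  have q3 : 0 ≤ ∑ i, ∑ j, (K1 i j + K2 i j) :=
    Finset.sum_nonneg fun i _ => Finset.sum_nonneg fun j _ => (add_pos (p1 i j) (p2 i j)).le
  have q4 : 0 ≤ ∑ j, K3 j := Finset.sum_nonneg fun j _ => (p3 j).le
  have q5 : 0 < k⁻¹ := _root_.inv_pos.2 pk
  have r1 : ∀ i j, K1 i j ≤ S := fun i j => by linarith [q1 i j, p2 i j]
  have r2 : ∀ i j, K2 i j ≤ S := fun i j => by linarith [q1 i j, p1 i j]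
  have r3 : ∀ j, K3 j ≤ S := fun j => by linarith [q2 j]
  have r4 : K4 ≤ S := by linarith
  have r5 : k⁻¹ ≤ S := by linarith
  have r6 : 1 ≤ S := by linarith
  have r7 : S ≤ (n + 1) * S := by nlinarith [(Nat.cast_nonneg n : (0 : ℝ) ≤ n)]
  have s0 : ∀ ξ : Fin n → ℝ, 0 ≤ ∑ i, ξ i ^ 2 := fun ξ => by positivity
  have a1 : ∀ x (ξ : Fin n → ℝ), ∑ i, ∑ j, g x i j * ξ i * ξ j ≤ (n + 1) * S * ∑ i, ξ i ^ 2 :=
    fun x ξ => (quad_le_of_bd (fun i j => ((h1 i j x).1).trans (r1 i j)) ξ).trans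
      (mul_le_mul_of_nonneg_right (by linarith) (s0 ξ))
  have a2 : ∀ x (ξ : Fin n → ℝ),
      ∑ i, ∑ j, up g i j x * ξ i * ξ j ≤ (n + 1) * S * ∑ i, ξ i ^ 2 :=
    fun x ξ => (quad_le_of_bd (M := fun i j => up g i j x)
      (fun i j => ((h2 i j x).1).trans (r2 i j)) ξ).trans
      (mul_le_mul_of_nonneg_right (by linarith) (s0 ξ))
  refine ⟨(n + 1) * S, r6.trans r7, a1, fun x ξ => ?_, a2, fun x ξ => ?_, fun x => ?_,
    fun x => ?_, fun x => ?_, fun x i j => ?_, fun x i j => ?_, fun x j => ?_⟩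
  · exact lo_of_hi (s0 ξ) (hg.g_nonneg x ξ) (by rw [mul_comm]; exact hg.sq_le x ξ) (a2 x ξ)
      (by linarith)
  · exact lo_of_hi (s0 ξ) (hg.up_nonneg x ξ) (hg.sq_le x ξ) (a1 x ξ) (by linarith)
  · exact (le_abs_self _).trans ((h4 x).1.trans (r4.trans r7))
  · calc (1 : ℝ) = k⁻¹ * k := (inv_mul_cancel₀ pk.ne').symm
      _ ≤ _ := mul_le_mul (r5.trans r7) (hk x) pk.le (by linarith)
  · exact (h4 x).2.trans (r4.trans r7)
  · exact ⟨(h1 i j x).1.trans ((r1 i j).trans r7), (h1 i j x).2.trans ((r1 i j).trans r7)⟩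
  · exact ⟨(h2 i j x).1.trans ((r2 i j).trans r7), (h2 i j x).2.trans ((r2 i j).trans r7)⟩
  · exact ⟨(h3 j x).1.trans ((r3 j).trans r7), (h3 j x).2.trans ((r3 j).trans r7)⟩

theorem Ell.ip_le {Λ : ℝ} (hΛ : Ell g Λ) (hu : DifferentiableAt ℝ u x) :
    ip g u u x ≤ Λ * ‖fderiv ℝ u x‖ ^ 2 := by
  rw [norm_fderiv_sq hu]; exact hΛ.up_hi x _

theorem Ell.le_ip {Λ : ℝ} (hΛ : Ell g Λ) (hu : DifferentiableAt ℝ u x) :
    ‖fderiv ℝ u x‖ ^ 2 ≤ Λ * ip g u u x := by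
  rw [norm_fderiv_sq hu]; exact hΛ.up_lo x _

theorem Ell.gn_le {Λ : ℝ} (hΛ : Ell g Λ) (hu : DifferentiableAt ℝ u x) :
    gn g u x ≤ Λ * ‖fderiv ℝ u x‖ := by
  have h1 := hΛ.one
  refine Real.sqrt_le_iff.2 ⟨by positivity, (hΛ.ip_le hu).trans ?_⟩
  rw [mul_pow]
  exact mul_le_mul_of_nonneg_right (by nlinarith) (sq_nonneg _)

theorem Ell.le_gn {Λ : ℝ} (hΛ : Ell g Λ) (hg : Met g) (hu : DifferentiableAt ℝ u x) :
    ‖fderiv ℝ u x‖ ≤ Λ * gn g u x := by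
  have h1 := hΛ.one
  have h2 := gn_nonneg g u x
  refine (abs_le_of_sq_le_sq' ?_ (by positivity)).2
  rw [mul_pow, hg.gn_sq]
  exact (hΛ.le_ip hu).trans (mul_le_mul_of_nonneg_right (by nlinarith) (hg.ip_nonneg u x))

/-! ### radial functions -/

theorem ip_eu_normSq (x : E n) :
    ip (eu n) (fun y => ‖y‖ ^ 2) (fun y => ‖y‖ ^ 2) x = 4 * ‖x‖ ^ 2 := by
  rw [ip_eu, norm_sq_eq, Finset.mul_sum]
  exact Finset.sum_congr rfl fun i _ => by rw [pd_normSq]; ring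

theorem lap_eu_normSq (x : E n) : lap (eu n) (fun y => ‖y‖ ^ 2) x = 2 * n := by
  rw [lap_eu]
  have : ∀ i, pd i (pd i fun y : E n => ‖y‖ ^ 2) x = 2 := fun i => by
    have : (pd i fun y : E n => ‖y‖ ^ 2) = fun y => 2 * y i := funext (pd_normSq i)
    rw [this, pd_const_mul, pd_coord]; simp
  simp [this, mul_comm]

/-- the Laplacian of a function of `‖x‖ ^ 2` -/
theorem lap_eu_sq {φ : ℝ → ℝ} (hφ : ContDiffAt ℝ 2 φ (‖x‖ ^ 2)) :
    lap (eu n) (fun y => φ (‖y‖ ^ 2)) x =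
      2 * n * deriv φ (‖x‖ ^ 2) + 4 * ‖x‖ ^ 2 * deriv (deriv φ) (‖x‖ ^ 2) := by
  rw [met_eu.lap_comp contDiff_normSq.contDiffAt hφ, lap_eu_normSq, ip_eu_normSq]; ring

theorem ip_eu_norm (hx : x ≠ 0) : ip (eu n) (fun y => ‖y‖) (fun y => ‖y‖) x = 1 := by
  have h0 : ‖x‖ ≠ 0 := norm_ne_zero_iff.2 hx
  rw [ip_eu]
  simp only [pd_norm hx, ← sq, div_pow, ← Finset.sum_div, ← norm_sq_eq]
  field_simp

theorem lap_eu_norm (hx : x ≠ 0) : lap (eu n) (fun y => ‖y‖) x = (n - 1) / ‖x‖ := by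
  have h0 : ‖x‖ ≠ 0 := norm_ne_zero_iff.2 hx
  have h1 : ContDiffAt ℝ 2 (fun y : E n => ‖y‖) x := contDiffAt_norm ℝ hx
  have h2 := met_eu.lap_mul h1 h1
  simp only [← sq] at h2
  rw [lap_eu_normSq, ip_eu_norm hx] at h2
  field_simp
  linarith

/-- the Laplacian of a radial function -/
theorem lap_eu_radial {φ : ℝ → ℝ} (hx : x ≠ 0) (hφ : ContDiffAt ℝ 2 φ ‖x‖) :
    lap (eu n) (fun y => φ ‖y‖) x = deriv (deriv φ) ‖x‖ + (n - 1) / ‖x‖ * deriv φ ‖x‖ := by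
  rw [met_eu.lap_comp (contDiffAt_norm ℝ hx) hφ, lap_eu_norm hx, ip_eu_norm hx]; ring

theorem pd_radial {φ : ℝ → ℝ} {d : ℝ} (hx : x ≠ 0) (hφ : HasDerivAt φ d ‖x‖) (i : Fin n) :
    pd i (fun y => φ ‖y‖) x = d * (x i / ‖x‖) := by
  rw [pd_comp (f := fun y => ‖y‖) hφ
    ((contDiffAt_norm ℝ hx (n := 1)).differentiableAt (by norm_num)), pd_norm hx]

theorem contDiffAt_norm_rpow {m : WithTop ℕ∞} (hx : x ≠ 0) (p : ℝ) :
    ContDiffAt ℝ m (fun y : E n => ‖y‖ ^ p) x :=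
  (contDiffAt_norm ℝ hx).rpow_const_of_ne (norm_ne_zero_iff.2 hx)

theorem pd_norm_rpow (hx : x ≠ 0) (p : ℝ) (i : Fin n) :
    pd i (fun y => ‖y‖ ^ p) x = p * x i * ‖x‖ ^ (p - 2) := by
  have h0 : 0 < ‖x‖ := norm_pos_iff.2 hx
  rw [pd_radial (φ := fun t => t ^ p) hx (Real.hasDerivAt_rpow_const (Or.inl h0.ne'))]
  have : ‖x‖ ^ (p - 1) = ‖x‖ ^ (p - 2) * ‖x‖ := by
    rw [← Real.rpow_add_one h0.ne']; congr 1; ring
  rw [this]; field_simp

theorem lap_eu_rpow (hx : x ≠ 0) (p : ℝ) :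
    lap (eu n) (fun y => ‖y‖ ^ p) x = p * (p + n - 2) * ‖x‖ ^ (p - 2) := by
  have h0 : 0 < ‖x‖ := norm_pos_iff.2 hx
  rw [lap_eu_radial (φ := fun t => t ^ p) hx (Real.contDiffAt_rpow_const_of_ne h0.ne')]
  have h1 : deriv (fun t : ℝ => t ^ p) =ᶠ[𝓝 ‖x‖] fun t => p * t ^ (p - 1) := by
    filter_upwards [isOpen_ne.mem_nhds h0.ne'] with t ht
    exact (Real.hasDerivAt_rpow_const (Or.inl ht)).deriv
  rw [h1.deriv_eq, h1.eq_of_nhds,
    ((Real.hasDerivAt_rpow_const (p := p - 1) (Or.inl h0.ne')).const_mul p).deriv]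
  have : ‖x‖ ^ (p - 1) = ‖x‖ ^ (p - 2) * ‖x‖ := by
    rw [← Real.rpow_add_one h0.ne']; congr 1; ring
  rw [this, show p - 1 - 1 = p - 2 by ring]; field_simp; ring

theorem lap_eu_translate (a : E n) :
    lap (eu n) (fun y => f (y - a)) x = lap (eu n) f (x - a) := by
  rw [lap_eu, lap_eu]
  refine Finset.sum_congr rfl fun i _ => ?_
  have : (pd i fun y => f (y - a)) = fun y => pd i f (y - a) := funext fun _ => pd_translate a i
  rw [this, pd_translate]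

end Vale.Agent.P366Z
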