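import Vale.Agent.P366Z.Calc3
import Mathlib.Analysis.Matrix.Order

/-!
# P366Z: the inequality of Bochner
-/

open MeasureTheory Metric Filter Topology Set
open scoped ContDiff ENNReal Kronecker
open Vale.Agent.P366.Stmt

noncomputable section

namespace Vale.Agent.P366Z

namespace Boch

variable {n : ℕ} {u v : E n → ℝ} {x : E n} {g : Field n}

theorem cs {ι : Type} [Fintype ι] {M : ι → ι → ℝ} (hs : ∀ i j, M i j = M j i)
    (h0 : ∀ ξ : ι → ℝ, 0 ≤ ∑ i, ∑ j, M i j * ξ i * ξ j) (a b : ι → ℝ) :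
    (∑ i, ∑ j, M i j * a i * b j) ^ 2 ≤
      (∑ i, ∑ j, M i j * a i * a j) * ∑ i, ∑ j, M i j * b i * b j := by
  have hs' : ∑ i, ∑ j, M i j * b i * a j = ∑ i, ∑ j, M i j * a i * b j := by
    rw [Finset.sum_comm]
    exact Finset.sum_congr rfl fun i _ => Finset.sum_congr rfl fun j _ => by rw [hs]; ring
  have key : ∀ t : ℝ, 0 ≤ (∑ i, ∑ j, M i j * a i * a j) * (t * t) +
      (2 * ∑ i, ∑ j, M i j * a i * b j) * t + ∑ i, ∑ j, M i j * b i * b j := by
    intro t
    have h1 := h0 fun i => t * a i + b i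
    have h2 : ∑ i, ∑ j, M i j * (t * a i + b i) * (t * a j + b j) =
        (∑ i, ∑ j, M i j * a i * a j) * (t * t) + (∑ i, ∑ j, M i j * a i * b j) * t +
        (∑ i, ∑ j, M i j * b i * a j) * t + ∑ i, ∑ j, M i j * b i * b j := by
      simp only [Finset.sum_mul, ← Finset.sum_add_distrib]
      exact Finset.sum_congr rfl fun i _ => Finset.sum_congr rfl fun j _ => by ring
    rw [h2, hs'] at h1
    linarith
  have := discrim_le_zero key
  unfold discrim at this
  nlinarith

/-- the inner product of two tensors -/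
def bil (g : Field n) (x : E n) (T S : Fin n → Fin n → ℝ) : ℝ :=
  ∑ i, ∑ j, ∑ k, ∑ l, up g i k x * up g j l x * T i j * S k l

theorem bil_cs (hg : Met g) (x : E n) (T S : Fin n → Fin n → ℝ) :
    bil g x T S ^ 2 ≤ bil g x T T * bil g x S S := by
  have h := cs (ι := Fin n × Fin n) (M := fun p q => up g p.1 q.1 x * up g p.2 q.2 x)
    (fun p q => by rw [hg.up_sy p.1, hg.up_sy p.2]) (fun ξ => by
      have := ((hg.inv_pos x).posSemidef.kronecker
        (hg.inv_pos x).posSemidef).dotProduct_mulVec_nonneg ξ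
      refine this.trans_eq ?_
      simp only [dotProduct, Matrix.mulVec, star_trivial, Finset.mul_sum, Matrix.kroneckerMap,
        Matrix.of_apply, up]
      exact Finset.sum_congr rfl fun i _ => Finset.sum_congr rfl fun j _ => by ring)
    (fun p => T p.1 p.2) (fun p => S p.1 p.2)
  simpa only [Fintype.sum_prod_type, bil] using h

theorem bil_eq (g : Field n) (x : E n) (T S : Fin n → Fin n → ℝ) :
    bil g x T S = ∑ i, ∑ j, T i j * ∑ k, up g i k x * ∑ l, S k l * up g j l x := by
  simp only [bil, Finset.mul_sum]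
  exact Finset.sum_congr rfl fun i _ => Finset.sum_congr rfl fun j _ =>
    Finset.sum_congr rfl fun k _ => Finset.sum_congr rfl fun l _ => by ring

theorem bil_g (hg : Met g) (x : E n) (T : Fin n → Fin n → ℝ) :
    bil g x T (g x) = ∑ i, ∑ j, up g i j x * T i j := by
  rw [bil_eq]
  refine Finset.sum_congr rfl fun i _ => Finset.sum_congr rfl fun j _ => ?_
  rw [hg.up_g_mul x i fun l => up g j l x, hg.up_sy j i, mul_comm]

theorem bil_p (g : Field n) (x : E n) (T : Fin n → Fin n → ℝ) (u : E n → ℝ) :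
    bil g x T (fun k l => pd k u x * pd l u x) = ∑ i, ∑ j, T i j * gr g u i x * gr g u j x := by
  rw [bil_eq]
  refine Finset.sum_congr rfl fun i _ => Finset.sum_congr rfl fun j _ => ?_
  rw [mul_assoc, gr, gr, Finset.sum_mul_sum]
  simp only [Finset.mul_sum]
  exact Finset.sum_congr rfl fun k _ => Finset.sum_congr rfl fun l _ => by ring

theorem part1 (hg : Met g) (hu : Smooth u) (x : E n) :
    lap g u x ^ 2 ≤ n * normSq g (hess g u) x := by
  have h := bil_cs hg x (hess g u x) (g x)
  rw [bil_g hg, bil_g hg] at h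
  have e : ∑ i, ∑ j, up g i j x * g x i j = n := by
    calc _ = ∑ _i : Fin n, (1 : ℝ) := Finset.sum_congr rfl fun i _ => by
          have := hg.up_mul i i x
          rw [if_pos rfl] at this
          rw [← this]
          exact Finset.sum_congr rfl fun j _ => by rw [hg.sy x i j]
      _ = n := by simp
  rw [e, mul_comm] at h
  rw [hg.lap_eq_tr (hu.c2 x)]
  exact h

theorem part2 (hg : Met g) (hu : Smooth u) (v : E n → ℝ) (x : E n) :
    ip g v (ip g u u) x = 2 * ∑ i, ∑ j, hess g u x i j * gr g v i x * gr g u j x := by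
  rw [hg.ip_sy, ip_eq_gr, Finset.mul_sum]
  refine Finset.sum_congr rfl fun i _ => ?_
  rw [hg.pd_ip (hu.c2 x) (hu.c2 x), ← two_mul, mul_assoc, Finset.sum_mul]
  exact congrArg _ (Finset.sum_congr rfl fun j _ => by ring)

theorem part3 (hg : Met g) (u : E n → ℝ) (x : E n) :
    (∑ i, ∑ j, hess g u x i j * gr g u i x * gr g u j x) ^ 2 ≤
      normSq g (hess g u) x * ip g u u x ^ 2 := by
  have h := bil_cs hg x (hess g u x) fun k l => pd k u x * pd l u x
  rw [bil_p, bil_p] at h
  refine h.trans_eq (congrArg _ ?_)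
  rw [ip_eq_gr, sq, Finset.sum_mul_sum]
  exact Finset.sum_congr rfl fun k _ => Finset.sum_congr rfl fun l _ => by ring

/-- the algebra of the formula -/
theorem alg {ι : Type} [Fintype ι] (X : ι → ℝ) (D P : ι → ι → ℝ) (G : ι → ι → ι → ℝ)
    (dG : ι → ι → ι → ι → ℝ) (hG : ∀ k i j, G k i j = G k j i) :
    ∑ i, (X i * ∑ j, (P j i + ∑ l, (dG j j i l * X l + G j i l * D j l) +
        ∑ k, G j j k * (D i k + ∑ l, G k i l * X l)) +
      ∑ j, D j i * (D i j + ∑ l, G j i l * X l)) =
    ∑ i, ∑ j, (D i j + ∑ l, G j i l * X l) * (D j i + ∑ l, G i j l * X l) +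
      ∑ i, (∑ j, (P j i + ∑ k, (dG i j j k * X k + G j j k * D i k))) * X i +
      ∑ i, ∑ l, (∑ j, (dG j j i l - dG i j j l +
        ∑ k, (G j j k * G k i l - G k j i * G j k l))) * X i * X l := by
  have t1 : ∑ i, X i * ∑ j, ∑ l, G j i l * D j l = ∑ i, ∑ j, D i j * ∑ l, G i j l * X l := by
    simp only [Finset.mul_sum]
    rw [Finset.sum_comm]
    refine Finset.sum_congr rfl fun j _ => ?_
    rw [Finset.sum_comm]
    exact Finset.sum_congr rfl fun l _ => Finset.sum_congr rfl fun i _ => by rw [hG j i l]; ring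
  have t2 : ∑ i, X i * ∑ j, ∑ l, dG j j i l * X l = ∑ i, ∑ l, (∑ j, dG j j i l) * X i * X l := by
    simp only [Finset.mul_sum, Finset.sum_mul]
    refine Finset.sum_congr rfl fun i _ => ?_
    rw [Finset.sum_comm]
    exact Finset.sum_congr rfl fun l _ => Finset.sum_congr rfl fun j _ => by ring
  have t3 : ∑ i, (∑ j, ∑ l, dG i j j l * X l) * X i = ∑ i, ∑ l, (∑ j, dG i j j l) * X i * X l := by
    simp only [Finset.sum_mul]
    refine Finset.sum_congr rfl fun i _ => ?_
    rw [Finset.sum_comm]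
    exact Finset.sum_congr rfl fun l _ => Finset.sum_congr rfl fun j _ => by ring
  have t4 : ∑ i, X i * ∑ j, ∑ k, G j j k * ∑ l, G k i l * X l =
      ∑ i, ∑ l, (∑ j, ∑ k, G j j k * G k i l) * X i * X l := by
    simp only [Finset.mul_sum, Finset.sum_mul]
    refine Finset.sum_congr rfl fun i _ => ?_
    rw [Finset.sum_comm_cycle]
    exact Finset.sum_congr rfl fun l _ => Finset.sum_congr rfl fun j _ =>
      Finset.sum_congr rfl fun k _ => by ring
  have t5 : ∑ i, ∑ j, (∑ l, G j i l * X l) * ∑ l, G i j l * X l =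
      ∑ i, ∑ l, (∑ j, ∑ k, G k j i * G j k l) * X i * X l := by
    simp only [Finset.sum_mul_sum]
    simp only [Finset.sum_mul]
    rw [Finset.sum_comm_cycle]
    refine Finset.sum_congr rfl fun i _ => ?_
    rw [Finset.sum_comm_cycle]
    exact Finset.sum_congr rfl fun l _ => Finset.sum_congr rfl fun j _ =>
      Finset.sum_congr rfl fun k _ => by ring
  have t6 : ∑ i, X i * ∑ j, P j i = ∑ i, (∑ j, P j i) * X i :=
    Finset.sum_congr rfl fun i _ => mul_comm _ _
  have t7 : ∑ i, X i * ∑ j, ∑ k, G j j k * D i k = ∑ i, (∑ j, ∑ k, G j j k * D i k) * X i :=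
    Finset.sum_congr rfl fun i _ => mul_comm _ _
  have t8 : ∑ i, ∑ j, D j i * D i j = ∑ i, ∑ j, D i j * D j i :=
    Finset.sum_congr rfl fun i _ => Finset.sum_congr rfl fun j _ => mul_comm _ _
  have t9 : ∑ i, ∑ j, D j i * ∑ l, G j i l * X l = ∑ i, ∑ j, (∑ l, G j i l * X l) * D j i :=
    Finset.sum_congr rfl fun i _ => Finset.sum_congr rfl fun j _ => mul_comm _ _
  simp only [Finset.sum_add_distrib, Finset.sum_sub_distrib, mul_add, add_mul, sub_mul]
  linarith

/-- the Ricci tensor -/
def ric (g : Field n) (i l : Fin n) (x : E n) : ℝ :=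
  ∑ j, (pd j (chr g j i l) x - pd i (chr g j j l) x +
    ∑ k, (chr g j j k x * chr g k i l x - chr g k j i x * chr g j k l x))

theorem cont_ric (hg : Met g) (i l : Fin n) : Continuous (ric g i l) :=
  continuous_finsetSum _ fun j _ => ((((hg.sm_chr j i l).pd j).cont).sub
    ((hg.sm_chr j j l).pd i).cont).add (continuous_finsetSum _ fun k _ =>
      ((hg.sm_chr j j k).cont.mul (hg.sm_chr k i l).cont).sub
        ((hg.sm_chr k j i).cont.mul (hg.sm_chr j k l).cont))

/-- the covariant derivative of the gradient -/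
def cv (g : Field n) (u : E n → ℝ) (j i : Fin n) (x : E n) : ℝ :=
  pd i (gr g u j) x + ∑ l, chr g j i l x * gr g u l x

theorem cv_eq (hg : Met g) (hu : Smooth u) (j i : Fin n) (x : E n) :
    cv g u j i x = ∑ l, up g j l x * hess g u x i l := by
  rw [cv, hg.pd_gr (hu.c2 x), sub_add_cancel]

theorem sm_sum (hg : Met g) (hu : Smooth u) (j i : Fin n) :
    Smooth fun x => ∑ l, chr g j i l x * gr g u l x :=
  ContDiff.sum fun l _ => ContDiff.mul (hg.sm_chr j i l) (hg.sm_gr hu l)

theorem sm_cv (hg : Met g) (hu : Smooth u) (j i : Fin n) : Smooth (cv g u j i) :=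
  ContDiff.add ((hg.sm_gr hu j).pd i) (sm_sum hg hu j i)

theorem pd_cv (hg : Met g) (hu : Smooth u) (m j i : Fin n) (x : E n) :
    pd m (cv g u j i) x = pd m (pd i (gr g u j)) x +
      ∑ l, (pd m (chr g j i l) x * gr g u l x + chr g j i l x * pd m (gr g u l) x) := by
  have h := pd_add (((hg.sm_gr hu j).pd i).diff x) ((sm_sum hg hu j i).diff x) m
  rw [pd_sum Finset.univ (F := fun l y => chr g j i l y * gr g u l y)
    fun l _ => ((hg.sm_chr j i l).diff x).mul ((hg.sm_gr hu l).diff x)] at h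
  refine h.trans (congrArg _ (Finset.sum_congr rfl fun l _ => ?_))
  exact pd_mul ((hg.sm_chr j i l).diff x) ((hg.sm_gr hu l).diff x) m

theorem normSq_eq (hg : Met g) (hu : Smooth u) (x : E n) :
    normSq g (hess g u) x = ∑ i, ∑ j, cv g u j i x * cv g u i j x := by
  simp only [cv_eq hg hu, Finset.sum_mul_sum, normSq]
  refine Finset.sum_congr rfl fun i _ => ?_
  rw [Finset.sum_comm_cycle]
  refine Finset.sum_congr rfl fun j _ => Finset.sum_congr rfl fun l _ =>
    Finset.sum_congr rfl fun k _ => ?_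
  rw [hg.up_sy l j, hg.hess_sy (hu.c2 x) k j]
  ring

/-- the formula of Bochner -/
theorem formula (hg : Met g) (hu : Smooth u) (x : E n) :
    lap g (ip g u u) x / 2 = normSq g (hess g u) x + ip g u (lap g u) x +
      ∑ i, ∑ l, ric g i l x * gr g u i x * gr g u l x := by
  have e1 : gr g (ip g u u) = fun j y => 2 * ∑ i, gr g u i y * cv g u j i y := by
    funext j y
    simp only [cv_eq hg hu]
    rw [gr]
    simp only [hg.pd_ip (hu.c2 y) (hu.c2 y), ← two_mul, Finset.mul_sum]
    rw [Finset.sum_comm]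
    refine Finset.sum_congr rfl fun i _ => Finset.sum_congr rfl fun k _ => ?_
    rw [hg.hess_sy (hu.c2 y) k i]
    ring
  have e2 : lap g u = fun y => ∑ j, cv g u j j y := by
    funext y
    exact hg.dv_chr fun i => (hg.sm_gr hu i).diff y
  have e3 : lap g (ip g u u) x / 2 = ∑ i, (gr g u i x * ∑ j, (pd j (cv g u j i) x +
      ∑ k, chr g j j k x * cv g u k i x) + ∑ j, pd j (gr g u i) x * cv g u j i x) := by
    rw [lap, e1, dv_const_mul, mul_div_cancel_left₀ _ two_ne_zero,
      hg.dv_sum Finset.univ (X := fun i j y => gr g u i y * cv g u j i y)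
        fun i j => ((hg.sm_gr hu i).diff x).mul ((sm_cv hg hu j i).diff x)]
    refine Finset.sum_congr rfl fun i _ => ?_
    rw [hg.dv_smul ((hg.sm_gr hu i).diff x) (X := fun j => cv g u j i)
      fun j => (sm_cv hg hu j i).diff x, hg.dv_chr fun j => (sm_cv hg hu j i).diff x]
  have e4 : ip g u (lap g u) x = ∑ i, (∑ j, pd i (cv g u j j) x) * gr g u i x := by
    rw [hg.ip_sy, ip_eq_gr, e2]
    refine Finset.sum_congr rfl fun i _ => ?_
    rw [pd_sum Finset.univ (F := fun j => cv g u j j) fun j _ => (sm_cv hg hu j j).diff x]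
  rw [e3, e4, normSq_eq hg hu]
  simp only [pd_cv hg hu]
  have e5 : ∀ i j, pd i (pd j (gr g u j)) x = pd j (pd i (gr g u j)) x := fun i j =>
    pd_comm ((hg.sm_gr hu j).c2 x) i j
  have := alg (fun i => gr g u i x) (fun i j => pd i (gr g u j) x)
    (fun j i => pd j (pd i (gr g u j)) x) (fun k i j => chr g k i j x)
    (fun m k i j => pd m (chr g k i j) x) fun k i j => hg.chr_sy k i j x
  refine this.trans (congrArg₂ _ (congrArg₂ _ rfl ?_) rfl)
  exact Finset.sum_congr rfl fun i _ => congrArg₂ _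
    (Finset.sum_congr rfl fun j _ => by rw [e5 i j]) rfl

theorem gr_sq (hg : Met g) (u : E n → ℝ) (i : Fin n) (x : E n) :
    gr g u i x ^ 2 ≤ up g i i x * ip g u u x := by
  have h := hg.up_cs x (Pi.single i 1) fun j => pd j u x
  simpa [Pi.single_apply, Finset.sum_ite_eq', gr, ip] using h

end Boch

open Boch in
theorem boch : BOCH := by
  intro n g hg
  refine ⟨fun K hK => ?_, fun u v hu x => ⟨part1 hg hu x, part2 hg hu v x, part3 hg u x⟩⟩
  have hc : Continuous fun x => n * (∑ i, ∑ l, |ric g i l x|) * ∑ i, up g i i x :=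
    (continuous_const.mul (continuous_finsetSum _ fun i _ => continuous_finsetSum _ fun l _ =>
      (cont_ric hg i l).abs)).mul (continuous_finsetSum _ fun i _ => (hg.sm_up i i).cont)
  obtain ⟨C, hC⟩ := hK.bddAbove_image hc.continuousOn
  refine ⟨C, fun u hu x hx => ?_⟩
  have h1 := hC (mem_image_of_mem _ hx)
  have h2 := quad_le_of_bd (M := fun i l => -ric g i l x) (K := ∑ i, ∑ l, |ric g i l x|)
    (fun i l => by
      rw [abs_neg]
      exact (Finset.single_le_sum (f := fun l => |ric g i l x|) (fun _ _ => abs_nonneg _)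
        (Finset.mem_univ l)).trans (Finset.single_le_sum (f := fun i => ∑ l, |ric g i l x|)
        (fun _ _ => Finset.sum_nonneg fun _ _ => abs_nonneg _) (Finset.mem_univ i)))
    fun i => gr g u i x
  have h3 : ∑ i, gr g u i x ^ 2 ≤ (∑ i, up g i i x) * ip g u u x := by
    rw [Finset.sum_mul]
    exact Finset.sum_le_sum fun i _ => gr_sq hg u i x
  have h4 : (0 : ℝ) ≤ n * ∑ i, ∑ l, |ric g i l x| := by positivity
  have h5 := mul_le_mul_of_nonneg_left h3 h4
  have h6 := mul_le_mul_of_nonneg_right h1 (hg.ip_nonneg u x)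
  simp only [neg_mul, Finset.sum_neg_distrib] at h2
  rw [formula hg hu x]
  linarith [mul_assoc (n * ∑ i, ∑ l, |ric g i l x|) (∑ i, up g i i x) (ip g u u x)]

end Vale.Agent.P366Z
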