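import Vale.Agent.P366Z.Calc3

/-!
# P366Z, row MC: the algebra of the tensor `α g - β dw ⊗ dw`
-/

open MeasureTheory Metric Filter Topology Set
open scoped ContDiff ENNReal
open Vale.Agent.P366.Stmt

noncomputable section

namespace Vale.Agent.P366Z

namespace McX

variable {n : ℕ} {g : Field n} {α β w : E n → ℝ} {x : E n}

/-- the tensor `α g - β dw ⊗ dw` -/
def tt (g : Field n) (α β w : E n → ℝ) : Field n :=
  fun x i j => α x * g x i j - β x * (pd i w x * pd j w x)

theorem tt_sy (hg : Met g) (x : E n) (i j : Fin n) : tt g α β w x i j = tt g α β w x j i := by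
  simp only [tt, hg.sy x i j, mul_comm (pd i w x)]

theorem tt_sm (hg : Met g) (hα : Smooth α) (hβ : Smooth β) (hw : Smooth w) (i j : Fin n) :
    Smooth fun x => tt g α β w x i j :=
  (ContDiff.mul hα (hg.sm i j)).sub (ContDiff.mul hβ (ContDiff.mul (hw.pd i) (hw.pd j)))

theorem g_gr (hg : Met g) (u : E n → ℝ) (j : Fin n) :
    ∑ k, g x j k * gr g u k x = pd j u x := hg.g_up_mul x j fun l => pd l u x

theorem tt_gr (hg : Met g) (u : E n → ℝ) (j : Fin n) :
    ∑ k, tt g α β w x j k * gr g u k x = α x * pd j u x - β x * ip g w u x * pd j w x := by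
  rw [← g_gr hg u j, ip_eq_gr, Finset.mul_sum, Finset.mul_sum, Finset.sum_mul,
    ← Finset.sum_sub_distrib]
  exact Finset.sum_congr rfl fun k _ => by simp only [tt]; ring

theorem tr_g (hg : Met g) : ∑ i, ∑ j, up g i j x * g x i j = n := by
  have h : ∀ i, ∑ j, up g i j x * g x i j = 1 := fun i => by
    have h1 := hg.up_mul i i x
    rw [if_pos rfl] at h1
    rw [← h1]
    exact Finset.sum_congr rfl fun j _ => by rw [hg.sy x i j]
  simp [h]

theorem tr_tt (hg : Met g) : tr g (tt g α β w) x = n * α x - β x * ip g w w x := by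
  rw [← tr_g (x := x) hg, ip, tr, Finset.sum_mul, Finset.mul_sum, ← Finset.sum_sub_distrib]
  refine Finset.sum_congr rfl fun i _ => ?_
  rw [Finset.sum_mul, Finset.mul_sum, ← Finset.sum_sub_distrib]
  exact Finset.sum_congr rfl fun j _ => by simp only [tt]; ring

theorem up_tt (hg : Met g) (i l : Fin n) : ∑ k, up g i k x * tt g α β w x k l =
    α x * (if i = l then 1 else 0) - β x * gr g w i x * pd l w x := by
  rw [← hg.up_mul i l x, gr, Finset.mul_sum, Finset.mul_sum, Finset.sum_mul,
    ← Finset.sum_sub_distrib]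
  exact Finset.sum_congr rfl fun k _ => by simp only [tt]; ring

theorem normSq_tt (hg : Met g) : normSq g (tt g α β w) x =
    n * α x ^ 2 - 2 * α x * (β x * ip g w w x) + (β x * ip g w w x) ^ 2 := by
  obtain ⟨T, hT⟩ : ∃ T, T = tt g α β w := ⟨_, rfl⟩
  have h1 : normSq g T x = ∑ j, ∑ l, up g j l x * ∑ i, T x j i * ∑ k, up g i k x * T x k l := by
    rw [normSq, Finset.sum_comm]
    refine Finset.sum_congr rfl fun j _ => ?_
    simp only [Finset.mul_sum]
    rw [Finset.sum_comm (s := Finset.univ) (t := Finset.univ)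
      (f := fun l i => ∑ k, up g j l x * (T x j i * (up g i k x * T x k l)))]
    refine Finset.sum_congr rfl fun i _ => ?_
    rw [Finset.sum_comm]
    refine Finset.sum_congr rfl fun l _ => Finset.sum_congr rfl fun k _ => ?_
    rw [hT, tt_sy hg x i j]
    ring
  have h2 : ∀ j l, ∑ i, T x j i * ∑ k, up g i k x * T x k l =
      α x * T x j l - β x * (α x - β x * ip g w w x) * (pd j w x * pd l w x) := by
    intro j l
    have h3 := tt_gr (α := α) (β := β) (w := w) (x := x) hg w j
    rw [← hT] at h3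
    simp only [hT, up_tt hg, mul_sub, Finset.sum_sub_distrib]
    rw [← hT]
    have h4 : ∑ i, T x j i * (α x * if i = l then 1 else 0) = α x * T x j l := by
      simp [mul_comm]
    have h5 : ∑ i, T x j i * (β x * gr g w i x * pd l w x) =
        β x * pd l w x * ∑ i, T x j i * gr g w i x := by
      rw [Finset.mul_sum]
      exact Finset.sum_congr rfl fun i _ => by ring
    rw [h4, h5, h3]
    ring
  have h6 := tr_tt (α := α) (β := β) (w := w) (x := x) hg
  rw [← hT] at h6 ⊢
  have h7 : normSq g T x = α x * tr g T x - β x * (α x - β x * ip g w w x) * ip g w w x := by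
    rw [h1, tr, ip, Finset.mul_sum, Finset.mul_sum, ← Finset.sum_sub_distrib]
    refine Finset.sum_congr rfl fun j _ => ?_
    rw [Finset.mul_sum, Finset.mul_sum, ← Finset.sum_sub_distrib]
    refine Finset.sum_congr rfl fun l _ => ?_
    rw [h2, ip]
    ring
  rw [h7, h6]
  ring

theorem mix_tt (hg : Met g) (l : E n → ℝ) (j : Fin n) :
    ∑ k, ((n : ℝ) * tt g α β w x j k - tr g (tt g α β w) x * g x j k) * gr g l k x =
      β x * (ip g w w x * pd j l x - n * ip g w l x * pd j w x) := by
  have h1 := tt_gr (α := α) (β := β) (w := w) (x := x) hg l j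
  have h2 := g_gr (x := x) hg l j
  have h3 : ∑ k, ((n : ℝ) * tt g α β w x j k - tr g (tt g α β w) x * g x j k) * gr g l k x =
      n * ∑ k, tt g α β w x j k * gr g l k x -
        tr g (tt g α β w) x * ∑ k, g x j k * gr g l k x := by
    rw [Finset.mul_sum, Finset.mul_sum, ← Finset.sum_sub_distrib]
    exact Finset.sum_congr rfl fun k _ => by ring
  rw [h3, h1, h2, tr_tt hg]
  ring

theorem cov_tt (hg : Met g) (hα : Smooth α) (hβ : Smooth β) (hw : Smooth w) (i j k : Fin n) :
    pd k (fun y => tt g α β w y i j) x - ∑ l, (chr g l k i x * tt g α β w x l j +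
      chr g l k j x * tt g α β w x i l) = pd k α x * g x i j - (pd k β x * pd i w x * pd j w x +
        β x * hess g w x k i * pd j w x + β x * pd i w x * hess g w x k j) := by
  have h1 : pd k (fun y => tt g α β w y i j) x = pd k α x * g x i j +
      α x * pd k (fun y => g y i j) x - (pd k β x * (pd i w x * pd j w x) +
        β x * (pd k (pd i w) x * pd j w x + pd i w x * pd k (pd j w) x)) := by
    simp only [tt]
    rw [pd_sub ((hα.diff x).fun_mul ((hg.sm i j).diff x))
      ((hβ.diff x).fun_mul (((hw.pd i).diff x).fun_mul ((hw.pd j).diff x))),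
      pd_mul (hα.diff x) ((hg.sm i j).diff x),
      pd_mul (hβ.diff x) (((hw.pd i).diff x).fun_mul ((hw.pd j).diff x)),
      pd_mul ((hw.pd i).diff x) ((hw.pd j).diff x)]
  have h2 : ∑ l, (chr g l k i x * tt g α β w x l j + chr g l k j x * tt g α β w x i l) =
      α x * (∑ l, g x j l * chr g l k i x + ∑ l, g x i l * chr g l k j x) -
        β x * ((∑ l, chr g l k i x * pd l w x) * pd j w x +
          pd i w x * ∑ l, chr g l k j x * pd l w x) := by
    simp only [mul_add, Finset.mul_sum, Finset.sum_mul, ← Finset.sum_add_distrib,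
      ← Finset.sum_sub_distrib]
    refine Finset.sum_congr rfl fun l _ => ?_
    simp only [tt, hg.sy x l j]
    ring
  rw [h1, h2, hg.pd_g k i j x, hess, hess]
  ring

theorem dvT_tt (hg : Met g) (hα : Smooth α) (hβ : Smooth β) (hw : Smooth w) (j : Fin n) :
    dvT g (tt g α β w) j x = pd j α x - (ip g w β x * pd j w x + β x * lap g w x * pd j w x +
      β x * pd j (ip g w w) x / 2) := by
  have h1 : ∑ i, ∑ k, up g i k x * (pd k α x * g x i j) = pd j α x := by
    rw [← g_gr (x := x) hg α j]
    refine Finset.sum_congr rfl fun i _ => ?_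
    rw [gr, Finset.mul_sum, hg.sy x j i]
    exact Finset.sum_congr rfl fun k _ => by ring
  have h2 : ∑ i, ∑ k, up g i k x * (pd k β x * pd i w x * pd j w x) = ip g w β x * pd j w x := by
    rw [ip, Finset.sum_mul]
    refine Finset.sum_congr rfl fun i _ => ?_
    rw [Finset.sum_mul]
    exact Finset.sum_congr rfl fun k _ => by ring
  have h3 : ∑ i, ∑ k, up g i k x * (β x * hess g w x k i * pd j w x) =
      β x * lap g w x * pd j w x := by
    rw [hg.lap_eq_tr (hw.c2 x), tr, Finset.mul_sum, Finset.sum_mul]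
    refine Finset.sum_congr rfl fun i _ => ?_
    rw [Finset.mul_sum, Finset.sum_mul]
    exact Finset.sum_congr rfl fun k _ => by rw [hg.hess_sy (hw.c2 x) k i]; ring
  have h4 : ∑ i, ∑ k, up g i k x * (β x * pd i w x * hess g w x k j) =
      β x * pd j (ip g w w) x / 2 := by
    rw [hg.pd_ip (hw.c2 x) (hw.c2 x), ← two_mul, mul_left_comm, mul_div_cancel_left₀ _ two_ne_zero,
      Finset.mul_sum, Finset.sum_comm]
    refine Finset.sum_congr rfl fun k _ => ?_
    rw [gr, Finset.mul_sum, Finset.mul_sum, hg.hess_sy (hw.c2 x) j k]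
    exact Finset.sum_congr rfl fun i _ => by rw [hg.up_sy i k]; ring
  simp only [dvT, cov_tt hg hα hβ hw]
  simp only [mul_sub, mul_add, Finset.sum_sub_distrib, Finset.sum_add_distrib]
  rw [h1, h2, h3, h4]

theorem wq_tt (hg : Met g) (hα : Smooth α) (hβ : Smooth β) (hw : Smooth w) (v v' : E n → ℝ)
    (j : Fin n) : wq g (tt g α β w) v v' j x = -pd j α x + (ip g w β x * pd j w x +
      β x * lap g w x * pd j w x + β x * pd j (ip g w w) x / 2) +
      β x * (ip g w w x * pd j (fun y => -(bb n / 2) * Real.log (v y * v' y)) x -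
        n * ip g w (fun y => -(bb n / 2) * Real.log (v y * v' y)) x * pd j w x) := by
  rw [wq, dvT_tt hg hα hβ hw, mix_tt hg]
  ring

theorem mq_tt (hg : Met g) (hn : 3 ≤ n) {A Bn : ℝ} (hA : α x = A)
    (hB : α x - β x * ip g w w x = Bn) (h0 : 0 ≤ Bn) (h1 : Bn ≤ A) :
    A * Bn ≤ mq g (tt g α β w) x := by
  have h2 : (0 : ℝ) < (n : ℝ) - 1 := by linarith [nm2_pos hn]
  have h3 : β x * ip g w w x = A - Bn := by linarith
  rw [mq, tr_tt hg, normSq_tt hg, h3, hA, le_sub_iff_add_le, le_div_iff₀ h2]
  have h4 : 0 ≤ Bn * (A - Bn) := mul_nonneg h0 (sub_nonneg.2 h1)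
  nlinarith [mul_nonneg h2.le h4, sq_nonneg Bn]

theorem covNorm_le (hg : Met g) {W : Fin n → E n → ℝ} {u v : E n → ℝ} {P Q : ℝ}
    (h : ∀ j, W j x = P * pd j u x + Q * pd j v x) :
    covNorm g W x ≤ |P| * gn g u x + |Q| * gn g v x := by
  have h0 : 0 ≤ |P| * gn g u x + |Q| * gn g v x :=
    add_nonneg (mul_nonneg (abs_nonneg _) (gn_nonneg _ _ _))
      (mul_nonneg (abs_nonneg _) (gn_nonneg _ _ _))
  have h1 : ∑ i, ∑ j, up g i j x * W i x * W j x = P ^ 2 * ip g u u x + P * Q * ip g u v x +
      P * Q * ip g v u x + Q ^ 2 * ip g v v x := by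
    simp only [ip, Finset.mul_sum, ← Finset.sum_add_distrib, h]
    exact Finset.sum_congr rfl fun i _ => Finset.sum_congr rfl fun j _ => by ring
  rw [covNorm, Real.sqrt_le_left h0, h1, hg.ip_sy v u, ← hg.gn_sq, ← hg.gn_sq]
  have h2 : P * Q * ip g u v x ≤ |P| * |Q| * (gn g u x * gn g v x) := by
    refine (le_abs_self _).trans ?_
    rw [abs_mul, abs_mul]
    exact mul_le_mul_of_nonneg_left (hg.abs_ip_le u v x) (by positivity)
  rw [← sq_abs P, ← sq_abs Q]
  nlinarith

end McX

end Vale.Agent.P366Z
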