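import Vale.Agent.P366Z.Int
import Mathlib.MeasureTheory.Integral.IntegralEqImproper

/-!
# P366Z: the calculus of the expansions, the flux at infinity
-/

open MeasureTheory Metric Filter Topology Set
open scoped ContDiff ENNReal NNReal
open Vale.Agent.P366.Stmt

noncomputable section

namespace Vale.Agent.P366Z

namespace AsyF

variable {n : ℕ} {u v : E n → ℝ} {a a' β β' : ℝ}

theorem far (R : ℝ) : ∀ᶠ x : E n in cocompact (E n), R ≤ ‖x‖ :=
  (tendsto_norm_cocompact_atTop (E := E n)).eventually (eventually_ge_atTop R)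

theorem lim2 (h : Asy u a β) :
    Tendsto (fun x => (u x - a) * ‖x‖ ^ (n - 2 : ℝ)) (cocompact (E n)) (𝓝 β) := by
  obtain ⟨C, R, h⟩ := h
  have h1 : Tendsto (fun x : E n => C * ‖x‖⁻¹) (cocompact (E n)) (𝓝 0) := by
    simpa using (tendsto_inv_atTop_zero.comp (tendsto_norm_cocompact_atTop (E := E n))).const_mul C
  refine tendsto_sub_nhds_zero_iff.1 (squeeze_zero_norm' ?_ h1)
  filter_upwards [far R, far 1] with x hx h0
  have h2 : 0 < ‖x‖ := by linarith
  have e1 : ‖x‖ ^ (2 - n : ℝ) * ‖x‖ ^ (n - 2 : ℝ) = 1 := by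
    rw [← Real.rpow_add h2]
    simp
  have e2 : ‖x‖ ^ (1 - n : ℝ) * ‖x‖ ^ (n - 2 : ℝ) = ‖x‖⁻¹ := by
    rw [← Real.rpow_add h2, ← Real.rpow_neg_one]
    congr 1
    ring
  have e3 : (u x - a) * ‖x‖ ^ (n - 2 : ℝ) - β =
      (u x - a - β * ‖x‖ ^ (2 - n : ℝ)) * ‖x‖ ^ (n - 2 : ℝ) := by
    linear_combination β * e1
  rw [e3, Real.norm_eq_abs, abs_mul, abs_of_nonneg (Real.rpow_nonneg h2.le _), ← e2, ← mul_assoc]
  exact mul_le_mul_of_nonneg_right (h x hx).1 (Real.rpow_nonneg h2.le _)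

theorem lim1 (hn : 3 ≤ n) (h : Asy u a β) : Tendsto u (cocompact (E n)) (𝓝 a) := by
  have h0 : (0 : ℝ) < n - 2 := by
    have : (3 : ℝ) ≤ n := by exact_mod_cast hn
    linarith
  have h1 := (lim2 h).mul
    ((tendsto_rpow_neg_atTop h0).comp (tendsto_norm_cocompact_atTop (E := E n)))
  rw [mul_zero] at h1
  refine tendsto_sub_nhds_zero_iff.1 (h1.congr' ((far 1).mono fun x hx => ?_))
  have h2 : 0 < ‖x‖ := by linarith
  simp only [Function.comp_apply]
  rw [mul_assoc, ← Real.rpow_add h2, add_neg_cancel, Real.rpow_zero, mul_one]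

theorem abs_coord (x : E n) (i : Fin n) : |x i| ≤ ‖x‖ := PiLp.norm_apply_le x i

theorem bdd (hn : 3 ≤ n) (hu : Smooth u) (h : Asy u a β) : ∃ C, ∀ x, ‖fderiv ℝ u x‖ ≤ C := by
  obtain ⟨C, R, h⟩ := h
  have hn' : (3 : ℝ) ≤ n := by exact_mod_cast hn
  obtain ⟨M, hM⟩ := (isCompact_closedBall (0 : E n) (max R 1)).exists_bound_of_continuousOn
    (ContDiff.continuous_fderiv hu (by simp)).continuousOn
  set D := |(n - 2) * β| + |C|
  have hD : 0 ≤ D := by positivity
  refine ⟨max M (n * D), fun x => ?_⟩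
  rcases le_total ‖x‖ (max R 1) with hx | hx
  · exact (hM x (mem_closedBall_zero_iff.2 hx)).trans (le_max_left _ _)
  have h1 : 1 ≤ ‖x‖ := le_of_max_le_right hx
  have h2 : ‖x‖ * ‖x‖ ^ (-n : ℝ) ≤ 1 := by
    rw [← Real.rpow_one_add' (by linarith) (by linarith)]
    exact Real.rpow_le_one_of_one_le_of_nonpos h1 (by linarith)
  have h3 : 0 ≤ ‖x‖ ^ (-n : ℝ) := by positivity
  have h4 : ∀ i, |pd i u x| ≤ D := fun i => by
    have e1 := (h x (le_of_max_le_left hx)).2 i
    have e2 : |(n - 2) * β * x i * ‖x‖ ^ (-n : ℝ)| ≤ |(n - 2) * β| := by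
      rw [mul_assoc, abs_mul, abs_mul (x i), abs_of_nonneg h3]
      exact mul_le_of_le_one_right (abs_nonneg _)
        ((mul_le_mul_of_nonneg_right (abs_coord x i) h3).trans h2)
    have e3 : C * ‖x‖ ^ (-n : ℝ) ≤ |C| := (mul_le_mul_of_nonneg_right (le_abs_self C) h3).trans
      (mul_le_of_le_one_right (abs_nonneg _) (by nlinarith))
    have e4 := abs_sub (pd i u x + (n - 2) * β * x i * ‖x‖ ^ (-n : ℝ))
      ((n - 2) * β * x i * ‖x‖ ^ (-n : ℝ))
    rw [add_sub_cancel_right] at e4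
    linarith
  refine le_trans (abs_le_of_sq_le_sq' ?_ (by positivity)).2 (le_max_right _ _)
  rw [norm_fderiv_sq (hu.diff x)]
  refine (Finset.sum_le_sum fun i _ => sq_le_sq' (abs_le.1 (h4 i)).1 (abs_le.1 (h4 i)).2).trans ?_
  rw [Finset.sum_const, Finset.card_univ, Fintype.card_fin, nsmul_eq_mul, mul_pow]
  exact mul_le_mul_of_nonneg_right (by nlinarith) (sq_nonneg _)

theorem comb {s t A B C C' y : ℝ} (h : |A| ≤ C * y) (h' : |B| ≤ C' * y) :
    |s * A + t * B| ≤ (|s| * C + |t| * C') * y := by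
  have h1 := mul_le_mul_of_nonneg_left h (abs_nonneg s)
  have h2 := mul_le_mul_of_nonneg_left h' (abs_nonneg t)
  have h3 := abs_add_le (s * A) (t * B)
  rw [abs_mul, abs_mul] at h3
  linarith

theorem lin (hu : Smooth u) (hv : Smooth v) (h : Asy u a β) (h' : Asy v a' β') (s t : ℝ) :
    Asy (fun x => s * u x + t * v x) (s * a + t * a') (s * β + t * β') := by
  obtain ⟨C, R, h⟩ := h
  obtain ⟨C', R', h'⟩ := h'
  refine ⟨|s| * C + |t| * C', max R R', fun x hx => ?_⟩
  obtain ⟨h1, h2⟩ := h x (le_of_max_le_left hx)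
  obtain ⟨h3, h4⟩ := h' x (le_of_max_le_right hx)
  refine ⟨le_of_eq_of_le (congrArg _ (by ring)) (comb h1 h3), fun i => ?_⟩
  rw [pd_add ((hu.diff x).const_mul s) ((hv.diff x).const_mul t), pd_const_mul, pd_const_mul]
  exact le_of_eq_of_le (congrArg _ (by ring)) (comb (h2 i) (h4 i))

theorem cong (h : Asy u a β) {R' : ℝ} (e : ∀ x, R' ≤ ‖x‖ → v x = u x) : Asy v a β := by
  obtain ⟨C, R, h⟩ := h
  refine ⟨C, max R (R' + 1), fun x hx => ?_⟩
  have h1 : R' < ‖x‖ := by linarith [le_of_max_le_right hx]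
  have h2 : v =ᶠ[𝓝 x] u := by
    filter_upwards [(isOpen_lt continuous_const continuous_norm).mem_nhds h1] with z hz
    exact e z (le_of_lt hz)
  simp only [pd_congr h2, e x h1.le]
  exact h x (le_of_max_le_left hx)

/-! ### the flux -/

theorem der (t : ℝ) : HasDerivAt Real.smoothTransition (deriv Real.smoothTransition t) t :=
  ((Real.smoothTransition.contDiff (n := 1)).differentiable (by simp) t).hasDerivAt

theorem pd_cut (r : ℝ) (x : E n) (i : Fin n) : pd i (cut r) x =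
    -(deriv Real.smoothTransition (2 - ‖x‖ ^ 2 / r ^ 2) * (2 * x i / r ^ 2)) := by
  have h := pd_comp (f := fun y : E n => 2 - ‖y‖ ^ 2 / r ^ 2) (der _)
    ((contDiff_const.sub ((contDiff_normSq (m := 1)).div_const _)).differentiable (by simp) x) i
  rw [pd_const_sub] at h
  simp only [div_eq_mul_inv] at h ⊢
  rw [pd_mul_const, pd_normSq, mul_neg] at h
  exact h

theorem one_dim {r : ℝ} (hr : 0 < r) : ∫ ρ in Ioi (0 : ℝ),
    deriv Real.smoothTransition (2 - ρ ^ 2 / r ^ 2) * (2 * ρ / r ^ 2) = 1 := by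
  refine (integral_Ioi_of_hasDerivAt_of_nonneg' (l := 0)
    (g := fun ρ => -Real.smoothTransition (2 - ρ ^ 2 / r ^ 2)) (fun ρ _ => ?_) (fun ρ hρ => ?_)
    ?_).trans ?_
  rotate_right
  · simp [Real.smoothTransition.one_of_one_le]
  · have h := ((der _).comp ρ (((hasDerivAt_pow 2 ρ).div_const (r ^ 2)).const_sub 2)).neg
    refine h.congr_deriv ?_
    simp
  · exact mul_nonneg Real.smoothTransition.monotone.deriv_nonneg
      (div_nonneg (by linarith [mem_Ioi.1 hρ]) (sq_nonneg _))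
  · refine tendsto_const_nhds.congr' ((eventually_ge_atTop (2 * r)).mono fun ρ hρ => ?_)
    have : 2 ≤ ρ ^ 2 / r ^ 2 := by
      rw [le_div_iff₀ (by positivity)]
      nlinarith
    simp only
    rw [Real.smoothTransition.zero_of_nonpos (by linarith), neg_zero]

theorem model (hn : 0 < n) {r : ℝ} (hr : 0 < r) (c : ℝ) :
    ∫ x : E n, ∑ i, pd i (cut r) x * (c * x i * ‖x‖ ^ (-n : ℝ)) = -(c * omega n) := by
  have e : ∀ x : E n, ∑ i, pd i (cut r) x * (c * x i * ‖x‖ ^ (-n : ℝ)) =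
      -c * (deriv Real.smoothTransition (2 - ‖x‖ ^ 2 / r ^ 2) * (2 * ‖x‖ ^ 2 / r ^ 2) *
        ‖x‖ ^ (-n : ℝ)) := fun x => by
    simp only [pd_cut]
    generalize deriv Real.smoothTransition _ = y
    rw [norm_sq_eq]
    simp only [Finset.mul_sum, Finset.sum_div, Finset.sum_mul]
    exact Finset.sum_congr rfl fun i _ => by ring
  simp only [e]
  rw [integral_const_mul, integral_radial hn fun ρ =>
    deriv Real.smoothTransition (2 - ρ ^ 2 / r ^ 2) * (2 * ρ ^ 2 / r ^ 2) * ρ ^ (-n : ℝ),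
    setIntegral_congr_fun measurableSet_Ioi (g := fun ρ =>
      deriv Real.smoothTransition (2 - ρ ^ 2 / r ^ 2) * (2 * ρ / r ^ 2)) fun ρ hρ => ?_,
    one_dim hr]
  · ring
  · have h : (0 : ℝ) < ρ := hρ
    obtain ⟨m, rfl⟩ := Nat.exists_eq_add_one_of_ne_zero hn.ne'
    simp only [Real.rpow_neg h.le, Real.rpow_natCast, Nat.add_sub_cancel]
    field_simp
    ring

theorem err (hn : 0 < n) {Y : Fin n → E n → ℝ} (hY : ∀ i, Measurable (Y i)) {C R : ℝ}
    (h : ∀ x : E n, R ≤ ‖x‖ → ∀ i, |Y i x| ≤ C * ‖x‖ ^ (-n : ℝ)) : ∃ K : ℝ, ∀ r, max R 1 ≤ r →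
      Integrable (fun x => ∑ i, pd i (cut r) x * Y i x) ∧
        ‖∫ x, ∑ i, pd i (cut r) x * Y i x‖ ≤ K * r⁻¹ := by
  obtain ⟨A, hA, h1⟩ := fderiv_cut n
  refine ⟨A * |C| * omega n * 3 ^ n, fun r hr => ?_⟩
  have h0 : 0 < r := by linarith [le_of_max_le_right hr]
  have h2 : ∀ x : E n, |∑ i, pd i (cut r) x * Y i x| ≤ n * (A / r * (|C| * r ^ (-n : ℝ))) := by
    intro x
    rcases lt_or_ge ‖x‖ r with hx | hx
    · simp only [pd_cut_in hx, zero_mul, Finset.sum_const_zero, abs_zero]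
      positivity
    refine (Finset.abs_sum_le_sum_abs _ _).trans ((Finset.sum_le_sum fun i _ => ?_).trans
      (le_of_eq (by rw [Finset.sum_const, Finset.card_univ, Fintype.card_fin, nsmul_eq_mul])))
    rw [abs_mul]
    refine mul_le_mul ((abs_pd_le ((sm_cut r).diff x) i).trans (h1 r h0 x))
      ((h x ((le_of_max_le_left hr).trans hx) i).trans (mul_le_mul (le_abs_self C)
        (Real.rpow_le_rpow_of_nonpos h0 hx (by simp)) (by positivity) (abs_nonneg C)))
      (abs_nonneg _) (by positivity)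
  have h3 : ∀ x : E n, 2 * r < ‖x‖ → ∑ i, pd i (cut r) x * Y i x = 0 := fun x hx => by
    simp only [pd_cut_out h0 hx, zero_mul, Finset.sum_const_zero]
  constructor
  · have h4 := integrable_of_bd (continuous_const (y := (1 : ℝ)))
      (h := fun x => ∑ i, pd i (cut r) x * Y i x)
      (Finset.measurable_sum _ fun i _ => (measurable_pd (sm_cut r).cont i).mul (hY i)) h2 h3
    simp only [one_mul] at h4
    exact h4
  · rw [← setIntegral_eq_integral_of_forall_compl_eq_zero (s := ball 0 (3 * r)) fun x hx =>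
      h3 x (by linarith [not_lt.1 (mem_ball_zero_iff.not.1 hx)])]
    refine (norm_setIntegral_le_of_norm_le_const measure_ball_lt_top fun x _ => h2 x).trans
      (le_of_eq ?_)
    have h4 : (n : ℝ) ≠ 0 := by exact_mod_cast hn.ne'
    rw [measureReal_def, real_ball hn _ (by positivity), Real.rpow_neg h0.le, Real.rpow_natCast,
      mul_pow]
    field_simp

end AsyF

open AsyF

/-- **ASY** -/
theorem asy : ASY := by
  intro n u v a a' β β' hn hu hv h
  have := nontriv (n := n) (by omega)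
  refine ⟨⟨lim1 hn h, bdd hn hu h⟩, fun h' => ?_, fun s t h' => lin hu hv h h' s t,
    fun ⟨_, e⟩ => cong h e, fun ⟨R, e⟩ => ?_⟩
  · obtain rfl := tendsto_nhds_unique (lim1 hn h) (lim1 hn h')
    exact ⟨rfl, tendsto_nhds_unique (lim2 h) (lim2 h')⟩
  · exact ge_of_tendsto (lim2 h) ((far R).mono fun x hx =>
      mul_nonneg (sub_nonneg.2 (e x hx)) (by positivity))

/-- **FLUX** -/
theorem flux : FLUX := by
  intro n X c hn hX ⟨C, R, h⟩
  have h0 : 0 < n := by omega
  obtain ⟨K, hK⟩ := err h0 (Y := fun i x => X i x - c * x i * ‖x‖ ^ (-n : ℝ)) (fun i =>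
    (hX i).cont.measurable.sub (((contDiff_coord (m := 0) i).continuous.measurable.const_mul c).mul
      (continuous_norm.measurable.pow_const _))) h
  have h1 : Tendsto (fun r : ℝ => K * r⁻¹) atTop (𝓝 0) := by
    simpa using tendsto_inv_atTop_zero.const_mul K
  refine tendsto_sub_nhds_zero_iff.1 (squeeze_zero_norm' ?_ h1)
  filter_upwards [eventually_ge_atTop (max R 1)] with r hr
  have h2 : 0 < r := by linarith [le_of_max_le_right hr]
  have h3 : ∀ i, Integrable fun x => pd i (cut r) x * X i x := fun i => by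
    simpa only [mul_comm] using (lip_cut h2).integrable_pd (fun _ hy => cut_zero h2 hy)
      (hX i).cont i
  have h4 : ∫ x, cut r x * ∑ i, pd i (X i) x = -∫ x, ∑ i, pd i (cut r) x * X i x := by
    simp only [Finset.mul_sum]
    rw [integral_finsetSum, integral_finsetSum _ fun i _ => h3 i, ← Finset.sum_neg_distrib]
    · exact Finset.sum_congr rfl fun i _ =>
        ibp (lip_cut h2) (supp_cut h2) (ContDiff.of_le (hX i) (by norm_cast)) i
    · exact fun i _ => ((sm_cut r).cont.mul ((hX i).pd i).cont).integrable_of_hasCompactSupport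
        (supp_cut h2).mul_right
  have h5 := integral_sub (integrable_finsetSum _ fun i (_ : i ∈ Finset.univ) => h3 i) (hK r hr).1
  simp only [← Finset.sum_sub_distrib, ← mul_sub, sub_sub_cancel] at h5
  rw [model h0 h2] at h5
  rw [h4, ← norm_neg]
  exact le_of_eq_of_le (congrArg _ (by linarith)) (hK r hr).2

end Vale.Agent.P366Z
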