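import Vale.Agent.P366Z.Sk
import Mathlib.Analysis.Calculus.FDeriv.Symmetric

/-!
# P366Z: pointwise calculus of `pd`, `ip`, `dv`, `lap`, `wl`
-/

open MeasureTheory Metric Filter Topology Set
open scoped ContDiff ENNReal
open Vale.Agent.P366.Stmt

noncomputable section

namespace Vale.Agent.P366Z

variable {n : ℕ} {f h u v w U : E n → ℝ} {x : E n} {g : Field n}

/-! ### `pd` -/

theorem pd_eq (hf : DifferentiableAt ℝ f x) (i : Fin n) :
    pd i f x = fderiv ℝ f x (EuclideanSpace.single i 1) := hf.lineDeriv_eq_fderiv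

theorem pd_of_hasFDerivAt {L : E n →L[ℝ] ℝ} (hf : HasFDerivAt f L x) (i : Fin n) :
    pd i f x = L (EuclideanSpace.single i 1) := by
  rw [pd_eq hf.differentiableAt, hf.fderiv]

theorem pd_congr (e : f =ᶠ[𝓝 x] h) (i : Fin n) : pd i f x = pd i h x := e.lineDeriv_eq

theorem pd_congr_ev (e : f =ᶠ[𝓝 x] h) (i : Fin n) : pd i f =ᶠ[𝓝 x] pd i h :=
  e.eventuallyEq_nhds.mono fun _ hy => pd_congr hy i

theorem pd_const (c : ℝ) (i : Fin n) (x : E n) : pd i (fun _ => c) x = 0 := by
  rw [pd_eq (differentiableAt_const c)]; simp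

theorem pd_add (hf : DifferentiableAt ℝ f x) (hh : DifferentiableAt ℝ h x) (i : Fin n) :
    pd i (fun y => f y + h y) x = pd i f x + pd i h x := by
  rw [pd_of_hasFDerivAt (hf.hasFDerivAt.fun_add hh.hasFDerivAt), pd_eq hf, pd_eq hh]; rfl

theorem pd_sub (hf : DifferentiableAt ℝ f x) (hh : DifferentiableAt ℝ h x) (i : Fin n) :
    pd i (fun y => f y - h y) x = pd i f x - pd i h x := by
  rw [pd_of_hasFDerivAt (hf.hasFDerivAt.fun_sub hh.hasFDerivAt), pd_eq hf, pd_eq hh]; rfl

theorem pd_neg (i : Fin n) : pd i (fun y => -f y) x = -pd i f x := by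
  unfold pd lineDeriv
  exact deriv.neg

theorem pd_mul (hf : DifferentiableAt ℝ f x) (hh : DifferentiableAt ℝ h x) (i : Fin n) :
    pd i (fun y => f y * h y) x = pd i f x * h x + f x * pd i h x := by
  rw [pd_of_hasFDerivAt (hf.hasFDerivAt.fun_mul hh.hasFDerivAt), pd_eq hf, pd_eq hh]
  simp only [add_apply, smul_apply, smul_eq_mul]
  ring

theorem pd_const_mul (c : ℝ) (i : Fin n) : pd i (fun y => c * f y) x = c * pd i f x := by
  unfold pd lineDeriv
  exact deriv_const_mul_field c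

theorem pd_mul_const (c : ℝ) (i : Fin n) : pd i (fun y => f y * c) x = pd i f x * c := by
  unfold pd lineDeriv
  exact deriv_mul_const_field c

theorem pd_add_const (c : ℝ) (i : Fin n) : pd i (fun y => f y + c) x = pd i f x := by
  unfold pd lineDeriv
  exact deriv_add_const c

theorem pd_const_add (c : ℝ) (i : Fin n) : pd i (fun y => c + f y) x = pd i f x := by
  unfold pd lineDeriv
  exact deriv_const_add c

theorem pd_sub_const (c : ℝ) (i : Fin n) : pd i (fun y => f y - c) x = pd i f x := by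
  unfold pd lineDeriv
  exact deriv_sub_const c

theorem pd_const_sub (c : ℝ) (i : Fin n) : pd i (fun y => c - f y) x = -pd i f x := by
  unfold pd lineDeriv
  exact deriv_const_sub c

theorem pd_sum {ι : Type*} (s : Finset ι) {F : ι → E n → ℝ}
    (hF : ∀ k ∈ s, DifferentiableAt ℝ (F k) x) (i : Fin n) :
    pd i (fun y => ∑ k ∈ s, F k y) x = ∑ k ∈ s, pd i (F k) x := by
  rw [pd_of_hasFDerivAt (HasFDerivAt.fun_sum fun k hk => (hF k hk).hasFDerivAt)]
  rw [sum_apply]
  exact Finset.sum_congr rfl fun k hk => (pd_eq (hF k hk) i).symm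

theorem pd_comp {φ : ℝ → ℝ} {d : ℝ} (hφ : HasDerivAt φ d (f x)) (hf : DifferentiableAt ℝ f x)
    (i : Fin n) : pd i (fun y => φ (f y)) x = d * pd i f x := by
  have : HasFDerivAt (fun y => φ (f y)) (d • fderiv ℝ f x) x :=
    hφ.comp_hasFDerivAt x hf.hasFDerivAt
  rw [pd_of_hasFDerivAt this, pd_eq hf]; rfl

theorem pd_inv (hf : DifferentiableAt ℝ f x) (h0 : f x ≠ 0) (i : Fin n) :
    pd i (fun y => (f y)⁻¹) x = -pd i f x / f x ^ 2 := by
  rw [pd_comp (φ := fun t => t⁻¹) (hasDerivAt_inv h0) hf]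
  field_simp

theorem pd_div (hf : DifferentiableAt ℝ f x) (hh : DifferentiableAt ℝ h x) (h0 : h x ≠ 0)
    (i : Fin n) : pd i (fun y => f y / h y) x = (pd i f x * h x - f x * pd i h x) / h x ^ 2 := by
  simp only [div_eq_mul_inv]
  rw [pd_mul hf (hh.fun_inv h0), pd_inv hh h0]
  field_simp
  ring

theorem pd_pow (hf : DifferentiableAt ℝ f x) (m : ℕ) (i : Fin n) :
    pd i (fun y => f y ^ m) x = m * f x ^ (m - 1) * pd i f x :=
  pd_comp (φ := fun t => t ^ m) (hasDerivAt_pow m (f x)) hf i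

theorem pd_rpow (hf : DifferentiableAt ℝ f x) (h0 : f x ≠ 0) (p : ℝ) (i : Fin n) :
    pd i (fun y => f y ^ p) x = p * f x ^ (p - 1) * pd i f x :=
  pd_comp (φ := fun t => t ^ p) (Real.hasDerivAt_rpow_const (Or.inl h0)) hf i

theorem pd_log (hf : DifferentiableAt ℝ f x) (h0 : f x ≠ 0) (i : Fin n) :
    pd i (fun y => Real.log (f y)) x = pd i f x / f x := by
  rw [pd_comp (φ := Real.log) (Real.hasDerivAt_log h0) hf]; field_simp

theorem pd_exp (hf : DifferentiableAt ℝ f x) (i : Fin n) :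
    pd i (fun y => Real.exp (f y)) x = Real.exp (f x) * pd i f x :=
  pd_comp (φ := Real.exp) (Real.hasDerivAt_exp _) hf i

theorem contDiff_coord {m : WithTop ℕ∞} (j : Fin n) : ContDiff ℝ m fun y : E n => y j :=
  (EuclideanSpace.proj (𝕜 := ℝ) j).contDiff

theorem pd_coord (i j : Fin n) (x : E n) : pd i (fun y => y j) x = if i = j then 1 else 0 := by
  have : HasFDerivAt (fun y : E n => y j) (EuclideanSpace.proj (𝕜 := ℝ) j) x :=
    (EuclideanSpace.proj (𝕜 := ℝ) j).hasFDerivAt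
  rw [pd_of_hasFDerivAt this]
  by_cases e : i = j
  · simp [e]
  · simp [e, Ne.symm e]

theorem norm_sq_eq (x : E n) : ‖x‖ ^ 2 = ∑ i, x i ^ 2 := by
  rw [EuclideanSpace.norm_sq_eq]; simp

theorem contDiff_normSq {m : WithTop ℕ∞} : ContDiff ℝ m fun y : E n => ‖y‖ ^ 2 :=
  contDiff_id.norm_sq ℝ

theorem pd_normSq (i : Fin n) (x : E n) : pd i (fun y => ‖y‖ ^ 2) x = 2 * x i := by
  rw [pd_of_hasFDerivAt (hasStrictFDerivAt_norm_sq x).hasFDerivAt]
  simp [EuclideanSpace.inner_single_right]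

theorem pd_norm (hx : x ≠ 0) (i : Fin n) : pd i (fun y => ‖y‖) x = x i / ‖x‖ := by
  have hd : DifferentiableAt ℝ (fun y : E n => ‖y‖) x :=
    (contDiffAt_norm ℝ hx (n := 1)).differentiableAt (by norm_num)
  have h1 := pd_pow hd 2 i
  rw [pd_normSq] at h1
  have : ‖x‖ ≠ 0 := norm_ne_zero_iff.2 hx
  field_simp
  simp at h1
  linarith

theorem pd_translate (a : E n) (i : Fin n) : pd i (fun y => f (y - a)) x = pd i f (x - a) := by
  unfold pd lineDeriv
  congr 1
  funext t
  simp only [add_sub_right_comm]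

theorem fderiv_eq_sum (hf : DifferentiableAt ℝ f x) (ξ : E n) :
    fderiv ℝ f x ξ = ∑ i, ξ i * pd i f x := by
  have : ξ = ∑ i, ξ i • EuclideanSpace.single i (1 : ℝ) := by
    ext j; simp [Pi.single_apply]
  conv_lhs => rw [this]
  rw [map_sum]
  refine Finset.sum_congr rfl fun i _ => ?_
  rw [map_smul, pd_eq hf, smul_eq_mul]

theorem abs_pd_le (hf : DifferentiableAt ℝ f x) (i : Fin n) : |pd i f x| ≤ ‖fderiv ℝ f x‖ := by
  rw [pd_eq hf]
  simpa using (fderiv ℝ f x).le_opNorm (EuclideanSpace.single i 1)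

theorem norm_fderiv_sq (hf : DifferentiableAt ℝ f x) :
    ‖fderiv ℝ f x‖ ^ 2 = ∑ i, pd i f x ^ 2 := by
  set a : E n := WithLp.toLp 2 fun i => pd i f x with ha
  have : fderiv ℝ f x = innerSL ℝ a := by
    ext1 ξ
    rw [fderiv_eq_sum hf]
    simp [ha, PiLp.inner_apply]
  rw [this, innerSL_apply_norm, norm_sq_eq]

theorem contDiffAt_pd {m k : WithTop ℕ∞} (hf : ContDiffAt ℝ m f x) (hk : k + 1 ≤ m) (i : Fin n) :
    ContDiffAt ℝ k (pd i f) x := by
  have h1 : ContDiffAt ℝ k (fun y => fderiv ℝ f y (EuclideanSpace.single i 1)) x :=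
    (hf.fderiv_right hk).clm_apply contDiffAt_const
  refine h1.congr_of_eventuallyEq ?_
  have h2 : ContDiffAt ℝ 1 f x := hf.of_le (le_trans le_add_self hk)
  filter_upwards [h2.eventually (by simp)] with y hy
  exact pd_eq (hy.differentiableAt (by norm_num)) i

theorem contDiff_pd {m k : WithTop ℕ∞} (hf : ContDiff ℝ m f) (hk : k + 1 ≤ m) (i : Fin n) :
    ContDiff ℝ k (pd i f) :=
  contDiff_iff_contDiffAt.2 fun _ => contDiffAt_pd hf.contDiffAt hk i

theorem diffAt_pd (hf : ContDiffAt ℝ 2 f x) (i : Fin n) : DifferentiableAt ℝ (pd i f) x :=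
  (contDiffAt_pd (k := 1) hf (by norm_num) i).differentiableAt (by norm_num)

theorem diff2 (hf : ContDiffAt ℝ 2 f x) : DifferentiableAt ℝ f x :=
  hf.differentiableAt (by norm_num)

theorem ev_diff (hf : ContDiffAt ℝ 2 f x) : ∀ᶠ y in 𝓝 x, DifferentiableAt ℝ f y :=
  (hf.eventually (by simp)).mono fun _ hy => diff2 hy

theorem pd_pd_eq (hf : ContDiffAt ℝ 2 f x) (i j : Fin n) : pd i (pd j f) x =
    fderiv ℝ (fderiv ℝ f) x (EuclideanSpace.single i 1) (EuclideanSpace.single j 1) := by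
  have h1 : pd j f =ᶠ[𝓝 x] fun y => fderiv ℝ f y (EuclideanSpace.single j 1) :=
    (ev_diff hf).mono fun y hy => pd_eq hy j
  have h2 : DifferentiableAt ℝ (fderiv ℝ f) x :=
    (hf.fderiv_right (m := 1) (by norm_num)).differentiableAt (by norm_num)
  rw [pd_congr h1, pd_of_hasFDerivAt (h2.hasFDerivAt.clm_apply (hasFDerivAt_const _ _))]
  simp

theorem pd_comm (hf : ContDiffAt ℝ 2 f x) (i j : Fin n) : pd i (pd j f) x = pd j (pd i f) x := by
  rw [pd_pd_eq hf, pd_pd_eq hf]
  exact (hf.isSymmSndFDerivAt (by simp)).eq _ _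

theorem _root_.Vale.Agent.P366.Stmt.Smooth.pd (hf : Smooth f) (i : Fin n) : Smooth (pd i f) :=
  contDiff_pd (k := ∞) hf (by norm_num) i

theorem _root_.Vale.Agent.P366.Stmt.Smooth.c2 (hf : Smooth f) (x : E n) : ContDiffAt ℝ 2 f x :=
  (ContDiff.contDiffAt hf).of_le (by norm_cast)

theorem _root_.Vale.Agent.P366.Stmt.Smooth.c1 (hf : Smooth f) (x : E n) : ContDiffAt ℝ 1 f x :=
  (ContDiff.contDiffAt hf).of_le (by norm_cast)

theorem _root_.Vale.Agent.P366.Stmt.Smooth.diff (hf : Smooth f) (x : E n) :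
    DifferentiableAt ℝ f x := diff2 (hf.c2 x)

theorem _root_.Vale.Agent.P366.Stmt.Smooth.cont (hf : Smooth f) : Continuous f :=
  ContDiff.continuous hf

theorem _root_.Vale.Agent.P366.Stmt.Smooth.two (hf : Smooth f) : ContDiff ℝ 2 f :=
  ContDiff.of_le hf (by norm_cast)

theorem _root_.Vale.Agent.P366.Stmt.Smooth.rpow (hf : Smooth f) (h0 : ∀ x, 0 < f x) (p : ℝ) :
    Smooth fun x => f x ^ p :=
  ContDiff.rpow_const_of_ne hf fun x => (h0 x).ne'

/-! ### the metric -/

theorem contDiffAt_det {m : ℕ} {A : E n → Matrix (Fin m) (Fin m) ℝ}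
    (hA : ∀ i j, ContDiffAt ℝ ∞ (fun y => A y i j) x) :
    ContDiffAt ℝ ∞ (fun y => (A y).det) x := by
  simp only [Matrix.det_apply']
  refine ContDiffAt.sum fun σ _ => ?_
  exact contDiffAt_const.mul (contDiffAt_prod fun i _ => hA _ _)

theorem contDiffAt_inv_entry {m : ℕ} {A : E n → Matrix (Fin m) (Fin m) ℝ}
    (hA : ∀ i j, ContDiffAt ℝ ∞ (fun y => A y i j) x) (hd : (A x).det ≠ 0) (i j : Fin m) :
    ContDiffAt ℝ ∞ (fun y => (A y)⁻¹ i j) x := by
  have h1 : (fun y => (A y)⁻¹ i j) = fun y => (A y).det⁻¹ * (A y).adjugate i j := by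
    funext y
    rw [Matrix.inv_def, Matrix.smul_apply, smul_eq_mul, Ring.inverse_eq_inv']
  rw [h1]
  refine ((contDiffAt_det hA).inv hd).mul ?_
  have h2 : (fun y => (A y).adjugate i j) =
      fun y => ((A y).updateRow j (Pi.single i 1)).det := by
    funext y
    rw [Matrix.adjugate_apply]
  rw [h2]
  refine contDiffAt_det fun a b => ?_
  by_cases ha : a = j
  · subst ha
    simp only [Matrix.updateRow_self]
    exact contDiffAt_const
  · simp only [Matrix.updateRow_ne ha]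
    exact hA a b

theorem Met.det_pos (hg : Met g) (x : E n) : 0 < (mat g x).det := (hg.pos x).det_pos

theorem Met.dens_pos (hg : Met g) (x : E n) : 0 < dens g x := Real.sqrt_pos.2 (hg.det_pos x)

theorem dens_nonneg (g : Field n) (x : E n) : 0 ≤ dens g x := Real.sqrt_nonneg _

theorem Met.sm_det (hg : Met g) : Smooth fun x => (mat g x).det :=
  contDiff_iff_contDiffAt.2 fun _ => contDiffAt_det fun i j => (hg.sm i j).contDiffAt

theorem Met.sm_dens (hg : Met g) : Smooth (dens g) :=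
  ContDiff.sqrt hg.sm_det fun x => (hg.det_pos x).ne'

theorem Met.sm_up (hg : Met g) (i j : Fin n) : Smooth (up g i j) :=
  contDiff_iff_contDiffAt.2 fun x =>
    contDiffAt_inv_entry (A := mat g) (fun i j => (hg.sm i j).contDiffAt) (hg.det_pos x).ne' i j

theorem Met.sm_chr (hg : Met g) (k i j : Fin n) : Smooth (chr g k i j) := by
  unfold chr
  refine ContDiff.div_const (ContDiff.sum fun l _ => ?_) 2
  exact ContDiff.mul (hg.sm_up k l) (ContDiff.sub (ContDiff.add ((hg.sm j l).pd i)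
    ((hg.sm i l).pd j)) ((hg.sm i j).pd l))

theorem Met.sm_scal (hg : Met g) : Smooth (scal g) := by
  unfold scal
  refine ContDiff.sum fun i _ => ContDiff.sum fun j _ => ContDiff.mul (hg.sm_up i j) ?_
  refine ContDiff.sum fun k _ => ContDiff.add (ContDiff.sub ((hg.sm_chr k i j).pd k)
    ((hg.sm_chr k i k).pd j)) (ContDiff.sum fun l _ => ?_)
  exact ContDiff.sub (ContDiff.mul (hg.sm_chr _ _ _) (hg.sm_chr _ _ _))
    (ContDiff.mul (hg.sm_chr _ _ _) (hg.sm_chr _ _ _))

theorem Met.inv_pos (hg : Met g) (x : E n) : ((mat g x)⁻¹).PosDef := (hg.pos x).inv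

theorem Met.up_sy (hg : Met g) (i j : Fin n) (x : E n) : up g i j x = up g j i x := by
  have := (hg.inv_pos x).isHermitian.apply j i
  simpa [up] using this

theorem Met.chr_sy (hg : Met g) (k i j : Fin n) (x : E n) : chr g k i j x = chr g k j i x := by
  unfold chr
  congr 1
  refine Finset.sum_congr rfl fun l _ => ?_
  have : (fun y => g y i j) = fun y => g y j i := funext fun y => hg.sy y i j
  rw [this]; ring

theorem Met.up_mul (hg : Met g) (i j : Fin n) (x : E n) :
    ∑ k, up g i k x * g x k j = if i = j then 1 else 0 := by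
  have h1 : (mat g x)⁻¹ * mat g x = 1 :=
    Matrix.nonsing_inv_mul _ (isUnit_iff_ne_zero.2 (hg.det_pos x).ne')
  have := congrFun (congrFun h1 i) j
  rw [Matrix.mul_apply, Matrix.one_apply] at this
  exact this

theorem Met.mul_up (hg : Met g) (i j : Fin n) (x : E n) :
    ∑ k, g x i k * up g k j x = if i = j then 1 else 0 := by
  have h1 : mat g x * (mat g x)⁻¹ = 1 :=
    Matrix.mul_nonsing_inv _ (isUnit_iff_ne_zero.2 (hg.det_pos x).ne')
  have := congrFun (congrFun h1 i) j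
  rw [Matrix.mul_apply, Matrix.one_apply] at this
  exact this

theorem quad_eq (M : Matrix (Fin n) (Fin n) ℝ) (ξ : Fin n → ℝ) :
    ∑ i, ∑ j, M i j * ξ i * ξ j = star ξ ⬝ᵥ M.mulVec ξ := by
  simp only [dotProduct, Matrix.mulVec, star_trivial, Finset.mul_sum]
  exact Finset.sum_congr rfl fun i _ => Finset.sum_congr rfl fun j _ => by ring

theorem Met.up_nonneg (hg : Met g) (x : E n) (ξ : Fin n → ℝ) :
    0 ≤ ∑ i, ∑ j, up g i j x * ξ i * ξ j := by
  have := (hg.inv_pos x).posSemidef.dotProduct_mulVec_nonneg ξ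
  rwa [← quad_eq] at this

theorem Met.up_pos (hg : Met g) (x : E n) {ξ : Fin n → ℝ} (hξ : ξ ≠ 0) :
    0 < ∑ i, ∑ j, up g i j x * ξ i * ξ j := by
  have := (hg.inv_pos x).dotProduct_mulVec_pos hξ
  rwa [← quad_eq] at this

theorem Met.g_nonneg (hg : Met g) (x : E n) (ξ : Fin n → ℝ) :
    0 ≤ ∑ i, ∑ j, g x i j * ξ i * ξ j := by
  have := (hg.pos x).posSemidef.dotProduct_mulVec_nonneg ξ
  rwa [← quad_eq] at this

theorem Met.g_pos (hg : Met g) (x : E n) {ξ : Fin n → ℝ} (hξ : ξ ≠ 0) :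
    0 < ∑ i, ∑ j, g x i j * ξ i * ξ j := by
  have := (hg.pos x).dotProduct_mulVec_pos hξ
  rwa [← quad_eq] at this

/-- the inequality of Cauchy and Schwarz for a symmetric nonnegative form -/
theorem quad_cs {M : Fin n → Fin n → ℝ} (hs : ∀ i j, M i j = M j i)
    (h0 : ∀ ξ : Fin n → ℝ, 0 ≤ ∑ i, ∑ j, M i j * ξ i * ξ j) (a b : Fin n → ℝ) :
    (∑ i, ∑ j, M i j * a i * b j) ^ 2 ≤
      (∑ i, ∑ j, M i j * a i * a j) * ∑ i, ∑ j, M i j * b i * b j := by
  have hs' : ∑ i, ∑ j, M i j * b i * a j = ∑ i, ∑ j, M i j * a i * b j := by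
    rw [Finset.sum_comm]
    exact Finset.sum_congr rfl fun i _ => Finset.sum_congr rfl fun j _ => by rw [hs]; ring
  have key : ∀ t : ℝ, 0 ≤ (∑ i, ∑ j, M i j * a i * a j) * (t * t) +
      (2 * ∑ i, ∑ j, M i j * a i * b j) * t + ∑ i, ∑ j, M i j * b i * b j := by
    intro t
    have h1 := h0 fun i => t * a i + b i
    have h2 : ∑ i, ∑ j, M i j * (t * a i + b i) * (t * a j + b j) =
        (∑ i, ∑ j, M i j * a i * a j) * (t * t) + (∑ i, ∑ j, M i j * a i * b j) * t +
        (∑ i, ∑ j, M i j * b i * a j) * t + ∑ i, ∑ j, M i j * b i * b j := by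
      simp only [Finset.sum_mul, ← Finset.sum_add_distrib]
      exact Finset.sum_congr rfl fun i _ => Finset.sum_congr rfl fun j _ => by ring
    rw [h2, hs'] at h1
    linarith
  have := discrim_le_zero key
  unfold discrim at this
  nlinarith

theorem Met.up_cs (hg : Met g) (x : E n) (a b : Fin n → ℝ) :
    (∑ i, ∑ j, up g i j x * a i * b j) ^ 2 ≤
      (∑ i, ∑ j, up g i j x * a i * a j) * ∑ i, ∑ j, up g i j x * b i * b j :=
  quad_cs (fun i j => hg.up_sy i j x) (hg.up_nonneg x) a b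

/-! ### `ip`, `gn`, `gr` -/

theorem ip_eq_gr (g : Field n) (u v : E n → ℝ) (x : E n) :
    ip g u v x = ∑ i, pd i u x * gr g v i x := by
  unfold ip gr
  refine Finset.sum_congr rfl fun i _ => ?_
  rw [Finset.mul_sum]
  exact Finset.sum_congr rfl fun j _ => by ring

theorem Met.ip_sy (hg : Met g) (u v : E n → ℝ) (x : E n) : ip g u v x = ip g v u x := by
  unfold ip
  rw [Finset.sum_comm]
  exact Finset.sum_congr rfl fun i _ => Finset.sum_congr rfl fun j _ => by
    rw [hg.up_sy]; ring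

theorem Met.ip_nonneg (hg : Met g) (u : E n → ℝ) (x : E n) : 0 ≤ ip g u u x :=
  hg.up_nonneg x fun i => pd i u x

theorem gn_nonneg (g : Field n) (u : E n → ℝ) (x : E n) : 0 ≤ gn g u x := Real.sqrt_nonneg _

theorem Met.gn_sq (hg : Met g) (u : E n → ℝ) (x : E n) : gn g u x ^ 2 = ip g u u x :=
  Real.sq_sqrt (hg.ip_nonneg u x)

theorem gn_eq_covNorm (g : Field n) (u : E n → ℝ) (x : E n) :
    gn g u x = covNorm g (fun j => pd j u) x := rfl

theorem Met.ip_cs (hg : Met g) (u v : E n → ℝ) (x : E n) :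
    ip g u v x ^ 2 ≤ ip g u u x * ip g v v x :=
  hg.up_cs x (fun i => pd i u x) fun i => pd i v x

theorem Met.abs_ip_le (hg : Met g) (u v : E n → ℝ) (x : E n) :
    |ip g u v x| ≤ gn g u x * gn g v x := by
  refine abs_le_of_sq_le_sq' ?_ (mul_nonneg (gn_nonneg _ _ _) (gn_nonneg _ _ _)) |> abs_le.2
  rw [mul_pow, hg.gn_sq, hg.gn_sq]
  exact hg.ip_cs u v x

/-- `ip` depends only on the first derivatives at the point -/
theorem ip_of_pd {u' v' : E n → ℝ} {s t : ℝ} (hu : ∀ i, pd i u x = s * pd i u' x)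
    (hv : ∀ i, pd i v x = t * pd i v' x) : ip g u v x = s * t * ip g u' v' x := by
  unfold ip
  simp only [hu, hv, Finset.mul_sum]
  exact Finset.sum_congr rfl fun i _ => Finset.sum_congr rfl fun j _ => by ring

theorem ip_of_pd_add {u₁ u₂ : E n → ℝ} {s t : ℝ}
    (hu : ∀ i, pd i u x = s * pd i u₁ x + t * pd i u₂ x) :
    ip g u v x = s * ip g u₁ v x + t * ip g u₂ v x := by
  unfold ip
  simp only [hu, Finset.mul_sum, ← Finset.sum_add_distrib]
  exact Finset.sum_congr rfl fun i _ => Finset.sum_congr rfl fun j _ => by ring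

theorem ip_of_pd_add' {v₁ v₂ : E n → ℝ} {s t : ℝ}
    (hv : ∀ i, pd i v x = s * pd i v₁ x + t * pd i v₂ x) :
    ip g u v x = s * ip g u v₁ x + t * ip g u v₂ x := by
  unfold ip
  simp only [hv, Finset.mul_sum, ← Finset.sum_add_distrib]
  exact Finset.sum_congr rfl fun i _ => Finset.sum_congr rfl fun j _ => by ring

theorem gn_of_pd {u' : E n → ℝ} {s : ℝ} (hu : ∀ i, pd i u x = s * pd i u' x) :
    gn g u x = |s| * gn g u' x := by
  unfold gn
  rw [ip_of_pd hu hu, ← sq, Real.sqrt_mul (sq_nonneg _), Real.sqrt_sq_eq_abs]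

theorem gn_zero (hu : ∀ i, pd i u x = 0) : gn g u x = 0 := by
  unfold gn ip; simp [hu]

theorem ip_congr {u' v' : E n → ℝ} (hu : u =ᶠ[𝓝 x] u') (hv : v =ᶠ[𝓝 x] v') :
    ip g u v x = ip g u' v' x := by
  unfold ip; simp only [pd_congr hu, pd_congr hv]

theorem gn_congr {u' : E n → ℝ} (hu : u =ᶠ[𝓝 x] u') : gn g u x = gn g u' x := by
  unfold gn; rw [ip_congr hu hu]

theorem Met.gn_add_le (hg : Met g) {u₁ u₂ : E n → ℝ}
    (hu : ∀ i, pd i u x = pd i u₁ x + pd i u₂ x) : gn g u x ≤ gn g u₁ x + gn g u₂ x := by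
  have h1 : ∀ i, pd i u x = 1 * pd i u₁ x + 1 * pd i u₂ x := fun i => by rw [hu]; ring
  refine (abs_le_of_sq_le_sq' ?_ (add_nonneg (gn_nonneg _ _ _) (gn_nonneg _ _ _))).2
  rw [hg.gn_sq, ip_of_pd_add h1, ip_of_pd_add' h1, ip_of_pd_add' h1, add_sq, hg.gn_sq, hg.gn_sq,
    hg.ip_sy u₂ u₁]
  have := (abs_le.1 (hg.abs_ip_le u₁ u₂ x)).2
  linarith

theorem ip_comp {φ ψ : ℝ → ℝ} {a b : ℝ} (hφ : HasDerivAt φ a (u x)) (hψ : HasDerivAt ψ b (v x))
    (hu : DifferentiableAt ℝ u x) (hv : DifferentiableAt ℝ v x) :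
    ip g (fun y => φ (u y)) (fun y => ψ (v y)) x = a * b * ip g u v x :=
  ip_of_pd (pd_comp hφ hu) (pd_comp hψ hv)

theorem ip_comp_left {φ : ℝ → ℝ} {a : ℝ} (hφ : HasDerivAt φ a (u x))
    (hu : DifferentiableAt ℝ u x) : ip g (fun y => φ (u y)) v x = a * ip g u v x := by
  rw [ip_of_pd (pd_comp hφ hu) (v' := v) (t := 1) fun i => by ring]; ring

theorem ip_comp_right {φ : ℝ → ℝ} {a : ℝ} (hφ : HasDerivAt φ a (v x))
    (hv : DifferentiableAt ℝ v x) : ip g u (fun y => φ (v y)) x = a * ip g u v x := by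
  rw [ip_of_pd (u' := u) (s := 1) (fun i => by ring) (pd_comp hφ hv)]; ring

theorem gn_comp {φ : ℝ → ℝ} {a : ℝ} (hφ : HasDerivAt φ a (u x)) (hu : DifferentiableAt ℝ u x) :
    gn g (fun y => φ (u y)) x = |a| * gn g u x := gn_of_pd (pd_comp hφ hu)

theorem ip_mul_left (hu : DifferentiableAt ℝ u x) (hw : DifferentiableAt ℝ w x) :
    ip g (fun y => u y * w y) v x = w x * ip g u v x + u x * ip g w v x :=
  ip_of_pd_add fun i => by rw [pd_mul hu hw]; ring

theorem ip_mul_right (hv : DifferentiableAt ℝ v x) (hw : DifferentiableAt ℝ w x) :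
    ip g u (fun y => v y * w y) x = w x * ip g u v x + v x * ip g u w x :=
  ip_of_pd_add' fun i => by rw [pd_mul hv hw]; ring

theorem ip_add_left (hu : DifferentiableAt ℝ u x) (hw : DifferentiableAt ℝ w x) :
    ip g (fun y => u y + w y) v x = ip g u v x + ip g w v x := by
  rw [ip_of_pd_add (s := 1) (t := 1) (u₁ := u) (u₂ := w) fun i => by rw [pd_add hu hw]; ring]; ring

theorem ip_add_right (hv : DifferentiableAt ℝ v x) (hw : DifferentiableAt ℝ w x) :
    ip g u (fun y => v y + w y) x = ip g u v x + ip g u w x := by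
  rw [ip_of_pd_add' (s := 1) (t := 1) (v₁ := v) (v₂ := w) fun i => by rw [pd_add hv hw]; ring]; ring

theorem ip_const_left (c : ℝ) : ip g (fun _ => c) v x = 0 := by
  unfold ip; simp [pd_const]

theorem ip_const_right (c : ℝ) : ip g u (fun _ => c) x = 0 := by
  unfold ip; simp [pd_const]

theorem Met.contDiffAt_gr (hg : Met g) {m k : WithTop ℕ∞} (hu : ContDiffAt ℝ m u x)
    (hk : k + 1 ≤ m) (hk' : k ≤ ((⊤ : ℕ∞) : WithTop ℕ∞)) (i : Fin n) : ContDiffAt ℝ k (gr g u i) x :=
  ContDiffAt.sum fun j _ =>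
    ((ContDiff.contDiffAt (hg.sm_up i j)).of_le hk').mul (contDiffAt_pd hu hk j)

theorem Met.diff_gr (hg : Met g) (hu : ContDiffAt ℝ 2 u x) (i : Fin n) :
    DifferentiableAt ℝ (gr g u i) x :=
  (hg.contDiffAt_gr (k := 1) hu (by norm_num) (by norm_cast) i).differentiableAt (by norm_num)

theorem Met.sm_gr (hg : Met g) (hu : Smooth u) (i : Fin n) : Smooth (gr g u i) :=
  ContDiff.sum fun j _ => ContDiff.mul (hg.sm_up i j) (hu.pd j)

theorem Met.sm_ip (hg : Met g) (hu : Smooth u) (hv : Smooth v) : Smooth (ip g u v) :=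
  ContDiff.sum fun i _ => ContDiff.sum fun j _ =>
    ContDiff.mul (ContDiff.mul (hg.sm_up i j) (hu.pd i)) (hv.pd j)

/-! ### `dv`, `lap`, `wl` -/

theorem dv_congr {X Y : Fin n → E n → ℝ} (e : ∀ i, X i =ᶠ[𝓝 x] Y i) : dv g X x = dv g Y x := by
  unfold dv
  congr 1
  refine Finset.sum_congr rfl fun i _ => pd_congr ?_ i
  filter_upwards [e i] with y hy
  rw [hy]

theorem Met.dv_eq (hg : Met g) {X : Fin n → E n → ℝ} (hX : ∀ i, DifferentiableAt ℝ (X i) x) :
    dv g X x = ∑ i, pd i (X i) x + (∑ i, pd i (dens g) x * X i x) / dens g x := by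
  unfold dv
  have h0 := (hg.dens_pos x).ne'
  simp only [pd_mul (hg.sm_dens.diff x) (hX _)]
  rw [Finset.sum_add_distrib, ← Finset.mul_sum]
  field_simp
  ring

theorem Met.dv_smul (hg : Met g) {X : Fin n → E n → ℝ} (hf : DifferentiableAt ℝ f x)
    (hX : ∀ i, DifferentiableAt ℝ (X i) x) :
    dv g (fun i y => f y * X i y) x = f x * dv g X x + ∑ i, pd i f x * X i x := by
  rw [hg.dv_eq fun i => hf.fun_mul (hX i), hg.dv_eq hX]
  simp only [pd_mul hf (hX _)]
  rw [Finset.sum_add_distrib, ← Finset.mul_sum]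
  have : ∑ i, pd i (dens g) x * (f x * X i x) = f x * ∑ i, pd i (dens g) x * X i x := by
    rw [Finset.mul_sum]; exact Finset.sum_congr rfl fun i _ => by ring
  rw [this]; ring

theorem Met.dv_add (hg : Met g) {X Y : Fin n → E n → ℝ} (hX : ∀ i, DifferentiableAt ℝ (X i) x)
    (hY : ∀ i, DifferentiableAt ℝ (Y i) x) :
    dv g (fun i y => X i y + Y i y) x = dv g X x + dv g Y x := by
  rw [hg.dv_eq fun i => (hX i).fun_add (hY i), hg.dv_eq hX, hg.dv_eq hY]
  simp only [pd_add (hX _) (hY _), mul_add, Finset.sum_add_distrib]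
  ring

theorem dv_const_mul (c : ℝ) (X : Fin n → E n → ℝ) :
    dv g (fun i y => c * X i y) x = c * dv g X x := by
  unfold dv
  have : ∀ i, (fun y => dens g y * (c * X i y)) = fun y => c * (dens g y * X i y) :=
    fun i => funext fun y => by ring
  simp only [this, pd_const_mul, ← Finset.mul_sum]
  ring

theorem Met.sm_dv (hg : Met g) {X : Fin n → E n → ℝ} (hX : ∀ i, Smooth (X i)) : Smooth (dv g X) :=
  ContDiff.div (ContDiff.sum fun i _ =>
    Smooth.pd (f := fun y => dens g y * X i y) (ContDiff.mul hg.sm_dens (hX i)) i)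
    hg.sm_dens fun x => (hg.dens_pos x).ne'

theorem Met.sm_lap (hg : Met g) (hu : Smooth u) : Smooth (lap g u) := hg.sm_dv (hg.sm_gr hu)

theorem Met.sm_wl (hg : Met g) (hU : Smooth U) (hu : Smooth u) : Smooth (wl g U u) :=
  hg.sm_dv fun i => ContDiff.mul (ContDiff.pow hU 2) (hg.sm_gr hu i)

theorem gr_congr_ev (e : u =ᶠ[𝓝 x] v) (i : Fin n) : gr g u i =ᶠ[𝓝 x] gr g v i := by
  filter_upwards [e.eventuallyEq_nhds] with y hy
  unfold gr
  simp only [pd_congr hy]

theorem lap_congr (e : u =ᶠ[𝓝 x] v) : lap g u x = lap g v x := dv_congr (gr_congr_ev e)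

theorem wl_congr {U' : E n → ℝ} (eU : U =ᶠ[𝓝 x] U') (e : u =ᶠ[𝓝 x] v) :
    wl g U u x = wl g U' v x := by
  refine dv_congr fun i => ?_
  filter_upwards [eU, gr_congr_ev (g := g) e i] with y h1 h2
  rw [h1, h2]

/-- the first order coefficients of the Laplacian -/
def bv (g : Field n) (j : Fin n) : E n → ℝ := dv g fun i => up g i j

theorem Met.sm_bv (hg : Met g) (j : Fin n) : Smooth (bv g j) := hg.sm_dv fun i => hg.sm_up i j

theorem Met.dv_sum (hg : Met g) {ι : Type*} (s : Finset ι) {X : ι → Fin n → E n → ℝ}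
    (hX : ∀ k i, DifferentiableAt ℝ (X k i) x) :
    dv g (fun i y => ∑ k ∈ s, X k i y) x = ∑ k ∈ s, dv g (X k) x := by
  unfold dv
  have : ∀ i, pd i (fun y => dens g y * ∑ k ∈ s, X k i y) x =
      ∑ k ∈ s, pd i (fun y => dens g y * X k i y) x := fun i => by
    simp only [Finset.mul_sum]
    exact pd_sum s (fun k _ => (hg.sm_dens.diff x).mul (hX k i)) i
  simp only [this]
  rw [Finset.sum_comm, Finset.sum_div]

/-- the Laplacian in non-divergence form -/
theorem Met.lap_eq (hg : Met g) (hu : ContDiffAt ℝ 2 u x) :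
    lap g u x = ∑ i, ∑ j, up g i j x * pd i (pd j u) x + ∑ j, bv g j x * pd j u x := by
  have h1 : gr g u = fun i y => ∑ j ∈ Finset.univ, pd j u y * up g i j y := by
    funext i y; unfold gr; exact Finset.sum_congr rfl fun j _ => mul_comm _ _
  unfold lap
  rw [h1, hg.dv_sum (X := fun j i y => pd j u y * up g i j y) _
    fun j i => (diffAt_pd hu j).mul ((hg.sm_up i j).diff x)]
  simp only [hg.dv_smul (diffAt_pd hu _) fun i => (hg.sm_up i _).diff x]
  rw [Finset.sum_add_distrib, add_comm, Finset.sum_comm]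
  congr 1
  · exact Finset.sum_congr rfl fun i _ => Finset.sum_congr rfl fun j _ => mul_comm _ _
  · exact Finset.sum_congr rfl fun j _ => mul_comm _ _

theorem Met.wl_eq (hg : Met g) (hU : DifferentiableAt ℝ U x) (hu : ContDiffAt ℝ 2 u x) :
    wl g U u x = U x ^ 2 * lap g u x + 2 * U x * ip g U u x := by
  unfold wl
  rw [hg.dv_smul (hU.fun_pow 2) (hg.diff_gr hu), ip_eq_gr, Finset.mul_sum]
  congr 1
  refine Finset.sum_congr rfl fun i _ => ?_
  rw [pd_pow hU]; norm_num; ring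

theorem wl_one (g : Field n) (u : E n → ℝ) : wl g (fun _ => 1) u = lap g u := by
  unfold wl lap; simp

theorem lap_const (c : ℝ) : lap g (fun _ => c) x = 0 := by
  unfold lap dv gr; simp [pd_const]

theorem wl_const (c : ℝ) : wl g U (fun _ => c) x = 0 := by
  unfold wl dv gr; simp [pd_const]

/-- the general chain and product rule: `∇ u = a ∇ v + b ∇ w` near the point -/
theorem Met.wl_of_pd (hg : Met g) {a b : E n → ℝ} (hU : DifferentiableAt ℝ U x)
    (ha : DifferentiableAt ℝ a x) (hb : DifferentiableAt ℝ b x) (hv : ContDiffAt ℝ 2 v x)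
    (hw : ContDiffAt ℝ 2 w x)
    (e : ∀ᶠ y in 𝓝 x, ∀ i, pd i u y = a y * pd i v y + b y * pd i w y) :
    wl g U u x = a x * wl g U v x + b x * wl g U w x +
      U x ^ 2 * (ip g a v x + ip g b w x) := by
  have h1 : ∀ i, (fun y => U y ^ 2 * gr g u i y) =ᶠ[𝓝 x]
      fun y => a y * (U y ^ 2 * gr g v i y) + b y * (U y ^ 2 * gr g w i y) := fun i => by
    filter_upwards [e] with y hy
    unfold gr
    simp only [hy, Finset.mul_sum, ← Finset.sum_add_distrib]
    exact Finset.sum_congr rfl fun j _ => by ring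
  have dv1 : ∀ i, DifferentiableAt ℝ (fun y => U y ^ 2 * gr g v i y) x :=
    fun i => (hU.pow 2).mul (hg.diff_gr hv i)
  have dw1 : ∀ i, DifferentiableAt ℝ (fun y => U y ^ 2 * gr g w i y) x :=
    fun i => (hU.pow 2).mul (hg.diff_gr hw i)
  unfold wl
  rw [dv_congr h1, hg.dv_add (fun i => ha.fun_mul (dv1 i)) fun i => hb.fun_mul (dw1 i),
    hg.dv_smul ha dv1, hg.dv_smul hb dw1, ip_eq_gr, ip_eq_gr, mul_add, Finset.mul_sum,
    Finset.mul_sum]
  have e1 : ∀ (c z : E n → ℝ), ∑ i, pd i c x * (U x ^ 2 * gr g z i x) =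
      ∑ i, U x ^ 2 * (pd i c x * gr g z i x) := fun c z =>
    Finset.sum_congr rfl fun i _ => by ring
  rw [e1, e1]; ring

theorem Met.wl_lin (hg : Met g) (hU : DifferentiableAt ℝ U x) (hv : ContDiffAt ℝ 2 v x)
    (hw : ContDiffAt ℝ 2 w x) (s t : ℝ) :
    wl g U (fun y => s * v y + t * w y) x = s * wl g U v x + t * wl g U w x := by
  rw [hg.wl_of_pd (a := fun _ => s) (b := fun _ => t) hU (differentiableAt_const _)
    (differentiableAt_const _) hv hw, ip_const_left, ip_const_left]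
  · ring
  · filter_upwards [ev_diff hv, ev_diff hw] with y h1 h2 i
    rw [pd_add (h1.const_mul s) (h2.const_mul t), pd_const_mul, pd_const_mul]

theorem Met.wl_add (hg : Met g) (hU : DifferentiableAt ℝ U x) (hv : ContDiffAt ℝ 2 v x)
    (hw : ContDiffAt ℝ 2 w x) : wl g U (fun y => v y + w y) x = wl g U v x + wl g U w x := by
  simpa using hg.wl_lin hU hv hw 1 1

theorem Met.wl_sub (hg : Met g) (hU : DifferentiableAt ℝ U x) (hv : ContDiffAt ℝ 2 v x)
    (hw : ContDiffAt ℝ 2 w x) : wl g U (fun y => v y - w y) x = wl g U v x - wl g U w x := by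
  simpa [sub_eq_add_neg] using hg.wl_lin hU hv hw 1 (-1)

theorem wl_affine (s c : ℝ) : wl g U (fun y => s * v y + c) x = s * wl g U v x := by
  unfold wl
  rw [← dv_const_mul]
  congr 1
  funext i y
  unfold gr
  simp only [pd_add_const, pd_const_mul, Finset.mul_sum]
  exact Finset.sum_congr rfl fun j _ => by ring

theorem wl_const_mul (s : ℝ) : wl g U (fun y => s * v y) x = s * wl g U v x := by
  simpa using wl_affine (g := g) (U := U) (v := v) (x := x) s 0

theorem wl_neg : wl g U (fun y => -v y) x = -wl g U v x := by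
  simpa using wl_affine (g := g) (U := U) (v := v) (x := x) (-1) 0

theorem wl_const_sub (c : ℝ) : wl g U (fun y => c - v y) x = -wl g U v x := by
  have := wl_affine (g := g) (U := U) (v := v) (x := x) (-1) c
  simp only [neg_mul, one_mul] at this
  rw [← this]; congr 1; funext y; ring

theorem wl_add_const (c : ℝ) : wl g U (fun y => v y + c) x = wl g U v x := by
  simpa using wl_affine (g := g) (U := U) (v := v) (x := x) 1 c

theorem Met.wl_mul (hg : Met g) (hU : DifferentiableAt ℝ U x) (hv : ContDiffAt ℝ 2 v x)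
    (hw : ContDiffAt ℝ 2 w x) : wl g U (fun y => v y * w y) x =
      w x * wl g U v x + v x * wl g U w x + 2 * U x ^ 2 * ip g v w x := by
  rw [hg.wl_of_pd (a := w) (b := v) hU (diff2 hw) (diff2 hv) hv hw, hg.ip_sy w v]
  · ring
  · filter_upwards [ev_diff hv, ev_diff hw] with y h1 h2 i
    rw [pd_mul h1 h2]; ring

theorem Met.wl_comp (hg : Met g) {φ : ℝ → ℝ} (hU : DifferentiableAt ℝ U x)
    (hv : ContDiffAt ℝ 2 v x) (hφ : ContDiffAt ℝ 2 φ (v x)) : wl g U (fun y => φ (v y)) x =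
      deriv φ (v x) * wl g U v x + deriv (deriv φ) (v x) * (U x ^ 2 * ip g v v x) := by
  have h1 : DifferentiableAt ℝ (deriv φ) (v x) := by
    have : ContDiffAt ℝ 1 (fun t => fderiv ℝ φ t 1) (v x) :=
      (hφ.fderiv_right (m := 1) (by norm_num)).clm_apply contDiffAt_const
    exact this.differentiableAt (by norm_num)
  have h2 : ∀ᶠ y in 𝓝 x, DifferentiableAt ℝ φ (v y) :=
    hv.continuousAt.eventually
      ((hφ.eventually (by simp)).mono fun t ht => ht.differentiableAt (by norm_num))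
  rw [hg.wl_of_pd (a := fun y => deriv φ (v y)) (b := fun _ => 0) hU (h1.comp x (diff2 hv))
    (differentiableAt_const _) hv hv, ip_const_left, ip_comp_left h1.hasDerivAt (diff2 hv)]
  · ring
  · filter_upwards [ev_diff hv, h2] with y h3 h4 i
    rw [pd_comp h4.hasDerivAt h3]; ring

theorem Met.lap_lin (hg : Met g) (hv : ContDiffAt ℝ 2 v x) (hw : ContDiffAt ℝ 2 w x) (s t : ℝ) :
    lap g (fun y => s * v y + t * w y) x = s * lap g v x + t * lap g w x := by
  simpa only [wl_one] using hg.wl_lin (U := fun _ => 1) (differentiableAt_const _) hv hw s t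

theorem Met.lap_add (hg : Met g) (hv : ContDiffAt ℝ 2 v x) (hw : ContDiffAt ℝ 2 w x) :
    lap g (fun y => v y + w y) x = lap g v x + lap g w x := by
  simpa only [wl_one] using hg.wl_add (U := fun _ => 1) (differentiableAt_const _) hv hw

theorem Met.lap_sub (hg : Met g) (hv : ContDiffAt ℝ 2 v x) (hw : ContDiffAt ℝ 2 w x) :
    lap g (fun y => v y - w y) x = lap g v x - lap g w x := by
  simpa only [wl_one] using hg.wl_sub (U := fun _ => 1) (differentiableAt_const _) hv hw

theorem lap_affine (s c : ℝ) : lap g (fun y => s * v y + c) x = s * lap g v x := by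
  simpa only [wl_one] using wl_affine (g := g) (U := fun _ => 1) (v := v) (x := x) s c

theorem lap_const_mul (s : ℝ) : lap g (fun y => s * v y) x = s * lap g v x := by
  simpa using lap_affine (g := g) (v := v) (x := x) s 0

theorem lap_neg : lap g (fun y => -v y) x = -lap g v x := by
  simpa using lap_affine (g := g) (v := v) (x := x) (-1) 0

theorem lap_add_const (c : ℝ) : lap g (fun y => v y + c) x = lap g v x := by
  simpa using lap_affine (g := g) (v := v) (x := x) 1 c

theorem lap_const_sub (c : ℝ) : lap g (fun y => c - v y) x = -lap g v x := by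
  simpa only [wl_one] using wl_const_sub (g := g) (U := fun _ => 1) (v := v) (x := x) c

theorem Met.lap_mul (hg : Met g) (hv : ContDiffAt ℝ 2 v x) (hw : ContDiffAt ℝ 2 w x) :
    lap g (fun y => v y * w y) x = w x * lap g v x + v x * lap g w x + 2 * ip g v w x := by
  simpa [wl_one] using hg.wl_mul (U := fun _ => 1) (differentiableAt_const _) hv hw

theorem Met.lap_comp (hg : Met g) {φ : ℝ → ℝ} (hv : ContDiffAt ℝ 2 v x)
    (hφ : ContDiffAt ℝ 2 φ (v x)) : lap g (fun y => φ (v y)) x =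
      deriv φ (v x) * lap g v x + deriv (deriv φ) (v x) * ip g v v x := by
  simpa [wl_one] using hg.wl_comp (U := fun _ => 1) (differentiableAt_const _) hv hφ

/-- `U lap (U f) = U f lap U + wl U f` -/
theorem Met.mul_lap_mul (hg : Met g) (hU : ContDiffAt ℝ 2 U x) (hf : ContDiffAt ℝ 2 f x) :
    U x * lap g (fun y => U y * f y) x = U x * f x * lap g U x + wl g U f x := by
  rw [hg.lap_mul hU hf, hg.wl_eq (diff2 hU) hf]; ring

theorem Met.lap_mul_wl (hg : Met g) (hU : ContDiffAt ℝ 2 U x) (hf : ContDiffAt ℝ 2 f x)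
    (h0 : U x ≠ 0) : lap g (fun y => U y * f y) x = f x * lap g U x + wl g U f x / U x := by
  have := hg.mul_lap_mul hU hf
  field_simp
  linarith

theorem Met.cl_mul (hg : Met g) (hU : ContDiffAt ℝ 2 U x) (hf : ContDiffAt ℝ 2 f x)
    (h0 : U x ≠ 0) :
    cl g (fun y => U y * f y) x = f x * cl g U x - 4 * gam n * (wl g U f x / U x) := by
  unfold cl
  rw [hg.lap_mul_wl hU hf h0]; ring

end Vale.Agent.P366Z
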