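import Vale.Agent.P366Z.Sk
import Vale.Agent.P366Z.Calc

/-!
# P366Z: the quantitative strong minimum principle
-/

open Metric Filter Topology Set
open scoped ContDiff
open Vale.Agent.P366.Stmt

noncomputable section

namespace Vale.Agent.P366Z

namespace Chain

variable {n : ℕ} {g : Field n} {U : E n → ℝ} {c : ℝ}

/-- the barrier of Hopf -/
theorem barrier (hg : Met g) (hU : Smooth U) (U0 : ∀ x, 0 < U x) (hc : 0 ≤ c) (y : E n) {s : ℝ}
    (hs : 0 < s) (t : ℝ) : ∃ l > (0 : ℝ), ∀ a : ℝ, ∀ x ∈ closedBall y t \ ball y s,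
      c * Real.exp (-l * ‖x - y‖ ^ 2) ≤
        wl g U (fun z => Real.exp (-l * ‖z - y‖ ^ 2) - a) x := by
  have hv : Smooth fun z : E n => ‖z - y‖ ^ 2 := (contDiff_id.sub contDiff_const).norm_sq ℝ
  have hK := (isCompact_closedBall y t).diff (isOpen_ball (x := y) (ε := s))
  obtain ⟨b, hb⟩ := hK.exists_bound_of_continuousOn (hg.sm_wl hU hv).cont.continuousOn
  obtain ⟨a, a0, ha⟩ := hK.exists_forall_le' (a := 0)
    (f := fun x => U x ^ 2 * ip g (fun z => ‖z - y‖ ^ 2) (fun z => ‖z - y‖ ^ 2) x)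
    ((hU.cont.pow 2).mul (hg.sm_ip hv hv).cont).continuousOn fun x hx => by
      refine mul_pos (pow_pos (U0 x) 2) (hg.up_pos x fun h => hx.2 ?_)
      have e : x - y = 0 := by
        ext i
        have k := congrFun h i
        rw [pd_translate (f := fun z => ‖z‖ ^ 2), pd_normSq] at k
        simpa using k
      rw [sub_eq_zero.1 e]
      exact mem_ball_self hs
  have l1 : 1 ≤ max 1 ((|b| + c) / a) := le_max_left _ _
  have l2 := (div_le_iff₀ a0).1 (le_max_right 1 ((|b| + c) / a))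
  generalize max 1 ((|b| + c) / a) = l at l1 l2
  refine ⟨l, by linarith, fun a' x hx => ?_⟩
  have d1 : ∀ t, HasDerivAt (fun t => Real.exp (-l * t)) (Real.exp (-l * t) * -l) t := fun t => by
    simpa using ((hasDerivAt_id t).const_mul (-l)).exp
  have e1 : deriv (fun t => Real.exp (-l * t) - a') = fun t => Real.exp (-l * t) * -l :=
    funext fun t => ((d1 t).sub_const a').deriv
  rw [hg.wl_comp (φ := fun t => Real.exp (-l * t) - a') (hU.diff x) (hv.c2 x) (by fun_prop), e1,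
    ((d1 _).mul_const _).deriv]
  have k1 := (le_abs_self _).trans ((hb x hx).trans (le_abs_self b))
  have k2 := ha x hx
  have k3 := Real.exp_pos (-l * ‖x - y‖ ^ 2)
  beta_reduce at k2 ⊢
  generalize Real.exp (-l * ‖x - y‖ ^ 2) = e, wl g U (fun z => ‖z - y‖ ^ 2) x = w,
    U x ^ 2 * ip g (fun z => ‖z - y‖ ^ 2) (fun z => ‖z - y‖ ^ 2) x = p at *
  have k4 : c ≤ l * (l * p - w) := by
    have := mul_le_mul_of_nonneg_left k2 (by linarith : 0 ≤ l)
    nlinarith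
  nlinarith [mul_le_mul_of_nonneg_left k4 k3.le]

theorem hopf (h : WMP) (hn : 0 < n) (hg : Met g) (hU : Smooth U) (U0 : ∀ x, 0 < U x) (hc : 0 ≤ c)
    (y : E n) {s R : ℝ} (hs : 0 < s) (hR : 0 < R) : ∃ k > (0 : ℝ), ∀ (m : ℝ) (u : E n → ℝ), 0 < m →
      (∀ x ∈ closedBall y (3 * R), ContDiffAt ℝ 2 u x ∧ 0 ≤ u x ∧ wl g U u x ≤ c * u x) →
      (∀ x ∈ closedBall y s, m ≤ u x) → ∀ x ∈ ball y (2 * R), k * m ≤ u x := by
  obtain ⟨l, l0, hl⟩ := barrier hg hU U0 hc y hs (3 * R)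
  have mono : ∀ a b : ℝ, 0 ≤ a → a ≤ b → Real.exp (-l * b ^ 2) ≤ Real.exp (-l * a ^ 2) :=
    fun a b h0 h1 => Real.exp_le_exp.2 (by nlinarith [pow_le_pow_left₀ h0 h1 2])
  have one : ∀ a : ℝ, Real.exp (-l * a ^ 2) ≤ 1 := fun a =>
    Real.exp_le_one_iff.2 (by nlinarith [sq_nonneg a])
  have a0 := Real.exp_pos (-l * (3 * R) ^ 2)
  refine ⟨Real.exp (-l * (2 * R) ^ 2) - Real.exp (-l * (3 * R) ^ 2),
    sub_pos.2 (Real.exp_lt_exp.2 (by nlinarith [mul_pos l0 (pow_pos hR 2)])),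
    fun m u m0 hu hm x hx => ?_⟩
  by_cases hx' : x ∈ closedBall y s
  · nlinarith [hm x hx', one (2 * R)]
  have hv : Smooth fun z : E n => Real.exp (-l * ‖z - y‖ ^ 2) - Real.exp (-l * (3 * R) ^ 2) :=
    (contDiff_const.mul ((contDiff_id.sub contDiff_const).norm_sq ℝ)).exp.sub contDiff_const
  have ho : IsOpen (ball y (3 * R) \ closedBall y s) := isOpen_ball.sdiff isClosed_closedBall
  have cl : closure (ball y (3 * R) \ closedBall y s) ⊆ closedBall y (3 * R) :=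
    closure_minimal (sdiff_subset.trans ball_subset_closedBall) isClosed_closedBall
  have k := h n g U (fun z => 1 * u z + -m * (Real.exp (-l * ‖z - y‖ ^ 2) -
    Real.exp (-l * (3 * R) ^ 2))) (fun _ => c) _ hn hg hU U0 ho
    (fun z hz => ((continuousAt_const.mul (hu z (cl hz)).1.continuousAt).add
      (continuousAt_const.mul hv.cont.continuousAt)).continuousWithinAt)
    (fun z hz => ?_) (fun z hz => ?_) (fun e _ => ⟨‖y‖ + 3 * R, fun z hz k => ?_⟩) x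
    ⟨ball_subset_ball (by linarith) hx, hx'⟩
  · have := mono _ _ (norm_nonneg _) (mem_ball_iff_norm.1 hx).le
    nlinarith
  · obtain ⟨k1, -, k3⟩ := hu z (ball_subset_closedBall hz.1)
    refine ⟨(contDiffAt_const.mul k1).add (contDiffAt_const.mul (hv.c2 z)), hc, ?_⟩
    have k4 := hl (Real.exp (-l * (3 * R) ^ 2)) z
      ⟨ball_subset_closedBall hz.1, fun k => hz.2 (ball_subset_closedBall k)⟩
    rw [hg.wl_lin (hU.diff z) k1 (hv.c2 z)]
    nlinarith [mul_le_mul_of_nonneg_left k4 m0.le, mul_nonneg (mul_nonneg m0.le hc) a0.le]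
  · rw [ho.frontier_eq] at hz
    by_cases k : z ∈ closedBall y s
    · nlinarith [hm z k, one ‖z - y‖]
    · have k1 : 3 * R ≤ ‖z - y‖ := not_lt.1 fun k1 => hz.2 ⟨mem_ball_iff_norm.2 k1, k⟩
      nlinarith [mono _ _ (by linarith) k1, (hu z (cl hz.1)).2.1]
  · linarith [norm_sub_norm_le z y, mem_ball_iff_norm.1 hz.1]

end Chain

theorem chain_of (h : WMP) : CHAIN := by
  intro n g U c r O K x₀ hg hU U0 hc hO hO' hK hKO hr hb
  rcases n.eq_zero_or_pos with rfl | hn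
  · exact ⟨1, one_pos, fun u _ h1 x _ =>
      h1 x (by rw [Subsingleton.elim x x₀]; exact mem_ball_self hr)⟩
  let A : (E n → ℝ) → Prop := fun u =>
    (∀ x ∈ O, ContDiffAt ℝ 2 u x ∧ 0 ≤ u x ∧ wl g U u x ≤ c * u x) ∧ ∀ x ∈ ball x₀ r, 1 ≤ u x
  have k : O ⊆ {x | ∃ c' > (0 : ℝ), ∀ᶠ z in 𝓝 x, ∀ u, A u → c' ≤ u z} := by
    refine hO'.subset_of_closure_inter_subset
      (isOpen_iff_mem_nhds.2 fun x ⟨c', c0, hx⟩ => hx.eventually_nhds.mono fun z hz => ⟨c', c0, hz⟩)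
      ⟨x₀, hb (mem_ball_self hr), 1, one_pos,
        mem_of_superset (ball_mem_nhds x₀ hr) fun z hz u hu => hu.2 z hz⟩ fun x ⟨hx, hx'⟩ => ?_
    obtain ⟨ε, e0, he⟩ := Metric.isOpen_iff.1 hO x hx'
    obtain ⟨y, ⟨m, m0, hy⟩, hd⟩ := Metric.mem_closure_iff.1 hx (ε / 5) (by linarith)
    obtain ⟨s, s0, hs⟩ := Metric.nhds_basis_closedBall.eventually_iff.1 hy
    obtain ⟨k, k0, hk⟩ := Chain.hopf h hn hg hU U0 hc y s0 (by linarith : 0 < ε / 5)
    refine ⟨k * m, mul_pos k0 m0, mem_of_superset (isOpen_ball.mem_nhds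
      (mem_ball.2 (by linarith : dist x y < 2 * (ε / 5)))) fun z hz u hu =>
        hk m u m0 (fun w hw => hu.1 w (he ?_)) (fun w hw => hs hw u hu) z hz⟩
    rw [mem_ball]
    linarith [dist_triangle_right w x y, mem_closedBall.1 hw]
  obtain ⟨c', c0, hc'⟩ := hK.induction_on
    (p := fun S => ∃ c' > (0 : ℝ), ∀ z ∈ S, ∀ u, A u → c' ≤ u z)
    ⟨1, one_pos, fun _ h => h.elim⟩ (fun _ _ h ⟨N, a, b⟩ => ⟨N, a, fun y hy => b y (h hy)⟩)
    (fun _ _ ⟨N, a, b⟩ ⟨N', a', b'⟩ => ⟨min N N', lt_min a a', fun y hy u hu =>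
      hy.elim (fun h => (min_le_left _ _).trans (b y h u hu))
        fun h => (min_le_right _ _).trans (b' y h u hu)⟩) fun x hx => by
      obtain ⟨c', c0, h1⟩ := k (hKO hx)
      exact ⟨_, mem_nhdsWithin_of_mem_nhds h1, c', c0, fun z hz => hz⟩
  exact ⟨c', c0, fun u h1 h2 x hx => hc' x hx u ⟨h1, h2⟩⟩

end Vale.Agent.P366Z
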