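import Vale.Agent.P366Z.Calc2
import Mathlib.Analysis.Matrix.Order
import Mathlib.Analysis.Calculus.DerivativeTest
import Mathlib.Algebra.Order.Chebyshev

/-!
# P366Z, row GRAD: the second derivative test and the matrix inequality
-/

open Filter Topology
open scoped MatrixOrder
open Vale.Agent.P366.Stmt

noncomputable section

namespace Vale.Agent.P366Z.Grad

variable {n : ℕ}

/-- the quadratic form of a matrix -/
def qf (M : Fin n → Fin n → ℝ) (ξ : Fin n → ℝ) : ℝ := ∑ i, ∑ j, M i j * ξ i * ξ j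

/-- the pairing of two matrices -/
def pr (M H : Fin n → Fin n → ℝ) : ℝ := ∑ i, ∑ j, M i j * H i j

theorem pr_le {C H : Fin n → Fin n → ℝ} (hs : ∀ i j, C i j = C j i) (h0 : ∀ ξ, 0 ≤ qf C ξ)
    (hH : ∀ ξ, qf H ξ ≤ 0) : pr C H ≤ 0 := by
  have hC : (Matrix.of C).PosSemidef := Matrix.PosSemidef.of_dotProduct_mulVec_nonneg
    (Matrix.IsHermitian.ext fun i j => by simp [hs i j]) fun ξ => by
      rw [← quad_eq]; exact h0 ξ
  obtain ⟨B, hB⟩ := CStarAlgebra.nonneg_iff_eq_star_mul_self.mp hC.nonneg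
  have e : ∀ i j, C i j = ∑ k, B k i * B k j := fun i j => by
    have := congrFun (congrFun hB i) j
    simpa [Matrix.mul_apply, Matrix.star_apply] using this
  have : pr C H = ∑ k, qf H (B k) := by
    simp only [pr, qf, e, Finset.sum_mul]
    rw [Finset.sum_congr rfl fun i _ => Finset.sum_comm, Finset.sum_comm]
    exact Finset.sum_congr rfl fun k _ => Finset.sum_congr rfl fun i _ =>
      Finset.sum_congr rfl fun j _ => by ring
  rw [this]
  exact Finset.sum_nonpos fun k _ => hH _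

/-- the unit matrix -/
def id1 (i j : Fin n) : ℝ := if i = j then 1 else 0

theorem qf_lin (A B : Fin n → Fin n → ℝ) (s t c : ℝ) (ξ : Fin n → ℝ) :
    qf (fun i j => s * A i j + t * B i j + c * id1 i j) ξ =
      s * qf A ξ + t * qf B ξ + c * ∑ i, ξ i ^ 2 := by
  simp only [qf, id1, add_mul, Finset.sum_add_distrib, Finset.mul_sum, mul_assoc, ite_mul, mul_ite,
    one_mul, zero_mul, mul_zero, Finset.sum_ite_eq, Finset.mem_univ, if_true, sq]

theorem pr_lin (A B H : Fin n → Fin n → ℝ) (s t c : ℝ) :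
    pr (fun i j => s * A i j + t * B i j + c * id1 i j) H =
      s * pr A H + t * pr B H + c * ∑ i, H i i := by
  simp only [pr, id1, add_mul, Finset.sum_add_distrib, Finset.mul_sum, mul_assoc, ite_mul, mul_ite,
    one_mul, zero_mul, mul_zero, Finset.sum_ite_eq, Finset.mem_univ, if_true]

theorem pr_comm (A H : Fin n → Fin n → ℝ) : pr A H = pr H A := by
  simp only [pr, mul_comm]

theorem qf_single (X : Fin n → Fin n → ℝ) (k : Fin n) : qf X (Pi.single k 1) = X k k := by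
  simp [qf, Pi.single_apply]

theorem qf_zero (X : Fin n → Fin n → ℝ) : qf X 0 = 0 := by simp [qf]

theorem alg {A B X Y : Fin n → Fin n → ℝ} {z : Fin n → ℝ} {Λ r P N T : ℝ} (hn : 1 ≤ n)
    (hr : 0 < r) (hz : ∑ i, z i ^ 2 = r ^ 2) (hΛ : 0 < Λ) (hP : 0 ≤ P) (hN : 0 ≤ N)
    (hA : ∀ i j, A i j = A j i) (hB : ∀ i j, B i j = B j i)
    (lo : ∀ ξ, ∑ i, ξ i ^ 2 ≤ Λ * qf A ξ) (hi : ∀ i j, |A i j| ≤ Λ)
    (li : ∀ i j, |A i j - B i j| ≤ Λ * r) (sm : 2 * n * Λ ^ 2 * r ≤ 1)
    (h1 : ∀ ξ η, qf X ξ - qf Y η ≤ P * ∑ i, (ξ i - η i) ^ 2 + 2 * N * ∑ i, ξ i ^ 2)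
    (h2 : qf X z - qf Y z ≤ (2 * N - T) * r ^ 2) :
    pr A X - pr B Y ≤ 2 * N * (n * Λ) - T / (2 * Λ) + 3 * n ^ 2 * Λ * r * P := by
  obtain ⟨μ, hμ⟩ : ∃ μ : ℝ, μ = 1 / (2 * Λ * r ^ 2) := ⟨_, rfl⟩
  obtain ⟨δ, hδ⟩ : ∃ δ : ℝ, δ = n * Λ * r := ⟨_, rfl⟩
  have hμ0 : 0 < μ := by rw [hμ]; positivity
  have hn' : (1 : ℝ) ≤ n := by exact_mod_cast hn
  have hδ0 : 0 < δ := by rw [hδ]; positivity
  have hμr : μ * r ^ 2 = 1 / (2 * Λ) := by rw [hμ]; field_simp
  have sy : ∀ i j : Fin n, id1 i j = id1 j i := fun i j => by simp only [id1, eq_comm]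
  have s0 : ∀ ξ : Fin n → ℝ, 0 ≤ ∑ i, ξ i ^ 2 := fun ξ => Finset.sum_nonneg fun i _ => sq_nonneg _
  have c1 := pr_le (C := fun i j => 1 * A i j + -μ * (z i * z j) + -δ * id1 i j)
    (H := fun i j => 1 * X i j + -1 * Y i j + -(2 * N) * id1 i j)
    (fun i j => by rw [hA i j, sy i j, mul_comm (z i)]) (fun ξ => by
      rw [qf_lin]
      have a1 : qf (fun i j => z i * z j) ξ = (∑ i, z i * ξ i) ^ 2 := by
        rw [qf, sq, Finset.sum_mul_sum]
        exact Finset.sum_congr rfl fun i _ => Finset.sum_congr rfl fun j _ => by ring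
      have a2 := Finset.sum_mul_sq_le_sq_mul_sq Finset.univ z ξ
      rw [hz] at a2
      have a3 := mul_le_mul_of_nonneg_left a2 hμ0.le
      rw [← mul_assoc, hμr] at a3
      have a4 : δ ≤ 1 / (2 * Λ) := by
        rw [le_div_iff₀ (by positivity), hδ]; linarith
      have a5 := mul_le_mul_of_nonneg_right a4 (s0 ξ)
      have a6 : 1 / Λ * ∑ i, ξ i ^ 2 ≤ qf A ξ := by
        rw [one_div, inv_mul_le_iff₀ hΛ]; exact lo ξ
      have a7 : 1 / Λ = 1 / (2 * Λ) + 1 / (2 * Λ) := by field_simp; norm_num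
      rw [a1]
      rw [a7] at a6
      linarith) (fun ξ => by
      have := h1 ξ ξ
      simp only [sub_self, ne_eq, OfNat.ofNat_ne_zero, not_false_eq_true, zero_pow,
        Finset.sum_const_zero, mul_zero, zero_add] at this
      rw [qf_lin]
      linarith)
  have c2 := pr_le (C := fun i j => 1 * B i j + -1 * A i j + δ * id1 i j)
    (H := fun i j => 0 * X i j + -1 * Y i j + -P * id1 i j)
    (fun i j => by rw [hA i j, hB i j, sy i j]) (fun ξ => by
      rw [qf_lin]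
      have a1 : qf A ξ - qf B ξ ≤ Λ * r * (∑ i, |ξ i|) ^ 2 := by
        rw [qf, qf, ← Finset.sum_sub_distrib, sq, Finset.sum_mul_sum, Finset.mul_sum]
        refine Finset.sum_le_sum fun i _ => ?_
        rw [← Finset.sum_sub_distrib, Finset.mul_sum]
        refine Finset.sum_le_sum fun j _ => ?_
        rw [← sub_mul, ← sub_mul, mul_assoc, ← abs_mul]
        refine (le_abs_self _).trans ?_
        rw [abs_mul]
        exact mul_le_mul_of_nonneg_right (li i j) (abs_nonneg _)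
      have a2 := sq_sum_le_card_mul_sum_sq (s := Finset.univ) (f := fun i => |ξ i|)
      simp only [sq_abs, Finset.card_univ, Fintype.card_fin] at a2
      have a3 := mul_le_mul_of_nonneg_left a2 (show 0 ≤ Λ * r by positivity)
      rw [hδ]
      linarith) (fun ξ => by
      have := h1 0 ξ
      simp only [qf_zero, Pi.zero_apply, zero_sub, even_two, Even.neg_pow, ne_eq,
        OfNat.ofNat_ne_zero, not_false_eq_true, zero_pow, Finset.sum_const_zero, mul_zero,
        add_zero] at this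
      rw [qf_lin]
      linarith)
  have c3 : ∑ i, X i i ≤ n * (P + 2 * N) := by
    have := Finset.sum_le_card_nsmul Finset.univ (fun i => X i i) (P + 2 * N) fun k _ => by
      have := h1 (Pi.single k 1) 0
      rw [qf_single, qf_zero] at this
      simpa [Pi.single_apply] using this
    simpa [mul_add] using this
  have c4 : ∑ i, A i i ≤ n * Λ := by
    have := Finset.sum_le_card_nsmul Finset.univ (fun i => A i i) Λ fun k _ =>
      (le_abs_self _).trans (hi k k)
    simpa using this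
  have c5 : ∑ i, B i i - ∑ i, A i i ≤ δ := by
    have := Finset.sum_le_card_nsmul Finset.univ (fun i => B i i - A i i) (Λ * r) fun k _ =>
      (le_abs_self _).trans ((abs_sub_comm _ _).trans_le (li k k))
    rw [Finset.sum_sub_distrib] at this
    simpa [hδ, mul_assoc] using this
  have zz : ∀ H : Fin n → Fin n → ℝ, pr (fun i j => z i * z j) H = qf H z := fun H =>
    Finset.sum_congr rfl fun i _ => Finset.sum_congr rfl fun j _ => by ring
  have i1 : ∑ i : Fin n, id1 i i = n := by simp [id1]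
  rw [pr_lin, zz, qf_lin, pr_comm A, pr_lin, hz] at c1
  rw [pr_lin, pr_comm A, pr_comm B, pr_lin, pr_lin] at c2
  simp only [Finset.sum_add_distrib, ← Finset.mul_sum, i1] at c1 c2
  rw [pr_comm A, pr_comm B]
  have d1 := mul_le_mul_of_nonneg_left h2 hμ0.le
  have d2 := mul_le_mul_of_nonneg_left c3 hδ0.le
  have d3 := mul_le_mul_of_nonneg_left c4 hN
  have d4 := mul_le_mul_of_nonneg_left c5 hP
  have d5 : μ * (T * r ^ 2) = T / (2 * Λ) := by
    rw [mul_left_comm, hμr]; ring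
  have d6 := mul_le_mul_of_nonneg_right hn' (mul_nonneg hP hδ0.le)
  have d7 : n * (P * δ) = n ^ 2 * Λ * r * P := by rw [hδ]; ring
  linarith

section test

variable {F : Type} [NormedAddCommGroup F] [NormedSpace ℝ F]

theorem line {f : F → ℝ} {a : F} (hf : ContDiffAt ℝ 2 f a) (ξ : F) :
    (∀ᶠ t : ℝ in 𝓝 0, HasDerivAt (fun t : ℝ => f (a + t • ξ)) (fderiv ℝ f (a + t • ξ) ξ) t) ∧
      HasDerivAt (fun t : ℝ => fderiv ℝ f (a + t • ξ) ξ) (fderiv ℝ (fderiv ℝ f) a ξ ξ) 0 := by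
  have h : ∀ t : ℝ, HasDerivAt (fun t : ℝ => a + t • ξ) ξ t := fun t => by
    simpa using ((hasDerivAt_id t).smul_const ξ).const_add a
  have h0 : a + (0 : ℝ) • ξ = a := by simp
  constructor
  · have ht : Tendsto (fun t : ℝ => a + t • ξ) (𝓝 0) (𝓝 a) :=
      (h 0).continuousAt.tendsto.mono_right (congrArg 𝓝 h0).le
    filter_upwards [ht.eventually (hf.eventually (by simp))] with t k
    exact (k.differentiableAt (by norm_num)).hasFDerivAt.comp_hasDerivAt t (h t)
  · have k : HasFDerivAt (fderiv ℝ f) (fderiv ℝ (fderiv ℝ f) a) (a + (0 : ℝ) • ξ) := by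
      rw [h0]
      exact ((hf.fderiv_right (m := 1) (by norm_num)).differentiableAt (by norm_num)).hasFDerivAt
    have k1 : HasDerivAt (fun t : ℝ => fderiv ℝ f (a + t • ξ)) (fderiv ℝ (fderiv ℝ f) a ξ) 0 :=
      HasFDerivAt.comp_hasDerivAt (l := fderiv ℝ f) (f := fun t : ℝ => a + t • ξ) (0 : ℝ) k (h 0)
    simpa using k1.clm_apply (hasDerivAt_const (0 : ℝ) ξ)

theorem test {f h : F → ℝ} {a b ξ η : F} {α β : ℝ} (hf : ContDiffAt ℝ 2 f a)
    (hh : ContDiffAt ℝ 2 h b) (H : ∀ᶠ t : ℝ in 𝓝 0,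
      f (a + t • ξ) - h (b + t • η) ≤ f a - h b + α * t + β * t ^ 2) :
    fderiv ℝ f a ξ - fderiv ℝ h b η = α ∧
      fderiv ℝ (fderiv ℝ f) a ξ ξ - fderiv ℝ (fderiv ℝ h) b η η ≤ 2 * β := by
  obtain ⟨f1, f2⟩ := line hf ξ
  obtain ⟨h1, h2⟩ := line hh η
  obtain ⟨G, hG⟩ : ∃ G : ℝ → ℝ, G = fun t => f (a + t • ξ) - h (b + t • η) - α * t - β * t ^ 2 :=
    ⟨_, rfl⟩
  have hm : IsLocalMax G 0 := H.mono fun t k => by
    simp only [hG, zero_smul, add_zero]
    linarith
  have d1 : ∀ᶠ t : ℝ in 𝓝 0, HasDerivAt G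
      (fderiv ℝ f (a + t • ξ) ξ - fderiv ℝ h (b + t • η) η - α - β * (2 * t)) t := by
    filter_upwards [f1, h1] with t k k'
    rw [hG]
    simpa using ((k.fun_sub k').fun_sub ((hasDerivAt_id' t).const_mul α)).fun_sub
      ((hasDerivAt_pow 2 t).const_mul β)
  have d2 : deriv (deriv G) 0 =
      fderiv ℝ (fderiv ℝ f) a ξ ξ - fderiv ℝ (fderiv ℝ h) b η η - β * 2 := by
    rw [EventuallyEq.deriv_eq (d1.mono fun t k => k.deriv)]
    simpa using ((((f2.fun_sub h2).sub_const α).fun_sub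
      (((hasDerivAt_id' (0 : ℝ)).const_mul 2).const_mul β))).deriv
  have d3 := hm.deriv_eq_zero
  refine ⟨?_, le_of_not_gt fun k => ?_⟩
  · rw [d1.self_of_nhds.deriv] at d3
    simpa [sub_eq_zero] using d3
  · have m := isLocalMin_of_deriv_deriv_pos (f := G) (x₀ := 0) (by rw [d2]; linarith) d3
      d1.self_of_nhds.continuousAt
    have e : G =ᶠ[𝓝 0] fun _ => G 0 := (hm.and m).mono fun t k => le_antisymm k.1 k.2
    rw [e.deriv.deriv_eq] at d2
    simp only [deriv_const', deriv_const] at d2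
    linarith

end test

theorem d2_eq {u : E n → ℝ} {x : E n} (hu : ContDiffAt ℝ 2 u x) (ξ : E n) :
    fderiv ℝ (fderiv ℝ u) x ξ ξ = qf (fun i j => pd i (pd j u) x) ξ := by
  have e : ξ = ∑ i, ξ i • EuclideanSpace.single i (1 : ℝ) := by
    ext j; simp [Pi.single_apply]
  conv_lhs => rw [e]
  simp only [qf, pd_pd_eq hu, map_sum, map_smul, _root_.sum_apply, smul_apply,
    smul_eq_mul, Finset.mul_sum]
  rw [Finset.sum_comm]
  exact Finset.sum_congr rfl fun i _ => Finset.sum_congr rfl fun j _ => by ring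

end Vale.Agent.P366Z.Grad
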