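import Vale.Agent.P366Z.Sk
import Vale.Agent.P366Z.GradA

/-!
# P366Z, row GRAD: the gradient estimate, by doubling the variables
-/

open Metric Filter Topology Set
open Vale.Agent.P366.Stmt

noncomputable section

namespace Vale.Agent.P366Z

namespace Grad

variable {n : ℕ}

theorem nsq (z w : E n) (t : ℝ) :
    ‖z + t • w‖ ^ 2 = ‖z‖ ^ 2 + 2 * t * inner ℝ z w + t ^ 2 * ‖w‖ ^ 2 := by
  rw [norm_add_sq_real, real_inner_smul_right, norm_smul, mul_pow, Real.norm_eq_abs, sq_abs]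
  ring

theorem pos {R M L r d : ℝ} (hR : 0 < R) (hM : 0 ≤ M) (hL : 8 * M / R ≤ L) (hr : 0 ≤ r)
    (hr2 : r ≤ 2 * R)
    (h : L * (r - 1 / (4 * R) * r ^ 2) + 8 * M / R ^ 2 * d ^ 2 < 2 * M) : r < R / 2 ∧ d < R / 2 := by
  have hL0 : 0 ≤ L := le_trans (by positivity) hL
  have a1 : 1 / (4 * R) * r ^ 2 ≤ r / 2 := by
    rw [one_div, inv_mul_le_iff₀ (by positivity)]
    nlinarith
  have a2 : L * (r / 2) ≤ L * (r - 1 / (4 * R) * r ^ 2) :=
    mul_le_mul_of_nonneg_left (by linarith) hL0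
  have a3 : 0 ≤ L * (r / 2) := by positivity
  have a4 : 0 ≤ 8 * M / R ^ 2 * d ^ 2 := by positivity
  constructor
  · by_contra k
    have b1 := mul_le_mul hL (show R / 4 ≤ r / 2 by linarith [not_lt.1 k]) (by positivity) hL0
    have b2 : 8 * M / R * (R / 4) = 2 * M := by field_simp; ring
    linarith
  · by_contra k
    have b1 := mul_le_mul_of_nonneg_left (pow_le_pow_left₀ (by positivity) (not_lt.1 k) 2)
      (show 0 ≤ 8 * M / R ^ 2 by positivity)
    have b2 : 8 * M / R ^ 2 * (R / 2) ^ 2 = 2 * M := by field_simp; ring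
    linarith

theorem fin {m Λ β R M S L : ℝ} (hΛ : 1 ≤ Λ) (hβ : 0 ≤ β) (hR : 0 < R) (hM : 0 ≤ M)
    (hL : 0 ≤ L) (sm : (3 * m ^ 2 * Λ + 2 * β) * Λ * R ≤ 1 / 2)
    (h : -(S + β * (L + 8 * M / R ^ 2 * R)) - (S + β * L) ≤
      2 * (8 * M / R ^ 2) * (m * Λ) - 8 * (1 / (4 * R)) * L / (2 * Λ) + 3 * m ^ 2 * Λ * L) :
    L ≤ 16 * Λ * (2 * m * Λ + 1) * M / R + 4 * Λ * R * S := by
  have hΛ0 : 0 < Λ := by linarith
  have a1 := mul_le_mul_of_nonneg_left h (show 0 ≤ Λ * R by positivity)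
  have a2 := mul_le_mul_of_nonneg_right sm hL
  have a3 : β * R ≤ 1 := by
    have b1 : 0 ≤ 3 * m ^ 2 * Λ * Λ * R := by positivity
    have b2 := mul_le_mul_of_nonneg_left hΛ (show 0 ≤ β * R by positivity)
    linarith
  have a4 := mul_le_mul_of_nonneg_right a3 (show 0 ≤ 8 * Λ * M / R by positivity)
  have e1 : Λ * R * (-(S + β * (L + 8 * M / R ^ 2 * R)) - (S + β * L)) =
      -(2 * Λ * R * S) - 2 * β * Λ * R * L - β * R * (8 * Λ * M / R) := by field_simp; ring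
  have e2 : Λ * R * (2 * (8 * M / R ^ 2) * (m * Λ) - 8 * (1 / (4 * R)) * L / (2 * Λ) +
      3 * m ^ 2 * Λ * L) = 2 * m * Λ * (8 * Λ * M / R) - L + 3 * m ^ 2 * Λ * Λ * R * L := by
    field_simp; ring
  have e3 : 16 * Λ * (2 * m * Λ + 1) * M / R = 2 * (2 * m * Λ + 1) * (8 * Λ * M / R) := by ring
  rw [e1, e2] at a1
  linarith

theorem lip {a : E n → Fin n → Fin n → ℝ} {u : E n → ℝ} {x0 : E n} {Λ β R M S L : ℝ} (hn : 1 ≤ n)
    (hΛ : 1 ≤ Λ) (hβ : 0 ≤ β) (hR : 0 < R) (hS : 0 ≤ S) (sy : ∀ x i j, a x i j = a x j i)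
    (lo : ∀ x ξ, ∑ i, ξ i ^ 2 ≤ Λ * qf (a x) ξ) (hi : ∀ x i j, |a x i j| ≤ Λ)
    (li : ∀ x y i j, |a x i j - a y i j| ≤ Λ * ‖x - y‖)
    (sm : (3 * n ^ 2 * Λ + 2 * β) * Λ * R ≤ 1 / 2)
    (hu : ∀ y ∈ closedBall x0 R, ContDiffAt ℝ 2 u y ∧ |u y| ≤ M ∧
      |pr (a y) fun i j => pd i (pd j u) y| ≤ S + β * ‖fderiv ℝ u y‖)
    (hL : 16 * Λ * (2 * n * Λ + 1) * M / R + 4 * Λ * R * S < L) :
    ∀ y ∈ closedBall x0 R, u x0 - u y ≤ L * ‖x0 - y‖ := by
  intro y0 hy0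
  by_contra hc
  have hx0 : x0 ∈ closedBall x0 R := mem_closedBall_self hR.le
  have hM : 0 ≤ M := (abs_nonneg _).trans (hu x0 hx0).2.1
  have hn' : (1 : ℝ) ≤ n := by exact_mod_cast hn
  have hL8 : 8 * M / R ≤ L := by
    have a0 : 0 ≤ n * Λ * Λ := by positivity
    have a1 : 8 * M / R ≤ 16 * Λ * (2 * n * Λ + 1) * M / R :=
      div_le_div_of_nonneg_right (mul_le_mul_of_nonneg_right (by linarith) hM) hR.le
    have a2 : 0 ≤ 4 * Λ * R * S := by positivity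
    linarith
  have hL0 : 0 ≤ L := le_trans (by positivity) hL8
  obtain ⟨κ, hκ⟩ : ∃ κ : ℝ, κ = 1 / (4 * R) := ⟨_, rfl⟩
  obtain ⟨N, hN⟩ : ∃ N : ℝ, N = 8 * M / R ^ 2 := ⟨_, rfl⟩
  have hκ0 : 0 < κ := by rw [hκ]; positivity
  have hN0 : 0 ≤ N := by rw [hN]; positivity
  have cu : ContinuousOn u (closedBall x0 R) := fun y hy =>
    (hu y hy).1.continuousAt.continuousWithinAt
  obtain ⟨⟨x, y⟩, ⟨hx, hy⟩, hmax⟩ := ((isCompact_closedBall x0 R).prod
    (isCompact_closedBall x0 R)).exists_isMaxOn ⟨(x0, x0), hx0, hx0⟩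
    (f := fun p : E n × E n => u p.1 - u p.2 - (L * (‖p.1 - p.2‖ - κ * ‖p.1 - p.2‖ ^ 2) +
      N * ‖p.1 - x0‖ ^ 2))
    (((cu.comp continuousOn_fst fun p hp => hp.1).sub
      (cu.comp continuousOn_snd fun p hp => hp.2)).sub (by fun_prop))
  have mx : ∀ x' ∈ closedBall x0 R, ∀ y' ∈ closedBall x0 R, u x' - u y' -
      (L * (‖x' - y'‖ - κ * ‖x' - y'‖ ^ 2) + N * ‖x' - x0‖ ^ 2) ≤
      u x - u y - (L * (‖x - y‖ - κ * ‖x - y‖ ^ 2) + N * ‖x - x0‖ ^ 2) :=
    fun x' h1 y' h2 => hmax (a := (x', y')) ⟨h1, h2⟩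
  change x ∈ closedBall x0 R at hx
  change y ∈ closedBall x0 R at hy
  obtain ⟨r, hr⟩ : ∃ r, r = ‖x - y‖ := ⟨_, rfl⟩
  have h0 : 0 < u x - u y - (L * (r - κ * r ^ 2) + N * ‖x - x0‖ ^ 2) := by
    have a1 := mx x0 hx0 y0 hy0
    have a2 : 0 ≤ L * (κ * ‖x0 - y0‖ ^ 2) := by positivity
    rw [sub_self, norm_zero, ← hr] at a1
    linarith [not_le.1 hc]
  have hr0 : 0 < r := by
    refine lt_of_le_of_ne (hr ▸ norm_nonneg _) fun k => ?_
    have : x = y := sub_eq_zero.1 (norm_eq_zero.1 (hr.symm.trans k.symm))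
    have a : 0 ≤ N * ‖x - x0‖ ^ 2 := by positivity
    rw [← k, this] at h0
    rw [this] at a
    linarith
  obtain ⟨p1, p2⟩ := pos (r := r) (d := ‖x - x0‖) hR hM hL8 hr0.le (by
    have := dist_triangle_right x y x0
    rw [hr, ← dist_eq_norm]
    linarith [mem_closedBall.1 hx, mem_closedBall.1 hy]) (by
    rw [← hκ, ← hN]
    linarith [(abs_le.1 (hu x hx).2.1).2, (abs_le.1 (hu y hy).2.1).1])
  have ev : ∀ ξ η : E n, ∀ᶠ t : ℝ in 𝓝 0, u (x + t • ξ) - u (y + t • η) ≤ u x - u y +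
      L * (‖x - y + t • (ξ - η)‖ - r - κ * (2 * t * inner ℝ (x - y) (ξ - η) +
        t ^ 2 * ‖ξ - η‖ ^ 2)) + N * (2 * t * inner ℝ (x - x0) ξ + t ^ 2 * ‖ξ‖ ^ 2) := by
    intro ξ η
    have b : ∀ z v : E n, ‖z - x0‖ < R → ∀ᶠ t : ℝ in 𝓝 0, z + t • v ∈ closedBall x0 R :=
      fun z v hz => (show ContinuousAt (fun t : ℝ => z + t • v) 0 by fun_prop).eventually_mem
        (closedBall_mem_nhds_of_mem (by simpa [dist_eq_norm] using hz))
    filter_upwards [b x ξ (by linarith), b y η (by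
      have := norm_sub_le_norm_sub_add_norm_sub y x x0
      rw [norm_sub_rev y x, ← hr] at this
      linarith)] with t k1 k2
    have a := mx _ k1 _ k2
    rw [show x + t • ξ - (y + t • η) = x - y + t • (ξ - η) by module,
      show x + t • ξ - x0 = x - x0 + t • ξ by abel, nsq, nsq, ← hr] at a
    linarith
  have t1 : ∀ ξ η : E n, fderiv ℝ u x ξ - fderiv ℝ u y η =
      L * (1 / r - 2 * κ) * inner ℝ (x - y) (ξ - η) + 2 * N * inner ℝ (x - x0) ξ ∧
      fderiv ℝ (fderiv ℝ u) x ξ ξ - fderiv ℝ (fderiv ℝ u) y η η ≤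
        2 * (L * (1 / (2 * r) - κ) * ‖ξ - η‖ ^ 2 + N * ‖ξ‖ ^ 2) := fun ξ η =>
    test (hu x hx).1 (hu y hy).1 ((ev ξ η).mono fun t k => k.trans (by
      have a1 : ‖x - y + t • (ξ - η)‖ - r ≤
          1 / r * (t * inner ℝ (x - y) (ξ - η)) + 1 / (2 * r) * (t ^ 2 * ‖ξ - η‖ ^ 2) := by
        have b := nsq (x - y) (ξ - η) t
        rw [← hr] at b
        rw [show 1 / r * (t * inner ℝ (x - y) (ξ - η)) + 1 / (2 * r) * (t ^ 2 * ‖ξ - η‖ ^ 2) =
          (2 * t * inner ℝ (x - y) (ξ - η) + t ^ 2 * ‖ξ - η‖ ^ 2) / (2 * r) by field_simp,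
          le_div_iff₀ (by positivity)]
        linarith [sq_nonneg (‖x - y + t • (ξ - η)‖ - r)]
      have a2 := mul_le_mul_of_nonneg_left a1 hL0
      linarith))
  have t2 := (test (hu x hx).1 (hu y hy).1 (ξ := x - y) (η := -(x - y))
    (α := L * (2 * r - 4 * κ * r ^ 2) + 2 * N * inner ℝ (x - x0) (x - y))
    (β := (N - 4 * κ * L) * r ^ 2) (by
      filter_upwards [ev (x - y) (-(x - y)), Ioi_mem_nhds (show (-1 / 2 : ℝ) < 0 by norm_num)]
        with t k k'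
      rw [show x - y + t • (x - y - -(x - y)) = (1 + 2 * t) • (x - y) by module,
        show x - y - -(x - y) = (2 : ℝ) • (x - y) by module, norm_smul, norm_smul,
        real_inner_smul_right, real_inner_self_eq_norm_sq, ← hr,
        Real.norm_of_nonneg (by linarith [mem_Ioi.1 k']), Real.norm_two] at k
      linarith)).2
  have hc1 : |1 / r - 2 * κ| * r ≤ 1 := by
    have a1 : 2 * κ * r ≤ 1 := by
      rw [hκ, show 2 * (1 / (4 * R)) * r = r / (2 * R) by field_simp; norm_num,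
        div_le_one (by positivity)]
      linarith
    rw [← abs_of_pos hr0, ← abs_mul, abs_of_pos hr0, sub_mul, one_div_mul_cancel hr0.ne', abs_le]
    constructor <;> linarith [mul_pos (mul_pos two_pos hκ0) hr0]
  have g0 : ∀ w : E n, |L * (1 / r - 2 * κ) * inner ℝ (x - y) w| ≤ L * ‖w‖ := fun w => by
    rw [mul_assoc, abs_mul, abs_of_nonneg hL0, abs_mul]
    refine mul_le_mul_of_nonneg_left ?_ hL0
    have a1 := mul_le_mul_of_nonneg_left (abs_real_inner_le_norm (x - y) w)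
      (abs_nonneg (1 / r - 2 * κ))
    have a2 := mul_le_mul_of_nonneg_right hc1 (norm_nonneg w)
    rw [← hr] at a1
    linarith
  have g1 : ‖fderiv ℝ u x‖ ≤ L + N * R := by
    refine ContinuousLinearMap.opNorm_le_bound _ (by positivity) fun ξ => ?_
    have a1 := (t1 ξ 0).1
    rw [map_zero, sub_zero, sub_zero] at a1
    rw [a1, Real.norm_eq_abs]
    refine (abs_add_le _ _).trans ?_
    have a2 := (abs_real_inner_le_norm (x - x0) ξ).trans
      (mul_le_mul_of_nonneg_right p2.le (norm_nonneg ξ))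
    have a3 := mul_le_mul_of_nonneg_left a2 hN0
    rw [abs_mul (2 * N), abs_of_nonneg (show 0 ≤ 2 * N by positivity)]
    linarith [g0 ξ]
  have g2 : ‖fderiv ℝ u y‖ ≤ L := by
    refine ContinuousLinearMap.opNorm_le_bound _ hL0 fun η => ?_
    have a1 := (t1 0 η).1
    rw [map_zero, inner_zero_right, mul_zero, add_zero, zero_sub, zero_sub] at a1
    rw [Real.norm_eq_abs, ← abs_neg, a1, ← norm_neg η]
    exact g0 _
  have key := alg (A := a x) (B := a y) (X := fun i j => pd i (pd j u) x)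
    (Y := fun i j => pd i (pd j u) y) (z := (x - y : E n)) (Λ := Λ) (r := r) (P := L / r) (N := N)
    (T := 8 * κ * L) hn hr0 (by rw [hr, norm_sq_eq]) (by linarith) (by positivity) hN0 (sy x) (sy y)
    (lo x) (hi x) (hr ▸ li x y) (by
      have a1 : 0 ≤ 2 * β * Λ * R := by positivity
      have a2 := mul_le_mul_of_nonneg_left hn' (show 0 ≤ n * Λ ^ 2 * R by positivity)
      have a3 := mul_le_mul_of_nonneg_left p1.le (show 0 ≤ n * Λ ^ 2 by positivity)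
      linarith)
    (fun ξ η => by
      have a1 := (t1 (WithLp.toLp 2 ξ) (WithLp.toLp 2 η)).2
      rw [d2_eq (hu x hx).1, d2_eq (hu y hy).1, norm_sq_eq, norm_sq_eq] at a1
      have a2 : 0 ≤ L * κ * ∑ i, (ξ i - η i) ^ 2 := by positivity
      have a3 : L / r = 2 * (L * (1 / (2 * r))) := by field_simp
      simp only [PiLp.sub_apply] at a1
      rw [a3]
      linarith)
    (by
      rw [map_neg, map_neg, neg_apply, neg_neg, d2_eq (hu x hx).1, d2_eq (hu y hy).1] at t2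
      linarith)
  have e : 3 * (n : ℝ) ^ 2 * Λ * r * (L / r) = 3 * n ^ 2 * Λ * L := by field_simp
  have f1 := (abs_le.1 (hu x hx).2.2).1
  have f2 := (abs_le.1 (hu y hy).2.2).2
  have f3 := mul_le_mul_of_nonneg_left g1 hβ
  have f4 := mul_le_mul_of_nonneg_left g2 hβ
  refine absurd (fin (m := n) (S := S) hΛ hβ hR hM hL0 sm ?_) (not_le.2 hL)
  rw [← hκ, ← hN]
  linarith

theorem est {a : E n → Fin n → Fin n → ℝ} {u : E n → ℝ} {x0 : E n} {Λ β R M S : ℝ} (hn : 1 ≤ n)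
    (hΛ : 1 ≤ Λ) (hβ : 0 ≤ β) (hR : 0 < R) (hS : 0 ≤ S) (sy : ∀ x i j, a x i j = a x j i)
    (lo : ∀ x ξ, ∑ i, ξ i ^ 2 ≤ Λ * qf (a x) ξ) (hi : ∀ x i j, |a x i j| ≤ Λ)
    (li : ∀ x y i j, |a x i j - a y i j| ≤ Λ * ‖x - y‖)
    (sm : (3 * n ^ 2 * Λ + 2 * β) * Λ * R ≤ 1 / 2)
    (hu : ∀ y ∈ closedBall x0 R, ContDiffAt ℝ 2 u y ∧ |u y| ≤ M ∧
      |pr (a y) fun i j => pd i (pd j u) y| ≤ S + β * ‖fderiv ℝ u y‖) :
    ‖fderiv ℝ u x0‖ ≤ 16 * Λ * (2 * n * Λ + 1) * M / R + 4 * Λ * R * S := by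
  have hM : 0 ≤ M := (abs_nonneg _).trans (hu x0 (mem_closedBall_self hR.le)).2.1
  refine le_of_forall_gt_imp_ge_of_dense fun L hL => norm_fderiv_le_of_lip' ℝ
    (le_trans (by positivity) hL.le) ?_
  have h1 := lip hn hΛ hβ hR hS sy lo hi li sm hu hL
  have h2 := lip (u := fun y => -u y) hn hΛ hβ hR hS sy lo hi li sm (fun y hy => by
    have e : ∀ i j, pd i (pd j fun y => -u y) y = -pd i (pd j u) y := fun i j => by
      rw [show (pd j fun y => -u y) = fun y => -pd j u y from funext fun _ => pd_neg j, pd_neg]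
    refine ⟨(hu y hy).1.neg, (abs_neg _).trans_le (hu y hy).2.1, ?_⟩
    simp only [pr, e, mul_neg, Finset.sum_neg_distrib, abs_neg, fderiv_fun_neg, norm_neg]
    exact (hu y hy).2.2) hL
  filter_upwards [closedBall_mem_nhds x0 hR] with y hy
  rw [Real.norm_eq_abs, norm_sub_rev, abs_le]
  constructor <;> linarith [h1 y hy, h2 y hy]

end Grad

open Grad in
theorem grad : GRAD := by
  intro n g ρ U hn hg hf hU
  obtain ⟨Λ, hΛ⟩ := hg.ell hf
  obtain ⟨c, hc, C, hb⟩ := hU.bd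
  have h1 := hΛ.one
  have hC : 0 ≤ C := (norm_nonneg _).trans (hb 0).2.2.1
  obtain ⟨β, hβ⟩ : ∃ β : ℝ, β = n * Λ + 2 / c * (Λ * C * Λ) := ⟨_, rfl⟩
  have hβ0 : 0 ≤ β := by rw [hβ]; positivity
  have hn' : (3 : ℝ) ≤ n := by exact_mod_cast hn
  obtain ⟨k, hk⟩ : ∃ k : ℝ, k = 2 * ((3 * n ^ 2 * Λ + 2 * β) * Λ) := ⟨_, rfl⟩
  have hk2 : 2 ≤ k := by
    have a1 : 1 ≤ 3 * (n : ℝ) ^ 2 * Λ + 2 * β := by nlinarith
    have a2 := one_le_mul_of_one_le_of_one_le a1 h1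
    linarith
  refine ⟨16 * Λ * (2 * n * Λ + 1) * k + 4 * Λ / c ^ 2, fun r M S x u hr hr1 hu => ?_⟩
  have hM : 0 ≤ M := (abs_nonneg _).trans (hu x (mem_ball_self hr)).2.1
  have hS : 0 ≤ S := (abs_nonneg _).trans (hu x (mem_ball_self hr)).2.2
  have hk0 : 0 < k := by linarith
  have hrk : r / k ≤ r / 2 := div_le_div_of_nonneg_left hr.le two_pos hk2
  refine (est (a := fun y i j => up g i j y) (β := β) (R := r / k) (M := M) (S := S / c ^ 2)
    (by omega) h1 hβ0 (by positivity) (by positivity) (fun y i j => hg.up_sy i j y) hΛ.up_lo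
    (fun y i j => (hΛ.up_bd y i j).1) (fun y z i j => Convex.norm_image_sub_le_of_norm_fderiv_le
      (fun w _ => (hg.sm_up i j).diff w) (fun w _ => (hΛ.up_bd w i j).2) convex_univ
      (mem_univ z) (mem_univ y)) ?_ fun y hy => ?_).trans ?_
  · rw [show (3 * (n : ℝ) ^ 2 * Λ + 2 * β) * Λ = k / 2 by rw [hk]; ring,
      show k / 2 * (r / k) = r / 2 by field_simp]
    linarith
  · obtain ⟨u1, u2, u3⟩ := hu y (closedBall_subset_ball (by linarith) hy)
    refine ⟨u1, u2, ?_⟩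
    have hUc := (hb y).1
    have hU0 : 0 < U y := hc.trans_le hUc
    have e : (pr (fun i j => up g i j y) fun i j => pd i (pd j u) y) = wl g U u y / U y ^ 2 -
        (∑ j, bv g j y * pd j u y + 2 / U y * ip g U u y) := by
      rw [hg.wl_eq (hU.sm.diff y) u1, hg.lap_eq u1, pr]
      field_simp
      ring
    have a1 : |wl g U u y / U y ^ 2| ≤ S / c ^ 2 := by
      rw [abs_div, abs_of_pos (pow_pos hU0 2)]
      exact div_le_div₀ hS u3 (by positivity) (pow_le_pow_left₀ hc.le hUc 2)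
    have a2 : |∑ j, bv g j y * pd j u y| ≤ n * (Λ * ‖fderiv ℝ u y‖) := by
      refine (Finset.abs_sum_le_sum_abs _ _).trans ((Finset.sum_le_card_nsmul _ _
        (Λ * ‖fderiv ℝ u y‖) fun j _ => ?_).trans (by simp))
      rw [abs_mul]
      exact mul_le_mul (hΛ.bv_bd y j).1 (abs_pd_le (diff2 u1) j) (abs_nonneg _) (by positivity)
    have a3 : |2 / U y * ip g U u y| ≤ 2 / c * (Λ * C * (Λ * ‖fderiv ℝ u y‖)) := by
      rw [abs_mul, abs_of_pos (by positivity)]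
      refine mul_le_mul (div_le_div_of_nonneg_left (by norm_num) hc hUc) ((hg.abs_ip_le U u y).trans
        (mul_le_mul ((hΛ.gn_le (hU.sm.diff y)).trans (mul_le_mul_of_nonneg_left (hb y).2.2.1
          (by positivity))) (hΛ.gn_le (diff2 u1)) (gn_nonneg _ _ _) (by positivity)))
        (abs_nonneg _) (by positivity)
    rw [e, hβ]
    refine (abs_sub _ _).trans ?_
    linarith [abs_add_le (∑ j, bv g j y * pd j u y) (2 / U y * ip g U u y)]
  · have a1 : 4 * Λ * (r / k) * (S / c ^ 2) ≤ 4 * Λ / c ^ 2 * (r * S) := by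
      have := mul_le_mul_of_nonneg_right (hrk.trans (half_le_self hr.le))
        (show 0 ≤ 4 * Λ / c ^ 2 * S by positivity)
      linarith [show 4 * Λ * (r / k) * (S / c ^ 2) = r / k * (4 * Λ / c ^ 2 * S) by ring]
    have a2 : 16 * Λ * (2 * n * Λ + 1) * M / (r / k) = 16 * Λ * (2 * n * Λ + 1) * k * (M / r) := by
      field_simp
    have a3 : 0 ≤ 16 * Λ * (2 * n * Λ + 1) * k * (r * S) := by positivity
    have a4 : 0 ≤ 4 * Λ / c ^ 2 * (M / r) := by positivity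
    linarith

end Vale.Agent.P366Z
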