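import Vale.Agent.P366Z.Defs

/-!
# P366Z: the statements of the blocks
-/

open MeasureTheory Metric Filter Topology Set
open scoped ContDiff ENNReal
open Vale.Agent.P366.Stmt

noncomputable section

namespace Vale.Agent.P366Z

/-! ### tools -/

/-- **LINV**: the resolvent of a system with the principal part `lap g` -/
def LINV : Prop := ∀ (n N : ℕ) (g : Field n) (ρ : ℝ) (A : Fin n → E n → E N →L[ℝ] E N)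
  (C : E n → E N →L[ℝ] E N), 0 < n → Met g → Flat g ρ → (∀ i, ContDiff ℝ ∞ (A i)) →
  (∀ i x, ρ ≤ ‖x‖ → A i x = 0) → ContDiff ℝ ∞ C → (∃ K, BL K C) →
  ∃ l₀ : ℝ, ∀ l ≥ l₀, ∃ K : ℝ, ∀ (M : ℝ) (f : E n → E N), BL M f → ∃ u : E n → E N,
    ContDiff ℝ 2 u ∧ (∀ x, ‖u x‖ ≤ K * M ∧ ‖fderiv ℝ u x‖ ≤ K * M) ∧ H2 (K * M) u univ ∧
    (∀ x a, l * u x a - lap g (fun y => u y a) x +
      (∑ i, A i x (fderiv ℝ u x (EuclideanSpace.single i 1)) + C x (u x)) a = f x a) ∧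
    (ContDiff ℝ ∞ f → ContDiff ℝ ∞ u) ∧ (Dec f → Dec u ∧ Dec (fderiv ℝ u))

/-- **LINA**: the existence part of `LINV` -/
def LINA : Prop := ∀ (n N : ℕ) (g : Field n) (ρ : ℝ) (A : Fin n → E n → E N →L[ℝ] E N)
  (C : E n → E N →L[ℝ] E N), 0 < n → Met g → Flat g ρ → (∀ i, ContDiff ℝ ∞ (A i)) →
  (∀ i x, ρ ≤ ‖x‖ → A i x = 0) → ContDiff ℝ ∞ C → (∃ K, BL K C) →
  ∃ l₀ : ℝ, ∀ l ≥ l₀, ∃ K : ℝ, ∀ (M : ℝ) (f : E n → E N), BL M f → ∃ u : E n → E N,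
    ContDiff ℝ 2 u ∧ (∀ x, ‖u x‖ ≤ K * M ∧ ‖fderiv ℝ u x‖ ≤ K * M) ∧ H2 (K * M) u univ ∧
    ∀ x a, l * u x a - lap g (fun y => u y a) x +
      (∑ i, A i x (fderiv ℝ u x (EuclideanSpace.single i 1)) + C x (u x)) a = f x a

/-- **LINB**: the regularity and decay part of `LINV` -/
def LINB : Prop := ∀ (n N : ℕ) (g : Field n) (ρ : ℝ) (A : Fin n → E n → E N →L[ℝ] E N)
  (C : E n → E N →L[ℝ] E N), 0 < n → Met g → Flat g ρ → (∀ i, ContDiff ℝ ∞ (A i)) →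
  (∀ i x, ρ ≤ ‖x‖ → A i x = 0) → ContDiff ℝ ∞ C → (∃ K, BL K C) →
  ∃ l₀ : ℝ, ∀ l ≥ l₀, ∀ (K : ℝ) (f u : E n → E N), ContDiff ℝ 2 u →
    (∀ x, ‖u x‖ ≤ K ∧ ‖fderiv ℝ u x‖ ≤ K) → H2 K u univ →
    (∀ x a, l * u x a - lap g (fun y => u y a) x +
      (∑ i, A i x (fderiv ℝ u x (EuclideanSpace.single i 1)) + C x (u x)) a = f x a) →
    (ContDiff ℝ ∞ f → ContDiff ℝ ∞ u) ∧ (Dec f → Dec u ∧ Dec (fderiv ℝ u))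

/-- **RES**: the resolvent of the weighted Laplacian -/
def RES : Prop := ∀ (n : ℕ) (g : Field n) (ρ : ℝ) (U : E n → ℝ), 0 < n → Met g → Flat g ρ →
  Wt g U → ∃ l₀ : ℝ, ∀ l ≥ l₀, ∃ (K : ℝ) (K₂ : ℝ → ℝ), ∀ (M : ℝ) (f : E n → ℝ), BL M f →
    ∃ w : E n → ℝ, ContDiff ℝ 2 w ∧ BL (K * M) w ∧ (∀ R, H2 (K₂ R * M) w (ball 0 R)) ∧
      ∀ x, l * U x ^ 2 * w x - wl g U w x = U x ^ 2 * f x

/-- **REG**: smoothness of the solutions of semilinear equations -/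
def REG : Prop := ∀ (n : ℕ) (g : Field n) (U w : E n → ℝ) (Φ : E n × ℝ → ℝ), Met g → Smooth U →
  (∀ x, 0 < U x) → ContDiff ℝ ∞ Φ → ContDiff ℝ 2 w → (∀ R, ∃ K, H2 K w (ball 0 R)) →
  (∀ x, wl g U w x = Φ (x, w x)) → Smooth w

/-- **PTM**: the maximum principle at a point -/
def PTM : Prop := ∀ (n : ℕ) (g : Field n) (U u : E n → ℝ) (x : E n), Met g → Smooth U →
  ContDiffAt ℝ 2 u x → IsLocalMax u x → (∀ i, pd i u x = 0) ∧ wl g U u x ≤ 0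

/-- **WMP**: the weak minimum principle on bounded sets, on exterior sets and on the whole space -/
def WMP : Prop := ∀ (n : ℕ) (g : Field n) (U u c : E n → ℝ) (O : Set (E n)), 0 < n → Met g →
  Smooth U → (∀ x, 0 < U x) → IsOpen O → ContinuousOn u (closure O) →
  (∀ x ∈ O, ContDiffAt ℝ 2 u x ∧ 0 ≤ c x ∧ wl g U u x ≤ c x * u x) →
  (∀ x ∈ frontier O, 0 ≤ u x) → (∀ e > 0, ∃ R, ∀ x ∈ O, R ≤ ‖x‖ → -e ≤ u x) → ∀ x ∈ O, 0 ≤ u x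

/-- **WMB**: the minimum principle for bounded functions -/
def WMB : Prop := ∀ (n : ℕ) (g : Field n) (ρ l : ℝ) (U u : E n → ℝ), Met g → Flat g ρ → Wt g U →
  0 < l → ContDiff ℝ 2 u → (∃ M, ∀ x, |u x| ≤ M) → (∀ x, wl g U u x ≤ l * U x ^ 2 * u x) →
  ∀ x, 0 ≤ u x

/-- **CHAIN**: the quantitative strong minimum principle -/
def CHAIN : Prop := ∀ (n : ℕ) (g : Field n) (U : E n → ℝ) (c r : ℝ) (O K : Set (E n)) (x₀ : E n),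
  Met g → Smooth U → (∀ x, 0 < U x) → 0 ≤ c → IsOpen O → IsPreconnected O → IsCompact K → K ⊆ O →
  0 < r → ball x₀ r ⊆ O → ∃ c' > (0 : ℝ), ∀ u : E n → ℝ,
    (∀ x ∈ O, ContDiffAt ℝ 2 u x ∧ 0 ≤ u x ∧ wl g U u x ≤ c * u x) → (∀ x ∈ ball x₀ r, 1 ≤ u x) →
    ∀ x ∈ K, c' ≤ u x

/-- **GRAD**: the gradient estimate -/
def GRAD : Prop := ∀ (n : ℕ) (g : Field n) (ρ : ℝ) (U : E n → ℝ), 3 ≤ n → Met g → Flat g ρ →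
  Wt g U → ∃ C : ℝ, ∀ (r M S : ℝ) (x : E n) (u : E n → ℝ), 0 < r → r ≤ 1 →
    (∀ y ∈ ball x r, ContDiffAt ℝ 2 u y ∧ |u y| ≤ M ∧ |wl g U u y| ≤ S) →
    ‖fderiv ℝ u x‖ ≤ C * (M / r + r * S)

/-- **GROW**: the growth lemma -/
def GROW : Prop := ∀ (n : ℕ) (g : Field n) (ρ : ℝ) (U : E n → ℝ), 3 ≤ n → Met g → Flat g ρ →
  Wt g U → ∃ k > (0 : ℝ), ∀ θ > (0 : ℝ), ∃ θ' > (0 : ℝ), ∃ r₀ > (0 : ℝ),
    ∀ (r M : ℝ) (x : E n) (u : E n → ℝ), 0 < r → r ≤ r₀ → ContDiff ℝ 2 u →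
      (∀ y ∈ ball x r, 0 ≤ u y ∧ u y ≤ M ∧ 0 ≤ wl g U u y) →
      ENNReal.ofReal (θ * r ^ n) ≤ volume (ball x (k * r) ∩ {y | u y ≤ r ^ 2 * wl g U u y}) →
      u x ≤ (1 - θ') * M

/-- **MV**: the mean value inequality -/
def MV : Prop := ∀ (n : ℕ) (u : E n → ℝ) (x : E n) (r : ℝ), 3 ≤ n → 0 < r → ContDiff ℝ 2 u →
  (∀ y ∈ ball x r, lap (eu n) u y ≤ 0) → ∫ y in ball x r, u y ≤ (volume (ball x r)).toReal * u x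

/-- **NEWT**: the expansion at infinity -/
def NEWT : Prop := ∀ n : ℕ, 3 ≤ n → ∃ C : ℝ, ∀ (v : E n → ℝ) (a R M S : ℝ), 1 ≤ R → Smooth v →
  (∀ x, R ≤ ‖x‖ → |v x - a| ≤ M ∧ |lap (eu n) v x| ≤ S * ‖x‖ ^ (-(n + 2) : ℝ)) →
  Tendsto v (cocompact (E n)) (𝓝 a) → ∃ β, Asy v a β ∧ ∀ x, 4 * R ≤ ‖x‖ →
    |v x - a - β * ‖x‖ ^ (2 - n : ℝ)| ≤ C * (M + S) * (R / ‖x‖) ^ (n - 1 : ℝ)

/-- **ASY**: the calculus of the expansions -/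
def ASY : Prop := ∀ (n : ℕ) (u v : E n → ℝ) (a a' β β' : ℝ), 3 ≤ n → Smooth u → Smooth v →
  Asy u a β → (Tendsto u (cocompact (E n)) (𝓝 a) ∧ ∃ C, ∀ x, ‖fderiv ℝ u x‖ ≤ C) ∧
    (Asy u a' β' → a = a' ∧ β = β') ∧
    (∀ s t : ℝ, Asy v a' β' →
      Asy (fun x => s * u x + t * v x) (s * a + t * a') (s * β + t * β')) ∧
    ((∃ R, ∀ x, R ≤ ‖x‖ → v x = u x) → Asy v a β) ∧
    ((∃ R, ∀ x, R ≤ ‖x‖ → a ≤ u x) → 0 ≤ β)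

/-- **HARN**: the coarse upper bound -/
def HARN : Prop := ∀ n : ℕ, 3 ≤ n → ∃ C : ℝ, ∀ (v : E n → ℝ) (a β R S : ℝ), 1 ≤ R → 0 ≤ a →
  Smooth v → (∀ x, R ≤ ‖x‖ → 0 ≤ v x ∧ lap (eu n) v x ≤ 0 ∧
    |lap (eu n) v x| ≤ S * ‖x‖ ^ (-(n + 2) : ℝ)) → Asy v a β →
  ∀ x, 4 * R ≤ ‖x‖ → v x ≤ C * (a + |β| * ‖x‖ ^ (2 - n : ℝ) + S)

/-- **FLUX**: the flux at infinity -/
def FLUX : Prop := ∀ (n : ℕ) (X : Fin n → E n → ℝ) (c : ℝ), 3 ≤ n → (∀ i, Smooth (X i)) →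
  (∃ C R : ℝ, ∀ x : E n, R ≤ ‖x‖ → ∀ i, |X i x - c * x i * ‖x‖ ^ (-n : ℝ)| ≤ C * ‖x‖ ^ (-n : ℝ)) →
  Tendsto (fun r => ∫ x, cut r x * ∑ i, pd i (X i) x) atTop (𝓝 (c * omega n))

/-- **BOCH**: the inequality of Bochner -/
def BOCH : Prop := ∀ (n : ℕ) (g : Field n), Met g →
  (∀ K : Set (E n), IsCompact K → ∃ C : ℝ, ∀ u, Smooth u → ∀ x ∈ K,
    normSq g (hess g u) x + ip g u (lap g u) x - C * ip g u u x ≤ lap g (ip g u u) x / 2) ∧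
  ∀ u v, Smooth u → ∀ x, lap g u x ^ 2 ≤ n * normSq g (hess g u) x ∧
    ip g v (ip g u u) x = 2 * ∑ i, ∑ j, hess g u x i j * gr g v i x * gr g u j x ∧
    (∑ i, ∑ j, hess g u x i j * gr g u i x * gr g u j x) ^ 2 ≤
      normSq g (hess g u) x * ip g u u x ^ 2

/-- **STWT**: the states are weights -/
def STWT : Prop := ∀ (n : ℕ) (B : Bg n) U a β R s', B.Ok → St B U a β R s' → Wt B.g U

/-! ### spinors -/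

/-- **SPINEX**: the weighted identity of Witten -/
def SPINEX : Prop := ∀ n : ℕ, 3 ≤ n → ∃ C : ℝ, 0 < C ∧ ∀ (g T : Field n) (v v' : E n → ℝ)
  (R a β : ℝ), Met g → Flat g R → (∀ i j, Smooth fun x => T x i j) → (∀ x i j, T x i j = T x j i) →
  (∀ x, R ≤ ‖x‖ → T x = 0) → Smooth v → Smooth v' →
  (∃ c > (0 : ℝ), ∃ c', ∀ x, c ≤ v x ∧ v x ≤ c' ∧ c ≤ v' x ∧ v' x ≤ c' ∧ ‖fderiv ℝ v' x‖ ≤ c') →
  Asy v a β → (∀ x, 0 < cq g T v v' x ∧ 0 < cq g T v' v x ∧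
    4 * covNorm g (wq g T v v') x ^ 2 ≤ cq g T v v' x * cq g T v' v x) →
  0 ≤ β ∧ ∀ e > 0, Par v R (C * β * a ^ (-bb n - 1) + e)

/-- **STAB**: an almost parallel spinor forces `v` to be almost constant -/
def STAB : Prop := ∀ (n : ℕ) (C₀ δ η : ℝ), 3 ≤ n → 0 < δ → 0 < η → ∃ e > (0 : ℝ),
  ∀ (v : E n → ℝ) (a β R S : ℝ), 1 ≤ R → 0 < a → Smooth v → S ≤ e * a →
    (∀ x, R ≤ ‖x‖ → a / 8 ≤ v x ∧ v x ≤ C₀ * a ∧ |lap (eu n) v x| ≤ S * ‖x‖ ^ (-(n + 2) : ℝ)) →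
    Asy v a β → Par v R (e * a ^ (-bb n) * R ^ (n - 2 : ℝ)) →
    ∀ x, (1 + δ) * R ≤ ‖x‖ → |v x - a| ≤ η * a

/-! ### the Allen-Cahn functional -/

/-- a statement for all backgrounds, penalties and states -/
def ForS (P : ∀ (n : ℕ) (_ : Bg n) (_ : ℝ) (_ _ _ _ : E n → ℝ) (_ _ _ _ : ℝ), Prop) : Prop :=
  ∀ (n : ℕ) (B : Bg n) (L : ℝ) (m p q U : E n → ℝ) (a β R s' : ℝ), B.Ok → Pen B L m p q →
    St B U a β R s' → P n B L m p q U a β R s'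

/-- **EX**: minimisers exist -/
def EX : Prop := ForS fun _ B _ m p q U _ _ _ _ => ∀ κ ε : ℝ, 0 ≤ κ → 0 < ε →
  ∃ w, Mn B m p q U κ ε w

/-- **UP**: the upper bound of the energy -/
def UP : Prop := ForS fun _ B L m p q U _ _ _ _ => ∀ κ ∈ Icc (0 : ℝ) 1, ∀ ψ, Cls B L ψ →
  ∀ η > (0 : ℝ), ∀ᶠ ε in 𝓝[>] (0 : ℝ), ∀ w, Mn B m p q U κ ε w →
    en B m p q U κ ε w ≤ ENNReal.ofReal (4 / 3 * pp B m U κ ψ + η)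

/-- **LOW**: the lower bound of the energy -/
def LOW : Prop := ForS fun _ B _ m p q U _ _ _ _ => ∀ ι ∈ Ioo (0 : ℝ) 1, ∃ C : ℝ,
  ∀ (κ ε : ℝ) w, 0 ≤ κ → 0 < ε → Mn B m p q U κ ε w → (∃ R, ∀ x, R ≤ ‖x‖ → 1 - ι ≤ w x) →
    Lip (tru ι w) ∧
    ENNReal.ofReal ((Ph (1 - ι) - Ph (-1 + ι)) * pp B m U κ (tru ι w)) ≤ en B m p q U κ ε w ∧
    volume {x | |w x| < 1 - ι} ≤ ENNReal.ofReal (C * ε) * en B m p q U κ ε w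

/-- **GW**: the coarse gradient bound -/
def GW : Prop := ForS fun _ B _ m p q U _ _ _ _ => ∃ C : ℝ, ∀ ε ∈ Ioc (0 : ℝ) 1,
  ∀ κ ∈ Icc (0 : ℝ) 1, ∀ w, Mn B m p q U κ ε w → ∀ x, ε * ‖fderiv ℝ w x‖ ≤ C

/-- the metric `cf U g` is comparable with `lam²` times the Euclidean metric on `s` -/
def Rat {n : ℕ} (g : Field n) (U : E n → ℝ) (C lam : ℝ) (s : Set (E n)) : Prop :=
  ∀ x ∈ s, ∀ ξ : Fin n → ℝ, lam ^ 2 * ∑ i, ξ i ^ 2 ≤ ∑ i, ∑ j, cf U g x i j * ξ i * ξ j ∧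
    ∑ i, ∑ j, cf U g x i j * ξ i * ξ j ≤ C * lam ^ 2 * ∑ i, ξ i ^ 2

/-- **EXP**: exponential convergence to the wells; the sign `σ` is `1` or `-1` -/
def EXP : Prop := ∀ (n : ℕ) (C : ℝ), ∃ c > (0 : ℝ), ∀ (B : Bg n) L m p q U a β R s', B.Ok →
  Pen B L m p q → St B U a β R s' → ∀ κ ∈ Icc (0 : ℝ) 1, ∀ t₀ > (0 : ℝ), ∀ᶠ ε in 𝓝[>] (0 : ℝ),
    ∀ w, Mn B m p q U κ ε w → ∀ (σ lam t : ℝ) (x : E n), σ = 1 ∨ σ = -1 → 0 < lam → t₀ ≤ t →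
      Rat B.g U C lam (ball x t) →
      (∀ y ∈ ball x t, if σ = 1 then p y = 0 ∧ (9 / 10 ≤ w y ∨ q y = 4)
        else q y = 0 ∧ (w y ≤ -(9 / 10) ∨ p y = 4)) → c * lam * t ≤ σ * dd ε w x

/-- **B1**: the gradient of the approximate distance -/
def B1 : Prop := ForS fun _ B L m p q U _ _ _ _ => ∀ κ ∈ Icc (0 : ℝ) 1, ∃ C : ℝ,
  ∀ᶠ ε in 𝓝[>] (0 : ℝ), ∀ w, Mn B m p q U κ ε w → ∀ x, -(B.s / 4) ≤ B.F x → ‖x‖ ≤ L + 1 / 2 →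
    ip (cf U B.g) (dd ε w) (dd ε w) x ≤ 1 + C * ε

/-- the layer `|d| ≤ t` lies in the good region -/
structure Lay {n : ℕ} (B : Bg n) (L t ε : ℝ) (w : E n → ℝ) : Prop where
  inn : ∀ x, B.F x ≤ B.s / 4 → dd ε w x < -t
  out : ∀ x, L ≤ ‖x‖ → t < dd ε w x

/-- **B2**: the discrepancy -/
def B2 : Prop := ForS fun _ B L m p q U _ _ _ _ => ∀ κ ∈ Icc (0 : ℝ) 1, ∀ t > (0 : ℝ), ∃ C : ℝ,
  ∀ᶠ ε in 𝓝[>] (0 : ℝ), ∀ w, Mn B m p q U κ ε w → Lay B L t ε w →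
    ∀ x, |dd ε w x| ≤ t → ε * ip (cf U B.g) w w x / 2 - Wp (w x) / ε ≤ C * ε

/-- **DENS**: the density estimate -/
def DENS : Prop := ∀ (n : ℕ) (C : ℝ), ∃ c > (0 : ℝ), ∀ (B : Bg n) L m p q U a β R s', B.Ok →
  Pen B L m p q → St B U a β R s' → ∀ κ ∈ Icc (0 : ℝ) 1, ∀ t₀ > (0 : ℝ), ∀ᶠ ε in 𝓝[>] (0 : ℝ),
    ∀ w, Mn B m p q U κ ε w → ∀ (σ lam t : ℝ) (x : E n), σ = 1 ∨ σ = -1 → 0 < lam → t₀ ≤ t →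
      Rat B.g U C lam (ball x t) →
      (∀ y ∈ ball x t, if σ = 1 then p y = 0 ∧ κ * dens B.g y * t ≤ c * lam ^ (n - 1 : ℝ)
        else q y = 0) →
      σ * w x ≤ 9 / 10 → ENNReal.ofReal (c * t ^ n) ≤ volume (ball x t ∩ {y | σ * w y ≤ 9 / 10})

/-- **COL**: the layer avoids the collar -/
def COL : Prop := ForS fun _ B L m p q U _ _ _ s' => ∀ κ ∈ Icc (0 : ℝ) 1, ∀ ρ' ∈ Ioo 0 (B.s / 8),
  ∀ t₁ > (0 : ℝ), ∃ t > (0 : ℝ), ∀ᶠ ε in 𝓝[>] (0 : ℝ), ∀ w, Mn B m p q U κ ε w →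
    (∀ x, L ≤ ‖x‖ → t₁ ≤ dd ε w x) → ∀ x, B.F x ≤ s' - ρ' → dd ε w x < -t

/-- the hypotheses of the confinement in the ball of radius `r` -/
structure Cf {n : ℕ} (B : Bg n) (L : ℝ) (U : E n → ℝ) (a κ C c r : ℝ) : Prop where
  rL : r ≤ L
  ρr : B.ρ ≤ c * r
  up : ∀ x, r / 2 ≤ ‖x‖ → U x ≤ C * a
  per : ∃ ψ, Cls B L ψ ∧ per B U ψ ≤ c * a ^ (2 * gam n) * r ^ (n - 1 : ℝ)
  kap : ∀ x, κ * (L + 1) ^ n * dens B.g x ≤ c * a ^ (2 * gam n)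

/-- **CONF**: the confinement -/
def CONF : Prop := ∀ (n : ℕ) (C : ℝ), ∃ c > (0 : ℝ), c ≤ 1 / 8 ∧ ∀ (B : Bg n) L m p q U a β R s',
  B.Ok → Pen B L m p q → St B U a β R s' → ∀ κ ∈ Icc (0 : ℝ) 1, ∀ r, Cf B L U a κ C c r →
    ∀ᶠ ε in 𝓝[>] (0 : ℝ), ∀ w, Mn B m p q U κ ε w → ∀ x, r ≤ ‖x‖ → c * a ^ bb n * r ≤ dd ε w x

/-! ### mass and capacity -/

/-- **SCH**: the potential -/
def SCH : Prop := ∀ (n : ℕ) (B : Bg n) U a β R s' (V : E n → ℝ), B.Ok → St B U a β R s' →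
  Smooth V → (∀ x, 0 ≤ V x) → (∃ R', ∀ x, R' ≤ ‖x‖ → V x = 0) → ∃ (h : E n → ℝ) (βh : ℝ),
    Smooth h ∧ (∀ x, 0 < h x ∧ h x ≤ 1) ∧ (∀ x, wl B.g U h x = V x * h x) ∧
    Asy (fun x => h x * U x) a βh ∧ βh ≤ β ∧ (∃ C, ∀ x, ‖fderiv ℝ h x‖ ≤ C) ∧
    ∫⁻ x, ENNReal.ofReal (U x ^ 2 * ip B.g h h x * dens B.g x) ≤
      ENNReal.ofReal ((n - 2) * omega n * a * (β - βh))

/-- the cut-off of the potential: one for `w ≤ -19 / 20`, zero for `-9 / 10 ≤ w` -/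
def cv (w : ℝ) : ℝ := Real.smoothTransition (-20 * w - 18)

/-- the bounds of the potential near the layer -/
def Hb {n : ℕ} (B : Bg n) (U : E n → ℝ) (C Λ t ε : ℝ) (w h : E n → ℝ) : Prop :=
  ∀ x, (dd ε w x ≤ t → h x ≤ C * (max (dd ε w x) 0 + 1 / Λ)) ∧
    (|dd ε w x| ≤ t / 2 → gn (cf U B.g) h x ≤ C)

/-- the equation of the potential -/
structure Pot {n : ℕ} (B : Bg n) (U : E n → ℝ) (Λ : ℝ) (w h : E n → ℝ) : Prop where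
  sm : Smooth h
  h01 : ∀ x, 0 < h x ∧ h x ≤ 1
  eqn : ∀ x, wl B.g U h x = Λ ^ 2 * U x ^ (n * bb n) * cv (w x) * h x

/-- **HB**: the bounds of the potential near the layer -/
def HB : Prop := ForS fun _ B L m p q U _ _ _ _ => ∀ κ ∈ Icc (0 : ℝ) 1, ∀ t > (0 : ℝ), ∀ e : ℝ,
  ∃ C : ℝ, ∀ᶠ Λ in atTop, ∀ᶠ ε in 𝓝[>] (0 : ℝ), ∀ w h, Mn B m p q U κ ε w →
    en B m p q U κ ε w ≤ ENNReal.ofReal e → Lay B L t ε w → Pot B U Λ w h → Hb B U C Λ t ε w h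

/-- **MC**: the choice of the tensor -/
def MC : Prop := ∀ (n : ℕ) (B : Bg n) (L a₀ δ₀ D : ℝ), B.Ok → 0 < a₀ → δ₀ ∈ Ioo (0 : ℝ) 1 →
  0 < D → ∃ κ₀ > (0 : ℝ), ∀ m p q U a β R s', Pen B L m p q → St B U a β R s' → a₀ ≤ a →
    ∀ κ ∈ Icc 0 κ₀, ∀ t ∈ Ioc 0 D, ∀ C : ℝ, ∀ᶠ Λ in atTop, ∀ᶠ ε in 𝓝[>] (0 : ℝ), ∀ w h,
      Mn B m p q U κ ε w → Lay B L t ε w → (∀ x, L ≤ ‖x‖ → 2 * D ≤ dd ε w x) → Pot B U Λ w h →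
      Hb B U C Λ t ε w h → ∃ T : Field n, (∀ i j, Smooth fun x => T x i j) ∧
        (∀ x i j, T x i j = T x j i) ∧ (∀ x, 2 * D ≤ dd ε w x → T x = 0) ∧
        let v := fun x => U x * (1 + (1 - δ₀) * h x) / 2
        let v' := fun x => U x * (1 - (1 - δ₀) * h x) / 2
        ∀ x, 0 < cq B.g T v v' x ∧ 0 < cq B.g T v' v x ∧
          4 * covNorm B.g (wq B.g T v v') x ^ 2 ≤ cq B.g T v v' x * cq B.g T v' v x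

/-- the set `{ψ = 0}` is fat near a point of norm almost `R₁` -/
def Tip {n : ℕ} (B : Bg n) (U : E n → ℝ) (a C₀ c K D η : ℝ) (ψ : E n → ℝ) (R₁ : ℝ) : Prop :=
  ∀ r, 2 * B.ρ ≤ r → r ≤ R₁ → K * D ≤ a ^ bb n * r → (∀ x, r / 2 ≤ ‖x‖ → U x ≤ C₀ * a) →
    ∃ x₀ : E n, R₁ - K * D * a ^ (-bb n) / 4 ≤ ‖x₀‖ ∧ ‖x₀‖ ≤ R₁ ∧
      Fat {x | ψ x = 0} c x₀ η (‖x₀‖ / 4)

/-- **ONE**: one step -/
def ONE : Prop := ∀ (n : ℕ) (C' : ℝ), ∃ c' > (0 : ℝ), c' ≤ 1 / 8 ∧ ∃ C > (0 : ℝ), ∀ C₀ : ℝ,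
  ∃ c > (0 : ℝ), ∃ K > (0 : ℝ), ∀ (B : Bg n) (L a₀ δ₀ D : ℝ) m p q, B.Ok → Pen B L m p q →
    0 < a₀ → δ₀ ∈ Ioo (0 : ℝ) 1 → 0 < D → ∃ κ₀ > (0 : ℝ), ∀ U a β R s', St B U a β R s' → a₀ ≤ a →
      ∀ κ ∈ Icc 0 κ₀, ∀ r, Cf B L U a κ C' c' r → 2 * D ≤ c' * a ^ bb n * r →
        ∀ η' > (0 : ℝ), ∀ ρ' ∈ Ioo 0 (B.s / 8), ∀ η > (0 : ℝ), ∃ ψ h βh R₁,
          Out B L m U a β s' κ δ₀ η' ρ' η C ψ h βh R₁ ∧ R₁ ≤ r ∧ Tip B U a C₀ c K D η ψ R₁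

/-! ### the flow -/

/-- **FC**: the truncation and the penalties exist -/
def FC : Prop := (∀ η' > (0 : ℝ), ∃ η'' f, Fc η' η'' f) ∧
  ∀ (n : ℕ) (B : Bg n) (L : ℝ), B.Ok → 2 * B.ρ ≤ L → ∃ m p q, Pen B L m p q

/-- **UPD**: the new state -/
def UPD : Prop := ∀ (n : ℕ) (B : Bg n) L m U a β R s' κ δ₀ η' ρ' η C ψ h βh R₁ η'' f (τ R' : ℝ),
  B.Ok → St B U a β R s' → Out B L m U a β s' κ δ₀ η' ρ' η C ψ h βh R₁ → Fc η' η'' f → 0 < η' →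
  2 * η' < 1 → τ ∈ Ioc (0 : ℝ) (1 / 2) → 0 ≤ ρ' → B.s / 2 ≤ s' - ρ' → R ≤ R' → R₁ ≤ R' →
  (∀ x, R' ≤ ‖x‖ → 2 * η' ≤ h x) → St B (fun x => U x * (1 - τ * f (h x))) (a * (1 - τ * (1 - η'')))
    (β * (1 + τ * η'') - τ * βh) R' (s' - ρ')

/-- **HLOW**: the lower bound of the potential -/
def HLOW : Prop := ∀ (n : ℕ) (B : Bg n) L m U a β R s' κ δ₀ η' ρ' η C ψ h βh R₁ (R' : ℝ),
  B.Ok → St B U a β R s' → Out B L m U a β s' κ δ₀ η' ρ' η C ψ h βh R₁ → R₁ ≤ R' →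
  ∀ x, R' ≤ ‖x‖ → a * (1 - (R' / ‖x‖) ^ (n - 2 : ℝ)) ≤ h x * U x

/-- **NEST**: the near minimisers are almost nested -/
def NEST : Prop := ∀ (n : ℕ) (B : Bg n) L m p q U U' (κ κ' η : ℝ) ψ ψ', B.Ok → Pen B L m p q →
  Continuous U → Continuous U' → (∀ x, 0 < U x ∧ 0 < U' x) → (∀ x, ψ x < 1 → U' x = U x) →
  Near B L m U κ η ψ → Near B L m U' κ' η ψ' →
  (κ' - κ) * ∫ x, m x * max (ψ' x - ψ x) 0 * dens B.g x ≤ 2 * η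

/-- **AREA**: the loss of area in one step -/
def AREA : Prop := ∀ n : ℕ, ∃ C > (0 : ℝ), ∀ (B : Bg n) L m p q U a β R s' h η' η'' f
  (τ κ η e V : ℝ) ψ, B.Ok → Pen B L m p q → St B U a β R s' → Smooth h → (∀ x, 0 < h x ∧ h x ≤ 1) →
  (∀ x, B.F x ≤ B.s / 4 → h x ≤ η') → Fc η' η'' f → 0 < η' → τ ∈ Ioc (0 : ℝ) (1 / 2) → 0 ≤ κ →
  0 ≤ η → 0 ≤ e → 0 ≤ V → Near B L m (fun x => U x * (1 - τ * f (h x))) κ η ψ →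
  ∫⁻ x, ENNReal.ofReal (U x ^ 2 * ip B.g h h x * dens B.g x) ≤ ENNReal.ofReal e →
  ∫⁻ x in {x | η' < h x ∧ ψ x < 1}, ENNReal.ofReal (dens B.g x) ≤ ENNReal.ofReal V →
  per B U ψ ≤ per B (fun x => U x * (1 - τ * f (h x))) ψ +
    C * τ * (√(e * V) + η + κ * ∫ x, m x * dens B.g x)

/-- **RAMP**: the perimeter of a sphere -/
def RAMP : Prop := ∀ (n : ℕ) (B : Bg n) (U : E n → ℝ) (L r M η : ℝ), B.Ok → Continuous U →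
  B.ρ ≤ r → r < L → 0 < η → (∀ x, r ≤ ‖x‖ → 0 ≤ U x ∧ U x ≤ M) →
  ∃ ψ, Cls B L ψ ∧ per B U ψ ≤ omega n * r ^ (n - 1 : ℝ) * M ^ (2 * gam n) + η

/-- **E4**: decay of the potential near a fat set -/
def E4 : Prop := ∀ (n : ℕ) (C₀ c δ₂ : ℝ), 3 ≤ n → 0 < c → 0 < δ₂ → ∃ δ > (0 : ℝ),
  ∀ (U h : E n → ℝ) (x₀ : E n) (a R : ℝ), 0 < a → 0 < R → Smooth U → Smooth h →
    (∀ x ∈ ball x₀ R, a ≤ U x ∧ U x ≤ C₀ * a ∧ lap (eu n) U x ≤ 0 ∧ 0 ≤ wl (eu n) U h x ∧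
      0 ≤ h x ∧ h x ≤ 1) → Fat {x | h x ≤ δ₂ / 2} c x₀ (δ * R) R →
    ∀ x ∈ ball x₀ (δ * R), h x < δ₂

/-- **FLOW**: the inequality for the background -/
def FLOW : Prop := ∀ (n : ℕ) (μ η ρ : ℝ), 0 < μ → 0 < η → ∃ δ > (0 : ℝ), ∀ (B : Bg n) (β : ℝ),
  B.Ok → B.ρ ≤ ρ → B.δ ≤ δ → Asy B.U 1 β → 2 * β ≤ μ →
  0 ≤ β ∧ ∃ L ψ, Cls B L ψ ∧ per B B.U ψ ≤ (1 + η) * omega n * (2 * μ) ^ gam n

/-! ### the reduction to a background -/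

/-- the mean curvature of the level sets of `F` -/
def mc {n : ℕ} (g : Field n) (F : E n → ℝ) (x : E n) : ℝ :=
  trS g (hess g F) F x / covNorm g (fun j => pd j F) x

/-- **STEP0** -/
def STEP0 : Prop := ∀ (n : ℕ) (D : Exterior n) (m η : ℝ), 3 ≤ n → D.IsAF → D.IsEnergy m →
  (∀ x, 0 ≤ D.F x → 0 ≤ scal D.g x) → (∀ x, D.F x = 0 → mc D.g D.F x ≤ 0) → 0 < η →
  ∃ ρ : ℝ, ∀ δ > (0 : ℝ), ∃ (B : Bg n) (β : ℝ), B.Ok ∧ B.ρ ≤ ρ ∧ B.δ ≤ δ ∧ Asy B.U 1 β ∧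
    2 * β ≤ m + η ∧ (∀ x, D.F x ≤ 0 → B.F x ≤ 0) ∧ ∀ x, 0 ≤ D.F x → ∀ ξ : Fin n → ℝ,
      (1 - η) * (dens D.g x * covNorm D.g (fun i _ => ξ i) x) ≤
        B.U x ^ (2 * gam n) * covNorm B.g (fun i _ => ξ i) x * dens B.g x

/-- **LINK** -/
def LINK : Prop := ∀ (n : ℕ) (D : Exterior n) (B : Bg n) (η L : ℝ) (ψ : E n → ℝ), B.Ok →
  η < 1 → (∀ x, D.F x ≤ 0 → B.F x ≤ 0) → (∀ x, 0 ≤ D.F x → ∀ ξ : Fin n → ℝ,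
    (1 - η) * (dens D.g x * covNorm D.g (fun i _ => ξ i) x) ≤
      B.U x ^ (2 * gam n) * covNorm B.g (fun i _ => ξ i) x * dens B.g x) → Cls B L ψ →
  D.Amin ≤ ENNReal.ofReal (per B B.U ψ / (1 - η))

/-- **RPI** -/
def RPI : Prop := ∀ (n : ℕ) (D : Exterior n) (m : ℝ), 3 ≤ n → D.IsAF → D.IsEnergy m →
  (∀ x, 0 ≤ D.F x → 0 ≤ scal D.g x) → (∀ x, D.F x = 0 → mc D.g D.F x ≤ 0) →
  D.Amin ≠ ⊤ ∧ (D.Amin.toReal / omega n) ^ (((n : ℝ) - 2) / (n - 1)) / 2 ≤ m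

end Vale.Agent.P366Z
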