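import Vale.Agent.P366Z.Lina2
import Vale.Agent.P366Z.Sk
import Vale.Agent.P366Z.Calc2

/-!
# P366Z, row LINA
-/

open scoped Topology ContDiff
open Filter Set Metric
open Vale.Agent.P272.K Vale.Agent.P272.K.LIN Vale.Agent.P366.Stmt

set_option maxSynthPendingDepth 3

noncomputable section

namespace Vale.Agent.P366Z

namespace LinaH

variable {n N : ℕ} {g : Field n} {ρ : ℝ}

/-- an entry of a bilinear form -/
def e2 (i j : Fin n) : (E n →L[ℝ] E n →L[ℝ] ℝ) →L[ℝ] ℝ :=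
  (ContinuousLinearMap.apply ℝ ℝ (EuclideanSpace.single j 1 : E n)).comp
    (ContinuousLinearMap.apply ℝ (E n →L[ℝ] ℝ) (EuclideanSpace.single i 1 : E n))

/-- the principal part of the Laplacian -/
def aa (g : Field n) (x : E n) : (E n →L[ℝ] E n →L[ℝ] ℝ) →L[ℝ] ℝ :=
  ∑ i, ∑ j, up g i j x • e2 i j

theorem aa_apply (g : Field n) (x : E n) (B : E n →L[ℝ] E n →L[ℝ] ℝ) : aa g x B =
    ∑ i, ∑ j, up g i j x * B (EuclideanSpace.single i 1) (EuclideanSpace.single j 1) := by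
  simp only [aa, ContinuousLinearMap.sum_apply]
  rfl

theorem aa_pos (hg : Met g) (x : E n) (ξ : E n →L[ℝ] ℝ) (hξ : ξ ≠ 0) :
    0 < aa g x (ξ.smulRight ξ) := by
  have h : (fun i => ξ (EuclideanSpace.single i 1)) ≠ 0 := fun h => hξ (by
    refine ContinuousLinearMap.coe_injective
      ((EuclideanSpace.basisFun (Fin n) ℝ).toBasis.ext fun i => ?_)
    simpa using congrFun h i)
  rw [aa_apply]
  refine (hg.up_pos x h).trans_eq ?_
  simp only [ContinuousLinearMap.smulRight_apply, ContinuousLinearMap.smul_apply, smul_eq_mul,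
    mul_assoc]

theorem aa_cd (hg : Met g) : ContDiff ℝ 1 (aa g) :=
  ContDiff.sum fun i _ => ContDiff.sum fun j _ =>
    (ContDiff.of_le (hg.sm_up i j) one_le_inf).smul contDiff_const

theorem ap_lap (hg : Met g) (hf : Flat g ρ) : Ap (1 / 2) (aa g) univ :=
  ap_univ (by norm_num) (by norm_num) (aa_cd hg) (R := max ρ 1) (a₀ := aa (eu n) 0)
    (lt_max_of_lt_right one_pos) (fun x hx => by
      simp only [aa, up_of_eq (hf x ((le_max_left _ _).trans hx)), up_eu])
    (aa_pos met_eu 0) (aa_pos hg)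

theorem lap_aa (hg : Met g) {v : E n → ℝ} (hv : ContDiff ℝ 2 v) (x : E n) :
    lap g v x = aa g x (fderiv ℝ (fderiv ℝ v) x) +
      ∑ j, bv g j x * fderiv ℝ v x (EuclideanSpace.single j 1) := by
  rw [hg.lap_eq hv.contDiffAt, aa_apply]
  simp only [pd_pd_eq hv.contDiffAt, pd_eq (hv.differentiable (by norm_num) x)]

theorem hb_bv (hg : Met g) (hf : Flat g ρ) (j : Fin n) : LinaH.Hb (1 / 2) (bv g j) :=
  LinaH.Hb.of_K (by norm_num) (by norm_num) (ContDiff.of_le (hg.sm_bv j) one_le_inf)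
    (isCompact_closedBall 0 ρ) 0 fun y hy => by
      have hy' : ρ < ‖y‖ := not_le.1 (mem_closedBall_zero_iff.not.1 hy)
      unfold bv
      rw [dv_of_ev (hf.ev hy') (Y := fun i _ => if i = j then 1 else 0) fun i =>
        (hf.ev hy').mono fun z hz => by rw [up_of_eq hz, up_eu], dv_eu]
      simp [pd_const]

theorem hb_bl {V : Type} [NormedAddCommGroup V] {M : ℝ} {f : E n → V} (h : BL M f) :
    LIN.HB (1 / 2) f M (3 * M) := by
  have hM : 0 ≤ M := (norm_nonneg _).trans (h.1 0)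
  refine ⟨h.1, fun x y => ?_⟩
  have := hol_of_lip (α := 1 / 2) (by norm_num) (by norm_num) hM (M := M + M) (by positivity)
    (norm_nonneg (x - y)) (h.2 x y) ((norm_sub_le _ _).trans (add_le_add (h.1 x) (h.1 y)))
  exact this.trans_eq (by ring)

/-- coordinates to vectors -/
def pe (N : ℕ) : (Fin N → ℝ) →L[ℝ] E N := (EuclideanSpace.equiv (Fin N) ℝ).symm

/-- vectors to coordinates -/
def pe' (N : ℕ) : E N →L[ℝ] Fin N → ℝ := EuclideanSpace.equiv (Fin N) ℝ

/-- the values -/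
def D0 (n N : ℕ) : (Fin N → ℝ × (E n →L[ℝ] ℝ)) →L[ℝ] Fin N → ℝ :=
  ContinuousLinearMap.pi fun j => (ContinuousLinearMap.fst ℝ ℝ _).comp (ContinuousLinearMap.proj j)

/-- the derivatives in the direction `k` -/
def D1 (N : ℕ) (k : Fin n) : (Fin N → ℝ × (E n →L[ℝ] ℝ)) →L[ℝ] Fin N → ℝ :=
  ContinuousLinearMap.pi fun j =>
    (ContinuousLinearMap.apply ℝ ℝ (EuclideanSpace.single k 1 : E n)).comp
      ((ContinuousLinearMap.snd ℝ ℝ _).comp (ContinuousLinearMap.proj j))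

/-- the coordinate lines -/
def ln (i : Fin N) : ℝ →L[ℝ] E N :=
  ContinuousLinearMap.toSpanSingleton ℝ (EuclideanSpace.single i 1)

theorem sum_ln (w : Fin N → ℝ) : ∑ i, ln i (w i) = pe N w := by
  ext a
  simp [ln, pe, Pi.single_apply]

end LinaH

open LinaH in
theorem lina : LINA := by
  intro n N g ρ A C _ hg hf hA hA0 _ ⟨K, hK⟩
  have hT : LinaH.Hb (1 / 2) fun x => ∑ k, (-ContinuousLinearMap.id ℝ ℝ) (bv g k x) • D1 N k +
      (∑ k, (pe' N).comp ((A k x).comp ((pe N).comp (D1 N k))) +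
        (pe' N).comp ((C x).comp ((pe N).comp (D0 n N)))) := by
    refine (LinaH.Hb.sum _ fun k => ((hb_bv hg hf k).clm _).smul (LinaH.Hb.const _)).add
      ((LinaH.Hb.sum _ fun k => (LinaH.Hb.const _).comp (LinaH.Hb.comp ?_ (LinaH.Hb.const _))).add
        ((LinaH.Hb.const _).comp (LinaH.Hb.comp ?_ (LinaH.Hb.const _))))
    · exact LinaH.Hb.of_K (by norm_num) (by norm_num) ((hA k).of_le one_le_inf)
        (isCompact_closedBall 0 ρ) 0 fun y hy =>
          hA0 k y (not_le.1 (mem_closedBall_zero_iff.not.1 hy)).le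
    · exact LinaH.Hb.of (by linarith [(norm_nonneg _).trans (hK.1 0)]) (hb_bl hK)
  obtain ⟨C₀, l₀, hC, hl₀, hs⟩ := sys (by norm_num) (ap_lap hg hf) hT
  obtain ⟨D, hD, hasm⟩ := assemble (E := E n) (α := 1 / 2) (ln (N := N))
  refine ⟨l₀, fun l hl => ⟨D * (C₀ * (3 * l ^ ((1 / 2 : ℝ) / 2))), fun M f hfM => ?_⟩⟩
  have hl1 : 1 ≤ l := hl₀.trans hl
  have hl0 : 0 < l := by linarith
  have hM : 0 ≤ M := (norm_nonneg _).trans (hfM.1 0)
  have hq : 1 ≤ l ^ ((1 / 2 : ℝ) / 2) := Real.one_le_rpow hl1 (by norm_num)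
  have e : l ^ ((1 / 2 : ℝ) / 2) * l ^ (-((1 / 2 : ℝ) / 2)) = 1 := by
    rw [← Real.rpow_add hl0, add_neg_cancel, Real.rpow_zero]
  have hb := hb_bl hfM
  have hb' : LIN.HB (1 / 2) (fun x i => f x i) M (3 * M) :=
    hb_pi hM (by positivity) fun i =>
      ⟨fun x => (PiLp.norm_apply_le (f x) i).trans (hb.sup x), fun x y =>
        (PiLp.norm_apply_le (f x - f y) i).trans (hb.hol x y)⟩
  obtain ⟨v, hv, heq⟩ := hs l hl (fun x i => f x i) (3 * l ^ ((1 / 2 : ℝ) / 2) * M)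
    (by positivity) (hb'.mono' (by
      have : 3 * l ^ ((1 / 2 : ℝ) / 2) * M * l ^ (-((1 / 2 : ℝ) / 2)) = 3 * M := by
        linear_combination 3 * M * e
      linarith) (by nlinarith))
  obtain ⟨u2, u0, u1, uu, ud⟩ := hasm v (C₀ * (3 * l ^ ((1 / 2 : ℝ) / 2) * M)) (by positivity)
    fun i => ⟨(hv i).1, (hv i).2.jet (by norm_num) hl1 (by positivity)⟩
  have e' : D * (C₀ * (3 * l ^ ((1 / 2 : ℝ) / 2) * M)) =
      D * (C₀ * (3 * l ^ ((1 / 2 : ℝ) / 2))) * M := by ring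
  rw [e'] at u0 u1 uu
  refine ⟨_, u2, fun x => ⟨u0.sup x, u1.sup x⟩, ⟨fun x _ => uu.sup x, fun x _ y _ => uu.hol x y⟩,
    fun x a => ?_⟩
  have h1 : (fun y => (∑ i, ln i (v i y) : E N) a) = v a := funext fun y => by
    rw [sum_ln]
    rfl
  rw [h1, congrFun h1 x, lap_aa hg (hv a).1, ← heq x a]
  simp only [ud]
  simp only [sum_ln, ContinuousLinearMap.add_apply, ContinuousLinearMap.sum_apply,
    Pi.add_apply, Finset.sum_apply, PiLp.add_apply, ContinuousLinearMap.comp_apply]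
  have h2 : ∀ k, (((-ContinuousLinearMap.id ℝ ℝ) (bv g k x) • D1 N k)
      fun j => (v j x, fderiv ℝ (v j) x)) a =
      -(bv g k x * fderiv ℝ (v a) x (EuclideanSpace.single k 1)) := fun k => neg_mul _ _
  have h3 : (∑ i, A i x (pe N fun j => fderiv ℝ (v j) x (EuclideanSpace.single i 1)) : E N) a =
      ∑ i, pe' N (A i x (pe N (D1 N i fun j => (v j x, fderiv ℝ (v j) x)))) a := by
    rw [← Finset.sum_apply, ← map_sum]
    rfl
  have h4 : C x (pe N fun i => v i x) a =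
      pe' N (C x (pe N (D0 n N fun j => (v j x, fderiv ℝ (v j) x)))) a := rfl
  simp only [h2, Finset.sum_neg_distrib]
  rw [h3, h4]
  ring

end Vale.Agent.P366Z
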