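import Vale.Agent.P366Z.LinbA

/-!
# P366Z: regularity and decay of the solutions of linear systems
-/

set_option maxSynthPendingDepth 3

open MeasureTheory Metric Filter Topology Set
open scoped ContDiff ENNReal
open Vale.Agent.P366.Stmt

noncomputable section

namespace Vale.Agent.P366Z

namespace LinbH

variable {n N : ℕ} {g : Field n} {ρ : ℝ}

theorem wt_one (g : Field n) : Wt g fun _ => 1 := by
  refine ⟨contDiff_const, 1, one_pos, 1, fun x => ?_⟩
  simp [lap_const]

theorem bv_bd (hg : Met g) (hf : Flat g ρ) : ∃ K, 0 < K ∧ ∀ j x, |bv g j x| ≤ K := by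
  obtain ⟨K, h0, hK⟩ := bdd_of_out (F := fun x j => bv g j x)
    (continuous_pi fun j => (hg.sm_bv j).cont) (R := ρ) (C := 0) fun y hy => by
      refine (norm_eq_zero.2 (funext fun j => ?_)).le
      simp only [hg.bv_eq, chr_of_ev (hf.ev hy), chr_eu, mul_zero, Finset.sum_const_zero, neg_zero,
        Pi.zero_apply]
  exact ⟨K, h0, fun j x => (norm_le_pi_norm (fun j => bv g j x) j).trans (hK x)⟩

/-- the barrier -/
theorem barrier (hg : Met g) (hf : Flat g ρ) : ∃ c₀ > (0 : ℝ), ∀ c, 0 < c → c ≤ c₀ →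
    ∀ L : E n →L[ℝ] ℝ, ‖L‖ ≤ c → ∀ x,
      lap g (fun y => Real.sigmoid (L y)) x ≤ Real.sigmoid (L x) / 2 := by
  obtain ⟨K, hK0, hK⟩ := bv_bd hg hf
  obtain ⟨Λ, hΛ⟩ := hg.ell hf
  have hΛ1 := hΛ.one
  refine ⟨1 / (2 * (n * K + Λ)), by positivity, fun c hc hc0 L hL x => ?_⟩
  have hc1 : c * (n * K + Λ) ≤ 1 / 2 := by
    rw [le_div_iff₀ (by positivity)] at hc0
    linarith
  have hc2 : c ≤ 1 := by nlinarith [mul_nonneg (Nat.cast_nonneg (α := ℝ) n) hK0.le]
  have h1 : |lap g L x| ≤ n * K * c := by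
    have e : ∀ j, pd j L = fun _ => L (ee j) := fun j => funext fun y => by
      rw [pd_eq L.differentiableAt, L.fderiv]
    rw [hg.lap_eq L.contDiff.contDiffAt]
    simp only [e, pd_const, mul_zero, Finset.sum_const_zero, zero_add]
    refine (Finset.abs_sum_le_sum_abs _ _).trans ((Finset.sum_le_card_nsmul _ _ (K * c)
      fun j _ => ?_).trans_eq (by simp [mul_assoc]))
    rw [abs_mul]
    refine mul_le_mul (hK j x) ?_ (abs_nonneg _) hK0.le
    exact (L.le_opNorm _).trans (by simpa using hL)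
  have h2 : ip g L L x ≤ Λ * c := by
    refine (hΛ.ip_le L.differentiableAt).trans ?_
    rw [L.fderiv]
    refine mul_le_mul_of_nonneg_left ?_ (by linarith)
    nlinarith [norm_nonneg L]
  have h3 := hg.ip_nonneg L x
  have hd : deriv (deriv Real.sigmoid) (L x) =
      Real.sigmoid (L x) * (1 - Real.sigmoid (L x)) * (1 - 2 * Real.sigmoid (L x)) := by
    rw [Real.deriv_sigmoid]
    refine (((Real.hasDerivAt_sigmoid _).mul
      ((Real.hasDerivAt_sigmoid _).const_sub 1)).deriv).trans ?_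
    ring
  rw [hg.lap_comp L.contDiff.contDiffAt (contDiff_sigmoid.contDiffAt.of_le le_top), hd,
    Real.deriv_sigmoid]
  have s0 := Real.sigmoid_pos (L x)
  have s1 := Real.sigmoid_lt_one (L x)
  set s := Real.sigmoid (L x)
  have a1 : (1 - s) * lap g L x ≤ n * K * c := by
    have := abs_le.1 h1
    have h4 : 0 ≤ (n : ℝ) * K * c := by positivity
    nlinarith
  have a2 : (1 - s) * (1 - 2 * s) * ip g L L x ≤ Λ * c := by
    have : (1 - s) * (1 - 2 * s) ≤ 1 := by nlinarith
    nlinarith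
  show s * (1 - s) * lap g L x + s * (1 - s) * (1 - 2 * s) * ip g L L x ≤ s / 2
  nlinarith

theorem sig_le (t : ℝ) : Real.sigmoid t ≤ Real.exp t := by
  have h := Real.sigmoid_mul_rexp_neg t
  have h1 := Real.sigmoid_le_one (-t)
  rw [← h, Real.exp_neg, mul_inv_le_iff₀ (Real.exp_pos t), one_mul] at h1
  exact h1

theorem le_sig {t : ℝ} (ht : t ≤ 0) : Real.exp t ≤ 2 * Real.sigmoid t := by
  have h := Real.sigmoid_mul_rexp_neg (-t)
  rw [neg_neg] at h
  have h1 : Real.sigmoid 0 ≤ Real.sigmoid (-t) := Real.sigmoid_le (by linarith)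
  rw [Real.sigmoid_zero] at h1
  nlinarith [Real.exp_pos t]

/-- decay of subsolutions -/
theorem dec_sub (hW : WMB) (hg : Met g) (hf : Flat g ρ) {y : E n → ℝ} (hy : ContDiff ℝ 2 y)
    {M c C : ℝ} (hM : ∀ x, |y x| ≤ M) (hc : 0 < c) (hC : 0 ≤ C)
    (h : ∀ x, y x - C * Real.exp (-c * ‖x‖) ≤ lap g y x) :
    ∃ c' > (0 : ℝ), ∀ x, y x ≤ 4 * C * Real.exp (-c' * ‖x‖) := by
  obtain ⟨c₀, h0, hb⟩ := barrier hg hf
  refine ⟨min c c₀, lt_min hc h0, fun x => ?_⟩
  set c' := min c c₀
  have hc' : 0 < c' := lt_min hc h0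
  let L : E n →L[ℝ] ℝ := (-c' * ‖x‖⁻¹) • innerSL ℝ x
  have hL : ‖L‖ ≤ c' := by
    rw [norm_smul, innerSL_apply_norm, Real.norm_eq_abs, abs_mul, abs_neg, abs_of_pos hc',
      abs_of_nonneg (by positivity), mul_assoc]
    exact mul_le_of_le_one_right hc'.le (inv_mul_le_one_of_le₀ le_rfl (norm_nonneg _))
  have hLx : L x = -c' * ‖x‖ := by
    show -c' * ‖x‖⁻¹ * inner ℝ x x = _
    rw [real_inner_self_eq_norm_mul_norm, mul_assoc, ← mul_assoc ‖x‖⁻¹, inv_mul_mul_self]
  have hs : ContDiff ℝ 2 fun z => Real.sigmoid (L z) :=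
    (contDiff_sigmoid.of_le le_top).comp L.contDiff
  have key := hW n g ρ 1 (fun _ => 1) (fun z => 4 * C * Real.sigmoid (L z) - y z) hg hf (wt_one g)
    one_pos ((contDiff_const.mul hs).sub hy) ⟨4 * C + M, fun z => ?_⟩ (fun z => ?_) x
  · have := sig_le (L x)
    rw [hLx] at this key
    nlinarith
  · have s0 := Real.sigmoid_pos (L z)
    have s1 := Real.sigmoid_lt_one (L z)
    have := abs_le.1 (hM z)
    rw [abs_le]
    constructor <;> nlinarith
  · rw [wl_one, hg.lap_sub (contDiff_const.mul hs).contDiffAt hy.contDiffAt, lap_const_mul]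
    have a1 := hb c' hc' (min_le_right _ _) L hL z
    have a2 := h z
    have a3 : -c * ‖z‖ ≤ L z := by
      have := (abs_le.1 ((L.le_opNorm z).trans
        (mul_le_mul_of_nonneg_right (hL.trans (min_le_left _ _)) (norm_nonneg z)))).1
      linarith
    have a4 := (le_sig (t := -c * ‖z‖) (by nlinarith [norm_nonneg z])).trans
      (mul_le_mul_of_nonneg_left (Real.sigmoid_le a3) two_pos.le)
    nlinarith

/-- interpolation -/
theorem dec_fderiv {V : Type} [NormedAddCommGroup V] [NormedSpace ℝ V] {u : E n → V}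
    (hu : ContDiff ℝ 2 u) {K : ℝ} (hK : ∀ x, ‖fderiv ℝ (fderiv ℝ u) x‖ ≤ K) (hd : Dec u) :
    Dec (fderiv ℝ u) := by
  obtain ⟨c, hc, C, hC⟩ := hd
  have hC0 : 0 ≤ C := by
    have := (norm_nonneg _).trans (hC 0)
    simpa using this
  have hK0 : 0 ≤ K := (norm_nonneg _).trans (hK 0)
  have d1 : Differentiable ℝ u := hu.differentiable (by norm_num)
  have d2 : Differentiable ℝ (fderiv ℝ u) :=
    (hu.fderiv_right (m := 1) (by norm_num)).differentiable (by norm_num)
  refine ⟨c / 2, by positivity, C * Real.exp c + C + K, fun x => ?_⟩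
  set r := Real.exp (-(c / 2) * ‖x‖) with hr
  have r0 : 0 < r := Real.exp_pos _
  have r1 : r ≤ 1 := Real.exp_le_one_iff.2 (by nlinarith [norm_nonneg x])
  have r2 : Real.exp (-c * ‖x‖) = r * r := by
    rw [hr, ← Real.exp_add]
    congr 1
    ring
  refine ContinuousLinearMap.opNorm_le_of_unit_norm (by positivity) fun v hv => ?_
  have h1 : ∀ z ∈ closedBall x r, ‖fderiv ℝ u z - fderiv ℝ u x‖ ≤ K * r := fun z hz =>
    (convex_univ.norm_image_sub_le_of_norm_fderiv_le (fun y _ => d2 y) (fun y _ => hK y)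
      (mem_univ x) (mem_univ z)).trans
      (mul_le_mul_of_nonneg_left (mem_closedBall_iff_norm.1 hz) hK0)
  have hn : ‖x + r • v - x‖ = r := by
    rw [add_sub_cancel_left, norm_smul, hv, mul_one, Real.norm_of_nonneg r0.le]
  have h2 := (convex_closedBall x r).norm_image_sub_le_of_norm_fderiv_le' (fun y _ => d1 y) h1
    (mem_closedBall_self r0.le) (y := x + r • v) (mem_closedBall_iff_norm.2 hn.le)
  rw [hn, add_sub_cancel_left, map_smul] at h2
  have h3 : ‖u (x + r • v)‖ ≤ C * Real.exp c * (r * r) := by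
    refine (hC _).trans ?_
    rw [← r2, mul_assoc, ← Real.exp_add]
    refine mul_le_mul_of_nonneg_left (Real.exp_le_exp.2 ?_) hC0
    have := norm_sub_norm_le x (x + r • v)
    rw [← norm_neg (x - _), neg_sub, hn] at this
    nlinarith
  have h4 := hC x
  rw [r2] at h4
  have h5 : r * ‖fderiv ℝ u x v‖ ≤ ‖u (x + r • v)‖ + ‖u x‖ + K * r * r := by
    have e : r • fderiv ℝ u x v =
        u (x + r • v) - u x - (u (x + r • v) - u x - r • fderiv ℝ u x v) := by abel
    rw [← Real.norm_of_nonneg r0.le, ← norm_smul, Real.norm_of_nonneg r0.le, e]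
    exact (norm_sub_le _ _).trans (add_le_add (norm_sub_le _ _) h2)
  refine le_of_mul_le_mul_left ?_ r0
  nlinarith

variable {u : E n → E N}

theorem cd_comp {k : WithTop ℕ∞} (hu : ContDiff ℝ k u) (a : Fin N) :
    ContDiff ℝ k fun y => u y a := (contDiff_coord a).comp hu

theorem fd_comp (hu : ContDiff ℝ 2 u) (a : Fin N) (x v : E n) :
    fderiv ℝ (fun y => u y a) x v = fderiv ℝ u x v a := by
  have h := (EuclideanSpace.proj a : E N →L[ℝ] ℝ).hasFDerivAt.comp x
    (hu.differentiable (by norm_num) x).hasFDerivAt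
  exact congrArg (fun T : E n →L[ℝ] ℝ => T v) h.fderiv

theorem lap_sq (hg : Met g) (hu : ContDiff ℝ 2 u) (x : E n) :
    lap g (fun y => ‖u y‖ ^ 2) x = 2 * ∑ a, u x a * lap g (fun y => u y a) x +
      2 * ∑ a, ip g (fun y => u y a) (fun y => u y a) x := by
  have h : ∀ s : Finset (Fin N), lap g (fun y => ∑ a ∈ s, u y a * u y a) x =
      2 * ∑ a ∈ s, u x a * lap g (fun y => u y a) x +
        2 * ∑ a ∈ s, ip g (fun y => u y a) (fun y => u y a) x := fun s => by
    induction s using Finset.induction_on with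
    | empty => simp [lap_const]
    | insert a s ha ih =>
      simp only [Finset.sum_insert ha]
      rw [hg.lap_add ((cd_comp hu a).mul (cd_comp hu a)).contDiffAt
        (ContDiff.sum fun b _ => (cd_comp hu b).mul (cd_comp hu b)).contDiffAt, ih,
        hg.lap_mul (cd_comp hu a).contDiffAt (cd_comp hu a).contDiffAt]
      ring
  simp only [norm_sq_eq]
  simp only [sq]
  exact h Finset.univ

theorem grad_le {Λ : ℝ} (hΛ : Ell g Λ) (hu : ContDiff ℝ 2 u) (x : E n) :
    ∑ i, ‖fderiv ℝ u x (ee i)‖ ^ 2 ≤ Λ * ∑ a, ip g (fun y => u y a) (fun y => u y a) x := by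
  simp only [norm_sq_eq]
  rw [Finset.sum_comm, Finset.mul_sum]
  refine Finset.sum_le_sum fun a _ => ?_
  have d := (cd_comp hu a).differentiable (by norm_num) x
  refine le_trans (le_of_eq ?_) (hΛ.le_ip d)
  simp only [norm_fderiv_sq d, pd_eq d, fd_comp hu]

end LinbH

open LinbH

theorem linb_of (hW : WMB) : LINB := by
  intro n N g ρ A C _ hg hf hA hA0 hC ⟨KC, hKC, _⟩
  obtain ⟨Λ, hΛ⟩ := hg.ell hf
  have hΛ1 := hΛ.one
  obtain ⟨KA, hKA0, hKA⟩ := bdd_of_out (F := fun x i => A i x)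
    (continuous_pi fun i => (hA i).continuous) (R := ρ) (C := 0) fun y hy =>
      (norm_eq_zero.2 (funext fun i => hA0 i y hy.le)).le
  refine ⟨n * Λ * KA ^ 2 + KC + 1, fun l hl K f u hu hK hH heq => ⟨fun hf' => ?_, fun hd => ?_⟩⟩
  · refine boot hg (fun a => EuclideanSpace.proj a) (fun a => EuclideanSpace.single a 1)
      (fun v => ?_) (hc2 hu fun R => ⟨K, fun x _ => hH.1 x (mem_univ _),
        fun x _ y _ => hH.2 x (mem_univ _) y (mem_univ _)⟩)
      (fun a q => l * q.2.1 a + (∑ i, A i q.1 (q.2.2 (ee i)) + C q.1 q.2.1) a - f q.1 a -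
        ∑ j, bv g j q.1 * q.2.2 (ee j) a) (fun a => ?_) fun a x => ?_
    · ext a
      simp [Pi.single_apply]
    · have h1 : ContDiff ℝ ∞ fun q : E n × E N × (E n →L[ℝ] E N) => q.2.1 :=
        contDiff_fst.comp contDiff_snd
      have h2 : ∀ j, ContDiff ℝ ∞ fun q : E n × E N × (E n →L[ℝ] E N) => q.2.2 (ee j) := fun j =>
        (contDiff_snd.comp contDiff_snd).clm_apply contDiff_const
      refine (((contDiff_const.mul ((contDiff_coord a).comp h1)).add ((contDiff_coord a).comp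
        ((ContDiff.sum fun i _ => ((hA i).comp contDiff_fst).clm_apply (h2 i)).add
          ((hC.comp contDiff_fst).clm_apply h1)))).sub
        ((contDiff_coord a).comp (hf'.comp contDiff_fst))).sub (ContDiff.sum fun j _ =>
          (ContDiff.comp (hg.sm_bv j) contDiff_fst).mul ((contDiff_coord a).comp (h2 j)))
    · show ∑ i, ∑ j, up g i j x * fderiv ℝ (fderiv ℝ fun y => u y a) x (ee i) (ee j) = _
      rw [lap_eq' hg (cd_comp hu a).contDiffAt]
      simp only [fd_comp hu]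
      linarith [heq x a]
  · obtain ⟨c, hc, D, hD⟩ := hd
    have key : ∀ x, ‖u x‖ ^ 2 - D ^ 2 * Real.exp (-(2 * c) * ‖x‖) ≤
        lap g (fun y => ‖u y‖ ^ 2) x := fun x => by
      set T := ∑ i, A i x (fderiv ℝ u x (ee i)) + C x (u x) with hT
      have e1 : ∑ a, u x a * lap g (fun y => u y a) x =
          l * ‖u x‖ ^ 2 + inner ℝ (u x) (T - f x) := by
        rw [norm_sq_eq, Finset.mul_sum, PiLp.inner_apply, ← Finset.sum_add_distrib]
        refine Finset.sum_congr rfl fun a _ => ?_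
        have := heq x a
        rw [← hT] at this
        rw [show lap g (fun y => u y a) x = l * u x a + T a - f x a by linarith]
        simp only [PiLp.sub_apply, RCLike.inner_apply, conj_trivial]
        ring
      have e2 : ‖T‖ ≤ ∑ i, KA * ‖fderiv ℝ u x (ee i)‖ + KC * ‖u x‖ :=
        (norm_add_le _ _).trans (add_le_add ((norm_sum_le _ _).trans (Finset.sum_le_sum fun i _ =>
          (A i x).le_of_opNorm_le ((norm_le_pi_norm (fun i => A i x) i).trans (hKA x)) _))
          ((C x).le_of_opNorm_le (hKC x) _))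
      have e3 : Λ * (‖u x‖ * ∑ i, KA * ‖fderiv ℝ u x (ee i)‖) ≤
          ∑ i, ‖fderiv ℝ u x (ee i)‖ ^ 2 + Λ * (n * Λ * KA ^ 2 * ‖u x‖ ^ 2) := by
        have : Λ * (n * Λ * KA ^ 2 * ‖u x‖ ^ 2) = ∑ _i : Fin n, (Λ * KA * ‖u x‖) ^ 2 := by
          simp
          ring
        rw [this, Finset.mul_sum, Finset.mul_sum, ← Finset.sum_add_distrib]
        refine Finset.sum_le_sum fun i _ => ?_
        nlinarith [sq_nonneg (‖fderiv ℝ u x (ee i)‖ - Λ * KA * ‖u x‖),
          sq_nonneg ‖fderiv ℝ u x (ee i)‖, sq_nonneg (Λ * KA * ‖u x‖)]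
      have e4 := grad_le hΛ hu x
      have e5 : ‖u x‖ * ∑ i, KA * ‖fderiv ℝ u x (ee i)‖ ≤
          ∑ a, ip g (fun y => u y a) (fun y => u y a) x + n * Λ * KA ^ 2 * ‖u x‖ ^ 2 :=
        le_of_mul_le_mul_left (by linarith) (by linarith : 0 < Λ)
      have e6 := (abs_le.1 ((abs_real_inner_le_norm (u x) (T - f x)).trans
        (mul_le_mul_of_nonneg_left ((norm_sub_le _ _).trans (add_le_add_left e2 _))
          (norm_nonneg _)))).1
      have e7 : ‖f x‖ ^ 2 ≤ D ^ 2 * Real.exp (-(2 * c) * ‖x‖) := by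
        refine (pow_le_pow_left₀ (norm_nonneg _) (hD x) 2).trans_eq ?_
        rw [mul_pow, ← Real.exp_nat_mul]
        congr 2
        push_cast
        ring
      have e8 := mul_le_mul_of_nonneg_right hl.le (sq_nonneg ‖u x‖)
      rw [lap_sq hg hu, e1]
      nlinarith [sq_nonneg (‖u x‖ - ‖f x‖)]
    obtain ⟨c', hc', h⟩ := dec_sub hW hg hf (hu.norm_sq ℝ) (M := K ^ 2) (fun x => by
      rw [abs_of_nonneg (sq_nonneg _)]
      exact pow_le_pow_left₀ (norm_nonneg _) (hK x).1 2) (by positivity) (sq_nonneg D) key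
    have hu' : Dec u := ⟨c' / 2, by positivity, 2 * |D|, fun x => by
      refine le_of_sq_le_sq ((h x).trans_eq ?_) (by positivity)
      rw [mul_pow, mul_pow, sq_abs, ← Real.exp_nat_mul]
      congr 2
      · norm_num
      · push_cast
        ring⟩
    exact ⟨hu', dec_fderiv hu (fun x => hH.1 x (mem_univ _)) hu'⟩

theorem linv_of (hA : LINA) (hB : LINB) : LINV := by
  intro n N g ρ A C h1 h2 h3 h4 h5 h6 h7
  obtain ⟨l₀, a⟩ := hA n N g ρ A C h1 h2 h3 h4 h5 h6 h7
  obtain ⟨l₁, b⟩ := hB n N g ρ A C h1 h2 h3 h4 h5 h6 h7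
  refine ⟨max l₀ l₁, fun l hl => ?_⟩
  obtain ⟨K, a'⟩ := a l ((le_max_left _ _).trans hl)
  refine ⟨K, fun M f hf => ?_⟩
  obtain ⟨u, u1, u2, u3, u4⟩ := a' M f hf
  exact ⟨u, u1, u2, u3, u4, b l ((le_max_right _ _).trans hl) _ f u u1 u2 u3 u4⟩

end Vale.Agent.P366Z
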