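import Vale.Agent.P366Z.Sk
import Vale.Agent.P366Z.Calc2
import Vale.Agent.P272.K.MP.Local

/-!
# P366Z: the maximum principles
-/

open Metric Filter Topology Set
open scoped ContDiff
open Vale.Agent.P366.Stmt Vale.Agent.P272.K.MP

noncomputable section

namespace Vale.Agent.P366Z

theorem ptm : PTM := by
  intro n g U u x hg hU hu hx
  have h1 : ∀ i, pd i u x = 0 := fun i => by
    rw [pd_eq (diff2 hu), fderiv_eq_zero_of_max hx]
    rfl
  refine ⟨h1, ?_⟩
  obtain ⟨f, ξ, h⟩ := exists_diagonal _ (fderiv2_symm hu)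
  have h2 : ∑ i, ∑ j, up g i j x * pd i (pd j u) x = ∑ k, fderiv ℝ (fderiv ℝ u) x (f k) (f k) *
      ∑ i, ∑ j, up g i j x * ξ k (EuclideanSpace.single i 1) * ξ k (EuclideanSpace.single j 1) := by
    simp only [pd_pd_eq hu, Finset.mul_sum]
    symm
    rw [Finset.sum_comm]
    refine Finset.sum_congr rfl fun i _ => ?_
    rw [Finset.sum_comm]
    refine Finset.sum_congr rfl fun j _ => ?_
    conv_rhs => rw [h]
    simp only [_root_.sum_apply, _root_.smul_apply, ContinuousLinearMap.smulRight_apply,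
      smul_eq_mul, Finset.mul_sum]
    exact Finset.sum_congr rfl fun k _ => by ring
  rw [hg.wl_eq (hU.diff x) hu, hg.lap_eq hu, h2]
  simp only [ip, h1, mul_zero, Finset.sum_const_zero, add_zero]
  exact mul_nonpos_of_nonneg_of_nonpos (sq_nonneg _) (Finset.sum_nonpos fun k _ =>
    mul_nonpos_of_nonpos_of_nonneg (fderiv2_nonpos_of_max hx hu _) (hg.up_nonneg x _))

/-- a strict subsolution on a ball -/
theorem exists_sub {n : ℕ} {g : Field n} {U : E n → ℝ} (hg : Met g) (hU : Smooth U)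
    (h0 : ∀ x, 0 < U x) (i : Fin n) (R : ℝ) : ∃ l : ℝ, 0 < l ∧ ∀ x ∈ closedBall (0 : E n) R,
      0 < wl g U (fun y => Real.exp (l * y i)) x := by
  have hc : Smooth fun y : E n => y i := contDiff_coord i
  have h1 : ∀ x, 0 < U x ^ 2 * ip g (fun y => y i) (fun y => y i) x := fun x =>
    mul_pos (pow_pos (h0 x) 2) (hg.up_pos x (ξ := fun j => pd j (fun y => y i) x) fun h => by
      simpa [pd_coord] using congrFun h i)
  obtain ⟨B, hB⟩ := (isCompact_closedBall (0 : E n) R).exists_bound_of_continuousOn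
    (((hg.sm_wl hU hc).cont.div ((hU.cont.pow 2).mul (hg.sm_ip hc hc).cont)
      fun x => (h1 x).ne').continuousOn)
  refine ⟨|B| + 1, by positivity, fun x hx => ?_⟩
  have h2 : ∀ t, HasDerivAt (fun t => Real.exp ((|B| + 1) * t))
      (Real.exp ((|B| + 1) * t) * (|B| + 1)) t := fun t => by
    simpa using ((hasDerivAt_id t).const_mul (|B| + 1)).exp
  have h3 : deriv (fun t => Real.exp ((|B| + 1) * t)) =
      fun t => Real.exp ((|B| + 1) * t) * (|B| + 1) := funext fun t => (h2 t).deriv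
  rw [hg.wl_comp (φ := fun t => Real.exp ((|B| + 1) * t)) (hU.diff x) (hc.c2 x) (by fun_prop), h3,
    ((h2 _).mul_const _).deriv, mul_assoc _ _ (U x ^ 2 * _), ← mul_add]
  refine mul_pos (by positivity) ?_
  have h4 := (abs_le.1 ((hB x hx).trans (le_abs_self B))).1
  simp only [Pi.div_apply, Pi.mul_apply, Pi.pow_apply] at h4
  rw [le_div_iff₀ (h1 x)] at h4
  have h5 := h1 x
  linarith

theorem wmp : WMP := by
  intro n g U u c O hn hg hU h0 hO hu hi hf hR x₀ hx₀
  by_contra hneg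
  obtain ⟨R, hR⟩ := hR (-u x₀ / 2) (by linarith)
  set R' := max R ‖x₀‖ with hR'
  obtain ⟨l, hl, hs⟩ := exists_sub hg hU h0 ⟨0, hn⟩ R'
  set δ := -u x₀ / 4 / Real.exp (l * R') with hδ
  have δ0 : 0 < δ := div_pos (by linarith) (Real.exp_pos _)
  have hφ : Smooth fun y : E n => Real.exp (l * y ⟨0, hn⟩) :=
    (contDiff_const.mul (contDiff_coord _)).exp
  have hx : x₀ ∈ closure O ∩ closedBall 0 R' :=
    ⟨subset_closure hx₀, mem_closedBall_zero_iff.2 (le_max_right _ _)⟩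
  obtain ⟨y, hy, hm⟩ := ((isCompact_closedBall (0 : E n) R').inter_left
    isClosed_closure).exists_isMaxOn (f := fun y => δ * Real.exp (l * y ⟨0, hn⟩) + (-1) * u y)
    ⟨x₀, hx⟩ ((continuous_const.mul hφ.cont).continuousOn.add
      (continuousOn_const.mul (hu.mono inter_subset_left)))
  have h1 : -(-u x₀ / 2) ≤ u y := by
    by_cases h : y ∈ O
    · rcases le_or_gt R' ‖y‖ with h' | h'
      · exact hR y h ((le_max_left _ _).trans h')
      have k1 := (ptm n g U _ y hg hU ((contDiffAt_const.mul (hφ.c2 y)).add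
        (contDiffAt_const.mul (hi y h).1)) (hm.isLocalMax (inter_mem
          (mem_of_superset (hO.mem_nhds h) subset_closure)
          (closedBall_mem_nhds_of_mem (mem_ball_zero_iff.2 h'))))).2
      rw [hg.wl_lin (hU.diff y) (hφ.c2 y) (hi y h).1] at k1
      have k2 := mul_pos δ0 (hs y hy.2)
      by_contra k3
      have k4 := mul_nonpos_of_nonneg_of_nonpos (hi y h).2.1 (show u y ≤ 0 by linarith)
      linarith [(hi y h).2.2]
    · linarith [hf y ⟨hy.1, by rwa [hO.interior_eq]⟩]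
  have h2 : δ * Real.exp (l * x₀ ⟨0, hn⟩) + (-1) * u x₀ ≤
    δ * Real.exp (l * y ⟨0, hn⟩) + (-1) * u y := hm hx
  have h3 : δ * Real.exp (l * y ⟨0, hn⟩) ≤ -u x₀ / 4 := by
    rw [← div_mul_cancel₀ (-u x₀ / 4) (Real.exp_pos (l * R')).ne']
    refine mul_le_mul_of_nonneg_left (Real.exp_le_exp.2 (mul_le_mul_of_nonneg_left ?_ hl.le)) δ0.le
    exact (le_abs_self _).trans ((PiLp.norm_apply_le y _).trans (mem_closedBall_zero_iff.1 hy.2))
  have h4 := mul_pos δ0 (Real.exp_pos (l * x₀ ⟨0, hn⟩))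
  linarith

theorem wmb : WMB := by
  intro n g ρ l U u hg hf hU hl hu ⟨M, hM⟩ he x
  obtain ⟨c, hc, C, hC⟩ := hU.bd
  have h0 : ∀ y, 0 < U y := fun y => hc.trans_le (hC y).1
  rcases Nat.eq_zero_or_pos n with rfl | hn
  · have := he x
    simp only [wl, dv, Finset.univ_eq_empty, Finset.sum_empty, zero_div] at this
    exact nonneg_of_mul_nonneg_right this (mul_pos hl (pow_pos (h0 x) 2))
  have hq : Smooth fun y : E n => ‖y‖ ^ 2 := contDiff_normSq
  obtain ⟨Λ, hΛ⟩ := hg.ell hf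
  obtain ⟨K, hK, h1⟩ := bdd_of_out (hg.sm_lap hq).cont (R := ρ) (C := ‖(2 * n : ℝ)‖) fun y hy => by
    rw [hf.lap_eq hy, lap_eu_normSq]
  have C0 : 0 < C := (h0 x).trans_le (hC x).2.1
  have Λ0 := hΛ.one
  set B := 2 * C * (Λ * C * (Λ * 2)) with hB
  have h2 : ∀ y, wl g U (fun y => ‖y‖ ^ 2) y ≤ C ^ 2 * K + B * ‖y‖ := fun y => by
    have k1 : ‖fderiv ℝ (fun y : E n => ‖y‖ ^ 2) y‖ ≤ 2 * ‖y‖ := by
      refine (pow_le_pow_iff_left₀ (norm_nonneg _) (by positivity) two_ne_zero).1 ?_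
      rw [norm_fderiv_sq (hq.diff y), mul_pow, norm_sq_eq, Finset.mul_sum]
      exact (Finset.sum_congr rfl fun i _ => by rw [pd_normSq]; ring).le
    have k2 := (le_abs_self _).trans ((hg.abs_ip_le U (fun y => ‖y‖ ^ 2) y).trans (mul_le_mul
      ((hΛ.gn_le (hU.sm.diff y)).trans (mul_le_mul_of_nonneg_left (hC y).2.2.1 (by linarith)))
      ((hΛ.gn_le (hq.diff y)).trans (mul_le_mul_of_nonneg_left k1 (by linarith)))
      (gn_nonneg _ _ _) (by positivity)))
    have k3 := mul_le_mul (pow_le_pow_left₀ (h0 y).le (hC y).2.1 2) (h1 y) (norm_nonneg _)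
      (by positivity)
    have k4 := mul_le_mul_of_nonneg_left ((le_abs_self _).trans_eq (Real.norm_eq_abs
      (lap g (fun y : E n => ‖y‖ ^ 2) y)).symm) (sq_nonneg (U y))
    have k5 := mul_le_mul_of_nonneg_left k2 (h0 y).le
    have k6 := mul_le_mul_of_nonneg_right (hC y).2.1
      (by positivity : 0 ≤ Λ * C * (Λ * (2 * ‖y‖)))
    rw [hg.wl_eq (hU.sm.diff y) (hq.c2 y), hB]
    linarith
  set m := l * c ^ 2 with hm
  have m0 : 0 < m := by positivity
  set A := (C ^ 2 * K + B ^ 2 / m) / m with hA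
  have A0 : 0 ≤ A := by positivity
  have h3 : ∀ y, wl g U (fun y => ‖y‖ ^ 2 + A) y ≤ l * U y ^ 2 * (‖y‖ ^ 2 + A) := fun y => by
    rw [wl_add_const]
    have k1 : m * (‖y‖ ^ 2 + A) ≤ l * U y ^ 2 * (‖y‖ ^ 2 + A) := by
      have := (hC y).1
      rw [hm]
      gcongr
    have k2 : B * ‖y‖ ≤ m * ‖y‖ ^ 2 + B ^ 2 / m := by
      rw [← sub_le_iff_le_add', le_div_iff₀ m0]
      nlinarith [sq_nonneg (m * ‖y‖ - B), sq_nonneg (m * ‖y‖), sq_nonneg B]
    rw [mul_add m, hA, mul_div_cancel₀ _ m0.ne'] at k1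
    linarith [h2 y]
  have hq' : Smooth fun y : E n => ‖y‖ ^ 2 + A := ContDiff.add hq contDiff_const
  refine le_of_forall_pos_le_add fun ε hε => ?_
  set δ := ε / (‖x‖ ^ 2 + A + 1) with hδ
  have δ0 : 0 < δ := by positivity
  have h4 := wmp n g U (fun y => 1 * u y + δ * (‖y‖ ^ 2 + A)) (fun y => l * U y ^ 2) univ hn hg
    hU.sm h0 isOpen_univ ((continuous_const.mul hu.continuous).add
      (continuous_const.mul hq'.cont)).continuousOn
    (fun y _ => ⟨(contDiffAt_const.mul hu.contDiffAt).add (contDiffAt_const.mul (hq'.c2 y)),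
      by positivity, by
        rw [hg.wl_lin (hU.sm.diff y) hu.contDiffAt (hq'.c2 y)]
        nlinarith [he y, mul_le_mul_of_nonneg_left (h3 y) δ0.le]⟩)
    (fun y hy => by simp at hy) (fun e he => ⟨M / δ + 1, fun y _ hy => by
      have k1 := (abs_nonneg _).trans (hM y)
      have k2 : 0 ≤ M / δ := by positivity
      have k3 : M / δ ≤ ‖y‖ ^ 2 + A := by nlinarith
      rw [div_le_iff₀' δ0] at k3
      linarith [(abs_le.1 (hM y)).1]⟩) x (mem_univ x)
  have h5 : δ * (‖x‖ ^ 2 + A + 1) = ε := div_mul_cancel₀ _ (by positivity)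
  linarith

end Vale.Agent.P366Z
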