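import Vale.Agent.P366Z.Newt0
import Vale.Agent.P366Z.Sk

/-!
# P366Z: the expansion at infinity
-/

open Metric Filter Topology Set
open scoped ContDiff
open Vale.Agent.P366.Stmt

noncomputable section

namespace Vale.Agent.P366Z

namespace Nw

variable {n : ℕ} {w : E n → ℝ} {x x' e : E n} {R M S r : ℝ}

theorem far {g : E n → ℝ} (h : Tendsto g (cocompact (E n)) (𝓝 0)) {ε : ℝ} (hε : 0 < ε) :
    ∃ R, ∀ x, R ≤ ‖x‖ → |g x| ≤ ε := by
  obtain ⟨K, hK, h1⟩ := mem_cocompact.1 (h.eventually (closedBall_mem_nhds 0 hε))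
  obtain ⟨R, hR⟩ := hK.isBounded.subset_ball 0
  refine ⟨R, fun x hx => ?_⟩
  have := h1 (show x ∈ Kᶜ from fun k => (mem_ball_zero_iff.1 (hR k)).not_ge hx)
  simpa using this

theorem lim_pow {p : ℝ} (hp : p < 0) :
    Tendsto (fun y : E n => ‖y‖ ^ p) (cocompact (E n)) (𝓝 0) := by
  have := (tendsto_rpow_neg_atTop (neg_pos.2 hp)).comp (tendsto_norm_cocompact_atTop (E := E n))
  simpa [Function.comp_def] using this

theorem pw1 (hr : 0 < r) (n : ℕ) : r ^ (1 - n : ℝ) = r * r ^ (-n : ℝ) := by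
  rw [sub_eq_add_neg, Real.rpow_add hr, Real.rpow_one]

theorem pw2 (hr : 0 < r) (n : ℕ) : r ^ (2 - n : ℝ) = r ^ 2 * r ^ (-n : ℝ) := by
  rw [sub_eq_add_neg, Real.rpow_add hr, Real.rpow_two]

theorem pw3 (hr : 0 < r) (n : ℕ) : r ^ (-(n + 2) : ℝ) = r ^ (-n : ℝ) / r ^ 2 := by
  rw [neg_add', Real.rpow_sub hr, Real.rpow_two]

/-- the hypotheses, with a strict inequality -/
structure H (w : E n → ℝ) (R M S : ℝ) : Prop where
  dim : 3 ≤ n
  one : 1 ≤ R
  M0 : 0 ≤ M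
  S0 : 0 ≤ S
  sm : Smooth w
  bd : ∀ x, R ≤ ‖x‖ → |w x| ≤ M ∧ |lap (eu n) w x| < S * ‖x‖ ^ (-(n + 2) : ℝ)
  lim : Tendsto w (cocompact (E n)) (𝓝 0)

theorem H.neg (h : H w R M S) : H (fun x => -w x) R M S :=
  ⟨h.dim, h.one, h.M0, h.S0, ContDiff.neg h.sm, fun x hx => by
    rw [lap_neg, abs_neg, abs_neg]
    exact h.bd x hx, by simpa using h.lim.neg⟩

theorem H.ne (h : H w R M S) (hx : R ≤ ‖x‖) : x ≠ 0 :=
  norm_pos_iff.1 (by linarith [h.one])

/-- comparison with the reflection -/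
theorem H.ang (h : H w R M S) (he : ‖e‖ = 1) (L : E n ≃ₗᵢ[ℝ] E n)
    (hL : ∀ y, ht e y = 0 → L y = y) (hx : R ≤ ‖x‖) (hx' : 0 ≤ ht e x) :
    w x - w (L x) ≤ (n + 2) * ((S + 2 * M * R ^ (n : ℝ)) / R) * ‖x‖ ^ (1 - n : ℝ) := by
  have hR : 0 < R := by linarith [h.one]
  have hM := h.M0
  have hS := h.S0
  set B : ℝ := S + 2 * M * R ^ (n : ℝ) with hB
  have hB0 : 0 ≤ B := by positivity
  have hBS : S ≤ B := le_add_of_nonneg_right (by positivity)
  set q : E n → ℝ := fun y => 1 * ‖y‖ ^ (-n : ℝ) +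
    -(n + 1 : ℝ) * (ht e y * ht e y * ‖y‖ ^ (-(n + 2) : ℝ)) with hq
  set φ : E n → ℝ := fun y => ((n + 1) * (B / R)) * (ht e y * ‖y‖ ^ (-n : ℝ)) + B * q y with hφ
  have s1 : ∀ y : E n, y ≠ 0 → ContDiffAt ℝ 2 (fun y => ht e y * ‖y‖ ^ (-n : ℝ)) y := fun y hy =>
    (sm_ht e).contDiffAt.mul (contDiffAt_norm_rpow hy _)
  have s2 : ∀ y : E n, y ≠ 0 →
      ContDiffAt ℝ 2 (fun y => ht e y * ht e y * ‖y‖ ^ (-(n + 2) : ℝ)) y := fun y hy =>
    ((sm_ht e).mul (sm_ht e)).contDiffAt.mul (contDiffAt_norm_rpow hy _)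
  have sq : ∀ y : E n, y ≠ 0 → ContDiffAt ℝ 2 q y := fun y hy =>
    (contDiffAt_const.mul (contDiffAt_norm_rpow hy _)).add (contDiffAt_const.mul (s2 y hy))
  have sφ : ∀ y : E n, y ≠ 0 → ContDiffAt ℝ 2 φ y := fun y hy =>
    (contDiffAt_const.mul (s1 y hy)).add (contDiffAt_const.mul (sq y hy))
  have lφ : ∀ y : E n, y ≠ 0 → lap (eu n) φ y = -(2 * B * ‖y‖ ^ (-(n + 2) : ℝ)) := fun y hy => by
    rw [hφ, met_eu.lap_lin (s1 y hy) (sq y hy), hq, met_eu.lap_lin (contDiffAt_norm_rpow hy _)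
      (s2 y hy), lap_dip hy, lap_quad hy he, lap_eu_rpow hy, ← neg_add']
    ring
  have val : ∀ y : E n, R ≤ ‖y‖ → 0 ≤ ht e y → B * ‖y‖ ^ (-n : ℝ) ≤ φ y ∧
      φ y ≤ (n + 2) * (B / R) * ‖y‖ ^ (1 - n : ℝ) := fun y hy ht0 => by
    have r0 : 0 < ‖y‖ := by linarith
    have p0 : 0 < ‖y‖ ^ (-n : ℝ) := Real.rpow_pos_of_pos r0 _
    have t1 := ht_le he y
    have e1 : φ y = ((n + 1) * B * (ht e y / R - (ht e y / ‖y‖) ^ 2) + B) * ‖y‖ ^ (-n : ℝ) := by
      simp only [hφ, hq, pw3 r0]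
      field_simp
      ring
    have a0 : 0 ≤ ht e y / ‖y‖ := by positivity
    have a1 : ht e y / ‖y‖ ≤ 1 := (div_le_one r0).2 t1
    have a2 : ht e y / ‖y‖ ≤ ht e y / R := div_le_div_of_nonneg_left ht0 hR hy
    have a3 : ht e y / R ≤ ‖y‖ / R := div_le_div_of_nonneg_right t1 hR.le
    have a4 : 1 ≤ ‖y‖ / R := (one_le_div hR).2 hy
    have a5 : 0 ≤ (n + 1 : ℝ) * B := by positivity
    rw [e1, pw1 r0, ← mul_assoc]
    refine ⟨mul_le_mul_of_nonneg_right (le_add_of_nonneg_left (mul_nonneg a5 (by nlinarith)))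
      p0.le, mul_le_mul_of_nonneg_right ?_ p0.le⟩
    have a6 : (n + 1) * B * (ht e y / R - (ht e y / ‖y‖) ^ 2) ≤ (n + 1) * B * (‖y‖ / R) :=
      mul_le_mul_of_nonneg_left (by nlinarith) a5
    have a7 : B * 1 ≤ B * (‖y‖ / R) := mul_le_mul_of_nonneg_left a4 hB0
    have a8 : (n + 2) * (B / R) * ‖y‖ = (n + 1) * B * (‖y‖ / R) + B * (‖y‖ / R) := by ring
    linarith
  have pos : ∀ y : E n, R ≤ ‖y‖ → 0 ≤ ht e y → 0 ≤ φ y := fun y hy ht0 =>
    (by positivity : 0 ≤ B * ‖y‖ ^ (-n : ℝ)).trans (val y hy ht0).1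
  have key := smp (u := fun y => φ y - (w y - w (L y))) (K := {y | R ≤ ‖y‖ ∧ 0 ≤ ht e y})
    (O := {y | R < ‖y‖ ∧ 0 < ht e y})
    ((isClosed_le continuous_const continuous_norm).inter
      (isClosed_le continuous_const (sm_ht (m := 0) e).continuous))
    ((isOpen_lt continuous_const continuous_norm).inter
      (isOpen_lt continuous_const (sm_ht (m := 0) e).continuous))
    (fun y hy => ⟨hy.1.le, hy.2.le⟩)
    (fun y hy => (sφ y (h.ne hy.1)).sub ((h.sm.c2 y).sub (c2_comp L (h.sm.c2 _))))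
    (fun y hy => by
      have k1 := (h.bd y hy.1.le).2
      have k2 := (h.bd (L y) (by rw [L.norm_map]; exact hy.1.le)).2
      rw [L.norm_map] at k2
      rw [met_eu.lap_sub (sφ y (h.ne hy.1.le)) ((h.sm.c2 y).sub (c2_comp L (h.sm.c2 _))),
        met_eu.lap_sub (h.sm.c2 y) (c2_comp L (h.sm.c2 _)), lap_iso L (h.sm.c2 _),
        lφ y (h.ne hy.1.le)]
      have k3 : S * ‖y‖ ^ (-(n + 2) : ℝ) ≤ B * ‖y‖ ^ (-(n + 2) : ℝ) :=
        mul_le_mul_of_nonneg_right hBS (by positivity)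
      linarith [(abs_lt.1 k1).1, (abs_lt.1 k2).2])
    (fun y hy hy' => by
      rcases hy.2.eq_or_lt with k | k
      · rw [hL y k.symm, sub_self, sub_zero]
        exact pos y hy.1 hy.2
      · have k0 : R = ‖y‖ := hy.1.eq_or_lt.resolve_right fun c => hy' ⟨c, k⟩
        have k1 := abs_le.1 (h.bd y hy.1).1
        have k2 := abs_le.1 (h.bd (L y) (by rw [L.norm_map]; exact hy.1)).1
        have k3 := (val y hy.1 hy.2).1
        have k4 : B * R ^ (-n : ℝ) = S * R ^ (-n : ℝ) + 2 * M := by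
          rw [hB, add_mul, mul_assoc, ← Real.rpow_add hR, add_neg_cancel, Real.rpow_zero, mul_one]
        have k5 : 0 ≤ S * R ^ (-n : ℝ) := by positivity
        rw [← k0] at k3
        linarith)
    (fun ε hε => by
      obtain ⟨R', hR'⟩ := far h.lim (half_pos hε)
      refine ⟨R', fun y hy k => ?_⟩
      have k1 := abs_le.1 (hR' y k)
      have k2 := abs_le.1 (hR' (L y) (by rwa [L.norm_map]))
      linarith [pos y hy.1 hy.2])
  linarith [key x ⟨hx, hx'⟩, (val x hx hx').2]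

/-- the oscillation on spheres -/
theorem H.sph (h : H w R M S) (hx : R ≤ ‖x‖) (e : ‖x‖ = ‖x'‖) :
    w x - w x' ≤ (n + 2) * ((S + 2 * M * R ^ (n : ℝ)) / R) * ‖x‖ ^ (1 - n : ℝ) := by
  rcases eq_or_ne x x' with rfl | hne
  · have := h.M0
    have := h.S0
    have : 0 < R := by linarith [h.one]
    rw [sub_self]
    positivity
  have h0 : 0 < ‖x - x'‖ := norm_pos_iff.2 (sub_ne_zero.2 hne)
  have h1 : ∀ y, ht (‖x - x'‖⁻¹ • (x - x')) y = ‖x - x'‖⁻¹ * inner ℝ (x - x') y := fun y =>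
    real_inner_smul_left _ _ _
  have k := h.ang (e := ‖x - x'‖⁻¹ • (x - x')) (norm_smul_inv_norm (𝕜 := ℝ) (sub_ne_zero.2 hne))
    (ℝ ∙ (x - x'))ᗮ.reflection (fun y hy => Submodule.reflection_mem_subspace_eq_self
      (Submodule.mem_orthogonal_singleton_iff_inner_right.2 (by
        rw [h1] at hy
        exact (mul_eq_zero.1 hy).resolve_left (inv_ne_zero h0.ne')))) hx (by
      rw [h1, inner_sub_left, real_inner_self_eq_norm_sq]
      refine mul_nonneg (inv_nonneg.2 h0.le) ?_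
      have := real_inner_le_norm x' x
      rw [← e] at this
      nlinarith)
  rwa [Submodule.reflection_sub e] at k

/-- propagation from a sphere to infinity -/
theorem H.rad (h : H w R M S) (hr : R ≤ r) {m : ℝ}
    (hm : ∀ y, ‖y‖ = r → w y ≤ m * r ^ (2 - n : ℝ)) (hx : r ≤ ‖x‖) :
    w x ≤ (m + S / r ^ 2) * ‖x‖ ^ (2 - n : ℝ) := by
  have r0 : 0 < r := by linarith [h.one]
  have hS := h.S0
  have hn : (3 : ℝ) ≤ n := by exact_mod_cast h.dim
  set φ : E n → ℝ := fun y => (m + S / r ^ 2) * ‖y‖ ^ (2 - n : ℝ) + -S * ‖y‖ ^ (-n : ℝ) with hφ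
  have sφ : ∀ y : E n, y ≠ 0 → ContDiffAt ℝ 2 φ y := fun y hy =>
    (contDiffAt_const.mul (contDiffAt_norm_rpow hy _)).add
      (contDiffAt_const.mul (contDiffAt_norm_rpow hy _))
  have key := smp (u := fun y => φ y - w y) (K := {y | r ≤ ‖y‖}) (O := {y | r < ‖y‖})
    (isClosed_le continuous_const continuous_norm) (isOpen_lt continuous_const continuous_norm)
    (fun y (hy : r < ‖y‖) => hy.le) (fun y hy => (sφ y (h.ne (hr.trans hy))).sub (h.sm.c2 y))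
    (fun y hy => by
      have hy' : R ≤ ‖y‖ := hr.trans (le_of_lt hy)
      have k1 := (abs_lt.1 (h.bd y hy').2).1
      have k2 : 0 ≤ S * ‖y‖ ^ (-(n + 2) : ℝ) := by positivity
      rw [met_eu.lap_sub (sφ y (h.ne hy')) (h.sm.c2 y), hφ, met_eu.lap_lin
        (contDiffAt_norm_rpow (h.ne hy') _) (contDiffAt_norm_rpow (h.ne hy') _),
        lap_eu_rpow (h.ne hy'), lap_eu_rpow (h.ne hy'), ← neg_add' (n : ℝ) 2]
      nlinarith)
    (fun y hy hy' => by
      have k0 : ‖y‖ = r := le_antisymm (not_lt.1 hy') hy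
      have k1 := hm y k0
      have k2 : S / r ^ 2 * r ^ (2 - n : ℝ) = S * r ^ (-n : ℝ) := by
        rw [pw2 r0]
        field_simp
      simp only [hφ, k0]
      linarith [add_mul m (S / r ^ 2) (r ^ (2 - n : ℝ))])
    (fun ε hε => by
      have t : Tendsto (fun y => φ y - w y) (cocompact (E n)) (𝓝 0) := by
        have := (((lim_pow (n := n) (p := 2 - n) (by linarith)).const_mul (m + S / r ^ 2)).add
          ((lim_pow (n := n) (p := -n) (by linarith)).const_mul (-S))).sub h.lim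
        simpa only [mul_zero, add_zero, sub_zero] using this
      obtain ⟨R', hR'⟩ := far t hε
      exact ⟨R', fun y _ k => (abs_le.1 (hR' y k)).1⟩)
  have k1 := key x hx
  have k2 : 0 ≤ S * ‖x‖ ^ (-n : ℝ) := by positivity
  simp only [hφ] at k1
  linarith

theorem H.pair (h : H w R M S) (h1 : R ≤ ‖x'‖) (h2 : ‖x'‖ ≤ ‖x‖) :
    w x / ‖x‖ ^ (2 - n : ℝ) - w x' / ‖x'‖ ^ (2 - n : ℝ) ≤
      (2 * n + 5) * (M + S) * R ^ (n - 1 : ℝ) / ‖x'‖ := by
  have hR : 0 < R := by linarith [h.one]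
  have r0 : 0 < ‖x'‖ := by linarith
  have r1 : 0 < ‖x‖ := by linarith
  have hM := h.M0
  have hS := h.S0
  have hn : (3 : ℝ) ≤ n := by exact_mod_cast h.dim
  set G : ℝ := (n + 2) * ((S + 2 * M * R ^ (n : ℝ)) / R) with hG
  have k := h.rad h1 (m := w x' / ‖x'‖ ^ (2 - n : ℝ) + G / ‖x'‖) (fun y hy => by
    have k1 := h.sph (x := y) (x' := x') (hy ▸ h1) hy
    have k2 : G / ‖x'‖ * ‖x'‖ ^ (2 - n : ℝ) = G * ‖x'‖ ^ (1 - n : ℝ) := by
      rw [pw1 r0, pw2 r0]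
      field_simp
    rw [add_mul, div_mul_cancel₀ _ (Real.rpow_pos_of_pos r0 _).ne', k2]
    rw [hy] at k1
    linarith) h2
  rw [← div_le_iff₀ (Real.rpow_pos_of_pos r1 _)] at k
  have q1 : 1 ≤ R ^ (n - 1 : ℝ) := Real.one_le_rpow h.one (by linarith)
  have q2 : G = (n + 2) * (S / R + 2 * M * R ^ (n - 1 : ℝ)) := by
    rw [hG, Real.rpow_sub hR, Real.rpow_one]
    ring
  have q3 : S / R ≤ S * R ^ (n - 1 : ℝ) :=
    (div_le_self hS h.one).trans (le_mul_of_one_le_right hS q1)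
  have q4 : S / ‖x'‖ ≤ S * R ^ (n - 1 : ℝ) :=
    (div_le_self hS (h.one.trans h1)).trans (le_mul_of_one_le_right hS q1)
  have q5 : G + S / ‖x'‖ ≤ (2 * n + 5) * (M + S) * R ^ (n - 1 : ℝ) := by
    have a1 : 0 ≤ M * R ^ (n - 1 : ℝ) := by positivity
    have a2 : 0 ≤ S * R ^ (n - 1 : ℝ) := by positivity
    have a3 := mul_le_mul_of_nonneg_left q3 (by positivity : (0 : ℝ) ≤ n + 2)
    rw [q2]
    nlinarith
  have q6 := div_le_div_of_nonneg_right q5 r0.le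
  have q7 : (G + S / ‖x'‖) / ‖x'‖ = G / ‖x'‖ + S / ‖x'‖ ^ 2 := by
    field_simp
  linarith

theorem H.pair' (h : H w R M S) (h1 : R ≤ ‖x'‖) (h2 : ‖x'‖ ≤ ‖x‖) :
    |w x / ‖x‖ ^ (2 - n : ℝ) - w x' / ‖x'‖ ^ (2 - n : ℝ)| ≤
      (2 * n + 5) * (M + S) * R ^ (n - 1 : ℝ) / ‖x'‖ := by
  have k := h.neg.pair h1 h2
  simp only [neg_div] at k
  exact abs_le.2 ⟨by linarith, h.pair h1 h2⟩

/-- the limit of a function with small oscillation -/
theorem ex_lim (hn : 0 < n) {u : E n → ℝ} {D : ℝ} (hR : 0 < R)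
    (h : ∀ x x' : E n, R ≤ ‖x'‖ → ‖x'‖ ≤ ‖x‖ → |u x - u x'| ≤ D / ‖x'‖) :
    ∃ β, ∀ x, R ≤ ‖x‖ → |u x - β| ≤ D / ‖x‖ := by
  let s : ℕ → E n := fun k => EuclideanSpace.single ⟨0, hn⟩ (R + k)
  have hs : ∀ k, ‖s k‖ = R + k := fun k => by
    simp only [s, PiLp.norm_single]
    exact Real.norm_of_nonneg (by positivity)
  have ht : Tendsto (fun k : ℕ => R + k) atTop atTop :=
    tendsto_atTop_add_const_left _ _ tendsto_natCast_atTop_atTop
  obtain ⟨β, hβ⟩ := cauchySeq_tendsto_of_complete (cauchySeq_of_le_tendsto_0'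
    (s := fun k => u (s k)) (fun k => D / (R + k)) (fun j k hjk => by
      rw [dist_comm, Real.dist_eq, ← hs j]
      refine h _ _ (by rw [hs]; linarith [Nat.cast_nonneg (α := ℝ) j]) ?_
      rw [hs, hs]
      gcongr) (ht.const_div_atTop D))
  refine ⟨β, fun x hx => ?_⟩
  rw [abs_sub_comm]
  refine le_of_tendsto (hβ.sub_const (u x)).abs ?_
  filter_upwards [ht.eventually_ge_atTop ‖x‖] with k hk
  exact h _ _ hx (hs k ▸ hk)

end Nw

open Nw in
theorem newt : NEWT := by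
  intro n hn
  refine ⟨2 * n + 5, fun v a R M S hR hv hb hl => ?_⟩
  have hn' : (3 : ℝ) ≤ n := by exact_mod_cast hn
  have R0 : 0 < R := by linarith
  have e0 : R ≤ ‖(EuclideanSpace.single ⟨0, by omega⟩ R : E n)‖ := by
    simp [abs_of_pos R0]
  have hM : 0 ≤ M := (abs_nonneg _).trans (hb _ e0).1
  have hS : 0 ≤ S := nonneg_of_mul_nonneg_left ((abs_nonneg _).trans (hb _ e0).2)
    (Real.rpow_pos_of_pos (R0.trans_le e0) _)
  have lw : ∀ x, lap (eu n) (fun y => v y - a) x = lap (eu n) v x := fun x => by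
    simp only [sub_eq_add_neg]
    exact lap_add_const _
  have hH : ∀ S' > S, H (fun y => v y - a) R M S' := fun S' hS' =>
    ⟨hn, hR, hM, by linarith, ContDiff.sub hv contDiff_const, fun x hx => ⟨(hb x hx).1, by
      rw [lw]
      exact (hb x hx).2.trans_lt (mul_lt_mul_of_pos_right hS'
        (Real.rpow_pos_of_pos (R0.trans_le hx) _))⟩, by simpa using hl.sub_const a⟩
  set D : ℝ := (2 * n + 5) * (M + S) * R ^ (n - 1 : ℝ) with hD
  have D0 : 0 ≤ D := by positivity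
  obtain ⟨β, hβ⟩ := ex_lim (by omega) (u := fun x => (v x - a) / ‖x‖ ^ (2 - n : ℝ)) (D := D) R0
    fun x x' h1 h2 => by
      have t : Tendsto (fun S' : ℝ => (2 * n + 5) * (M + S') * R ^ (n - 1 : ℝ) / ‖x'‖) (𝓝[>] S)
          (𝓝 (D / ‖x'‖)) := (Continuous.tendsto (by fun_prop) S).mono_left nhdsWithin_le_nhds
      exact ge_of_tendsto t (eventually_nhdsWithin_of_forall fun S' hS' => (hH S' hS').pair' h1 h2)
  have est : ∀ x, R ≤ ‖x‖ → |v x - a - β * ‖x‖ ^ (2 - n : ℝ)| ≤ D * ‖x‖ ^ (1 - n : ℝ) :=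
    fun x hx => by
      have r0 : 0 < ‖x‖ := R0.trans_le hx
      have p0 := Real.rpow_pos_of_pos r0 (2 - n : ℝ)
      have k := mul_le_mul_of_nonneg_right (hβ x hx) p0.le
      have k2 : D / ‖x‖ * ‖x‖ ^ (2 - n : ℝ) = D * ‖x‖ ^ (1 - n : ℝ) := by
        rw [pw1 r0, pw2 r0]
        field_simp
      rwa [k2, ← abs_of_pos p0, ← abs_mul, abs_of_pos p0, sub_mul, div_mul_cancel₀ _ p0.ne'] at k
  refine ⟨β, ⟨D + (n + 1) * (S + 1 + 2 * D) * 2 ^ (n : ℝ), 2 * R, fun x hx => ⟨?_, fun i => ?_⟩⟩,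
    fun x hx => ?_⟩
  · refine (est x (by linarith)).trans (mul_le_mul_of_nonneg_right ?_ (by positivity))
    exact le_add_of_nonneg_right (by positivity)
  · set ρ : ℝ := ‖x‖ / 2 with hρ
    have ρ1 : 1 ≤ ρ := by linarith
    have ρ0 : 0 < ρ := by linarith
    have x0 : x ≠ 0 := norm_pos_iff.1 (by linarith)
    set z : E n → ℝ := fun y => 1 * (v y - a) + -β * ‖y‖ ^ (2 - n : ℝ) with hz
    have sw : Smooth fun y => v y - a := ContDiff.sub hv contDiff_const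
    have k := abs_pd_le' (f := fun y => z (y - -x)) (M := D * ρ ^ (1 - n : ℝ))
      (S := (S + 1) * ρ ^ (-(n + 2) : ℝ)) ρ0 (by positivity) (by positivity) (fun y hy => by
        have a1 : ρ ≤ ‖y - -x‖ := by
          have := norm_sub_norm_le (-x) y
          rw [norm_neg, norm_sub_rev] at this
          linarith
        have a2 : R ≤ ‖y - -x‖ := by linarith
        have a3 : y - -x ≠ 0 := norm_pos_iff.1 (by linarith)
        have a4 : ContDiffAt ℝ 2 z (y - -x) := (contDiffAt_const.mul (sw.c2 _)).add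
          (contDiffAt_const.mul (contDiffAt_norm_rpow a3 _))
        refine ⟨a4.comp y (contDiffAt_id.sub contDiffAt_const), ?_, ?_⟩
        · have a5 := (est _ a2).trans (mul_le_mul_of_nonneg_left
            (Real.rpow_le_rpow_of_nonpos ρ0 a1 (by linarith)) D0)
          simpa only [hz, one_mul, neg_mul, ← sub_eq_add_neg] using a5
        · rw [lap_eu_translate, hz, met_eu.lap_lin (sw.c2 _) (contDiffAt_norm_rpow a3 _),
            lap_eu_rpow a3, one_mul, show (2 - n + n - 2 : ℝ) = 0 by ring, mul_zero, zero_mul,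
            mul_zero, add_zero]
          exact ((hH (S + 1) (by linarith)).bd _ a2).2.trans_le (mul_le_mul_of_nonneg_left
            (Real.rpow_le_rpow_of_nonpos ρ0 a1 (by linarith)) (by linarith))) i
    rw [pd_translate, zero_sub, neg_neg, hz, pd_add ((sw.diff x).const_mul 1)
      ((diff2 (contDiffAt_norm_rpow x0 _)).const_mul _), pd_const_mul, pd_const_mul, pd_sub_const,
      pd_norm_rpow x0, show (2 - n - 2 : ℝ) = -n by ring, pw1 ρ0, pw3 ρ0] at k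
    have b0 := Real.rpow_pos_of_pos ρ0 (-n : ℝ)
    have b1 : ρ ^ (-n : ℝ) = 2 ^ (n : ℝ) * ‖x‖ ^ (-n : ℝ) := by
      rw [hρ, Real.div_rpow (norm_nonneg x) zero_le_two, Real.rpow_neg zero_le_two,
        div_inv_eq_mul, mul_comm]
    have b2 : (S + 1) * (ρ ^ (-n : ℝ) / ρ ^ 2) * ρ + 2 * (D * (ρ * ρ ^ (-n : ℝ))) / ρ =
        ((S + 1) / ρ + 2 * D) * ρ ^ (-n : ℝ) := by
      field_simp
    have b3 : (S + 1) / ρ ≤ S + 1 := div_le_self (by linarith) ρ1
    have b4 : (n + 1) * (((S + 1) / ρ + 2 * D) * ρ ^ (-n : ℝ)) ≤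
        (n + 1) * ((S + 1 + 2 * D) * ρ ^ (-n : ℝ)) := by gcongr
    have b5 : 0 ≤ D * ‖x‖ ^ (-n : ℝ) := by positivity
    have b6 : pd i v x + (n - 2) * β * x i * ‖x‖ ^ (-n : ℝ) =
        1 * pd i v x + -β * ((2 - n) * x i * ‖x‖ ^ (-n : ℝ)) := by ring
    rw [b2] at k
    rw [b6]
    refine (k.trans b4).trans ?_
    rw [b1]
    linarith
  · refine (est x (by linarith)).trans_eq ?_
    rw [hD, Real.div_rpow R0.le (norm_nonneg x), ← neg_sub (n : ℝ) 1,
      Real.rpow_neg (norm_nonneg x)]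
    ring

end Vale.Agent.P366Z
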