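import Vale.Agent.P366Z.Sk
import Vale.Agent.P366Z.Calc2

/-!
# P366Z: rows RES and STWT
-/

open Metric Filter Topology Set
open scoped ContDiff
open Vale.Agent.P366.Stmt

noncomputable section

namespace Vale.Agent.P366Z

namespace ResH

variable {n : ℕ} {V W Z : Type} [NormedAddCommGroup V] [NormedSpace ℝ V] [NormedAddCommGroup W]
  [NormedSpace ℝ W] [NormedAddCommGroup Z] [NormedSpace ℝ Z] {s : Set (E n)} {K K' : ℝ}

/-- bounded and Hölder on `s` -/
def Hd (K : ℝ) (f : E n → V) (s : Set (E n)) : Prop :=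
  (∀ x ∈ s, ‖f x‖ ≤ K) ∧ ∀ x ∈ s, ∀ y ∈ s, ‖f x - f y‖ ≤ K * ‖x - y‖ ^ (1 / 2 : ℝ)

omit [NormedSpace ℝ V] in
theorem Hd.add {f g : E n → V} (h : Hd K f s) (k : Hd K' g s) :
    Hd (K + K') (fun x => f x + g x) s :=
  ⟨fun x hx => (norm_add_le _ _).trans (add_le_add (h.1 x hx) (k.1 x hx)), fun x hx y hy => by
    rw [add_sub_add_comm, add_mul]
    exact (norm_add_le _ _).trans (add_le_add (h.2 x hx y hy) (k.2 x hx y hy))⟩

theorem Hd.bil {f : E n → V} {g : E n → W} (B : V →L[ℝ] W →L[ℝ] Z)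
    (hB : ∀ a b, ‖B a b‖ ≤ ‖a‖ * ‖b‖) (h : Hd K f s) (k : Hd K' g s) :
    Hd (2 * K * K') (fun x => B (f x) (g x)) s := by
  refine ⟨fun x hx => ?_, fun x hx y hy => ?_⟩
  · have a := h.1 x hx
    have b := k.1 x hx
    have c := mul_le_mul a b (norm_nonneg _) ((norm_nonneg _).trans a)
    nlinarith [hB (f x) (g x), mul_nonneg (norm_nonneg (f x)) (norm_nonneg (g x))]
  · have e : B (f x) (g x) - B (f y) (g y) = B (f x - f y) (g x) + B (f y) (g x - g y) := by
      simp only [map_sub, ContinuousLinearMap.sub_apply]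
      abel
    have a := mul_le_mul (h.2 x hx y hy) (k.1 x hx) (norm_nonneg _)
      ((norm_nonneg _).trans (h.2 x hx y hy))
    have b := mul_le_mul (h.1 y hy) (k.2 x hx y hy) (norm_nonneg _)
      ((norm_nonneg _).trans (h.1 y hy))
    rw [e]
    refine (norm_add_le _ _).trans ?_
    nlinarith [hB (f x - f y) (g x), hB (f y) (g x - g y)]

theorem Hd.smul {f : E n → ℝ} {g : E n → W} (h : Hd K f s) (k : Hd K' g s) :
    Hd (2 * K * K') (fun x => f x • g x) s :=
  h.bil (ContinuousLinearMap.lsmul ℝ ℝ) (fun a b => (norm_smul a b).le) k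

theorem Hd.smulRight {f : E n → E n →L[ℝ] ℝ} {g : E n → W} (h : Hd K f s) (k : Hd K' g s) :
    Hd (2 * K * K') (fun x => (f x).smulRight (g x)) s :=
  h.bil (ContinuousLinearMap.smulRightL ℝ (E n) W)
    (fun a b => (ContinuousLinearMap.norm_smulRight_apply a b).le) k

theorem hd_of {f : E n → V} {R : ℝ} (hf : Differentiable ℝ f)
    (h : ∀ x ∈ ball (0 : E n) R, ‖f x‖ ≤ K ∧ ‖fderiv ℝ f x‖ ≤ K) :
    Hd ((1 + 2 * |R|) * K) f (ball 0 R) := by
  refine ⟨fun x hx => ?_, fun x hx y hy => ?_⟩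
  · have := (norm_nonneg _).trans (h x hx).1
    nlinarith [(h x hx).1, mul_nonneg (abs_nonneg R) this]
  · have k0 := (norm_nonneg _).trans (h x hx).1
    have a := (convex_ball (0 : E n) R).norm_image_sub_le_of_norm_fderiv_le
      (fun z _ => hf z) (fun z hz => (h z hz).2) hy hx
    have b : ‖x - y‖ ≤ 2 * |R| := by
      have := norm_sub_le x y
      rw [mem_ball_zero_iff] at hx hy
      linarith [le_abs_self R]
    rw [← Real.sqrt_eq_rpow]
    have c := Real.mul_self_sqrt (norm_nonneg (x - y))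
    have d := Real.sqrt_nonneg ‖x - y‖
    have e : √‖x - y‖ ≤ 1 + 2 * |R| := by nlinarith
    calc _ ≤ K * (√‖x - y‖ * √‖x - y‖) := by rwa [c]
      _ ≤ K * ((1 + 2 * |R|) * √‖x - y‖) := by gcongr
      _ = _ := by ring

theorem hd_sm {f : E n → V} (hf : ContDiff ℝ 1 f) (R : ℝ) : ∃ K, Hd K f (ball 0 R) := by
  obtain ⟨a, ha⟩ := (isCompact_closedBall (0 : E n) R).exists_bound_of_continuousOn
    hf.continuous.continuousOn
  obtain ⟨b, hb⟩ := (isCompact_closedBall (0 : E n) R).exists_bound_of_continuousOn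
    (hf.continuous_fderiv (by norm_num)).continuousOn
  exact ⟨_, hd_of (K := max a b) (hf.differentiable (by norm_num)) fun x hx =>
    ⟨(ha x (ball_subset_closedBall hx)).trans (le_max_left _ _),
      (hb x (ball_subset_closedBall hx)).trans (le_max_right _ _)⟩⟩

theorem d2_smul {φ : E n → ℝ} {u : E n → V} (hφ : ContDiff ℝ 2 φ) (hu : ContDiff ℝ 2 u) :
    fderiv ℝ (fderiv ℝ fun x => φ x • u x) = fun x =>
      (φ x • fderiv ℝ (fderiv ℝ u) x + (fderiv ℝ φ x).smulRight (fderiv ℝ u x)) +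
      ((ContinuousLinearMap.smulRightL ℝ (E n) V).precompR (E n) (fderiv ℝ φ x) (fderiv ℝ u x) +
        (ContinuousLinearMap.smulRightL ℝ (E n) V).precompL (E n) (fderiv ℝ (fderiv ℝ φ) x) (u x)) := by
  have d1 := hφ.differentiable (by norm_num)
  have d2 := hu.differentiable (by norm_num)
  have d3 : Differentiable ℝ (fderiv ℝ φ) :=
    (hφ.fderiv_right (m := 1) (by norm_num)).differentiable (by norm_num)
  have d4 : Differentiable ℝ (fderiv ℝ u) :=
    (hu.fderiv_right (m := 1) (by norm_num)).differentiable (by norm_num)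
  have e : (fderiv ℝ fun x => φ x • u x) = fun x => φ x • fderiv ℝ u x +
      ContinuousLinearMap.smulRightL ℝ (E n) V (fderiv ℝ φ x) (u x) :=
    funext fun x => fderiv_fun_smul (d1 x) (d2 x)
  rw [e]
  funext x
  exact (((d1 x).hasFDerivAt.fun_smul (d4 x).hasFDerivAt).fun_add
    ((ContinuousLinearMap.smulRightL ℝ (E n) V).hasFDerivAt_of_bilinear (d3 x).hasFDerivAt
      (d2 x).hasFDerivAt)).fderiv

theorem h2_smul {φ : E n → ℝ} (hφ : Smooth φ) (R : ℝ) : ∃ C : ℝ, ∀ (K : ℝ) (u : E n → V),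
    ContDiff ℝ 2 u → (∀ x, ‖u x‖ ≤ K ∧ ‖fderiv ℝ u x‖ ≤ K) → H2 K u univ →
    H2 (C * K) (fun x => φ x • u x) (ball 0 R) := by
  have s1 : ContDiff ℝ ∞ (fderiv ℝ φ) := ContDiff.fderiv_right hφ (by norm_num)
  have s2 : ContDiff ℝ ∞ (fderiv ℝ (fderiv ℝ φ)) := s1.fderiv_right (by norm_num)
  obtain ⟨a, ha⟩ := hd_sm (ContDiff.of_le hφ (by norm_cast)) R
  obtain ⟨b, hb⟩ := hd_sm (s1.of_le (by norm_cast)) R
  obtain ⟨c, hc⟩ := hd_sm (s2.of_le (by norm_cast)) R
  refine ⟨2 * a + 2 * b * (1 + 2 * |R|) + (2 * b * (1 + 2 * |R|) + 2 * c * (1 + 2 * |R|)),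
    fun K u hu h1 h2 => ?_⟩
  have u0 := hd_of (R := R) (hu.differentiable (by norm_num)) fun x _ => h1 x
  have u1 := hd_of (R := R) ((hu.fderiv_right (m := 1) (by norm_num)).differentiable (by norm_num))
    fun x _ => ⟨(h1 x).2, h2.1 x trivial⟩
  have u2 : Hd K (fderiv ℝ (fderiv ℝ u)) (ball 0 R) :=
    ⟨fun x _ => h2.1 x trivial, fun x _ y _ => h2.2 x trivial y trivial⟩
  have t1 := ha.smul u2
  have t2 := hb.smulRight u1
  have t3 := hb.bil (Z := E n →L[ℝ] E n →L[ℝ] V)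
    ((ContinuousLinearMap.smulRightL ℝ (E n) V).precompR (E n)) (fun a b => by
    refine ContinuousLinearMap.opNorm_le_bound _ (by positivity) fun z => ?_
    refine (ContinuousLinearMap.norm_smulRight_apply a (b z)).le.trans ?_
    rw [mul_assoc]
    gcongr
    exact b.le_opNorm z) u1
  have t4 := hc.bil (Z := E n →L[ℝ] E n →L[ℝ] V)
    ((ContinuousLinearMap.smulRightL ℝ (E n) V).precompL (E n)) (fun a b => by
    refine ContinuousLinearMap.opNorm_le_bound _ (by positivity) fun z => ?_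
    refine (ContinuousLinearMap.norm_smulRight_apply (a z) b).le.trans ?_
    rw [mul_right_comm]
    gcongr
    exact a.le_opNorm z) u0
  have t := (t1.add t2).add (t3.add t4)
  show Hd _ (fderiv ℝ (fderiv ℝ fun x => φ x • u x)) _
  rw [d2_smul (ContDiff.of_le hφ (by norm_cast)) hu]
  refine (congrArg (fun k => Hd k _ _) ?_).mp t
  ring

theorem h2_clm (L : V →L[ℝ] W) (hL : ‖L‖ ≤ 1) {u : E n → V} (hu : ContDiff ℝ 2 u) (h : H2 K u s) :
    H2 K (fun x => L (u x)) s := by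
  have d2 := hu.differentiable (by norm_num)
  have d4 : Differentiable ℝ (fderiv ℝ u) :=
    (hu.fderiv_right (m := 1) (by norm_num)).differentiable (by norm_num)
  have e : (fderiv ℝ fun x => L (u x)) = fun x =>
      ContinuousLinearMap.compL ℝ (E n) V W L (fderiv ℝ u x) :=
    funext fun x => (L.hasFDerivAt.comp x (d2 x).hasFDerivAt).fderiv
  have e2 : ∀ x, fderiv ℝ (fderiv ℝ fun x => L (u x)) x =
      (ContinuousLinearMap.compL ℝ (E n) V W L).comp (fderiv ℝ (fderiv ℝ u) x) := fun x => by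
    rw [e]
    exact ((ContinuousLinearMap.compL ℝ (E n) V W L).hasFDerivAt.comp x (d4 x).hasFDerivAt).fderiv
  have b : ∀ A : E n →L[ℝ] E n →L[ℝ] V,
      ‖(ContinuousLinearMap.compL ℝ (E n) V W L).comp A‖ ≤ ‖A‖ := fun A =>
    ContinuousLinearMap.opNorm_le_bound _ (ContinuousLinearMap.opNorm_nonneg _) fun z =>
      ((L.opNorm_comp_le (A z)).trans (mul_le_of_le_one_left (norm_nonneg _) hL)).trans
        (A.le_opNorm z)
  refine ⟨fun x hx => ?_, fun x hx y hy => ?_⟩
  · rw [e2]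
    exact (b _).trans (h.1 x hx)
  · rw [e2, e2, ← ContinuousLinearMap.comp_sub]
    exact (b _).trans (h.2 x hx y hy)

theorem bl_of {f : E n → V} (hf : Differentiable ℝ f)
    (h : ∀ x, ‖f x‖ ≤ K ∧ ‖fderiv ℝ f x‖ ≤ K) : BL K f :=
  ⟨fun x => (h x).1, fun x y => convex_univ.norm_image_sub_le_of_norm_fderiv_le
    (fun z _ => hf z) (fun z _ => (h z).2) trivial trivial⟩

theorem BL.smul {f : E n → ℝ} {g : E n → V} (h : BL K f) (k : BL K' g) :
    BL (2 * K * K') fun x => f x • g x := by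
  have k0 := (norm_nonneg _).trans (h.1 0)
  have k1 := (norm_nonneg _).trans (k.1 0)
  refine ⟨fun x => ?_, fun x y => ?_⟩
  · rw [norm_smul]
    nlinarith [mul_le_mul (h.1 x) (k.1 x) (norm_nonneg _) k0, mul_nonneg k0 k1]
  · have e : f x • g x - f y • g y = (f x - f y) • g x + f y • (g x - g y) := by module
    have a := mul_le_mul (h.2 x y) (k.1 x) (norm_nonneg _) (by positivity)
    have b := mul_le_mul (h.1 y) (k.2 x y) (norm_nonneg _) k0
    rw [e]
    refine (norm_add_le _ _).trans ?_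
    rw [norm_smul, norm_smul]
    linarith

omit [NormedSpace ℝ V] in
theorem bl_const (v : V) : BL ‖v‖ fun _ : E n => v :=
  ⟨fun _ => le_rfl, fun x y => by rw [sub_self, norm_zero]; positivity⟩

end ResH

open ResH in
theorem res_of (hL : LINV) : RES := by
  intro n g ρ U hn hg hf hU
  obtain ⟨c, c0, C, hC⟩ := hU.bd
  have U0 : ∀ x, U x ≠ 0 := fun x => (c0.trans_le (hC x).1).ne'
  have sQ : Smooth fun x => lap g U x / U x := ContDiff.div (hg.sm_lap hU.sm) hU.sm U0
  have bQ : BL C fun x => lap g U x / U x :=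
    bl_of (fun x => sQ.diff x) fun x => ⟨(hC x).2.2.2.1, (hC x).2.2.2.2⟩
  have bU : BL C U := bl_of (fun x => hU.sm.diff x) fun x =>
    ⟨by rw [Real.norm_of_nonneg (c0.le.trans (hC x).1)]; exact (hC x).2.1, (hC x).2.2.1⟩
  have sI : Smooth fun x => (U x)⁻¹ := ContDiff.inv hU.sm U0
  have bI : BL (c⁻¹ + C / c ^ 2) fun x => (U x)⁻¹ := by
    have C0 : 0 ≤ C := (norm_nonneg _).trans (hC 0).2.2.1
    refine bl_of (fun x => sI.diff x) fun x => ⟨?_, ?_⟩
    · rw [Real.norm_of_nonneg (inv_nonneg.2 (c0.le.trans (hC x).1))]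
      exact (inv_anti₀ c0 (hC x).1).trans (le_add_of_nonneg_right (by positivity))
    · have : HasFDerivAt (fun x => (U x)⁻¹) ((-(U x ^ 2)⁻¹) • fderiv ℝ U x) x :=
        (hasDerivAt_inv (U0 x)).comp_hasFDerivAt x (hU.sm.diff x).hasFDerivAt
      rw [this.fderiv, norm_smul, norm_neg, Real.norm_of_nonneg (by positivity), inv_mul_eq_div]
      refine le_trans ?_ (le_add_of_nonneg_left (by positivity))
      gcongr
      exacts [(hC x).2.2.1, (hC x).1]
  obtain ⟨l₀, h0⟩ := hL n 1 g ρ 0 (fun x => (lap g U x / U x) • ContinuousLinearMap.id ℝ (E 1)) hn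
    hg hf (fun _ => contDiff_const) (fun _ _ _ => rfl) (ContDiff.smul sQ contDiff_const)
    ⟨_, BL.smul bQ (bl_const _)⟩
  refine ⟨l₀, fun l hl => ?_⟩
  obtain ⟨K, hK⟩ := h0 l hl
  choose C₂ h₂ using h2_smul (V := ℝ) sI
  refine ⟨2 * (c⁻¹ + C / c ^ 2) * (K * (2 * (2 * C))), fun R => C₂ R * (K * (2 * (2 * C))),
    fun M f hM => ?_⟩
  have b1 := BL.smul (BL.smul bU hM) (bl_const (EuclideanSpace.single (0 : Fin 1) (1 : ℝ)))
  obtain ⟨u, u1, u2, u3, u4, -⟩ := hK _ _ b1
  rw [EuclideanSpace.norm_single, norm_one, mul_one,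
    show K * (2 * (2 * C * M)) = K * (2 * (2 * C)) * M by ring] at u2 u3
  let L : E 1 →L[ℝ] ℝ := EuclideanSpace.proj 0
  have L1 : ‖L‖ ≤ 1 := ContinuousLinearMap.opNorm_le_bound _ zero_le_one fun z => by
    rw [one_mul]
    exact PiLp.norm_apply_le z 0
  have v1 : ContDiff ℝ 2 fun x => L (u x) := L.contDiff.comp u1
  have v2 : ∀ x, ‖L (u x)‖ ≤ K * (2 * (2 * C)) * M ∧
      ‖fderiv ℝ (fun x => L (u x)) x‖ ≤ K * (2 * (2 * C)) * M := fun x => by
    refine ⟨(PiLp.norm_apply_le (u x) 0).trans (u2 x).1, ?_⟩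
    rw [show fderiv ℝ (fun x => L (u x)) x = _ from
      (L.hasFDerivAt.comp x (u1.differentiable (by norm_num) x).hasFDerivAt).fderiv]
    exact ((L.opNorm_comp_le _).trans (mul_le_of_le_one_left (norm_nonneg _) L1)).trans (u2 x).2
  have w1 : ContDiff ℝ 2 fun x => (U x)⁻¹ • L (u x) := (ContDiff.of_le sI (by norm_cast)).smul v1
  refine ⟨fun x => (U x)⁻¹ • L (u x), w1, ?_, fun R => ?_, fun x => ?_⟩
  · rw [mul_assoc _ _ M]
    exact BL.smul bI (bl_of (v1.differentiable (by norm_num)) v2)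
  · rw [mul_assoc _ _ M]
    exact h₂ R _ _ v1 v2 (h2_clm L L1 u1 u3)
  · have e1 := hg.mul_lap_mul (hU.sm.c2 x) (w1.contDiffAt (x := x))
    have e2 : (fun y => U y * (U y)⁻¹ • L (u y)) = fun y => u y 0 := funext fun y => by
      rw [smul_eq_mul, mul_inv_cancel_left₀ (U0 y)]
      rfl
    have e3 := u4 x 0
    rw [e2] at e1
    simp only [Pi.zero_apply, ContinuousLinearMap.zero_apply, Finset.sum_const_zero, zero_add,
      ContinuousLinearMap.smul_apply, ContinuousLinearMap.id_apply, PiLp.smul_apply, smul_eq_mul,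
      EuclideanSpace.single_apply, if_true, mul_one] at e3
    have e4 : L (u x) = u x 0 := rfl
    simp only [smul_eq_mul, e4] at e1 ⊢
    have := U0 x
    field_simp at e1 e3 ⊢
    linear_combination e3 + e1

theorem stwt : STWT := by
  intro n B U a β R s' hB hS
  have lo : ∀ x, a / 2 ≤ U x := fun x => by nlinarith [hS.lo x, (hB.Ub x).1, hS.a0]
  have a2 : 0 < a / 2 := half_pos hS.a0
  have U0 : ∀ x, U x ≠ 0 := fun x => (a2.trans_le (lo x)).ne'
  have sQ : Smooth fun x => lap B.g U x / U x := ContDiff.div (hB.met.sm_lap hS.sm) hS.sm U0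
  have eQ : ∀ x, R ≤ ‖x‖ → lap B.g U x / U x = B.Q x := fun x hx => by
    rw [hS.eqn x hx, mul_div_cancel_right₀ _ (U0 x)]
  have n3 : (3 : ℝ) ≤ n := by exact_mod_cast hB.dim
  obtain ⟨K1, -, h1⟩ := bdd_of_out sQ.cont (R := R) (C := B.δ) fun y hy => by
    have r := hS.Rρ.trans hy.le
    have := Real.rpow_le_one_of_one_le_of_nonpos (hB.one.trans r)
      (by linarith : (-(n + 2) : ℝ) ≤ 0)
    rw [eQ y hy.le, Real.norm_eq_abs, abs_of_nonpos (hB.Qf y r).2]
    nlinarith [(hB.Qf y r).1, hB.δ0]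
  obtain ⟨D, hD⟩ := hB.Qd
  obtain ⟨K2, -, h2⟩ := bdd_of_out (ContDiff.continuous_fderiv sQ (by simp)) (R := R) (C := D)
    fun y hy => by
      rw [Filter.EventuallyEq.fderiv_eq (f := B.Q) (((isOpen_lt continuous_const
        continuous_norm).eventually_mem hy).mono fun z hz => eQ z (le_of_lt hz))]
      exact hD y
  obtain ⟨C, R', hA⟩ := hS.asy
  have h3 := fun i => bdd_of_out (hS.sm.pd i).cont (R := max R' 1) (C := |(n - 2) * β| + |C|)
    fun y hy => by
      have r1 := (le_max_right _ _).trans hy.le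
      have p1 := Real.rpow_le_one_of_one_le_of_nonpos r1 (by linarith : (-n : ℝ) ≤ 0)
      have p2 := Real.rpow_le_one_of_one_le_of_nonpos r1 (by linarith : (-n + 1 : ℝ) ≤ 0)
      have p0 : 0 ≤ ‖y‖ ^ (-n : ℝ) := by positivity
      rw [Real.rpow_add_one (by linarith)] at p2
      have q1 : |(n - 2) * β * y i * ‖y‖ ^ (-n : ℝ)| ≤ |(n - 2) * β| := by
        rw [mul_assoc, abs_mul, abs_mul (y i), abs_of_nonneg p0]
        refine mul_le_of_le_one_right (abs_nonneg _) (le_trans ?_ p2)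
        rw [mul_comm]
        gcongr
        exact PiLp.norm_apply_le y i
      have q2 := abs_le.1 (((hA y ((le_max_left _ _).trans hy.le)).2 i).trans
        ((mul_le_mul_of_nonneg_right (le_abs_self C) p0).trans
          (mul_le_of_le_one_right (abs_nonneg C) p1)))
      have q3 := abs_le.1 q1
      exact abs_le.2 ⟨by linarith [q2.1, q3.2], by linarith [q2.2, q3.1]⟩
  choose K3 _ h3 using h3
  refine ⟨hS.sm, a / 2, a2, max (max 2 √(∑ i, K3 i ^ 2)) (max K1 K2), fun x => ⟨lo x,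
    ((hS.hi x).trans (hB.Ub x).2).trans ((le_max_left _ _).trans (le_max_left _ _)),
    le_trans ?_ ((le_max_right _ _).trans (le_max_left _ _)),
    (h1 x).trans ((le_max_left _ _).trans (le_max_right _ _)),
    (h2 x).trans ((le_max_right _ _).trans (le_max_right _ _))⟩⟩
  refine Real.le_sqrt_of_sq_le ?_
  rw [norm_fderiv_sq (hS.sm.diff x)]
  exact Finset.sum_le_sum fun i _ => sq_le_sq' (abs_le.1 (h3 i x)).1 (abs_le.1 (h3 i x)).2

end Vale.Agent.P366Z
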