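import Vale.Agent.P366Z.Calc2
import Mathlib.Analysis.Calculus.Rademacher
import Mathlib.Analysis.Calculus.BumpFunction.FiniteDimension

/-!
# P366Z: volumes, Lipschitz functions, integration by parts
-/

open MeasureTheory Metric Filter Topology Set
open scoped ContDiff ENNReal NNReal
open Vale.Agent.P366.Stmt

noncomputable section

namespace Vale.Agent.P366Z

variable {n : ℕ} {f h u v w U φ : E n → ℝ} {x : E n} {g : Field n} {ρ : ℝ}

/-! ### volumes -/

theorem vol_eq (n : ℕ) : vol n = (volume : Measure (E n)) :=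
  (PiLp.volume_preserving_toLp (Fin n)).map_eq

theorem nontriv (hn : 0 < n) : Nontrivial (E n) :=
  have : Nonempty (Fin n) := ⟨⟨0, hn⟩⟩
  inferInstance

theorem omega_eq (hn : 0 < n) : omega n = n * (volume : Measure (E n)).real (ball 0 1) := by
  have := nontriv hn
  rw [omega, sphInt, sph, vol_eq, one_pow, one_mul, integral_const, smul_eq_mul, mul_one,
    measureReal_def, Measure.toSphere_apply_univ, ENNReal.toReal_mul]
  simp [measureReal_def]

theorem omega_pos (hn : 0 < n) : 0 < omega n := by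
  rw [omega_eq hn]
  refine mul_pos (by exact_mod_cast hn) ?_
  exact ENNReal.toReal_pos (measure_ball_pos _ _ one_pos).ne' measure_ball_lt_top.ne

theorem volume_ball (hn : 0 < n) (x : E n) {r : ℝ} (hr : 0 ≤ r) :
    volume (ball x r) = ENNReal.ofReal (omega n / n * r ^ n) := by
  have := nontriv hn
  have h0 : (n : ℝ) ≠ 0 := by exact_mod_cast hn.ne'
  rw [Measure.addHaar_ball _ x hr, omega_eq hn, mul_div_cancel_left₀ _ h0, mul_comm,
    ENNReal.ofReal_mul (by positivity), ofReal_measureReal measure_ball_lt_top.ne]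
  simp

theorem real_ball (hn : 0 < n) (x : E n) {r : ℝ} (hr : 0 ≤ r) :
    (volume (ball x r)).toReal = omega n / n * r ^ n := by
  have := omega_pos hn
  rw [volume_ball hn x hr, ENNReal.toReal_ofReal (by positivity)]

/-- polar coordinates -/
theorem integral_radial (hn : 0 < n) (F : ℝ → ℝ) :
    ∫ x : E n, F ‖x‖ = omega n * ∫ r in Ioi (0 : ℝ), r ^ (n - 1) * F r := by
  have := nontriv hn
  rw [integral_fun_norm_addHaar, omega_eq hn]
  simp [mul_assoc]

/-! ### Lipschitz functions -/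

theorem Lip.cont (hu : Lip u) : Continuous u := hu.choose_spec.continuous

theorem lip_const (c : ℝ) : Lip fun _ : E n => c := ⟨0, LipschitzWith.const c⟩

theorem lip_norm : Lip fun x : E n => ‖x‖ := ⟨1, lipschitzWith_one_norm⟩

theorem Lip.add (hu : Lip u) (hv : Lip v) : Lip fun x => u x + v x :=
  ⟨_, hu.choose_spec.add hv.choose_spec⟩

theorem Lip.sub (hu : Lip u) (hv : Lip v) : Lip fun x => u x - v x :=
  ⟨_, hu.choose_spec.sub hv.choose_spec⟩

theorem Lip.neg (hu : Lip u) : Lip fun x => -u x := ⟨_, hu.choose_spec.neg⟩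

theorem Lip.max (hu : Lip u) (hv : Lip v) : Lip fun x => max (u x) (v x) :=
  ⟨_, hu.choose_spec.max hv.choose_spec⟩

theorem Lip.min (hu : Lip u) (hv : Lip v) : Lip fun x => min (u x) (v x) :=
  ⟨_, hu.choose_spec.min hv.choose_spec⟩

theorem Lip.comp (hu : Lip u) {F : ℝ → ℝ} {K : ℝ≥0} (hF : LipschitzWith K F) :
    Lip fun x => F (u x) := ⟨_, hF.comp hu.choose_spec⟩

theorem lip_of_le {K : ℝ} (e : ∀ x y, |u x - u y| ≤ K * ‖x - y‖) : Lip u :=
  ⟨K.toNNReal, LipschitzWith.of_dist_le' fun x y => by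
    rw [Real.dist_eq, dist_eq_norm]; exact e x y⟩

theorem Lip.le (hu : Lip u) : ∃ K, 0 < K ∧ ∀ x y, |u x - u y| ≤ K * ‖x - y‖ := by
  obtain ⟨K, hK⟩ := hu
  refine ⟨K + 1, by positivity, fun x y => ?_⟩
  have := hK.dist_le_mul x y
  rw [Real.dist_eq, dist_eq_norm] at this
  nlinarith [norm_nonneg (x - y)]

theorem Lip.const_mul (hu : Lip u) (c : ℝ) : Lip fun x => c * u x := by
  obtain ⟨K, -, hK⟩ := hu.le
  refine lip_of_le (K := |c| * K) fun x y => ?_
  rw [← mul_sub, abs_mul, mul_assoc]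
  exact mul_le_mul_of_nonneg_left (hK x y) (abs_nonneg _)

theorem Lip.div_const (hu : Lip u) (c : ℝ) : Lip fun x => u x / c := by
  simpa only [div_eq_inv_mul] using hu.const_mul c⁻¹

theorem Lip.mul (hu : Lip u) (hv : Lip v) {A B : ℝ} (hA : ∀ x, |u x| ≤ A) (hB : ∀ x, |v x| ≤ B) :
    Lip fun x => u x * v x := by
  obtain ⟨K, -, hK⟩ := hu.le
  obtain ⟨L, -, hL⟩ := hv.le
  refine lip_of_le (K := A * L + K * B) fun x y => ?_
  have e : u x * v x - u y * v y = u x * (v x - v y) + (u x - u y) * v y := by ring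
  rw [e]
  refine (abs_add_le _ _).trans ?_
  rw [abs_mul, abs_mul]
  have h1 := mul_le_mul (hA x) (hL x y) (abs_nonneg _) ((abs_nonneg _).trans (hA x))
  have h2 := mul_le_mul (hK x y) (hB y) (abs_nonneg _) ((abs_nonneg _).trans (hK x y))
  linarith

theorem lip_of_fderiv (hu : Differentiable ℝ u) {K : ℝ} (hK : ∀ x, ‖fderiv ℝ u x‖ ≤ K) :
    Lip u :=
  lip_of_le (K := K) fun x y =>
    Convex.norm_image_sub_le_of_norm_fderiv_le (fun z _ => hu z) (fun z _ => hK z) convex_univ
      (mem_univ y) (mem_univ x)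

theorem lip_of_supp (hu : ContDiff ℝ 1 u) (hc : HasCompactSupport u) : Lip u :=
  ContDiff.lipschitzWith_of_hasCompactSupport hc hu (by norm_num)

theorem lip_of_const (hu : Smooth u) {R c : ℝ} (e : ∀ y, R < ‖y‖ → u y = c) : Lip u := by
  obtain ⟨K, -, hK⟩ := bdd_of_const hu e
  exact lip_of_fderiv hu.diff fun x => (hK x).2

/-- a `C¹` function of a bounded Lipschitz function -/
theorem Lip.comp_c1 (hu : Lip u) {A : ℝ} (hA : ∀ x, |u x| ≤ A) {F : ℝ → ℝ}
    (hF : ContDiff ℝ 1 F) : Lip fun x => F (u x) := by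
  obtain ⟨L, hL⟩ := (isCompact_Icc (a := -A) (b := A)).exists_bound_of_continuousOn
    (hF.continuous_deriv le_rfl).continuousOn
  obtain ⟨K, -, hK⟩ := hu.le
  refine lip_of_le (K := L * K) fun x y => ?_
  have h1 := (convex_Icc (-A) A).norm_image_sub_le_of_norm_deriv_le
    (fun z _ => hF.differentiable (by norm_num) z) hL (abs_le.1 (hA y)) (abs_le.1 (hA x))
  rw [mul_assoc]
  exact h1.trans (mul_le_mul_of_nonneg_left (hK x y)
    ((norm_nonneg _).trans (hL _ (abs_le.1 (hA x)))))

theorem supp_of_out {V : Type*} [Zero V] {F : E n → V} {R : ℝ} (e : ∀ y, R ≤ ‖y‖ → F y = 0) :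
    HasCompactSupport F :=
  HasCompactSupport.intro (isCompact_closedBall 0 R) fun y hy =>
    e y (by simpa using (not_le.1 (mem_closedBall_zero_iff.not.1 hy)).le)

theorem out_of_supp {V : Type*} [Zero V] {F : E n → V} (hc : HasCompactSupport F) :
    ∃ R, 0 < R ∧ ∀ y, R ≤ ‖y‖ → F y = 0 := by
  obtain ⟨R, hR⟩ := hc.isBounded.subset_ball 0
  refine ⟨max R 1, by positivity, fun y hy => ?_⟩
  by_contra h0
  have := mem_ball_zero_iff.1 (hR (subset_tsupport _ h0))
  linarith [le_max_left R 1]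

theorem measurable_pd (hu : Continuous u) (i : Fin n) : Measurable (pd i u) :=
  measurable_lineDeriv hu

theorem Met.measurable_ip (hg : Met g) (hu : Continuous u) (hv : Continuous v) :
    Measurable (ip g u v) :=
  Finset.measurable_sum _ fun i _ => Finset.measurable_sum _ fun j _ =>
    ((hg.sm_up i j).cont.measurable.mul (measurable_pd hu i)).mul (measurable_pd hv j)

theorem Met.measurable_gn (hg : Met g) (hu : Continuous u) : Measurable (gn g u) :=
  (hg.measurable_ip hu hu).sqrt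

theorem Lip.pd_bd (hu : Lip u) : ∃ K, 0 < K ∧ ∀ x i, |pd i u x| ≤ K := by
  obtain ⟨K, hK⟩ := hu
  refine ⟨K + 1, by positivity, fun x i => ?_⟩
  have := norm_lineDeriv_le_of_lipschitz ℝ (x₀ := x) (v := EuclideanSpace.single i (1 : ℝ)) hK
  simp only [PiLp.norm_single, norm_one, mul_one, Real.norm_eq_abs] at this
  exact this.trans (by linarith)

theorem Lip.gn_bd (hu : Lip u) (hg : Met g) (hf : Flat g ρ) : ∃ K, 0 < K ∧ ∀ x, gn g u x ≤ K := by
  obtain ⟨K, hK, h1⟩ := hu.pd_bd
  obtain ⟨Λ, hΛ⟩ := hg.ell hf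
  refine ⟨√(Λ * (n * K ^ 2)) + 1, by positivity, fun x => ?_⟩
  refine le_trans (Real.sqrt_le_sqrt ((hΛ.up_hi x _).trans ?_)) (le_add_of_nonneg_right zero_le_one)
  refine mul_le_mul_of_nonneg_left ?_ (zero_le_one.trans hΛ.one)
  refine (Finset.sum_le_sum fun i _ => sq_le_sq' (abs_le.1 (h1 x i)).1 (abs_le.1 (h1 x i)).2).trans ?_
  simp

theorem pd_zero_of_out {R c : ℝ} (e : ∀ y, R ≤ ‖y‖ → u y = c) (hx : R < ‖x‖) (i : Fin n) :
    pd i u x = 0 := by
  have : u =ᶠ[𝓝 x] fun _ => c := by
    filter_upwards [(isOpen_lt continuous_const continuous_norm).mem_nhds hx] with z hz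
    exact e z (le_of_lt hz)
  rw [pd_congr this, pd_const]

theorem Lip.ae_diff (hu : Lip u) : ∀ᵐ x, DifferentiableAt ℝ u x :=
  hu.choose_spec.ae_differentiableAt

/-- the gradients agree almost everywhere on the set where the functions agree -/
theorem Lip.ae_pd_eq (hu : Lip u) (hv : Lip v) :
    ∀ᵐ x, u x = v x → ∀ i, pd i u x = pd i v x := by
  filter_upwards [hu.ae_diff, hv.ae_diff, (hu.max hv).ae_diff] with x h1 h2 h3 e i
  have k : ∀ {a : E n → ℝ}, DifferentiableAt ℝ a x → (∀ y, a y ≤ Max.max (u y) (v y)) →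
      a x = Max.max (u x) (v x) → pd i (fun y => Max.max (u y) (v y)) x = pd i a x := by
    intro a ha h4 h5
    have h6 : IsLocalMin (fun y => Max.max (u y) (v y) - a y) x :=
      Eventually.of_forall fun y => by simp only [h5, sub_self, sub_nonneg, h4]
    have h7 := pd_sub h3 ha i
    rw [pd_eq (h3.fun_sub ha), h6.fderiv_eq_zero] at h7
    simp only [zero_apply] at h7
    linarith
  rw [← k h1 (fun y => le_max_left _ _) (by rw [e, max_self]),
    ← k h2 (fun y => le_max_right _ _) (by rw [e, max_self])]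

theorem Lip.ae_pd_zero (hu : Lip u) (c : ℝ) : ∀ᵐ x, u x = c → ∀ i, pd i u x = 0 := by
  filter_upwards [hu.ae_pd_eq (lip_const c)] with x h1 e i
  rw [h1 e, pd_const]

theorem Lip.ae_pd_max (hu : Lip u) (hv : Lip v) : ∀ᵐ x, ∀ i,
    pd i (fun y => Max.max (u y) (v y)) x = if v x ≤ u x then pd i u x else pd i v x := by
  filter_upwards [(hu.max hv).ae_pd_eq hu, (hu.max hv).ae_pd_eq hv] with x h1 h2 i
  split_ifs with e
  · exact h1 (max_eq_left e) i
  · exact h2 (max_eq_right (not_le.1 e).le) i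

theorem Lip.ae_pd_min (hu : Lip u) (hv : Lip v) : ∀ᵐ x, ∀ i,
    pd i (fun y => Min.min (u y) (v y)) x = if v x ≤ u x then pd i v x else pd i u x := by
  filter_upwards [(hu.min hv).ae_pd_eq hu, (hu.min hv).ae_pd_eq hv] with x h1 h2 i
  split_ifs with e
  · exact h2 (min_eq_right e) i
  · exact h1 (min_eq_left (not_le.1 e).le) i

theorem gn_of_pd_eq (e : ∀ i, pd i u x = pd i v x) : gn g u x = gn g v x := by
  unfold gn ip; simp only [e]

theorem ip_of_pd_eq (e : ∀ i, pd i u x = pd i v x) : ip g u u x = ip g v v x := by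
  unfold ip; simp only [e]

theorem Lip.ae_gn_max (hu : Lip u) (hv : Lip v) (g : Field n) : ∀ᵐ x,
    gn g (fun y => Max.max (u y) (v y)) x = if v x ≤ u x then gn g u x else gn g v x := by
  filter_upwards [hu.ae_pd_max hv] with x h1
  split_ifs with e <;> exact gn_of_pd_eq fun i => by simp only [h1, e, if_true, if_false]

theorem Lip.ae_gn_min (hu : Lip u) (hv : Lip v) (g : Field n) : ∀ᵐ x,
    gn g (fun y => Min.min (u y) (v y)) x = if v x ≤ u x then gn g v x else gn g u x := by
  filter_upwards [hu.ae_pd_min hv] with x h1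
  split_ifs with e <;> exact gn_of_pd_eq fun i => by simp only [h1, e, if_true, if_false]

theorem Lip.ae_gn_zero (hu : Lip u) (g : Field n) (c : ℝ) : ∀ᵐ x, u x = c → gn g u x = 0 := by
  filter_upwards [hu.ae_pd_zero c] with x h1 e
  exact gn_zero (h1 e)

/-! ### integrability -/

/-- a continuous function times a bounded measurable function with bounded support -/
theorem integrable_of_bd (hf : Continuous f) (hh : Measurable h) {K R : ℝ} (hK : ∀ x, |h x| ≤ K)
    (e : ∀ x, R < ‖x‖ → h x = 0) : Integrable fun x => f x * h x := by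
  obtain ⟨M, hM⟩ := (isCompact_closedBall (0 : E n) R).exists_bound_of_continuousOn
    hf.continuousOn
  refine (integrableOn_iff_integrable_of_support_subset (s := closedBall 0 R) fun x hx => ?_).1 ?_
  · by_contra h0
    exact hx (by simp only [e x (by simpa using h0), mul_zero])
  · refine Measure.integrableOn_of_bounded (M := M * K) measure_closedBall_lt_top.ne
      (hf.measurable.mul hh).aestronglyMeasurable ?_
    filter_upwards [ae_restrict_mem measurableSet_closedBall] with x hx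
    rw [norm_mul]
    exact mul_le_mul (hM x hx) (hK x) (norm_nonneg _) ((norm_nonneg _).trans (hM x hx))

theorem Lip.integrable_pd (hu : Lip u) {R c : ℝ} (e : ∀ y, R ≤ ‖y‖ → u y = c) (hf : Continuous f)
    (i : Fin n) : Integrable fun x => f x * pd i u x := by
  obtain ⟨K, -, hK⟩ := hu.pd_bd
  exact integrable_of_bd hf (measurable_pd hu.cont i) (fun x => hK x i)
    fun x hx => pd_zero_of_out e hx i

theorem Lip.integrable_gn (hu : Lip u) (hg : Met g) (hρ : Flat g ρ) {R c : ℝ}
    (e : ∀ y, R ≤ ‖y‖ → u y = c) (hf : Continuous f) : Integrable fun x => f x * gn g u x := by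
  obtain ⟨K, -, hK⟩ := hu.gn_bd hg hρ
  exact integrable_of_bd hf (hg.measurable_gn hu.cont) (K := K)
    (fun x => by rw [abs_of_nonneg (gn_nonneg _ _ _)]; exact hK x)
    fun x hx => gn_zero (pd_zero_of_out e hx)

theorem integrable_of_out (hf : Continuous f) {R : ℝ} (e : ∀ y, R ≤ ‖y‖ → f y = 0) :
    Integrable f := hf.integrable_of_hasCompactSupport (supp_of_out e)

/-! ### the cut-off function -/

theorem sm_cut (r : ℝ) : Smooth (cut r : E n → ℝ) :=
  Real.smoothTransition.contDiff.comp (contDiff_const.sub (contDiff_normSq.div_const _))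

theorem cut_nonneg (r : ℝ) (x : E n) : 0 ≤ cut r x := Real.smoothTransition.nonneg _

theorem cut_le_one (r : ℝ) (x : E n) : cut r x ≤ 1 := Real.smoothTransition.le_one _

theorem cut_one {r : ℝ} (hx : ‖x‖ ≤ r) : cut r x = 1 := by
  refine Real.smoothTransition.one_of_one_le ?_
  have : ‖x‖ ^ 2 / r ^ 2 ≤ 1 :=
    div_le_one_of_le₀ (pow_le_pow_left₀ (norm_nonneg _) hx 2) (sq_nonneg _)
  linarith

theorem cut_zero {r : ℝ} (hr : 0 < r) (hx : 2 * r ≤ ‖x‖) : cut r x = 0 := by
  refine Real.smoothTransition.zero_of_nonpos ?_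
  have : 2 ≤ ‖x‖ ^ 2 / r ^ 2 := by
    rw [le_div_iff₀ (by positivity)]; nlinarith
  linarith

theorem supp_cut {r : ℝ} (hr : 0 < r) : HasCompactSupport (cut r : E n → ℝ) :=
  supp_of_out fun _ hy => cut_zero hr hy

theorem lip_cut {r : ℝ} (hr : 0 < r) : Lip (cut r : E n → ℝ) :=
  lip_of_const (sm_cut r) (R := 2 * r) fun _ hy => cut_zero hr hy.le

theorem cut_scale {r : ℝ} (hr : 0 < r) (x : E n) : cut r x = cut 1 (r⁻¹ • x) := by
  unfold cut
  rw [norm_smul, norm_inv, Real.norm_of_nonneg hr.le]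
  congr 2; field_simp

theorem fderiv_cut (n : ℕ) : ∃ C, 0 < C ∧ ∀ r, 0 < r → ∀ x : E n,
    ‖fderiv ℝ (cut r) x‖ ≤ C / r := by
  obtain ⟨C, hC, h1⟩ := bdd_of_const (sm_cut (n := n) 1) (R := 2 * 1)
    fun _ hy => cut_zero one_pos hy.le
  refine ⟨C, hC, fun r hr x => ?_⟩
  have e : (cut r : E n → ℝ) = fun x => cut 1 (r⁻¹ • x) := funext (cut_scale hr)
  have h2 : HasFDerivAt (fun x : E n => cut 1 (r⁻¹ • x))
      ((fderiv ℝ (cut 1) (r⁻¹ • x)).comp (r⁻¹ • ContinuousLinearMap.id ℝ (E n))) x :=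
    ((sm_cut 1).diff _).hasFDerivAt.comp x ((hasFDerivAt_id x).const_smul r⁻¹)
  rw [e, h2.fderiv]
  refine (ContinuousLinearMap.opNorm_comp_le _ _).trans ?_
  rw [div_eq_mul_inv]
  refine mul_le_mul (h1 _).2 ?_ (norm_nonneg _) hC.le
  rw [norm_smul, norm_inv, Real.norm_of_nonneg hr.le]
  exact mul_le_of_le_one_right (by positivity) ContinuousLinearMap.norm_id_le

theorem pd_cut_in {r : ℝ} (hx : ‖x‖ < r) (i : Fin n) : pd i (cut r) x = 0 := by
  have : cut r =ᶠ[𝓝 x] fun _ => (1 : ℝ) := by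
    filter_upwards [(isOpen_lt continuous_norm continuous_const).mem_nhds hx] with z hz
    exact cut_one (le_of_lt hz)
  rw [pd_congr this, pd_const]

theorem pd_cut_out {r : ℝ} (hr : 0 < r) (hx : 2 * r < ‖x‖) (i : Fin n) : pd i (cut r) x = 0 :=
  pd_zero_of_out (fun _ hy => cut_zero hr hy) hx i

theorem cut_tendsto (x : E n) : Tendsto (fun r => cut r x) atTop (𝓝 1) :=
  tendsto_const_nhds.congr' ((eventually_ge_atTop ‖x‖).mono fun _ hr => (cut_one hr).symm)

/-! ### integration by parts -/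

/-- both functions are Lipschitz and one of them has compact support -/
theorem ibp_lip (hφ : Lip φ) (hc : HasCompactSupport φ) (hf : Lip f) (i : Fin n) :
    ∫ x, φ x * pd i f x = -∫ x, pd i φ x * f x := by
  have h1 := hf.choose_spec.integral_lineDeriv_mul_eq (μ := volume) hφ.choose_spec hc
    (EuclideanSpace.single i 1)
  simp only [lineDeriv_neg, neg_mul, integral_neg] at h1
  simpa only [pd, mul_comm] using h1

/-- a Lipschitz function with compact support against a `C¹` function -/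
theorem ibp (hφ : Lip φ) (hc : HasCompactSupport φ) (hf : ContDiff ℝ 1 f) (i : Fin n) :
    ∫ x, φ x * pd i f x = -∫ x, pd i φ x * f x := by
  obtain ⟨R, hR, e⟩ := out_of_supp hc
  have hR' : 0 < R + 1 := by linarith
  have h1 : Lip fun x => cut (R + 1) x * f x :=
    lip_of_supp (ContDiff.mul (ContDiff.of_le (sm_cut _) (by norm_cast)) hf)
      (supp_cut hR').mul_right
  have h2 := ibp_lip hφ hc h1 i
  have e1 : ∀ x, φ x * pd i (fun x => cut (R + 1) x * f x) x = φ x * pd i f x := fun x => by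
    by_cases hx : R ≤ ‖x‖
    · simp [e x hx]
    · rw [pd_mul ((sm_cut _).diff x) (hf.differentiable (by norm_num) x),
        pd_cut_in (by linarith), cut_one (by linarith)]
      ring
  have e2 : ∀ x, pd i φ x * (cut (R + 1) x * f x) = pd i φ x * f x := fun x => by
    by_cases hx : R < ‖x‖
    · simp [pd_zero_of_out e hx]
    · rw [cut_one (by linarith), one_mul]
  simpa only [e1, e2] using h2

theorem integral_pd (hφ : Lip φ) (hc : HasCompactSupport φ) (i : Fin n) : ∫ x, pd i φ x = 0 := by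
  have := ibp_lip hφ hc (lip_const 1) i
  simpa [pd_const] using this

/-- the divergence theorem -/
theorem Met.ibp_dv (hg : Met g) (hφ : Lip φ) (hc : HasCompactSupport φ) {X : Fin n → E n → ℝ}
    (hX : ∀ i, ContDiff ℝ 1 (X i)) :
    ∫ x, φ x * dv g X x * dens g x = -∫ x, (∑ i, pd i φ x * X i x) * dens g x := by
  obtain ⟨R, -, e⟩ := out_of_supp hc
  have h1 : ∀ i, ContDiff ℝ 1 fun y => dens g y * X i y := fun i =>
    ContDiff.mul (ContDiff.of_le hg.sm_dens (by norm_cast)) (hX i)
  have e1 : ∀ x, φ x * dv g X x * dens g x = ∑ i, φ x * pd i (fun y => dens g y * X i y) x :=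
    fun x => by
      unfold dv
      have := (hg.dens_pos x).ne'
      rw [← Finset.mul_sum]; field_simp
  have e2 : ∀ x, (∑ i, pd i φ x * X i x) * dens g x = ∑ i, pd i φ x * (dens g x * X i x) :=
    fun x => by rw [Finset.sum_mul]; exact Finset.sum_congr rfl fun i _ => by ring
  simp only [e1, e2]
  rw [integral_finsetSum, integral_finsetSum, ← Finset.sum_neg_distrib]
  · exact Finset.sum_congr rfl fun i _ => ibp hφ hc (h1 i) i
  · intro i _
    simpa only [mul_comm] using hφ.integrable_pd e (h1 i).continuous i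
  · intro i _
    exact (hφ.cont.mul (contDiff_pd (k := 0) (h1 i) (by norm_num) i).continuous
      ).integrable_of_hasCompactSupport hc.mul_right

theorem Met.contDiff_gr (hg : Met g) (hu : ContDiff ℝ 2 u) (i : Fin n) :
    ContDiff ℝ 1 (gr g u i) :=
  contDiff_iff_contDiffAt.2 fun _ => hg.contDiffAt_gr hu.contDiffAt (by norm_num) (by norm_cast) i

theorem Met.ibp_wl (hg : Met g) (hφ : Lip φ) (hc : HasCompactSupport φ) (hU : ContDiff ℝ 1 U)
    (hu : ContDiff ℝ 2 u) :
    ∫ x, φ x * wl g U u x * dens g x = -∫ x, U x ^ 2 * ip g φ u x * dens g x := by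
  unfold wl
  rw [hg.ibp_dv hφ hc fun i => (hU.pow 2).mul (hg.contDiff_gr hu i)]
  congr 2
  funext x
  rw [ip_eq_gr, Finset.mul_sum]
  congr 1
  exact Finset.sum_congr rfl fun i _ => by ring

theorem Met.ibp_lap (hg : Met g) (hφ : Lip φ) (hc : HasCompactSupport φ) (hu : ContDiff ℝ 2 u) :
    ∫ x, φ x * lap g u x * dens g x = -∫ x, ip g φ u x * dens g x := by
  simpa [wl_one] using hg.ibp_wl hφ hc (U := fun _ => 1) contDiff_const hu

theorem Met.cont_dv (hg : Met g) {X : Fin n → E n → ℝ} (hX : ∀ i, ContDiff ℝ 1 (X i)) :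
    Continuous (dv g X) :=
  Continuous.div (continuous_finsetSum _ fun i _ => (contDiff_pd (k := 0)
    (ContDiff.mul (ContDiff.of_le hg.sm_dens (by norm_cast)) (hX i)) (by norm_num) i).continuous)
    hg.sm_dens.cont fun x => (hg.dens_pos x).ne'

theorem Met.cont_wl (hg : Met g) (hU : ContDiff ℝ 1 U) (hu : ContDiff ℝ 2 u) :
    Continuous (wl g U u) := hg.cont_dv fun i => (hU.pow 2).mul (hg.contDiff_gr hu i)

theorem Met.cont_lap (hg : Met g) (hu : ContDiff ℝ 2 u) : Continuous (lap g u) :=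
  hg.cont_dv (hg.contDiff_gr hu)

theorem Met.cont_ip (hg : Met g) (hu : ContDiff ℝ 1 u) (hv : ContDiff ℝ 1 v) :
    Continuous (ip g u v) :=
  continuous_finsetSum _ fun i _ => continuous_finsetSum _ fun j _ =>
    ((hg.sm_up i j).cont.mul (contDiff_pd (k := 0) hu (by norm_num) i).continuous).mul
      (contDiff_pd (k := 0) hv (by norm_num) j).continuous

/-- the second identity of Green -/
theorem Met.green_wl (hg : Met g) (hφ : ContDiff ℝ 2 φ) (hc : HasCompactSupport φ)
    (hU : ContDiff ℝ 1 U) (hu : ContDiff ℝ 2 u) :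
    ∫ x, φ x * wl g U u x * dens g x = ∫ x, u x * wl g U φ x * dens g x := by
  obtain ⟨R, hR, e⟩ := out_of_supp hc
  have hR' : 0 < R + 1 := by linarith
  have h1 : Lip fun x => cut (R + 1) x * u x :=
    lip_of_supp (ContDiff.mul (ContDiff.of_le (sm_cut _) (by norm_cast)) (hu.of_le (by norm_num)))
      (supp_cut hR').mul_right
  have h2 := hg.ibp_wl h1 (supp_cut hR').mul_right hU hφ
  have e0 : ∀ x, R < ‖x‖ → φ =ᶠ[𝓝 x] fun _ => 0 := fun x hx => by
    filter_upwards [(isOpen_lt continuous_const continuous_norm).mem_nhds hx] with z hz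
    exact e z (le_of_lt hz)
  have e1 : ∀ x, cut (R + 1) x * u x * wl g U φ x = u x * wl g U φ x := fun x => by
    by_cases hx : R < ‖x‖
    · rw [wl_congr EventuallyEq.rfl (e0 x hx), wl_const]; simp
    · rw [cut_one (by linarith), one_mul]
  have e2 : ∀ x, ip g (fun x => cut (R + 1) x * u x) φ x = ip g φ u x := fun x => by
    by_cases hx : R < ‖x‖
    · rw [ip_congr EventuallyEq.rfl (e0 x hx), ip_congr (e0 x hx) EventuallyEq.rfl,
        ip_const_left, ip_const_right]
    · rw [hg.ip_sy φ]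
      refine ip_congr ?_ EventuallyEq.rfl
      filter_upwards [(isOpen_lt continuous_norm continuous_const).mem_nhds
        (show ‖x‖ < R + 1 by linarith)] with z hz
      rw [cut_one (le_of_lt hz), one_mul]
  simp only [e1, e2] at h2
  rw [h2, hg.ibp_wl (lip_of_supp (hφ.of_le (by norm_num)) hc) hc hU hu]

theorem Met.green_lap (hg : Met g) (hφ : ContDiff ℝ 2 φ) (hc : HasCompactSupport φ)
    (hu : ContDiff ℝ 2 u) :
    ∫ x, φ x * lap g u x * dens g x = ∫ x, u x * lap g φ x * dens g x := by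
  simpa [wl_one] using hg.green_wl hφ hc (U := fun _ => 1) contDiff_const hu

/-! ### the class of competitors -/

variable {B : Bg n} {L : ℝ} {ψ ψ' m p q : E n → ℝ}

theorem Cls.max (h1 : Cls B L ψ) (h2 : Cls B L ψ') : Cls B L fun x => Max.max (ψ x) (ψ' x) where
  lip := h1.lip.max h2.lip
  mem x := ⟨le_max_of_le_left (h1.mem x).1, max_le (h1.mem x).2 (h2.mem x).2⟩
  zero x hx := by rw [h1.zero x hx, h2.zero x hx, max_self]
  one x hx := by rw [h1.one x hx, h2.one x hx, max_self]

theorem Cls.min (h1 : Cls B L ψ) (h2 : Cls B L ψ') : Cls B L fun x => Min.min (ψ x) (ψ' x) where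
  lip := h1.lip.min h2.lip
  mem x := ⟨le_min (h1.mem x).1 (h2.mem x).1, min_le_of_left_le (h1.mem x).2⟩
  zero x hx := by rw [h1.zero x hx, h2.zero x hx, min_self]
  one x hx := by rw [h1.one x hx, h2.one x hx, min_self]

theorem Cls.int_per (hB : B.Ok) (h1 : Cls B L ψ) (hU : Continuous U) :
    Integrable fun x => U x ^ (2 * gam n) * gn B.g ψ x * dens B.g x := by
  have h0 : 0 ≤ 2 * gam n := by linarith [one_lt_gam hB.dim]
  have := h1.lip.integrable_gn hB.met hB.flat h1.one
    ((hU.rpow_const fun _ => Or.inr h0).mul hB.met.sm_dens.cont)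
  refine this.congr (Eventually.of_forall fun x => ?_)
  simp only [Pi.mul_apply]; ring

theorem Cls.int_vol (hB : B.Ok) (hP : Pen B L m p q) (hψ : Continuous ψ) :
    Integrable fun x => m x * ψ x * dens B.g x :=
  integrable_of_out ((hP.smm.cont.mul hψ).mul hB.met.sm_dens.cont) (R := L + 1)
    fun y hy => by simp [hP.m0 y hy]

theorem per_nonneg (B : Bg n) (ψ : E n → ℝ) (hU : ∀ x, 0 ≤ U x) : 0 ≤ per B U ψ :=
  integral_nonneg fun x => mul_nonneg (mul_nonneg (Real.rpow_nonneg (hU x) _) (gn_nonneg _ _ _))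
    (dens_nonneg _ _)

theorem per_mono (hB : B.Ok) (h1 : Cls B L ψ) {U' : E n → ℝ} (hU : Continuous U)
    (hU' : Continuous U') (h0 : ∀ x, 0 ≤ U x) (e : ∀ x, U x ≤ U' x) : per B U ψ ≤ per B U' ψ := by
  have h2 : 0 ≤ 2 * gam n := by linarith [one_lt_gam hB.dim]
  refine integral_mono (h1.int_per hB hU) (h1.int_per hB hU') fun x => ?_
  exact mul_le_mul_of_nonneg_right (mul_le_mul_of_nonneg_right
    (Real.rpow_le_rpow (h0 x) (e x) h2) (gn_nonneg _ _ _)) (dens_nonneg _ _)

theorem St.pos {a β R s' : ℝ} (hB : B.Ok) (hS : St B U a β R s') (x : E n) : 0 < U x :=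
  lt_of_lt_of_le (mul_pos hS.a0 (by linarith [(hB.Ub x).1])) (hS.lo x)

theorem St.half {a β R s' : ℝ} (hB : B.Ok) (hS : St B U a β R s') (x : E n) : a / 2 ≤ U x := by
  have := mul_le_mul_of_nonneg_left (hB.Ub x).1 hS.a0.le
  linarith [hS.lo x]

theorem St.le_two {a β R s' : ℝ} (hB : B.Ok) (hS : St B U a β R s') (x : E n) : U x ≤ 2 :=
  (hS.hi x).trans (hB.Ub x).2

end Vale.Agent.P366Z
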