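import Vale.Agent.P366Z.DensA
import Mathlib.Analysis.FunctionalSpaces.SobolevInequality

/-!
# P366Z: the density estimate, the measure-theoretic part
-/

open MeasureTheory Metric Filter Topology Set
open scoped ContDiff ENNReal NNReal
open Vale.Agent.P366.Stmt

noncomputable section

namespace Vale.Agent.P366Z.DensH

variable {n : ℕ} {u : E n → ℝ} {x y : E n} {t h r : ℝ}

/-- the weight -/
def wt (x : E n) (h r : ℝ) (y : E n) : ℝ := Real.exp (-(max (‖y - x‖ - r) 0) / h)

/-- the phase in the ball -/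
def As (u : E n → ℝ) (x : E n) (t : ℝ) : Set (E n) := ball x t ∩ {y | 1 / 20 ≤ u y}

/-- the strip in the ball -/
def Ss (u : E n → ℝ) (x : E n) (t : ℝ) : Set (E n) :=
  ball x t ∩ {y | 1 / 20 ≤ u y ∧ u y ≤ 1 / 10}

/-- the weighted volume of the phase -/
def Mi (u : E n → ℝ) (x : E n) (t h r : ℝ) : ℝ := ∫ y in As u x t, wt x h r y

/-- the weighted volume of the outer part of the phase -/
def Ni (u : E n → ℝ) (x : E n) (t h r : ℝ) : ℝ := ∫ y in As u x t \ ball x r, wt x h r y

/-- the energy in the strip -/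
def Ji (u : E n → ℝ) (x : E n) (h r : ℝ) : ℝ≥0∞ :=
  ∫⁻ y in Ss u x (r + h), ENNReal.ofReal (h * ‖fderiv ℝ u y‖ + 1)

theorem wt_pos (x : E n) (h r : ℝ) (y : E n) : 0 < wt x h r y := Real.exp_pos _

theorem wt_le_one (hh : 0 < h) (x : E n) (r : ℝ) (y : E n) : wt x h r y ≤ 1 :=
  Real.exp_le_one_iff.2 (div_nonpos_of_nonpos_of_nonneg (neg_nonpos.2 (le_max_right _ _)) hh.le)

theorem cont_wt (x : E n) (h r : ℝ) : Continuous (wt x h r) := by
  unfold wt; fun_prop

theorem quarter_le {a : ℝ} (ha : -1 ≤ a) : 1 / 4 ≤ Real.exp a := by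
  have h1 := Real.add_one_le_exp (a / 2)
  have h2 : Real.exp a = Real.exp (a / 2) * Real.exp (a / 2) := by rw [← Real.exp_add]; simp
  nlinarith

theorem wt_ge (hh : 0 < h) (hy : y ∈ ball x (r + h)) : 1 / 4 ≤ wt x h r y := by
  refine quarter_le ?_
  rw [mem_ball, dist_eq_norm] at hy
  rw [le_div_iff₀ hh, neg_one_mul, neg_le_neg_iff]
  exact max_le (by linarith) hh.le

theorem wt_int {s : Set (E n)} (hs : s ⊆ ball x t) (h r : ℝ) : IntegrableOn (wt x h r) s :=
  ((cont_wt x h r).continuousOn.integrableOn_compact (isCompact_closedBall x t)).mono_set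
    (hs.trans ball_subset_closedBall)

theorem lint_wt {s : Set (E n)} (hs : s ⊆ ball x t) (h r : ℝ) :
    ∫⁻ y in s, ENNReal.ofReal (wt x h r y) = ENNReal.ofReal (∫ y in s, wt x h r y) :=
  (ofReal_integral_eq_lintegral_ofReal (wt_int hs h r)
    (Eventually.of_forall fun y => (wt_pos x h r y).le)).symm

theorem meas_As (hu : Continuous u) (x : E n) (t : ℝ) : MeasurableSet (As u x t) :=
  measurableSet_ball.inter (isClosed_le continuous_const hu).measurableSet

theorem meas_Ss (hu : Continuous u) (x : E n) (t : ℝ) : MeasurableSet (Ss u x t) :=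
  measurableSet_ball.inter ((isClosed_le continuous_const hu).inter
    (isClosed_le hu continuous_const)).measurableSet

theorem As_sub (u : E n → ℝ) (x : E n) (t : ℝ) : As u x t ⊆ ball x t := inter_subset_left

theorem Mi_nonneg (u : E n → ℝ) (x : E n) (t h r : ℝ) : 0 ≤ Mi u x t h r :=
  integral_nonneg fun y => (wt_pos x h r y).le

theorem Ni_nonneg (u : E n → ℝ) (x : E n) (t h r : ℝ) : 0 ≤ Ni u x t h r :=
  integral_nonneg fun y => (wt_pos x h r y).le

theorem int_le {s : Set (E n)} (hs : s ⊆ ball x t) (hh : 0 < h) (r : ℝ) :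
    ∫ y in s, wt x h r y ≤ (volume s).toReal := by
  have h0 : volume s < ⊤ := (measure_mono hs).trans_lt measure_ball_lt_top
  have := setIntegral_mono (wt_int hs h r) (integrableOn_const (C := (1 : ℝ)) h0.ne)
    fun y => wt_le_one hh x r y
  simpa [measureReal_def] using this

theorem Mi_step (hu : Continuous u) (hh : 0 < h) (r : ℝ) :
    Mi u x t h r + Ni u x t h (r + h) / 2 ≤ Mi u x t h (r + h) := by
  have h1 := fun r' => integral_inter_add_sdiff (t := ball x (r + h)) measurableSet_ball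
    (wt_int (As_sub u x t) h r')
  have h2 : ∫ y in As u x t ∩ ball x (r + h), wt x h r y ≤
      ∫ y in As u x t ∩ ball x (r + h), wt x h (r + h) y :=
    setIntegral_mono (wt_int (inter_subset_left.trans (As_sub u x t)) h _)
      (wt_int (inter_subset_left.trans (As_sub u x t)) h _) fun y =>
      Real.exp_le_exp.2 (div_le_div_of_nonneg_right
        (neg_le_neg (max_le_max (by linarith) le_rfl)) hh.le)
  have h3 : ∫ y in As u x t \ ball x (r + h), wt x h r y ≤
      ∫ y in As u x t \ ball x (r + h), wt x h (r + h) y / 2 := by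
    refine setIntegral_mono_on (wt_int (sdiff_subset.trans (As_sub u x t)) h _)
      ((wt_int (sdiff_subset.trans (As_sub u x t)) h _).div_const _)
      ((meas_As hu x t).diff measurableSet_ball) fun y hy => ?_
    have h4 : r + h ≤ ‖y - x‖ := by simpa [dist_eq_norm] using hy.2
    unfold wt
    rw [max_eq_left (by linarith), max_eq_left (by linarith), le_div_iff₀ two_pos]
    have h5 : -(‖y - x‖ - (r + h)) / h = -(‖y - x‖ - r) / h + 1 := by field_simp; ring
    rw [h5, Real.exp_add]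
    exact mul_le_mul_of_nonneg_left (by linarith [Real.add_one_le_exp 1]) (Real.exp_pos _).le
  rw [integral_div] at h3
  unfold Mi Ni
  linarith [h1 r, h1 (r + h)]

theorem Mi_le (hh : 0 < h) {X : ℝ} (hX : 0 ≤ X) (hJ : Ji u x h r ≤ ENNReal.ofReal X) :
    Mi u x t h r ≤ (volume (ball x r ∩ {y | 1 / 10 ≤ u y})).toReal + X + Ni u x t h r := by
  have h1 := integral_inter_add_sdiff (t := ball x r) measurableSet_ball
    (wt_int (As_sub u x t) h r)
  have h2 := int_le (s := As u x t ∩ ball x r) (inter_subset_left.trans (As_sub u x t)) hh r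
  have h3 : volume (Ss u x (r + h)) ≤ ENNReal.ofReal X := by
    refine le_trans ?_ hJ
    rw [← setLIntegral_one]
    exact lintegral_mono fun y => ENNReal.one_le_ofReal.2 (le_add_of_nonneg_left (by positivity))
  have h0 : volume (ball x r ∩ {y | 1 / 10 ≤ u y}) ≠ ⊤ :=
    ((measure_mono inter_subset_left).trans_lt measure_ball_lt_top).ne
  have h4 : volume (As u x t ∩ ball x r) ≤
      volume (ball x r ∩ {y | 1 / 10 ≤ u y}) + ENNReal.ofReal X := by
    refine le_trans (measure_mono fun y hy => ?_) ((measure_union_le _ (Ss u x (r + h))).trans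
      (add_le_add le_rfl h3))
    rcases le_total (1 / 10) (u y) with h5 | h5
    · exact Or.inl ⟨hy.2, h5⟩
    · exact Or.inr ⟨ball_subset_ball (by linarith) hy.2, hy.1.2, h5⟩
  have h5 := ENNReal.toReal_mono (ENNReal.add_ne_top.2 ⟨h0, ENNReal.ofReal_ne_top⟩) h4
  rw [ENNReal.toReal_add h0 ENNReal.ofReal_ne_top, ENNReal.toReal_ofReal hX] at h5
  unfold Mi Ni
  linarith

theorem fderiv_zero {F : E n → ℝ} (hF : ∀ z, 0 ≤ F z ∧ F z ≤ 1) (e : F y = 0 ∨ F y = 1) :
    fderiv ℝ F y = 0 := by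
  rcases e with e | e
  · exact IsLocalMin.fderiv_eq_zero (Eventually.of_forall fun z => e.le.trans (hF z).1)
  · exact IsLocalMax.fderiv_eq_zero (Eventually.of_forall fun z => (hF z).2.trans e.ge)

theorem deriv_bd : ∃ L > (0 : ℝ), ∀ s, |deriv Real.smoothTransition s| ≤ L := by
  obtain ⟨L, hL⟩ := (isCompact_Icc (a := (0 : ℝ)) (b := 1)).exists_bound_of_continuousOn
    ((Real.smoothTransition.contDiff (n := 1)).continuous_deriv le_rfl).continuousOn
  refine ⟨|L| + 1, by positivity, fun s => ?_⟩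
  by_cases h1 : s ≤ 0
  · rw [IsLocalMin.deriv_eq_zero (Eventually.of_forall fun z =>
      (Real.smoothTransition.zero_of_nonpos h1).le.trans (Real.smoothTransition.nonneg z)),
      abs_zero]
    positivity
  by_cases h2 : 1 ≤ s
  · rw [IsLocalMax.deriv_eq_zero (Eventually.of_forall fun z =>
      (Real.smoothTransition.le_one z).trans (Real.smoothTransition.one_of_one_le h2).ge),
      abs_zero]
    positivity
  have := hL s ⟨by linarith, by linarith⟩
  rw [Real.norm_eq_abs] at this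
  linarith [le_abs_self L]

/-- the cut-off function of the ball -/
def ct (x : E n) (h r : ℝ) (y : E n) : ℝ := Real.smoothTransition ((r + h - ‖y - x‖) / h)

theorem ct_one (hh : 0 < h) (hy : ‖y - x‖ ≤ r) : ct x h r y = 1 :=
  Real.smoothTransition.one_of_one_le (by rw [le_div_iff₀ hh]; linarith)

theorem ct_zero (hh : 0 < h) (hy : r + h ≤ ‖y - x‖) : ct x h r y = 0 :=
  Real.smoothTransition.zero_of_nonpos (div_nonpos_of_nonpos_of_nonneg (by linarith) hh.le)

theorem ct_c1 (hh : 0 < h) (hr : 0 < r) : ContDiff ℝ 1 (ct x h r) := by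
  refine contDiff_iff_contDiffAt.2 fun y => ?_
  by_cases hy : y = x
  · refine (contDiffAt_const (c := (1 : ℝ))).congr_of_eventuallyEq ?_
    filter_upwards [ball_mem_nhds y hr] with z hz
    exact ct_one hh (by rw [← hy, ← dist_eq_norm]; exact le_of_lt hz)
  · exact Real.smoothTransition.contDiffAt.comp y ((contDiffAt_const.sub
      ((contDiffAt_id.sub contDiffAt_const).norm ℝ (sub_ne_zero.2 hy))).div_const h)

theorem ct_fderiv {L : ℝ} (hL0 : 0 < L) (hL : ∀ s, |deriv Real.smoothTransition s| ≤ L)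
    (hh : 0 < h) : ‖fderiv ℝ (ct x h r) y‖ ≤ L / h := by
  refine norm_fderiv_le_of_lip' ℝ (by positivity) (Eventually.of_forall fun z => ?_)
  have h1 := convex_univ.norm_image_sub_le_of_norm_deriv_le (f := Real.smoothTransition)
    (fun s _ => (Real.smoothTransition.contDiff (n := 1)).differentiable (by norm_num) s)
    (fun s _ => hL s) (mem_univ ((r + h - ‖y - x‖) / h)) (mem_univ ((r + h - ‖z - x‖) / h))
  refine h1.trans ?_
  rw [← sub_div, norm_div, Real.norm_of_nonneg hh.le, div_mul_eq_mul_div, mul_div_assoc]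
  refine mul_le_mul_of_nonneg_left (div_le_div_of_nonneg_right ?_ hh.le) hL0.le
  have h2 := abs_norm_sub_norm_le (y - x) (z - x)
  rw [sub_sub_sub_cancel_right, norm_sub_rev y z] at h2
  rw [sub_sub_sub_cancel_left]
  exact h2

theorem fderiv_le {L : ℝ} (hL0 : 0 < L) (hL : ∀ s, |deriv Real.smoothTransition s| ≤ L)
    (hu : ContDiff ℝ 1 u) (hh : 0 < h) (hr : 0 < r) (ht : r + h ≤ t) (y : E n) :
    h * ‖fderiv ℝ (fun z => ct x h r z * Real.smoothTransition (20 * u z - 1)) y‖ ≤
      (Ss u x (r + h)).indicator (fun y => 20 * L * (h * ‖fderiv ℝ u y‖ + 1)) y +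
        (As u x t \ ball x r).indicator (fun y => 4 * L * wt x h r y) y := by
  have p1 : 0 ≤ (Ss u x (r + h)).indicator (fun y => 20 * L * (h * ‖fderiv ℝ u y‖ + 1)) y :=
    indicator_nonneg (fun _ _ => by positivity) y
  have p2 : 0 ≤ (As u x t \ ball x r).indicator (fun y => 4 * L * wt x h r y) y :=
    indicator_nonneg (fun z _ => by have := wt_pos x h r z; positivity) y
  have q1 : ∀ z, 0 ≤ ct x h r z ∧ ct x h r z ≤ 1 := fun z =>
    ⟨Real.smoothTransition.nonneg _, Real.smoothTransition.le_one _⟩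
  have q2 : ∀ z, 0 ≤ Real.smoothTransition (20 * u z - 1) ∧
      Real.smoothTransition (20 * u z - 1) ≤ 1 := fun z =>
    ⟨Real.smoothTransition.nonneg _, Real.smoothTransition.le_one _⟩
  by_cases h1 : y ∈ ball x (r + h) ∧ 1 / 20 ≤ u y
  swap
  · rw [fderiv_zero (fun z => ⟨mul_nonneg (q1 z).1 (q2 z).1,
      mul_le_one₀ (q1 z).2 (q2 z).1 (q2 z).2⟩) (Or.inl ?_), norm_zero, mul_zero]
    · positivity
    rcases not_and_or.1 h1 with h2 | h2
    · rw [ct_zero hh (by simpa [dist_eq_norm] using h2), zero_mul]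
    · rw [Real.smoothTransition.zero_of_nonpos (by linarith), mul_zero]
  have d1 := ((ct_c1 (x := x) hh hr).differentiable (by norm_num) y).hasFDerivAt
  have d2 := ((Real.smoothTransition.contDiff (n := 1)).differentiable (by norm_num)
    (20 * u y - 1)).hasDerivAt.comp_hasFDerivAt y
    (((hu.differentiable (by norm_num) y).hasFDerivAt.const_mul 20).sub_const 1)
  have d3 : HasFDerivAt (fun z => Real.smoothTransition (20 * u z - 1))
      (fderiv ℝ (fun z => Real.smoothTransition (20 * u z - 1)) y) y :=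
    d2.differentiableAt.hasFDerivAt
  rw [(d1.fun_mul d3).fderiv]
  have t1 : h * ‖fderiv ℝ (fun z => Real.smoothTransition (20 * u z - 1)) y‖ ≤
      (Ss u x (r + h)).indicator (fun y => 20 * L * (h * ‖fderiv ℝ u y‖ + 1)) y := by
    by_cases h2 : u y ≤ 1 / 10
    · rw [indicator_of_mem (show y ∈ Ss u x (r + h) from ⟨h1.1, h1.2, h2⟩), d3.unique d2,
        norm_smul, norm_smul, Real.norm_eq_abs, Real.norm_ofNat]
      have := mul_le_mul_of_nonneg_right (hL (20 * u y - 1))
        (show 0 ≤ h * (20 * ‖fderiv ℝ u y‖) by positivity)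
      linarith
    · rw [fderiv_zero q2 (Or.inr (Real.smoothTransition.one_of_one_le (by linarith))), norm_zero,
        mul_zero]
      exact p1
  have t2 : h * ‖fderiv ℝ (ct x h r) y‖ ≤
      (As u x t \ ball x r).indicator (fun y => 4 * L * wt x h r y) y := by
    by_cases h2 : y ∈ ball x r
    · rw [fderiv_zero q1 (Or.inr (ct_one hh (by rw [← dist_eq_norm]; exact le_of_lt h2))),
        norm_zero, mul_zero]
      exact p2
    · rw [indicator_of_mem (show y ∈ As u x t \ ball x r from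
        ⟨⟨ball_subset_ball ht h1.1, h1.2⟩, h2⟩)]
      have h3 := ct_fderiv (x := x) (r := r) (y := y) hL0 hL hh
      rw [le_div_iff₀ hh] at h3
      have := mul_le_mul_of_nonneg_left (wt_ge hh h1.1) hL0.le
      linarith
  refine le_trans (mul_le_mul_of_nonneg_left ((norm_add_le _ _).trans (add_le_add
    (b := ‖fderiv ℝ (fun z => Real.smoothTransition (20 * u z - 1)) y‖)
    (d := ‖fderiv ℝ (ct x h r) y‖) ?_ ?_)) hh.le) (by linarith)
  · rw [norm_smul, Real.norm_of_nonneg (q1 y).1]
    exact mul_le_of_le_one_left (norm_nonneg _) (q1 y).2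
  · rw [norm_smul, Real.norm_of_nonneg (q2 y).1]
    exact mul_le_of_le_one_left (norm_nonneg _) (q2 y).2

theorem gns (m : ℕ) (hm : 1 ≤ m) : ∃ C > (0 : ℝ), ∀ (u : E (m + 1) → ℝ) (x : E (m + 1))
    (t h r X : ℝ), ContDiff ℝ 1 u → 0 < h → 0 < r → r + h ≤ t → Ni u x t h r ≤ X →
    Ji u x h r ≤ ENNReal.ofReal X →
    (volume (ball x r ∩ {y | 1 / 10 ≤ u y})).toReal ^ m ≤ (C * (X / h)) ^ (m + 1) := by
  obtain ⟨L, hL0, hL⟩ := deriv_bd
  have m0 : (0 : ℝ) < m := by exact_mod_cast hm
  have hp : Real.HolderConjugate (Module.finrank ℝ (E (m + 1))) ((m + 1) / m) := by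
    rw [finrank_euclideanSpace_fin, Real.holderConjugate_iff]
    push_cast
    exact ⟨by linarith, by field_simp; ring⟩
  obtain ⟨G, hG⟩ : ∃ G : ℝ≥0, G = lintegralPowLePowLIntegralFDerivConst
    (volume : Measure (E (m + 1))) ((m + 1) / m) := ⟨_, rfl⟩
  refine ⟨(G + 1) * (24 * L), by positivity, fun u x t h r X hu hh hr ht hN hJ => ?_⟩
  have X0 : 0 ≤ X := (Ni_nonneg u x t h r).trans hN
  obtain ⟨f, hf⟩ : ∃ f : E (m + 1) → ℝ,
    f = fun z => ct x h r z * Real.smoothTransition (20 * u z - 1) := ⟨_, rfl⟩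
  have f1 : ContDiff ℝ 1 f := by
    rw [hf]
    exact (ct_c1 hh hr).mul (Real.smoothTransition.contDiff.comp
      ((contDiff_const.mul hu).sub contDiff_const))
  have f2 : HasCompactSupport f :=
    HasCompactSupport.intro (isCompact_closedBall x (r + h)) fun y hy => by
      rw [mem_closedBall, dist_eq_norm] at hy
      simp only [hf, ct_zero hh (not_le.1 hy).le, zero_mul]
  have h1 := lintegral_pow_le_pow_lintegral_fderiv volume f1 f2 hp
  rw [← hG] at h1
  have h2 : volume (ball x r ∩ {y | 1 / 10 ≤ u y}) ≤ ∫⁻ y, ‖f y‖ₑ ^ ((m + 1 : ℝ) / m) := by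
    rw [← lintegral_indicator_one (measurableSet_ball.inter
      (isClosed_le continuous_const hu.continuous).measurableSet)]
    refine lintegral_mono fun y => ?_
    by_cases hy : y ∈ ball x r ∩ {y | 1 / 10 ≤ u y}
    · have h3 : 1 / 10 ≤ u y := hy.2
      have h4 : f y = 1 := by
        simp only [hf]
        rw [ct_one hh (by rw [← dist_eq_norm]; exact le_of_lt hy.1),
          Real.smoothTransition.one_of_one_le (by linarith), one_mul]
      rw [indicator_of_mem hy, h4]
      simp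
    · rw [indicator_of_notMem hy]
      exact zero_le
  have h3 : ∫⁻ y, ‖fderiv ℝ f y‖ₑ ≤ ENNReal.ofReal (24 * L * (X / h)) := by
    have h4 : ∀ y, ‖fderiv ℝ f y‖ₑ ≤ (Ss u x (r + h)).indicator (fun y =>
        ENNReal.ofReal (20 * L / h) * ENNReal.ofReal (h * ‖fderiv ℝ u y‖ + 1)) y +
        (As u x t \ ball x r).indicator (fun y =>
          ENNReal.ofReal (4 * L / h) * ENNReal.ofReal (wt x h r y)) y := fun y => by
      have h5 := fderiv_le hL0 hL hu hh hr ht y (x := x)
      rw [← hf, ← le_div_iff₀' hh, add_div] at h5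
      rw [← ofReal_norm]
      refine (ENNReal.ofReal_le_ofReal h5).trans (ENNReal.ofReal_add_le.trans (add_le_add ?_ ?_))
      · by_cases hy : y ∈ Ss u x (r + h)
        · rw [indicator_of_mem hy, indicator_of_mem hy, ← ENNReal.ofReal_mul (by positivity)]
          exact le_of_eq (by congr 1; ring)
        · simp [indicator_of_notMem hy]
      · by_cases hy : y ∈ As u x t \ ball x r
        · rw [indicator_of_mem hy, indicator_of_mem hy, ← ENNReal.ofReal_mul (by positivity)]
          exact le_of_eq (by congr 1; ring)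
        · simp [indicator_of_notMem hy]
    have h5 := (meas_As hu.continuous x t).diff (measurableSet_ball (x := x) (ε := r))
    refine (lintegral_mono h4).trans ?_
    rw [lintegral_add_right _ (Measurable.indicator
      ((cont_wt x h r).measurable.ennreal_ofReal.const_mul _) h5), lintegral_indicator h5,
      lintegral_indicator (meas_Ss hu.continuous x _), lintegral_const_mul' _ _ ENNReal.ofReal_ne_top,
      lintegral_const_mul' _ _ ENNReal.ofReal_ne_top, lint_wt (sdiff_subset.trans (As_sub u x t))]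
    refine (add_le_add (mul_le_mul_right hJ _)
      (mul_le_mul_right (ENNReal.ofReal_le_ofReal hN) _)).trans ?_
    rw [← ENNReal.ofReal_mul (by positivity), ← ENNReal.ofReal_mul (by positivity),
      ← ENNReal.ofReal_add (by positivity) (by positivity)]
    exact le_of_eq (by congr 1; ring)
  have h4 := h2.trans (h1.trans (mul_le_mul_right (ENNReal.rpow_le_rpow h3 (by positivity)) _))
  rw [ENNReal.ofReal_rpow_of_nonneg (by positivity) (by positivity), ← ENNReal.ofReal_coe_nnreal,
    ← ENNReal.ofReal_mul (by positivity)] at h4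
  have h5 := ENNReal.toReal_le_of_le_ofReal (by positivity) h4
  refine (pow_le_pow_left₀ ENNReal.toReal_nonneg h5 m).trans ?_
  rw [mul_pow, ← Real.rpow_natCast (_ ^ _), ← Real.rpow_mul (by positivity),
    div_mul_cancel₀ _ m0.ne', mul_assoc (G + 1 : ℝ), mul_pow (G + 1 : ℝ)]
  have h6 : (G : ℝ) ^ m ≤ (G + 1) ^ (m + 1) :=
    (pow_le_pow_left₀ (by positivity) (by linarith) m).trans
      (pow_le_pow_right₀ (le_add_of_nonneg_left (by positivity)) (by omega))
  rw [← Nat.cast_add_one, Real.rpow_natCast]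
  exact mul_le_mul_of_nonneg_right h6 (by positivity)

theorem stp_of {m : ℕ} {C C₁ V κ τ K M M' N W H : ℝ} (hH : 0 < H) (h1 : M + N / 2 ≤ M')
    (hN : 0 ≤ N) (hW : 0 ≤ W) (hV : W ≤ V) (h0 : 0 ≤ κ * M' / K + τ) (hC : 0 ≤ C) (hC₁ : 1 ≤ C₁)
    (h2 : M' ≤ W + C₁ * (N + κ * M' / K + τ) + N)
    (h3 : W ^ m ≤ (C * (C₁ * (N + κ * M' / K + τ) / H)) ^ (m + 1)) :
    Stp m ((C + 2) * C₁) (V / H ^ (m + 1)) κ (τ / H ^ (m + 1)) K (M / H ^ (m + 1))
      (M' / H ^ (m + 1)) := by
  have P0 : 0 < H ^ (m + 1) := by positivity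
  have e : N / H ^ (m + 1) + κ * (M' / H ^ (m + 1)) / K + τ / H ^ (m + 1) =
      (N + κ * M' / K + τ) / H ^ (m + 1) := by ring
  have I0 : N ≤ N + κ * M' / K + τ := by linarith
  refine ⟨N / H ^ (m + 1), W / H ^ (m + 1), by positivity, by positivity,
    div_le_div_of_nonneg_right hV P0.le, ?_, ?_, ?_, ?_⟩
  · refine le_trans (le_of_eq (by ring)) (div_le_div_of_nonneg_right h1 P0.le)
  · rw [e, ← mul_div_assoc, ← add_div]
    refine div_le_div_of_nonneg_right ?_ P0.le
    generalize N + κ * M' / K + τ = I at h2 I0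
    nlinarith [mul_nonneg hC (mul_nonneg (zero_le_one.trans hC₁) (hN.trans I0))]
  · rw [e, div_pow, div_le_iff₀ (by positivity)]
    refine h3.trans ?_
    generalize N + κ * M' / K + τ = I at I0
    have I1 := hN.trans I0
    have e2 : ((C + 2) * C₁ * (I / H ^ (m + 1))) ^ (m + 1) * (H ^ (m + 1)) ^ m =
        ((C + 2) * (C₁ * I / H)) ^ (m + 1) := by
      rw [← pow_mul, mul_comm (m + 1) m, pow_mul, ← mul_pow]
      congr 1
      field_simp
      ring
    rw [e2]
    exact pow_le_pow_left₀ (by positivity)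
      (mul_le_mul_of_nonneg_right (by linarith) (by positivity)) _
  · refine le_trans (div_nonneg h0 P0.le) (le_of_eq (by ring))

theorem core (m : ℕ) (hm : 1 ≤ m) {C₁ : ℝ} (hC : 1 ≤ C₁) : ∃ c > (0 : ℝ), c ≤ 1 ∧
    ∀ θ > (0 : ℝ), ∃ X₀ > (0 : ℝ), ∀ (u : E (m + 1) → ℝ) (x : E (m + 1)) (t h : ℝ),
      ContDiff ℝ 1 u → 0 < h → X₀ * h ≤ t → (∀ y ∈ ball x (θ * h), 1 / 20 ≤ u y) →
      (∀ r, 0 < r → r ≤ t / 2 → Ji u x h r ≤ ENNReal.ofReal (C₁ * (Ni u x t h r +
        c * h / t * Mi u x t h r + Real.exp (-t / (4 * h)) * (volume (ball x t)).toReal))) →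
      ENNReal.ofReal (c * t ^ (m + 1)) ≤ volume (ball x t ∩ {y | 1 / 10 ≤ u y}) := by
  obtain ⟨C, hC0, hG⟩ := gns m hm
  obtain ⟨o, o0, ho⟩ : ∃ o > (0 : ℝ), ∀ (x : E (m + 1)) r, 0 ≤ r →
      (volume (ball x r)).toReal = o * r ^ (m + 1) :=
    ⟨_, div_pos (omega_pos (Nat.succ_pos m)) (by positivity),
      fun x r hr => real_ball (Nat.succ_pos m) x hr⟩
  obtain ⟨c, c0, c1, hc⟩ := seq_lem m (C := (C + 2) * C₁) (Ω := o * 4 ^ (m + 1)) (by nlinarith)
    (by positivity)
  have c2 : c / 4 ^ (m + 1) ≤ c := div_le_self c0.le (one_le_pow₀ (by norm_num))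
  refine ⟨c / 4 ^ (m + 1), by positivity, c2.trans c1, fun θ θ0 => ?_⟩
  obtain ⟨K₀, τ₀, τ0, hK⟩ := hc (o * min θ 1 ^ (m + 1) / 4) (by positivity)
  obtain ⟨X₁, hX⟩ := eventually_atTop.1 ((Real.tendsto_pow_mul_exp_neg_atTop_nhds_zero
    (m + 1)).eventually (ge_mem_nhds (show 0 < τ₀ / (o * 4 ^ (m + 1)) by positivity)))
  refine ⟨4 * |X₁| + 2 * K₀ + 2, by positivity, fun u x t h hu hh ht hθ hJ => ?_⟩
  have k0 : (0 : ℝ) ≤ K₀ := Nat.cast_nonneg _
  have t1 : 2 * h ≤ t := by nlinarith [abs_nonneg X₁]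
  have t0 : 0 < t := by linarith
  obtain ⟨K, hK'⟩ : ∃ K, K = ⌊t / (2 * h)⌋₊ := ⟨_, rfl⟩
  have K1 : K₀ + 1 ≤ K := by
    rw [hK']
    refine Nat.le_floor ?_
    rw [le_div_iff₀ (by positivity)]
    push_cast
    nlinarith [abs_nonneg X₁]
  have K2 : (1 : ℝ) ≤ K := by exact_mod_cast (by omega : 1 ≤ K)
  have K3 : K * (2 * h) ≤ t := by
    rw [← le_div_iff₀ (by positivity), hK']; exact Nat.floor_le (by positivity)
  have K4 : t ≤ 4 * K * h := by
    have := Nat.lt_floor_add_one (t / (2 * h))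
    rw [← hK', div_lt_iff₀ (by positivity)] at this
    nlinarith
  have P0 : 0 < h ^ (m + 1) := by positivity
  have f0 : volume (ball x t ∩ {y | 1 / 10 ≤ u y}) ≠ ⊤ :=
    ((measure_mono inter_subset_left).trans_lt measure_ball_lt_top).ne
  have t2 : t ^ (m + 1) ≤ 4 ^ (m + 1) * K ^ (m + 1) * h ^ (m + 1) := by
    rw [← mul_pow, ← mul_pow]; exact pow_le_pow_left₀ t0.le K4 _
  have h1 := hK K (fun k => Mi u x t h (k * h) / h ^ (m + 1))
    ((volume (ball x t ∩ {y | 1 / 10 ≤ u y})).toReal / h ^ (m + 1)) (c / 4 ^ (m + 1))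
    (Real.exp (-t / (4 * h)) * (volume (ball x t)).toReal / h ^ (m + 1)) (by omega)
    (by positivity) c2 ?_ ?_ (fun k _ => ?_) fun k hk => ?_
  · rw [le_div_iff₀ P0] at h1
    refine ENNReal.ofReal_le_of_le_toReal (le_trans ?_ h1)
    rw [div_mul_eq_mul_div, div_le_iff₀ (by positivity)]
    exact (mul_le_mul_of_nonneg_left t2 c0.le).trans (le_of_eq (by ring))
  · have h2 := hX (t / (4 * h)) (by
      rw [le_div_iff₀ (by positivity)]; nlinarith [le_abs_self X₁])
    rw [le_div_iff₀ (by positivity)] at h2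
    refine le_trans (le_of_eq ?_) h2
    rw [ho x t t0.le, neg_div, div_pow, mul_pow]
    field_simp
  · have s0 : 0 < min θ 1 := by positivity
    have h2 : ball x (min θ 1 * h) ⊆ As u x t := fun y hy =>
      ⟨ball_subset_ball (by nlinarith [min_le_right θ 1]) hy,
        hθ y (ball_subset_ball (by nlinarith [min_le_left θ 1]) hy)⟩
    have h3 := setIntegral_mono_set (wt_int (As_sub u x t) h 0)
      (Eventually.of_forall fun y => (wt_pos x h 0 y).le) h2.eventuallyLE
    have h4 := setIntegral_mono_on (integrableOn_const (C := (1 / 4 : ℝ)) measure_ball_lt_top.ne)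
      (wt_int (h2.trans (As_sub u x t)) h 0) measurableSet_ball fun y hy =>
        wt_ge hh (ball_subset_ball (by nlinarith [min_le_right θ 1]) hy)
    rw [setIntegral_const, measureReal_def, ho x _ (by positivity), smul_eq_mul, mul_pow] at h4
    simp only [Nat.cast_zero, zero_mul]
    rw [le_div_iff₀ P0]
    exact le_trans (le_of_eq (by ring)) (h4.trans h3)
  · rw [div_le_iff₀ P0]
    refine (int_le (As_sub u x t) hh _).trans ((ENNReal.toReal_mono measure_ball_lt_top.ne
      (measure_mono (As_sub u x t))).trans ?_)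
    rw [ho x t t0.le]
    exact (mul_le_mul_of_nonneg_left t2 o0.le).trans (le_of_eq (by ring))
  · have k1 : ((k + 1 : ℕ) : ℝ) ≤ K := by exact_mod_cast hk
    have k2 : (0 : ℝ) < (k + 1 : ℕ) := by positivity
    have r1 : ((k + 1 : ℕ) : ℝ) * h ≤ t / 2 := by nlinarith
    have h2 := Mi_step (x := x) (t := t) hu.continuous hh (k * h)
    rw [show (k : ℝ) * h + h = (k + 1 : ℕ) * h by push_cast; ring] at h2
    have h3 := hJ _ (mul_pos k2 hh) r1
    have r0 := mul_pos k2 hh
    generalize ((k + 1 : ℕ) : ℝ) * h = r at h2 h3 r0 r1 ⊢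
    have M0 := Mi_nonneg u x t h r
    have N0 := Ni_nonneg u x t h r
    have h4 : c / 4 ^ (m + 1) * h / t * Mi u x t h r ≤ c / 4 ^ (m + 1) * Mi u x t h r / K := by
      rw [mul_div_assoc, mul_assoc, mul_div_assoc _ (Mi u x t h r), div_eq_inv_mul _ (K : ℝ)]
      refine mul_le_mul_of_nonneg_left (mul_le_mul_of_nonneg_right ?_ M0) (by positivity)
      rw [div_le_iff₀ t0, ← div_eq_inv_mul, le_div_iff₀ (by linarith)]
      nlinarith
    have h5 := h3.trans (ENNReal.ofReal_le_ofReal (mul_le_mul_of_nonneg_left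
      (add_le_add (add_le_add le_rfl h4) le_rfl) (by linarith)))
    have h6 : 0 ≤ c / 4 ^ (m + 1) * Mi u x t h r / K +
        Real.exp (-t / (4 * h)) * (volume (ball x t)).toReal := by positivity
    have h7 : Ni u x t h r ≤ C₁ * (Ni u x t h r + c / 4 ^ (m + 1) * Mi u x t h r / K +
        Real.exp (-t / (4 * h)) * (volume (ball x t)).toReal) :=
      le_trans (by linarith) (le_mul_of_one_le_left (by linarith) hC)
    exact stp_of hh h2 N0 ENNReal.toReal_nonneg (ENNReal.toReal_mono f0 (measure_mono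
      (inter_subset_inter_left _ (ball_subset_ball (by linarith))))) h6 hC0.le hC
      (Mi_le hh (N0.trans h7) h5) (hG u x t h r _ hu hh r0 (by linarith) h7 h5)

end Vale.Agent.P366Z.DensH
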