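import Vale.Agent.P366Z.Sk
import Vale.Agent.P366Z.Int

/-!
# P366Z: the mean value inequality
-/

open MeasureTheory Metric Filter Topology Set
open scoped ContDiff Pointwise
open Vale.Agent.P366.Stmt

noncomputable section

namespace Vale.Agent.P366Z

namespace Mv

variable {n : ℕ} {u : E n → ℝ}

theorem flx {t : ℝ} (ht : 0 < t) (hu : ContDiff ℝ 2 u)
    (h : ∀ y ∈ ball (0 : E n) t, lap (eu n) u y ≤ 0) :
    ∫ y in ball (0 : E n) t, fderiv ℝ u y y ≤ 0 := by
  have hb : ∀ y : E n, |min ‖y‖ t| ≤ t := fun y =>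
    (abs_of_nonneg (le_min (norm_nonneg y) ht.le)).trans_le (min_le_right _ _)
  have h0 : ∀ y : E n, t ≤ ‖y‖ → t ^ 2 - min ‖y‖ t * min ‖y‖ t = 0 := fun y hy => by
    rw [min_eq_right hy, sq, sub_self]
  have k := met_eu.ibp_lap ((lip_const (t ^ 2)).sub ((lip_norm.min (lip_const t)).mul
    (lip_norm.min (lip_const t)) hb hb)) (supp_of_out h0) hu
  have k1 : ∫ y : E n, (t ^ 2 - min ‖y‖ t * min ‖y‖ t) * lap (eu n) u y * dens (eu n) y ≤ 0 :=
    integral_nonpos fun y => by
      rw [dens_eu, mul_one]
      rcases le_or_gt t ‖y‖ with hy | hy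
      · rw [h0 y hy, zero_mul]; rfl
      · refine mul_nonpos_of_nonneg_of_nonpos ?_ (h y (mem_ball_zero_iff.2 hy))
        rw [← sq, sub_nonneg, ← sq_abs]
        exact pow_le_pow_left₀ (abs_nonneg _) (hb y) 2
  have k2 : ∫ y : E n, ip (eu n) (fun y => t ^ 2 - min ‖y‖ t * min ‖y‖ t) u y * dens (eu n) y =
      ∫ y : E n, (ball (0 : E n) t).indicator (fun y => -2 * fderiv ℝ u y y) y := by
    refine integral_congr_ae ?_
    filter_upwards [measure_eq_zero_iff_ae_notMem.1
      (Measure.addHaar_sphere_of_ne_zero volume (0 : E n) ht.ne')] with y hy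
    rw [dens_eu, mul_one, ip_eu]
    rcases lt_or_gt_of_ne (mem_sphere_zero_iff_norm.not.1 hy) with hy | hy
    · have e : (fun y : E n => t ^ 2 - min ‖y‖ t * min ‖y‖ t) =ᶠ[𝓝 y] fun y => t ^ 2 - ‖y‖ ^ 2 := by
        filter_upwards [(isOpen_lt continuous_norm continuous_const).mem_nhds hy] with z hz
        rw [min_eq_left (le_of_lt hz), ← sq]
      rw [indicator_of_mem (mem_ball_zero_iff.2 hy), fderiv_eq_sum (diff2 hu.contDiffAt),
        Finset.mul_sum]
      refine Finset.sum_congr rfl fun i _ => ?_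
      rw [pd_congr e, pd_const_sub, pd_normSq]
      ring
    · rw [indicator_of_notMem (mem_ball_zero_iff.not.2 hy.le.not_gt)]
      simp only [pd_zero_of_out h0 hy, zero_mul, Finset.sum_const_zero]
  rw [k2, integral_indicator measurableSet_ball, integral_const_mul] at k
  linarith

theorem scale {t : ℝ} (ht : 0 < t) (f : E n → ℝ) :
    ∫ z in ball (0 : E n) 1, f (t • z) = (t ^ n)⁻¹ * ∫ y in ball (0 : E n) t, f y := by
  rw [Measure.setIntegral_comp_smul_of_pos volume f _ ht, smul_unitBall_of_pos ht]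
  simp

theorem mv0 {r : ℝ} (hr : 0 < r) (hu : ContDiff ℝ 2 u)
    (h : ∀ y ∈ ball (0 : E n) r, lap (eu n) u y ≤ 0) :
    ∫ z in ball (0 : E n) 1, (u (r • z) - u 0) ≤ 0 := by
  have hc : Continuous fun p : E n × ℝ => fderiv ℝ u (p.2 • p.1) p.1 :=
    ((hu.continuous_fderiv (by norm_num)).comp (by fun_prop)).clm_apply continuous_fst
  have e : ∀ z : E n, u (r • z) - u 0 = ∫ t in Ioc 0 r, fderiv ℝ u (t • z) z := fun z => by
    rw [← intervalIntegral.integral_of_le hr.le, intervalIntegral.integral_eq_sub_of_hasDerivAt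
      (f := fun t : ℝ => u (t • z)) (f' := fun t => fderiv ℝ u (t • z) z) (fun t _ => ?_)
      ((hc.comp (Continuous.prodMk_right z)).intervalIntegrable _ _), zero_smul]
    exact (diff2 hu.contDiffAt).hasFDerivAt.comp_hasDerivAt t
      (((hasDerivAt_id t).smul_const z).congr_deriv (one_smul _ _))
  simp only [e]
  rw [integral_integral_swap (f := fun (z : E n) (t : ℝ) => fderiv ℝ u (t • z) z) (by
    rw [Measure.prod_restrict]
    exact (hc.continuousOn.integrableOn_compact ((isCompact_closedBall 0 1).prod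
      isCompact_Icc)).mono_set (prod_mono ball_subset_closedBall Ioc_subset_Icc_self))]
  refine setIntegral_nonpos measurableSet_Ioc fun t ht => ?_
  have k := scale ht.1 fun y => fderiv ℝ u y y
  simp only [map_smul, smul_eq_mul, integral_const_mul] at k
  refine nonpos_of_mul_nonpos_right (k.trans_le (mul_nonpos_of_nonneg_of_nonpos
    (inv_nonneg.2 (pow_nonneg ht.1.le _))
    (flx ht.1 hu fun y hy => h y (ball_subset_ball ht.2 hy)))) ht.1

end Mv

open Mv

theorem mv : MV := by
  intro n u x r hn hr hu h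
  have hu' : ContDiff ℝ 2 fun y => u (y - -x) := hu.comp (contDiff_id.sub contDiff_const)
  have k := mv0 hr hu' fun y hy => by
    rw [lap_eu_translate]
    exact h _ (by simpa [dist_eq_norm] using hy)
  rw [integral_sub (f := fun z => u (r • z - -x)) (((hu'.continuous.comp
    (continuous_const_smul r)).continuousOn.integrableOn_compact
    (isCompact_closedBall 0 1)).mono_set ball_subset_closedBall) (integrableOn_const
      measure_ball_lt_top.ne), scale hr fun y => u (y - -x), setIntegral_const, measureReal_def,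
    real_ball (by omega) _ zero_le_one, sub_nonpos, inv_mul_le_iff₀ (by positivity)] at k
  rw [real_ball (by omega) _ hr.le, ← (measurePreserving_sub_right volume (-x)).setIntegral_preimage_emb
    (measurableEmbedding_subRight _), show (fun y => y - -x) ⁻¹' ball x r = ball 0 r by
      ext y; simp [dist_eq_norm]]
  refine k.trans_eq ?_
  simp only [zero_sub, neg_neg, one_pow, smul_eq_mul]
  ring

end Vale.Agent.P366Z
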