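import Vale.Agent.P366Z.Sk
import Vale.Agent.P366Z.Int

/-!
# P366Z: the coarse upper bound
-/

open MeasureTheory Metric Filter Topology Set
open scoped ContDiff
open Vale.Agent.P366.Stmt

noncomputable section

namespace Vale.Agent.P366Z

namespace MvH

variable {n : ℕ} {ρ : ℝ} {y : E n}

theorem d1 : deriv expNegInvGlue = fun t => t⁻¹ ^ 2 * expNegInvGlue t := funext fun t => by
  simpa using (expNegInvGlue.hasDerivAt_polynomial_eval_inv_mul 1 t).deriv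

theorem d2 (t : ℝ) :
    deriv (deriv expNegInvGlue) t = t⁻¹ ^ 3 * (t⁻¹ - 2) * expNegInvGlue t := by
  have := (expNegInvGlue.hasDerivAt_polynomial_eval_inv_mul (Polynomial.X ^ 2) t).deriv
  simp only [Polynomial.eval_pow, Polynomial.eval_X, Polynomial.eval_mul, Polynomial.eval_sub,
    Polynomial.derivative_X_pow, Polynomial.eval_C] at this
  rw [d1, this]
  push_cast
  ring

theorem d2_nonneg {t : ℝ} (ht : t ≤ 1 / 2) : 0 ≤ deriv (deriv expNegInvGlue) t := by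
  rw [d2]
  rcases le_or_gt t 0 with h | h
  · rw [expNegInvGlue.zero_of_nonpos h, mul_zero]
  · exact mul_nonneg (mul_nonneg (by positivity) (sub_nonneg.2
      ((le_inv_comm₀ two_pos h).2 (by linarith)))) (expNegInvGlue.nonneg t)

theorem d2_low {q : ℝ} (h0 : 0 ≤ q) (h1 : q ≤ 2 / 3) :
    Real.exp (-6) * q ≤ deriv (deriv expNegInvGlue) (-(q / 2) + 1 / 2) := by
  obtain ⟨t, ht⟩ : ∃ t, -(q / 2) + 1 / 2 = t := ⟨_, rfl⟩
  have t0 : 0 < t := by linarith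
  have t1 : 1 ≤ t⁻¹ := (le_inv_comm₀ one_pos t0).2 (by linarith)
  have t2 : t⁻¹ ≤ 6 := (inv_le_comm₀ t0 (by norm_num)).2 (by linarith)
  have t3 := mul_inv_cancel₀ t0.ne'
  rw [ht, d2, expNegInvGlue, if_neg t0.not_ge, mul_comm]
  refine mul_le_mul (le_trans ?_ (le_mul_of_one_le_left (by nlinarith) (one_le_pow₀ t1)))
    (Real.exp_le_exp.2 (by linarith)) (Real.exp_pos _).le (mul_nonneg (by positivity) (by nlinarith))
  nlinarith

theorem c1b {F : ℝ → ℝ} (hF : ContDiff ℝ 1 F) : ∃ L, 0 ≤ L ∧ ∀ s ∈ Icc (0 : ℝ) 1,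
    |F s| ≤ L ∧ |F s - F (1 / 2)| ≤ L * |s - 1 / 2| := by
  obtain ⟨L, hL⟩ := (isCompact_Icc (a := (0 : ℝ)) (b := 1)).exists_bound_of_continuousOn
    (hF.continuous.prodMk (hF.continuous_deriv le_rfl)).continuousOn
  exact ⟨L, (norm_nonneg _).trans (hL 0 (by simp)), fun s hs =>
    ⟨(norm_fst_le _).trans (hL s hs), (convex_Icc 0 1).norm_image_sub_le_of_norm_deriv_le
      (fun z _ => hF.differentiable (by norm_num) z) (fun z hz => (norm_snd_le _).trans (hL z hz))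
      (by norm_num) hs⟩⟩

/-- a harmonic function -/
def ta (ρ : ℝ) (y : E n) : ℝ := -(ρ ^ (n - 2 : ℝ) / 2) * ‖y‖ ^ (2 - n : ℝ) + 1 / 2

/-- the test function -/
def ps (ρ : ℝ) (y : E n) : ℝ := if ‖y‖ ≤ ρ then 0 else expNegInvGlue (ta ρ y)

theorem q_eq (hρ : 0 < ρ) {t : ℝ} (ht : 0 ≤ t) :
    ρ ^ (n - 2 : ℝ) * t ^ (2 - n : ℝ) = (t / ρ) ^ (2 - n : ℝ) := by
  rw [Real.div_rpow ht hρ.le, ← neg_sub (n : ℝ) 2, Real.rpow_neg hρ.le, div_inv_eq_mul, mul_comm]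

theorem ta_eq (hρ : 0 < ρ) (y : E n) : ta ρ y = -((‖y‖ / ρ) ^ (2 - n : ℝ) / 2) + 1 / 2 := by
  rw [ta, ← q_eq hρ (norm_nonneg y)]; ring

theorem ps_ev (hn : 3 ≤ n) (hρ : 0 < ρ) (hy : y ≠ 0) :
    ps ρ =ᶠ[𝓝 y] fun y => expNegInvGlue (ta ρ y) := by
  filter_upwards [isOpen_ne.mem_nhds hy] with z hz
  unfold ps
  split_ifs with h
  · have := Real.one_le_rpow_of_pos_of_le_one_of_nonpos (div_pos (norm_pos_iff.2 hz) hρ)
      ((div_le_one hρ).2 h) (show (2 - n : ℝ) ≤ 0 by linarith [nm2_pos hn])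
    rw [expNegInvGlue.zero_of_nonpos (by rw [ta_eq hρ]; linarith)]
  · rfl

theorem ps_in (hy : ‖y‖ < ρ) : ps ρ =ᶠ[𝓝 y] fun _ => 0 := by
  filter_upwards [(isOpen_lt continuous_norm continuous_const).mem_nhds hy] with z hz
  exact if_pos (le_of_lt hz)

theorem ps_nonneg (ρ : ℝ) (y : E n) : 0 ≤ ps ρ y := by
  unfold ps
  split_ifs
  exacts [le_rfl, expNegInvGlue.nonneg _]

theorem cd_ta {m : WithTop ℕ∞} (hy : y ≠ 0) : ContDiffAt ℝ m (ta ρ) y :=
  (contDiffAt_const.mul (contDiffAt_norm_rpow hy _)).add contDiffAt_const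

theorem sm_ps (hn : 3 ≤ n) (hρ : 0 < ρ) : Smooth (ps ρ : E n → ℝ) :=
  contDiff_iff_contDiffAt.2 fun y => by
    rcases eq_or_ne y 0 with rfl | hy
    · exact contDiffAt_const.congr_of_eventuallyEq (ps_in (by simpa using hρ))
    · exact (expNegInvGlue.contDiff.contDiffAt.comp y (cd_ta hy)).congr_of_eventuallyEq
        (ps_ev hn hρ hy)

theorem pd_ta (hy : y ≠ 0) (i : Fin n) :
    pd i (ta ρ) y = ρ ^ (n - 2 : ℝ) / 2 * ((n - 2) * y i * ‖y‖ ^ (-n : ℝ)) := by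
  unfold ta
  rw [pd_add_const, pd_const_mul, pd_norm_rpow hy, show (2 - n - 2 : ℝ) = -n by ring]
  ring

theorem neg_eq {t : ℝ} (ht : 0 < t) : t ^ (-n : ℝ) = t ^ (2 - n : ℝ) / t ^ 2 := by
  rw [← Real.rpow_two, ← Real.rpow_sub ht, show (2 - n - 2 : ℝ) = -n by ring]

theorem lap_ps (hn : 3 ≤ n) (hρ : 0 < ρ) (hy : y ≠ 0) : lap (eu n) (ps ρ) y =
    deriv (deriv expNegInvGlue) (ta ρ y) * (((n - 2) / 2 * (‖y‖ / ρ) ^ (2 - n : ℝ)) ^ 2 / ‖y‖ ^ 2) := by
  have h0 := norm_pos_iff.2 hy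
  have h1 : lap (eu n) (ta ρ) y = 0 := by
    unfold ta
    rw [lap_affine, lap_eu_rpow hy]
    ring
  rw [lap_congr (ps_ev hn hρ hy), met_eu.lap_comp (cd_ta hy)
    (expNegInvGlue.contDiff (n := 2)).contDiffAt, h1, mul_zero, zero_add, ip_eu]
  simp only [pd_ta hy, ← sq, mul_pow, ← Finset.mul_sum, ← Finset.sum_mul, ← norm_sq_eq,
    ← q_eq hρ h0.le, neg_eq h0]
  field_simp

theorem num {g g' g0 g0' L L' s N y β a C K P m v d : ℝ} (h1 : |g| ≤ L) (h2 : |g - g0| ≤ L * (P * s))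
    (h3 : |g'| ≤ L') (h4 : |g' - g0'| ≤ L' * (P * s)) (h5 : |v - a| ≤ K * s)
    (h6 : |d + m * β * y * N| ≤ C * N) (h7 : |y| * s ≤ 1) (hN : 0 ≤ N) (hm : 0 ≤ m) (hP : 0 ≤ P)
    (hK : 0 ≤ K) (ha : 0 ≤ a) :
    |g * d - v * (g' * (P * (m * y * N))) - -(m * (g0 * β + a * g0' * P)) * y * N| ≤
      (L * C + m * (L * P * |β| + (K * L' + a * L' * P) * P)) * N := by
  have l0 := (abs_nonneg _).trans h1
  have l1 := (abs_nonneg _).trans h3
  have k1 : |(g - g0) * β + ((v - a) * g' + a * (g' - g0')) * P| ≤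
      (L * P * |β| + (K * L' + a * L' * P) * P) * s := by
    have k2 := mul_le_mul h5 h3 (abs_nonneg _) ((abs_nonneg _).trans h5)
    have k3 := mul_le_mul_of_nonneg_left h4 ha
    have k4 := mul_le_mul_of_nonneg_right h2 (abs_nonneg β)
    have k5 := abs_add_le ((v - a) * g') (a * (g' - g0'))
    rw [abs_mul, abs_mul, abs_of_nonneg ha] at k5
    refine (abs_add_le _ _).trans ?_
    rw [abs_mul, abs_mul, abs_of_nonneg hP]
    nlinarith [mul_le_mul_of_nonneg_right (k5.trans (add_le_add k2 k3)) hP]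
  rw [show g * d - v * (g' * (P * (m * y * N))) - -(m * (g0 * β + a * g0' * P)) * y * N =
    g * (d + m * β * y * N) - m * N * (y * ((g - g0) * β + ((v - a) * g' + a * (g' - g0')) * P))
    by ring]
  refine (abs_sub _ _).trans ?_
  rw [abs_mul, abs_mul, abs_mul y, abs_of_nonneg (mul_nonneg hm hN)]
  have k6 := mul_le_mul h1 h6 (abs_nonneg _) l0
  have k7 := (mul_le_mul_of_nonneg_left k1 (abs_nonneg y)).trans
    ((mul_left_comm _ _ _).trans_le (mul_le_of_le_one_right (by positivity) h7))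
  linarith [mul_le_mul_of_nonneg_left k7 (mul_nonneg hm hN)]

theorem tail (hn : 3 ≤ n) (hρ : 0 < ρ) {v : E n → ℝ} {a β : ℝ} (ha : 0 ≤ a) (h : Asy v a β) :
    ∃ C R : ℝ, ∀ x : E n, R ≤ ‖x‖ → ∀ i, |ps ρ x * pd i v x - v x * pd i (ps ρ) x -
      -((n - 2) * (expNegInvGlue (1 / 2) * β + a * deriv expNegInvGlue (1 / 2) *
        (ρ ^ (n - 2 : ℝ) / 2))) * x i * ‖x‖ ^ (-n : ℝ)| ≤ C * ‖x‖ ^ (-n : ℝ) := by
  obtain ⟨C, R, h⟩ := h
  obtain ⟨L, -, hL⟩ := c1b (expNegInvGlue.contDiff (n := 1))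
  obtain ⟨L', -, hL'⟩ := c1b (expNegInvGlue.contDiff (n := 2)).deriv'
  refine ⟨L * C + (n - 2) * (L * (ρ ^ (n - 2 : ℝ) / 2) * |β| + ((|β| + |C|) * L' +
    a * L' * (ρ ^ (n - 2 : ℝ) / 2)) * (ρ ^ (n - 2 : ℝ) / 2)), max R (max ρ 1), fun x hx i => ?_⟩
  obtain ⟨k1, k2⟩ := h x (le_of_max_le_left hx)
  obtain ⟨x1, x2⟩ := max_le_iff.1 (le_of_max_le_right hx)
  have x0 : 0 < ‖x‖ := by linarith
  have hx0 := norm_pos_iff.1 x0
  have h3 : (3 : ℝ) ≤ n := by exact_mod_cast hn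
  have s0 := Real.rpow_nonneg x0.le (2 - n : ℝ)
  have q0 := Real.rpow_nonneg (div_nonneg x0.le hρ.le) (2 - n : ℝ)
  have q1 := Real.rpow_le_one_of_one_le_of_nonpos ((one_le_div hρ).2 x1)
    (show (2 - n : ℝ) ≤ 0 by linarith)
  have t1 : ta ρ x ∈ Icc (0 : ℝ) 1 := by rw [ta_eq hρ]; constructor <;> linarith
  have t2 : |ta ρ x - 1 / 2| = ρ ^ (n - 2 : ℝ) / 2 * ‖x‖ ^ (2 - n : ℝ) := by
    rw [ta, add_sub_cancel_right, neg_mul, abs_neg, abs_of_nonneg (by positivity)]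
  rw [(ps_ev hn hρ hx0).eq_of_nhds, pd_congr (ps_ev hn hρ hx0), pd_comp
    ((expNegInvGlue.contDiff (n := 1)).differentiable (by norm_num) _).hasDerivAt
    (diff2 (cd_ta hx0)), pd_ta hx0]
  refine num (hL _ t1).1 (t2 ▸ (hL _ t1).2) (hL' _ t1).1 (t2 ▸ (hL' _ t1).2) ?_
    (k2 i) ?_ (by positivity) (by linarith) (by positivity) (by positivity) ha
  · have k3 := mul_le_mul (le_abs_self C) (Real.rpow_le_rpow_of_exponent_le x2
      (show (1 - n : ℝ) ≤ 2 - n by linarith)) (by positivity) (abs_nonneg C)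
    have k4 := abs_add_le (v x - a - β * ‖x‖ ^ (2 - n : ℝ)) (β * ‖x‖ ^ (2 - n : ℝ))
    rw [sub_add_cancel, abs_mul, abs_of_nonneg s0] at k4
    linarith
  · refine (mul_le_mul (PiLp.norm_apply_le x i) (Real.rpow_le_rpow_of_exponent_le x2
      (show (2 - n : ℝ) ≤ -1 by linarith)) s0 x0.le).trans_eq ?_
    rw [Real.rpow_neg_one, mul_inv_cancel₀ x0.ne']

theorem div_eq {u v : E n → ℝ} (hu : Smooth u) (hv : Smooth v) (y : E n) :
    ∑ i, pd i (fun x => u x * pd i v x - v x * pd i u x) y =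
      u y * lap (eu n) v y - v y * lap (eu n) u y := by
  rw [lap_eu, lap_eu, Finset.mul_sum, Finset.mul_sum, ← Finset.sum_sub_distrib]
  refine Finset.sum_congr rfl fun i _ => ?_
  rw [pd_sub ((hu.diff y).fun_mul ((hv.pd i).diff y)) ((hv.diff y).fun_mul ((hu.pd i).diff y)),
    pd_mul (hu.diff y) ((hv.pd i).diff y), pd_mul (hv.diff y) ((hu.pd i).diff y)]
  ring

theorem low (hn : 3 ≤ n) {r : ℝ} (hr : 0 < r) (h1 : 3 * r ≤ ‖y‖) (h2 : ‖y‖ ≤ 5 * r) :
    Real.exp (-6) * ((5 / 2 : ℝ) ^ (2 - n : ℝ)) ^ 3 / 100 / r ^ 2 ≤ lap (eu n) (ps (2 * r)) y := by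
  have h3 : (3 : ℝ) ≤ n := by exact_mod_cast hn
  have y0 : 0 < ‖y‖ := by linarith
  have k0 : 0 < (5 / 2 : ℝ) ^ (2 - n : ℝ) := by positivity
  have k1 : (5 / 2 : ℝ) ^ (2 - n : ℝ) ≤ (‖y‖ / (2 * r)) ^ (2 - n : ℝ) :=
    Real.rpow_le_rpow_of_nonpos (by positivity) ((div_le_iff₀ (by positivity)).2 (by linarith))
      (by linarith)
  have k2 : 3 / 2 ≤ ‖y‖ / (2 * r) := (le_div_iff₀ (by positivity)).2 (by linarith)
  have k3 : (‖y‖ / (2 * r)) ^ (2 - n : ℝ) ≤ 2 / 3 :=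
    (Real.rpow_le_rpow_of_exponent_le (by linarith) (show _ ≤ (-1 : ℝ) by linarith)).trans (by
      rw [Real.rpow_neg_one]; exact inv_le_of_inv_le₀ (by norm_num) (by linarith))
  rw [lap_ps hn (by positivity) (norm_pos_iff.1 y0), ta_eq (by positivity)]
  refine le_trans (le_of_eq ?_) (mul_le_mul ((mul_le_mul_of_nonneg_left k1 (Real.exp_pos _).le).trans
    (d2_low (k0.le.trans k1) k3)) (div_le_div₀ (sq_nonneg _) (pow_le_pow_left₀ (by positivity)
      (mul_le_mul (show (1 / 2 : ℝ) ≤ _ by linarith) k1 k0.le (by linarith)) 2) (by positivity)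
      (pow_le_pow_left₀ y0.le h2 2)) (by positivity) (d2_nonneg (by linarith)))
  field_simp
  ring

theorem mean (hF : FLUX) (hn : 3 ≤ n) {v : E n → ℝ} {a β R r c : ℝ} {x : E n} (hr : 0 < r)
    (hR : R ≤ r) (hx : ‖x‖ = 4 * r) (ha : 0 ≤ a) (hv : Smooth v) (hA : Asy v a β)
    (h : ∀ y, R ≤ ‖y‖ → 0 ≤ v y ∧ lap (eu n) v y ≤ 0)
    (hc : ∀ y : E n, 3 * r ≤ ‖y‖ → ‖y‖ ≤ 5 * r → c ≤ lap (eu n) (ps (2 * r)) y) :
    c * ∫ y in ball x r, v y ≤ (n - 2) * (expNegInvGlue (1 / 2) * β +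
      a * deriv expNegInvGlue (1 / 2) * ((2 * r) ^ (n - 2 : ℝ) / 2)) * omega n := by
  have hρ : 0 < 2 * r := by positivity
  have hp := sm_ps hn hρ
  have k := le_of_tendsto (hF n (fun i x => ps (2 * r) x * pd i v x - v x * pd i (ps (2 * r)) x) _
    hn (fun i => ContDiff.sub (ContDiff.mul hp (hv.pd i)) (ContDiff.mul hv (hp.pd i)))
    (tail hn hρ ha hA)) (b := ∫ y, (ball x r).indicator (fun y => -c * v y) y) ?_
  · rw [integral_indicator measurableSet_ball, integral_const_mul] at k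
    linarith
  filter_upwards [eventually_ge_atTop (5 * r)] with t ht
  simp only [div_eq hp hv]
  refine integral_mono (integrable_of_out ((sm_cut t).cont.mul ((hp.cont.mul
    (met_eu.sm_lap hv).cont).sub (hv.cont.mul (met_eu.sm_lap hp).cont))) (R := 2 * t) fun y hy => by
      simp only [cut_zero (show 0 < t by linarith) hy, zero_mul])
    ((integrable_indicator_iff measurableSet_ball).2 (((continuous_const.mul
      hv.cont).continuousOn.integrableOn_compact (isCompact_closedBall x r)).mono_set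
        ball_subset_closedBall)) fun y => ?_
  have k1 : R ≤ ‖y‖ → ps (2 * r) y * lap (eu n) v y ≤ 0 := fun hy =>
    mul_nonpos_of_nonneg_of_nonpos (ps_nonneg _ _) (h y hy).2
  by_cases hy : y ∈ ball x r
  · have k2 := abs_lt.1 ((abs_norm_sub_norm_le y x).trans_lt (mem_ball_iff_norm.1 hy))
    have k3 := mul_le_mul_of_nonneg_left (hc y (by linarith) (by linarith)) (h y (by linarith)).1
    simp only [indicator_of_mem hy, cut_one (show ‖y‖ ≤ t by linarith)]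
    linarith [k1 (by linarith)]
  simp only [indicator_of_notMem hy]
  refine mul_nonpos_of_nonneg_of_nonpos (cut_nonneg _ _) ?_
  rcases lt_or_ge ‖y‖ (2 * r) with h1 | h1
  · rw [lap_congr (ps_in h1), lap_const, (ps_in h1).eq_of_nhds]
    simp
  · have k2 := Real.rpow_nonneg (div_nonneg (norm_nonneg y) hρ.le) (2 - n : ℝ)
    refine sub_nonpos.2 ((k1 (by linarith)).trans (mul_nonneg (h y (by linarith)).1 ?_))
    rw [lap_ps hn hρ (norm_pos_iff.1 (by linarith))]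
    exact mul_nonneg (d2_nonneg (by rw [ta_eq hρ]; linarith)) (by positivity)

theorem sub (hM : MV) (hn : 3 ≤ n) {v : E n → ℝ} {S r : ℝ} {x : E n} (hr : 0 < r) (hS : 0 ≤ S)
    (hv : Smooth v) (h : ∀ y ∈ ball x r, -(S / r ^ 2) ≤ lap (eu n) v y) :
    omega n / n * r ^ n * v x ≤ (∫ y in ball x r, v y) + omega n / n * r ^ n * S := by
  have h3 : (3 : ℝ) ≤ n := by exact_mod_cast hn
  have hq : ContDiff ℝ 2 fun y : E n => ‖y - x‖ ^ 2 :=
    contDiff_normSq.comp (contDiff_id.sub contDiff_const)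
  have i1 : ∀ {f : E n → ℝ}, Continuous f → IntegrableOn f (ball x r) := fun hf =>
    (hf.continuousOn.integrableOn_compact (isCompact_closedBall x r)).mono_set
      ball_subset_closedBall
  have c1 : ContDiff ℝ 2 fun y => -1 * v y + -(S / r ^ 2) * ‖y - x‖ ^ 2 :=
    (contDiff_const.mul hv.two).add (contDiff_const.mul hq)
  have k := hM n _ x r hn hr c1 fun y hy => by
    rw [met_eu.lap_lin (hv.c2 y) hq.contDiffAt, lap_eu_translate (f := fun y => ‖y‖ ^ 2),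
      lap_eu_normSq]
    nlinarith [h y hy, div_nonneg hS (sq_nonneg r)]
  have k1 := setIntegral_mono_on (i1 (hv.cont.neg.sub (continuous_const (y := S))))
    (i1 c1.continuous) measurableSet_ball fun y hy => by
      have := mul_le_mul_of_nonneg_left (pow_le_pow_left₀ (norm_nonneg _)
        (mem_ball_iff_norm.1 hy).le 2) (div_nonneg hS (sq_nonneg r))
      rw [div_mul_cancel₀ _ (by positivity)] at this
      simp only [Pi.sub_apply, Pi.neg_apply]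
      linarith
  simp only [Pi.sub_apply, Pi.neg_apply] at k1
  rw [integral_sub (f := fun y => -v y) (i1 hv.cont.neg) (i1 continuous_const), integral_neg,
    setIntegral_const, measureReal_def, smul_eq_mul] at k1
  rw [sub_self, norm_zero] at k
  rw [← real_ball (by omega) x hr.le]
  linarith

end MvH

open MvH

theorem harn_of (hM : MV) (hF : FLUX) : HARN := by
  intro n hn
  have h3 : (3 : ℝ) ≤ n := by exact_mod_cast hn
  obtain ⟨c, hc, c0⟩ : ∃ c, Real.exp (-6) * ((5 / 2 : ℝ) ^ (2 - n : ℝ)) ^ 3 / 100 = c ∧ 0 < c :=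
    ⟨_, rfl, by positivity⟩
  have a0 := expNegInvGlue.nonneg (1 / 2)
  have a1 : 0 ≤ deriv expNegInvGlue (1 / 2) := by rw [d1]; positivity
  have a2 : 0 ≤ n * (n - 2) / c := div_nonneg (by nlinarith) c0.le
  refine ⟨n * (n - 2) / c * (expNegInvGlue (1 / 2) * 4 ^ (n - 2 : ℝ) +
    deriv expNegInvGlue (1 / 2) * (2 ^ (n - 2 : ℝ) / 2)) + 1, fun v a β R S hR ha hv h hA x hx => ?_⟩
  obtain ⟨r, hr⟩ : ∃ r, ‖x‖ = 4 * r := ⟨‖x‖ / 4, by ring⟩
  have r1 : 1 ≤ r := by linarith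
  have r0 : 0 < r := by linarith
  have hS : 0 ≤ S := nonneg_of_mul_nonneg_left ((abs_nonneg _).trans (h x (by linarith)).2.2)
    (Real.rpow_pos_of_pos (by linarith) _)
  have k1 := mean hF hn r0 (show R ≤ r by linarith) hr ha hv hA
    (fun y hy => ⟨(h y hy).1, (h y hy).2.1⟩) fun y h1 h2 => hc ▸ low hn r0 h1 h2
  have k2 := sub hM hn r0 hS hv (x := x) fun y hy => by
    have k2 := abs_lt.1 ((abs_norm_sub_norm_le y x).trans_lt (mem_ball_iff_norm.1 hy))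
    refine (abs_le.1 ((h y (by linarith)).2.2.trans (mul_le_mul_of_nonneg_left ?_ hS))).1
    refine (Real.rpow_le_rpow_of_exponent_le (by linarith) (show _ ≤ (-2 : ℝ) by linarith)).trans ?_
    rw [Real.rpow_neg (norm_nonneg y), Real.rpow_two]
    exact inv_anti₀ (by positivity) (pow_le_pow_left₀ r0.le (by linarith) 2)
  have w0 := omega_pos (show 0 < n by omega)
  have e1 : r ^ (2 - n : ℝ) * r ^ n = r ^ 2 := by
    rw [← Real.rpow_natCast, ← Real.rpow_add r0, sub_add_cancel, Real.rpow_two]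
  have e2 : (2 * r) ^ (n - 2 : ℝ) * r ^ (2 - n : ℝ) = 2 ^ (n - 2 : ℝ) := by
    rw [Real.mul_rpow zero_le_two r0.le, mul_assoc, ← Real.rpow_add r0]
    simp
  have e3 : 4 ^ (n - 2 : ℝ) * ‖x‖ ^ (2 - n : ℝ) = r ^ (2 - n : ℝ) := by
    rw [q_eq four_pos (norm_nonneg x), hr, mul_div_cancel_left₀ _ four_ne_zero]
  have p0 : 0 < r ^ (2 - n : ℝ) := by positivity
  have k3 : v x ≤ n * (n - 2) / c * (expNegInvGlue (1 / 2) * β * r ^ (2 - n : ℝ) +
      a * deriv expNegInvGlue (1 / 2) * (2 ^ (n - 2 : ℝ) / 2)) + S := by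
    refine le_of_mul_le_mul_left (k2.trans ?_) (show 0 < omega n / n * r ^ n by positivity)
    rw [mul_add, add_le_add_iff_right]
    refine ((le_div_iff₀' (by positivity)).2 k1).trans_eq ?_
    rw [← e2, ← e1]
    field_simp
  have k4 := mul_le_mul_of_nonneg_right (mul_le_mul_of_nonneg_left (le_abs_self β) a0) p0.le
  have b0 : 0 ≤ |β| * ‖x‖ ^ (2 - n : ℝ) := by positivity
  have b1 : 0 ≤ expNegInvGlue (1 / 2) * 4 ^ (n - 2 : ℝ) := by positivity
  have b2 : 0 ≤ deriv expNegInvGlue (1 / 2) * (2 ^ (n - 2 : ℝ) / 2) := by positivity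
  have k5 : expNegInvGlue (1 / 2) * β * r ^ (2 - n : ℝ) +
      a * deriv expNegInvGlue (1 / 2) * (2 ^ (n - 2 : ℝ) / 2) ≤
      (expNegInvGlue (1 / 2) * 4 ^ (n - 2 : ℝ) + deriv expNegInvGlue (1 / 2) *
        (2 ^ (n - 2 : ℝ) / 2)) * (a + |β| * ‖x‖ ^ (2 - n : ℝ) + S) := by
    rw [← e3] at k4 ⊢
    nlinarith [mul_nonneg b1 ha, mul_nonneg b1 hS, mul_nonneg b2 b0, mul_nonneg b2 hS]
  nlinarith [mul_le_mul_of_nonneg_left k5 a2]

end Vale.Agent.P366Z
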