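import Vale.Agent.P366Z.Sk
import Vale.Agent.P366Z.Calc3
import Vale.Agent.P272.K.R.Final

/-!
# P366Z: smoothness of the solutions of semilinear systems
-/

set_option maxSynthPendingDepth 3

open MeasureTheory Metric Filter Topology Set
open scoped ContDiff ENNReal
open Vale.Agent.P366.Stmt
open Vale.Agent.P272.K.R (HC Bil D2 hc_id hc_const linear_reg allCCE)

noncomputable section

namespace Vale.Agent.P366Z

namespace LinbH

variable {n : ℕ} {g : Field n}

/-- the basis vectors -/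
abbrev ee (i : Fin n) : E n := EuclideanSpace.single i 1

/-- the entries of a bilinear form -/
def ent (i j : Fin n) : Bil (E n) →L[ℝ] ℝ :=
  (ContinuousLinearMap.apply ℝ ℝ (ee j)).comp (ContinuousLinearMap.apply ℝ (E n →L[ℝ] ℝ) (ee i))

theorem ent_apply (i j : Fin n) (B : Bil (E n)) : ent i j B = B (ee i) (ee j) := rfl

theorem ha : (0 : ℝ) < 1 / 2 := by norm_num

theorem hb : (1 / 2 : ℝ) ≤ 1 := by norm_num

theorem step (hg : Met g) {k : ℕ} {z G : E n → ℝ} (hz : HC (1 / 2) univ 2 z)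
    (hG : HC (1 / 2) univ k G)
    (h : ∀ x, ∑ i, ∑ j, up g i j x * fderiv ℝ (fderiv ℝ z) x (ee i) (ee j) = G x) :
    HC (1 / 2) univ (k + 2) z := by
  refine linear_reg ha hb (allCCE (E n) ha (by norm_num)) isOpen_univ k
    (A := fun x => ∑ i, ∑ j, up g i j x • ent i j) (c := fun _ => 0)
    (g := fun x => (-ContinuousLinearMap.id ℝ ℝ) (G x)) ?_ (hc_const _ isOpen_univ)
    (hG.clm ha hb isOpen_univ _) (fun x _ l hl => ?_) hz fun x _ => ?_
  · refine HC.of_contDiff ha hb isOpen_univ fun x _ => ContDiffAt.sum fun i _ =>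
      ContDiffAt.sum fun j _ => ContDiffAt.fun_smul ?_ contDiffAt_const
    exact (ContDiff.contDiffAt (hg.sm_up i j)).of_le (by exact_mod_cast le_top)
  · have h1 : (fun i => l (ee i)) ≠ 0 := by
      intro h0
      refine hl (ContinuousLinearMap.ext fun v => ?_)
      have h2 := fderiv_eq_sum (f := l) (x := 0) l.differentiableAt v
      simp only [pd_eq l.differentiableAt, l.fderiv] at h2
      rw [h2]
      exact Finset.sum_eq_zero fun i _ => mul_eq_zero_of_right _ (congrFun h0 i)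
    refine (hg.up_pos x h1).trans_eq ?_
    simp only [sum_apply, smul_apply, ent_apply,
      ContinuousLinearMap.smulRight_apply, smul_eq_mul, mul_assoc]
  · simp only [sum_apply, smul_apply, ent_apply,
      smul_eq_mul, h x, neg_apply, ContinuousLinearMap.id_apply]
    ring

variable {V : Type} [NormedAddCommGroup V] [NormedSpace ℝ V]

theorem hc2 {u : E n → V} (hu : ContDiff ℝ 2 u) (h : ∀ R, ∃ K, H2 K u (ball 0 R)) :
    HC (1 / 2) univ 2 u := by
  refine ⟨fun x _ => hu.differentiable (by norm_num) x, fun x _ =>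
    (hu.fderiv_right (m := 1) (by norm_num)).differentiable (by norm_num) x, fun x _ => ?_⟩
  obtain ⟨K, -, hK⟩ := h (‖x‖ + 1)
  have hs : ball x 1 ⊆ ball (0 : E n) (‖x‖ + 1) := fun y hy => by
    rw [mem_ball_iff_norm] at hy
    rw [mem_ball_zero_iff]
    linarith [norm_sub_norm_le y x]
  exact ⟨1, one_pos, subset_univ _, |K|, abs_nonneg _, fun y hy y' hy' =>
    (hK y (hs hy) y' (hs hy')).trans (mul_le_mul_of_nonneg_right (le_abs_self K) (by positivity))⟩

/-- the bootstrap -/
theorem boot (hg : Met g) {ι : Type} [Fintype ι] (p : ι → V →L[ℝ] ℝ) (b : ι → V)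
    (hp : ∀ v, ∑ a, p a v • b a = v) {u : E n → V} (hu : HC (1 / 2) univ 2 u)
    (Ψ : ι → E n × V × (E n →L[ℝ] V) → ℝ) (hΨ : ∀ a, ContDiff ℝ ∞ (Ψ a))
    (h : ∀ a x, ∑ i, ∑ j, up g i j x * fderiv ℝ (fderiv ℝ fun y => p a (u y)) x (ee i) (ee j) =
      Ψ a (x, u x, fderiv ℝ u x)) : ContDiff ℝ ∞ u := by
  have key : ∀ k, HC (1 / 2) univ (k + 2) u := fun k => by
    induction k with
    | zero => exact hu
    | succ k ih =>
      have hj : HC (1 / 2) univ (k + 1) fun x => (x, u x, fderiv ℝ u x) :=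
        (hc_id hb isOpen_univ).prodMk ha hb isOpen_univ
          ((ih.of_succ ha hb isOpen_univ).prodMk ha hb isOpen_univ ih.2)
      have h1 : ∀ a, HC (1 / 2) univ (k + 1 + 2) fun x => p a (u x) := fun a =>
        step hg (hu.clm ha hb isOpen_univ (p a)) (HC.comp_smooth ha hb isOpen_univ isOpen_univ
          (fun y _ => (hΨ a).contDiffAt.of_le (by exact_mod_cast le_top)) hj
          fun _ _ => mem_univ _) (h a)
      refine (HC.sum isOpen_univ Finset.univ fun a _ => (h1 a).clm ha hb isOpen_univ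
        ((ContinuousLinearMap.id ℝ ℝ).smulRight (b a))).congr isOpen_univ fun x _ => ?_
      exact hp (u x)
  rw [contDiff_infty]
  intro k
  exact contDiffOn_univ.1
    ((HC.mono ha hb isOpen_univ (Nat.le_add_right k 2) (key k)).contDiffOn ha isOpen_univ)

theorem lap_eq' (hg : Met g) {w : E n → ℝ} {x : E n} (hw : ContDiffAt ℝ 2 w x) :
    ∑ i, ∑ j, up g i j x * fderiv ℝ (fderiv ℝ w) x (ee i) (ee j) =
      lap g w x - ∑ j, bv g j x * fderiv ℝ w x (ee j) := by
  rw [hg.lap_eq hw]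
  simp only [pd_pd_eq hw, pd_eq (diff2 hw), add_sub_cancel_right]

end LinbH

open LinbH

theorem reg : REG := by
  intro n g U w Φ hg hU h0 hΦ hw hH heq
  refine boot hg (ι := Unit) (fun _ => ContinuousLinearMap.id ℝ ℝ) (fun _ => 1) (fun v => by simp)
    (hc2 hw hH) (fun _ q => (Φ (q.1, q.2.1) - 2 * U q.1 *
      ∑ i, ∑ j, up g i j q.1 * pd i U q.1 * q.2.2 (ee j)) / U q.1 ^ 2 -
        ∑ j, bv g j q.1 * q.2.2 (ee j)) (fun _ => ?_) fun _ x => ?_
  · have h1 : ContDiff ℝ ∞ fun q : E n × ℝ × (E n →L[ℝ] ℝ) => U q.1 :=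
      ContDiff.comp hU contDiff_fst
    have h2 : ∀ j, ContDiff ℝ ∞ fun q : E n × ℝ × (E n →L[ℝ] ℝ) => q.2.2 (ee j) := fun j =>
      (contDiff_snd.comp contDiff_snd).clm_apply contDiff_const
    refine ContDiff.sub (ContDiff.div (ContDiff.sub
      (hΦ.comp (contDiff_fst.prodMk (contDiff_fst.comp contDiff_snd)))
      ((contDiff_const.mul h1).mul (ContDiff.sum fun i _ => ContDiff.sum fun j _ =>
        ((ContDiff.comp (hg.sm_up i j) contDiff_fst).mul
          (ContDiff.comp (hU.pd i) contDiff_fst)).mul (h2 j)))) (h1.pow 2)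
      fun q => pow_ne_zero 2 (h0 _).ne') (ContDiff.sum fun j _ =>
        (ContDiff.comp (hg.sm_bv j) contDiff_fst).mul (h2 j))
  · have h1 := heq x
    rw [hg.wl_eq (hU.diff x) hw.contDiffAt, ip] at h1
    simp only [pd_eq (diff2 (hw.contDiffAt (x := x)))] at h1
    have h2 := (h0 x).ne'
    show ∑ i, ∑ j, up g i j x * fderiv ℝ (fderiv ℝ w) x (ee i) (ee j) = _
    rw [lap_eq' hg hw.contDiffAt, ← h1]
    congr 1
    field_simp
    ring

end Vale.Agent.P366Z
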