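import Vale.Agent.P366Z.Int

/-!
# P366Z: elementary facts on `Ph`, `dd`, `tru`, `Rat`, `Par`
-/

open MeasureTheory Metric Filter Topology Set
open scoped ContDiff ENNReal
open Vale.Agent.P366.Stmt

noncomputable section

namespace Vale.Agent.P366Z

variable {n : ℕ} {w U : E n → ℝ} {x : E n} {ε ι t : ℝ}

theorem Ph_mono {a b : ℝ} (ha : -1 ≤ a) (hab : a ≤ b) (hb : b ≤ 1) : Ph a ≤ Ph b := by
  unfold Ph
  have h1 : a ^ 2 + a * b + b ^ 2 ≤ 3 := by nlinarith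
  nlinarith [mul_nonneg (sub_nonneg.2 hab) (sub_nonneg.2 h1)]

theorem Ph_gap (ι : ℝ) : Ph (1 - ι) - Ph (-1 + ι) = 4 / 3 - 2 * ι ^ 2 + 2 / 3 * ι ^ 3 := by
  unfold Ph; ring

theorem Ph_gap_pos (h0 : 0 < ι) (h1 : ι ≤ 1 / 10) : 1 ≤ Ph (1 - ι) - Ph (-1 + ι) := by
  rw [Ph_gap]; nlinarith [pow_pos h0 3]

theorem tru_mem (ι : ℝ) (w : E n → ℝ) (x : E n) : 0 ≤ tru ι w x ∧ tru ι w x ≤ 1 :=
  ⟨le_max_left _ _, max_le zero_le_one (min_le_left _ _)⟩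

theorem tru_zero (h0 : 0 < ι) (h1 : ι ≤ 1 / 10) (hw : |w x| < 1) (e : w x ≤ -1 + ι) :
    tru ι w x = 0 := by
  refine max_eq_left (min_le_of_right_le (div_nonpos_of_nonpos_of_nonneg ?_ ?_))
  · exact sub_nonpos.2 (Ph_mono (abs_lt.1 hw).1.le e (by linarith))
  · linarith [Ph_gap_pos h0 h1]

theorem tru_one (h0 : 0 < ι) (h1 : ι ≤ 1 / 10) (hw : |w x| < 1) (e : 1 - ι ≤ w x) :
    tru ι w x = 1 := by
  have h2 := Ph_gap_pos h0 h1
  have h3 : 1 ≤ (Ph (w x) - Ph (-1 + ι)) / (Ph (1 - ι) - Ph (-1 + ι)) := by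
    rw [le_div_iff₀ (by linarith)]
    linarith [Ph_mono (show -1 ≤ 1 - ι by linarith) e (abs_lt.1 hw).2.le]
  unfold tru
  rw [min_eq_left h3, max_eq_right zero_le_one]

theorem dd_le_of (hε : 0 < ε) (h0 : 0 < ι) (hw : |w x| < 1) (e : w x ≤ 1 - ι) :
    dd ε w x ≤ ε / 2 * Real.log (2 / ι) := by
  obtain ⟨h1, h2⟩ := abs_lt.1 hw
  refine mul_le_mul_of_nonneg_left (Real.log_le_log (div_pos (by linarith) (by linarith)) ?_)
    (by positivity)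
  exact div_le_div₀ (by norm_num) (by linarith) h0 (by linarith)

theorem le_dd_of (hε : 0 < ε) (h0 : 0 < ι) (hw : |w x| < 1) (e : -1 + ι ≤ w x) :
    -(ε / 2 * Real.log (2 / ι)) ≤ dd ε w x := by
  obtain ⟨h1, h2⟩ := abs_lt.1 hw
  rw [← mul_neg, ← Real.log_inv, inv_div]
  refine mul_le_mul_of_nonneg_left (Real.log_le_log (by positivity) ?_) (by positivity)
  exact div_le_div₀ (by linarith) (by linarith) (by linarith) (by linarith)

theorem dd_nonpos (hε : 0 < ε) (hw : |w x| < 1) (e : w x ≤ 0) : dd ε w x ≤ 0 := by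
  obtain ⟨h1, h2⟩ := abs_lt.1 hw
  refine mul_nonpos_of_nonneg_of_nonpos (by positivity) (Real.log_nonpos ?_ ?_)
  · exact div_nonneg (by linarith) (by linarith)
  · exact div_le_one_of_le₀ (by linarith) (by linarith)

theorem sm_dd (hs : Smooth w) (hw : ∀ x, |w x| < 1) (ε : ℝ) : Smooth (dd ε w) := by
  refine ContDiff.mul contDiff_const (ContDiff.log (ContDiff.div (contDiff_const.add hs)
    (contDiff_const.sub hs) fun x => ?_) fun x => ?_)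
  · linarith [(abs_lt.1 (hw x)).2]
  · exact (div_pos (by linarith [(abs_lt.1 (hw x)).1]) (by linarith [(abs_lt.1 (hw x)).2])).ne'

theorem ev_small (A : ℝ) (ht : 0 < t) : ∀ᶠ ε in 𝓝[>] (0 : ℝ), ε * A < t := by
  have : Tendsto (fun ε : ℝ => ε * A) (𝓝 0) (𝓝 (0 * A)) := tendsto_id.mul_const A
  rw [zero_mul] at this
  exact (this.eventually (gt_mem_nhds ht)).filter_mono nhdsWithin_le_nhds

theorem cv_zero {a : ℝ} (e : -(9 / 10) ≤ a) : cv a = 0 :=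
  Real.smoothTransition.zero_of_nonpos (by linarith)

theorem cv_one {a : ℝ} (e : a ≤ -(19 / 20)) : cv a = 1 :=
  Real.smoothTransition.one_of_one_le (by linarith)

theorem cv_mem (a : ℝ) : 0 ≤ cv a ∧ cv a ≤ 1 :=
  ⟨Real.smoothTransition.nonneg _, Real.smoothTransition.le_one _⟩

theorem sm_cv : ContDiff ℝ ∞ cv :=
  Real.smoothTransition.contDiff.comp ((contDiff_const.mul contDiff_id).sub contDiff_const)

theorem Par.mono {v : E n → ℝ} {R e e' : ℝ} (h : Par v R e) (he : e ≤ e') : Par v R e' := by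
  obtain ⟨N, c, y, y₀, h1, h2, h3, h4⟩ := h
  exact ⟨N, c, y, y₀, h1, h2, h3, h4.trans (ENNReal.ofReal_le_ofReal he)⟩

theorem Par.mono_R {v : E n → ℝ} {R R' e : ℝ} (h : Par v R e) (hR : R ≤ R') : Par v R' e := by
  obtain ⟨N, c, y, y₀, h1, h2, h3, h4⟩ := h
  exact ⟨N, c, y, y₀, h1, h2, h3,
    (lintegral_mono_set fun x hx => hR.trans hx).trans h4⟩

/-- the ratio of ellipticity in the flat region -/
theorem rat_flat {g : Field n} {ρ l M : ℝ} {s : Set (E n)} (hn : 3 ≤ n) (hf : Flat g ρ)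
    (hl : 0 < l) (hs : ∀ y ∈ s, ρ ≤ ‖y‖ ∧ l ≤ U y ∧ U y ≤ M * l) :
    Rat g U (M ^ (2 * bb n)) (l ^ bb n) s := by
  intro y hy ξ
  obtain ⟨h1, h2, h3⟩ := hs y hy
  have hb := bb_pos hn
  have hM : 0 ≤ M := by
    by_contra h4
    nlinarith [not_le.1 h4]
  have e1 : ∑ i, ∑ j, cf U g y i j * ξ i * ξ j = U y ^ (2 * bb n) * ∑ i, ξ i ^ 2 := by
    unfold cf
    rw [hf y h1, Finset.mul_sum]
    refine Finset.sum_congr rfl fun i _ => ?_
    simp [eu, sq, mul_assoc]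
  have e2 : (l ^ bb n) ^ 2 = l ^ (2 * bb n) := by
    rw [← Real.rpow_natCast, ← Real.rpow_mul hl.le]; congr 1; push_cast; ring
  have s0 : 0 ≤ ∑ i, ξ i ^ 2 := by positivity
  rw [e1, e2, ← Real.mul_rpow hM hl.le]
  exact ⟨mul_le_mul_of_nonneg_right (Real.rpow_le_rpow hl.le h2 (by positivity)) s0,
    mul_le_mul_of_nonneg_right (Real.rpow_le_rpow (by linarith) h3 (by positivity)) s0⟩

variable {B : Bg n} {L κ : ℝ} {m p q ψ : E n → ℝ}

theorem pp_nonneg (hP : Pen B L m p q) (hψ : Cls B L ψ) (hU : ∀ x, 0 ≤ U x) (hκ : 0 ≤ κ) :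
    0 ≤ pp B m U κ ψ :=
  add_nonneg (per_nonneg B ψ hU) (mul_nonneg hκ (integral_nonneg fun x =>
    mul_nonneg (mul_nonneg (hP.m01 x).1 (hψ.mem x).1) (dens_nonneg _ _)))

theorem exists_near (hP : Pen B L m p q) (hψ : Cls B L ψ) (hU : ∀ x, 0 ≤ U x) (hκ : 0 ≤ κ)
    {η : ℝ} (hη : 0 < η) : ∃ ψ₀, Near B L m U κ η ψ₀ := by
  have hb : BddBelow (pp B m U κ '' {ψ | Cls B L ψ}) :=
    ⟨0, by rintro _ ⟨ψ', h1, rfl⟩; exact pp_nonneg hP h1 hU hκ⟩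
  obtain ⟨_, ⟨ψ₀, h1, rfl⟩, h2⟩ := Real.lt_sInf_add_pos
    (s := pp B m U κ '' {ψ | Cls B L ψ}) ⟨_, ψ, hψ, rfl⟩ hη
  exact ⟨ψ₀, h1, fun ψ' h3 => h2.le.trans (by gcongr; exact csInf_le hb ⟨ψ', h3, rfl⟩)⟩

/-- the largest norm on a bounded open set `{d < t}` -/
theorem exists_rad {d : E n → ℝ} (hn : 0 < n) (hd : Continuous d) {r : ℝ} (h0 : ∃ x, d x < t)
    (hr : ∀ x, r ≤ ‖x‖ → t ≤ d x) : ∃ R, R ≤ r ∧ (∀ x, R ≤ ‖x‖ → t ≤ d x) ∧
      (∀ x, d x < t → ‖x‖ ≤ R) ∧ ∀ e > 0, ∃ x, d x < t ∧ R - e < ‖x‖ := by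
  obtain ⟨z, hz⟩ := h0
  set S := (fun x : E n => ‖x‖) '' {x | d x < t} with hS
  have hne : S.Nonempty := ⟨_, z, hz, rfl⟩
  have hub : ∀ a ∈ S, a ≤ r := by
    rintro _ ⟨y, hy, rfl⟩
    by_contra h1
    exact absurd (hr y (not_le.1 h1).le) (not_le.2 hy)
  have h2 : ∀ x, d x < t → ‖x‖ ≤ sSup S := fun x hx => le_csSup ⟨r, hub⟩ ⟨x, hx, rfl⟩
  refine ⟨sSup S, csSup_le hne hub, fun x hx => ?_, h2, fun e he => ?_⟩
  · have := eq_of_out (f := fun y => min (d y) t) (h := fun _ => t) hn (hd.min continuous_const)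
      continuous_const (fun y hy => min_eq_right (not_lt.1 fun h3 => not_le.2 hy (h2 y h3))) hx
    exact min_eq_right_iff.1 this
  · obtain ⟨_, ⟨y, hy, rfl⟩, h3⟩ := exists_lt_of_lt_csSup hne (sub_lt_self (sSup S) he)
    exact ⟨y, hy, h3⟩

end Vale.Agent.P366Z
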