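import Vale.Agent.P366Z.Int
import Mathlib.Analysis.FunctionalSpaces.SobolevInequality

/-!
# P366Z: the isoperimetric bound for the set where `w` is away from the upper well
-/

open MeasureTheory Metric Filter Topology Set
open scoped ContDiff ENNReal
open Vale.Agent.P366.Stmt

noncomputable section

namespace Vale.Agent.P366Z

namespace Conf

variable {n : ℕ}

theorem exH : ∃ (H : ℝ → ℝ) (K : ℝ), 0 < K ∧ ContDiff ℝ 1 H ∧ (∀ t, 0 ≤ H t ∧ H t ≤ 1) ∧
    (∀ t ≤ 9 / 10, H t = 1) ∧ (∀ t ≥ 19 / 20, H t = 0) ∧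
    ∀ t, |t| < 1 → |deriv H t| ≤ K * (1 - t ^ 2) := by
  obtain ⟨H, hH⟩ : ∃ H : ℝ → ℝ, H = fun t => Real.smoothTransition (19 - 20 * t) := ⟨_, rfl⟩
  have h1 : ContDiff ℝ 1 H := by
    rw [hH]
    exact Real.smoothTransition.contDiff.comp (contDiff_const.sub (contDiff_const.mul contDiff_id))
  have h2 : ∀ t ≤ (9 / 10 : ℝ), H t = 1 := fun t ht => by
    rw [hH]
    exact Real.smoothTransition.one_of_one_le (by linarith)
  have h3 : ∀ t ≥ (19 / 20 : ℝ), H t = 0 := fun t ht => by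
    rw [hH]
    exact Real.smoothTransition.zero_of_nonpos (by linarith)
  obtain ⟨K, hK⟩ := (isCompact_Icc (a := (9 / 10 : ℝ)) (b := 19 / 20)).exists_bound_of_continuousOn
    (h1.continuous_deriv le_rfl).continuousOn
  have hK0 : 0 ≤ K := (norm_nonneg _).trans (hK (9 / 10) ⟨le_rfl, by norm_num⟩)
  refine ⟨H, 11 * (K + 1), by positivity, h1, fun t => ?_, h2, h3, fun t ht => ?_⟩
  · rw [hH]
    exact ⟨Real.smoothTransition.nonneg _, Real.smoothTransition.le_one _⟩
  have h4 : 0 ≤ 1 - t ^ 2 := by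
    have := abs_lt.1 ht
    nlinarith
  rcases lt_or_ge t (9 / 10) with k | k
  · have e : H =ᶠ[𝓝 t] fun _ => 1 := by
      filter_upwards [Iio_mem_nhds k] with y hy using h2 y (le_of_lt hy)
    rw [e.deriv_eq, deriv_const, abs_zero]
    positivity
  rcases lt_or_ge (19 / 20) t with k' | k'
  · have e : H =ᶠ[𝓝 t] fun _ => 0 := by
      filter_upwards [Ioi_mem_nhds k'] with y hy using h3 y (le_of_lt hy)
    rw [e.deriv_eq, deriv_const, abs_zero]
    positivity
  have h5 := hK t ⟨k, k'⟩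
  rw [Real.norm_eq_abs] at h5
  have h6 : 1 ≤ 11 * (1 - t ^ 2) := by nlinarith
  nlinarith

theorem conj (hn : 3 ≤ n) :
    Real.HolderConjugate (Module.finrank ℝ (E n)) ((n : ℝ) / ((n : ℝ) - 1)) := by
  have h : (3 : ℝ) ≤ n := by exact_mod_cast hn
  rw [finrank_euclideanSpace_fin]
  exact Real.HolderConjugate.conjExponent (by linarith)

theorem iso (hn : 3 ≤ n) : ∃ A > (0 : ℝ), ∀ (w e : E n → ℝ) (s M Z : ℝ), Smooth w →
    (∀ x, |w x| < 1) → 0 < s → 0 ≤ M → 0 ≤ Z →
    (∀ x, s < ‖x‖ → (1 - w x ^ 2) * ‖fderiv ℝ w x‖ ≤ M * e x) →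
    ∫⁻ x, ENNReal.ofReal (e x) ≤ ENNReal.ofReal Z → (∃ R, ∀ x, R ≤ ‖x‖ → 19 / 20 ≤ w x) →
    volume {x | 2 * s ≤ ‖x‖ ∧ w x ≤ 9 / 10} ≤
      ENNReal.ofReal (A * (A * (M * Z + s ^ (n - 1))) ^ ((n : ℝ) / ((n : ℝ) - 1))) := by
  obtain ⟨H, K, hK, h1, h2, h3, h4, h5⟩ := exH
  obtain ⟨C, hC, hcut⟩ := fderiv_cut n
  have hn0 : 0 < n := by omega
  have hω := omega_pos hn0
  have hp := conj hn
  obtain ⟨G, hG⟩ : ∃ G, G = lintegralPowLePowLIntegralFDerivConst (volume : Measure (E n))
    ((n : ℝ) / ((n : ℝ) - 1)) := ⟨_, rfl⟩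
  refine ⟨K + C * (omega n / n * 3 ^ n) + G, by positivity,
    fun w e s M Z hw hw1 hs hM hZ he hZe ⟨R, hR⟩ => ?_⟩
  have hw' : ContDiff ℝ 1 w := hw.two.of_le one_le_two
  have hc' : ContDiff ℝ 1 (cut s : E n → ℝ) := (sm_cut s).two.of_le one_le_two
  have hφ : ContDiff ℝ 1 fun x => (1 - cut s x) * H (w x) :=
    (contDiff_const.sub hc').mul (h1.comp hw')
  have hs' : HasCompactSupport fun x => (1 - cut s x) * H (w x) :=
    supp_of_out (R := R) fun y hy => by rw [h4 _ (hR y hy), mul_zero]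
  have gns := lintegral_pow_le_pow_lintegral_fderiv volume hφ hs' hp
  rw [← hG] at gns
  have pt : ∀ x, ‖fderiv ℝ (fun x => (1 - cut s x) * H (w x)) x‖ₑ ≤
      ENNReal.ofReal (K * M) * ENNReal.ofReal (e x) +
        (ball (0 : E n) (3 * s)).indicator (fun _ => ENNReal.ofReal (C / s)) x := by
    intro x
    have d1 := ((sm_cut s).diff x).hasFDerivAt.const_sub 1
    have d2 : HasFDerivAt (fun x => H (w x)) (deriv H (w x) • fderiv ℝ w x) x :=
      (h1.differentiable one_ne_zero (w x)).hasDerivAt.comp_hasFDerivAt x (hw.diff x).hasFDerivAt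
    have d3 : ‖fderiv ℝ (fun x => (1 - cut s x) * H (w x)) x‖ ≤
        (1 - cut s x) * (|deriv H (w x)| * ‖fderiv ℝ w x‖) + ‖fderiv ℝ (cut s) x‖ := by
      rw [(d1.fun_mul d2).fderiv]
      refine (norm_add_le _ _).trans (add_le_add ?_ ?_)
      · rw [norm_smul, norm_smul, Real.norm_eq_abs, Real.norm_eq_abs,
          abs_of_nonneg (sub_nonneg.2 (cut_le_one s x))]
      · rw [norm_smul, norm_neg, Real.norm_eq_abs]
        refine mul_le_of_le_one_left (norm_nonneg _) ?_
        exact abs_le.2 ⟨by linarith [(h2 (w x)).1], (h2 (w x)).2⟩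
    rw [← ofReal_norm]
    refine (ENNReal.ofReal_le_ofReal d3).trans (ENNReal.ofReal_add_le.trans (add_le_add ?_ ?_))
    · rw [← ENNReal.ofReal_mul (by positivity)]
      rcases le_or_gt ‖x‖ s with k | k
      · rw [cut_one k, sub_self, zero_mul, ENNReal.ofReal_zero]
        exact zero_le
      · refine ENNReal.ofReal_le_ofReal ?_
        calc _ ≤ 1 * (K * (1 - w x ^ 2) * ‖fderiv ℝ w x‖) := by
              have := h5 _ (hw1 x)
              have := cut_nonneg s x
              gcongr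
              linarith
          _ = K * ((1 - w x ^ 2) * ‖fderiv ℝ w x‖) := by ring
          _ ≤ K * (M * e x) := mul_le_mul_of_nonneg_left (he x k) hK.le
          _ = _ := by ring
    · by_cases k : x ∈ ball (0 : E n) (3 * s)
      · rw [indicator_of_mem k]
        exact ENNReal.ofReal_le_ofReal (hcut s hs x)
      · have k' : 2 * s < ‖x‖ := by
          rw [mem_ball_zero_iff, not_lt] at k
          linarith
        have e0 := norm_fderiv_sq ((sm_cut s).diff x)
        simp only [pd_cut_out hs k', ne_eq, OfNat.ofNat_ne_zero, not_false_eq_true, zero_pow,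
          Finset.sum_const_zero, pow_eq_zero_iff] at e0
        rw [e0, ENNReal.ofReal_zero]
        exact zero_le
  have hs1 : 0 < s ^ (n - 1) := by positivity
  have tot : ∫⁻ x, ‖fderiv ℝ (fun x => (1 - cut s x) * H (w x)) x‖ₑ ≤ ENNReal.ofReal
      ((K + C * (omega n / n * 3 ^ n) + G) * (M * Z + s ^ (n - 1))) := by
    refine (lintegral_mono pt).trans ?_
    rw [lintegral_add_right _ (measurable_const.indicator measurableSet_ball),
      lintegral_const_mul' _ _ ENNReal.ofReal_ne_top, lintegral_indicator_const measurableSet_ball,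
      volume_ball hn0 _ (by positivity), ← ENNReal.ofReal_mul (by positivity)]
    refine (add_le_add_left (mul_le_mul_right hZe _) _).trans ?_
    rw [← ENNReal.ofReal_mul (by positivity), ← ENNReal.ofReal_add (by positivity) (by positivity)]
    refine ENNReal.ofReal_le_ofReal ?_
    have e1 : C / s * (omega n / n * (3 * s) ^ n) = C * (omega n / n * 3 ^ n) * s ^ (n - 1) := by
      obtain ⟨k, rfl⟩ : ∃ k, n = k + 1 := ⟨n - 1, by omega⟩
      rw [Nat.add_sub_cancel, mul_pow, pow_succ s]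
      field_simp
    rw [e1]
    have a1 : 0 ≤ C * (omega n / n * 3 ^ n) * (M * Z) := by positivity
    have a2 : 0 ≤ K * s ^ (n - 1) := by positivity
    have a3 : 0 ≤ G * (M * Z + s ^ (n - 1)) := by positivity
    nlinarith
  have hm : MeasurableSet {x : E n | 2 * s ≤ ‖x‖ ∧ w x ≤ 9 / 10} :=
    ((isClosed_le continuous_const continuous_norm).inter
      (isClosed_le hw.cont continuous_const)).measurableSet
  have low : volume {x : E n | 2 * s ≤ ‖x‖ ∧ w x ≤ 9 / 10} ≤
      ∫⁻ x, ‖(1 - cut s x) * H (w x)‖ₑ ^ ((n : ℝ) / ((n : ℝ) - 1)) := by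
    rw [← lintegral_indicator_one hm]
    refine lintegral_mono fun x => ?_
    by_cases k : x ∈ {x : E n | 2 * s ≤ ‖x‖ ∧ w x ≤ 9 / 10}
    · rw [indicator_of_mem k, cut_zero hs k.1, h3 _ k.2]
      simp
    · rw [indicator_of_notMem k]
      exact zero_le
  refine low.trans (gns.trans ?_)
  rw [ENNReal.ofReal_mul (by positivity),
    ← ENNReal.ofReal_rpow_of_nonneg (by positivity) hp.symm.nonneg]
  refine mul_le_mul' ?_ (ENNReal.rpow_le_rpow tot hp.symm.nonneg)
  rw [← ENNReal.ofReal_coe_nnreal]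
  refine ENNReal.ofReal_le_ofReal ?_
  have : 0 ≤ K + C * (omega n / n * 3 ^ n) := by positivity
  linarith

end Conf

end Vale.Agent.P366Z
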