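import Vale.Agent.P366Z.Sk
import Vale.Agent.P366Z.Calc3
import Vale.Agent.P366Z.Int

/-!
# P366Z: consequences of the comparison with the Euclidean metric
-/

open MeasureTheory Metric Filter Topology Set
open scoped ContDiff ENNReal
open Vale.Agent.P366.Stmt

noncomputable section

namespace Vale.Agent.P366Z.DensH

variable {n : ℕ}

theorem up_le {G : Field n} (hg : Met G) {y : E n} {a : ℝ} (ha : 0 ≤ a)
    (h : ∀ ξ : Fin n → ℝ, a * ∑ i, ξ i ^ 2 ≤ ∑ i, ∑ j, G y i j * ξ i * ξ j) (ξ : Fin n → ℝ) :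
    a * ∑ i, ∑ j, up G i j y * ξ i * ξ j ≤ ∑ i, ξ i ^ 2 := by
  set v : Fin n → ℝ := fun i => ∑ j, up G i j y * ξ j with hv
  have h1 : ∑ i, ∑ j, up G i j y * ξ i * ξ j = ∑ i, ξ i * v i :=
    Finset.sum_congr rfl fun i _ => by
      rw [hv, Finset.mul_sum]; exact Finset.sum_congr rfl fun j _ => by ring
  have h2 : ∑ i, ∑ j, G y i j * v i * v j = ∑ i, ξ i * v i :=
    Finset.sum_congr rfl fun i _ => by
      rw [← hg.g_up_mul y i ξ, Finset.sum_mul]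
      exact Finset.sum_congr rfl fun j _ => by ring
  have h3 := Finset.sum_mul_sq_le_sq_mul_sq Finset.univ ξ v
  have h4 := h v
  have h5 := hg.up_nonneg y ξ
  rw [h1] at h5 ⊢
  rw [h2] at h4
  have h6 : 0 ≤ ∑ i, ξ i ^ 2 := by positivity
  rcases h5.eq_or_lt with e | e
  · rw [← e, mul_zero]; exact h6
  · refine le_of_mul_le_mul_right ?_ e
    calc a * (∑ i, ξ i * v i) * ∑ i, ξ i * v i = a * (∑ i, ξ i * v i) ^ 2 := by ring
      _ ≤ a * ((∑ i, ξ i ^ 2) * ∑ i, v i ^ 2) := mul_le_mul_of_nonneg_left h3 ha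
      _ = (∑ i, ξ i ^ 2) * (a * ∑ i, v i ^ 2) := by ring
      _ ≤ _ := mul_le_mul_of_nonneg_left h4 h6

theorem det_bd {G : Field n} (hg : Met G) {y : E n} {a b : ℝ} (ha : 0 ≤ a)
    (h : ∀ ξ : Fin n → ℝ, a * ∑ i, ξ i ^ 2 ≤ ∑ i, ∑ j, G y i j * ξ i * ξ j ∧
      ∑ i, ∑ j, G y i j * ξ i * ξ j ≤ b * ∑ i, ξ i ^ 2) :
    a ^ n ≤ (mat G y).det ∧ (mat G y).det ≤ b ^ n := by
  have hA := (hg.pos y).isHermitian
  have key : ∀ i, a ≤ hA.eigenvalues i ∧ hA.eigenvalues i ≤ b := fun i => by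
    have h1 := h (hA.eigenvectorBasis i)
    have h2 : ∑ j, (hA.eigenvectorBasis i) j ^ 2 = 1 := by
      rw [← norm_sq_eq, hA.eigenvectorBasis.orthonormal.1 i, one_pow]
    have h3 := quad_eq (mat G y) (hA.eigenvectorBasis i)
    rw [h2, mul_one, mul_one] at h1
    rw [hA.eigenvalues_eq, ← h3]
    exact h1
  rw [hA.det_eq_prod_eigenvalues]
  simp only [RCLike.ofReal_real_eq_id, id]
  constructor
  · simpa using Finset.prod_le_prod (s := Finset.univ) (fun _ _ => ha) fun i _ => (key i).1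
  · simpa using Finset.prod_le_prod (s := Finset.univ) (fun i _ => ha.trans (key i).1)
      fun i _ => (key i).2

theorem rat_bd {g : Field n} {U : E n → ℝ} {C lam : ℝ} {s : Set (E n)} {y : E n} (hn : 0 < n)
    (hg : Met (cf U g)) (hl : 0 < lam) (hR : Rat g U C lam s) (hy : y ∈ s) :
    1 ≤ C ∧ (∀ f : E n → ℝ, DifferentiableAt ℝ f y →
      lam ^ 2 * ip (cf U g) f f y ≤ ‖fderiv ℝ f y‖ ^ 2 ∧
        ‖fderiv ℝ f y‖ ^ 2 ≤ C * lam ^ 2 * ip (cf U g) f f y) ∧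
      lam ^ n ≤ dens (cf U g) y ∧ dens (cf U g) y ≤ C ^ n * lam ^ n := by
  have h := hR y hy
  have hC : 1 ≤ C := by
    have h1 := (h fun _ => 1).1.trans (h fun _ => 1).2
    have h2 : (0 : ℝ) < lam ^ 2 * ∑ _i : Fin n, (1 : ℝ) ^ 2 := by
      simp only [one_pow, Finset.sum_const, Finset.card_univ, Fintype.card_fin, nsmul_eq_mul,
        mul_one]
      positivity
    rw [mul_assoc] at h1
    exact (le_mul_iff_one_le_left h2).1 h1
  obtain ⟨d1, d2⟩ := det_bd hg (sq_nonneg lam) h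
  refine ⟨hC, fun f hf => ?_, ?_, ?_⟩
  · rw [norm_fderiv_sq hf]
    exact ⟨up_le hg (sq_nonneg lam) (fun ξ => (h ξ).1) _,
      lo_of_hi (by positivity) (hg.up_nonneg y _) (hg.sq_le y _) (h _).2 (by positivity)⟩
  · refine Real.le_sqrt_of_sq_le (le_trans (le_of_eq ?_) d1)
    ring
  · refine Real.sqrt_le_iff.2 ⟨by positivity, d2.trans ?_⟩
    have h1 : 1 ≤ C ^ n := one_le_pow₀ hC
    have h2 : (C ^ n * lam ^ n) ^ 2 = C ^ n * (C * lam ^ 2) ^ n := by ring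
    rw [h2]
    exact le_mul_of_one_le_left (by positivity) h1

theorem lam_low {B : Bg n} {U : E n → ℝ} {a β R s' : ℝ} (hB : B.Ok) (hS : St B U a β R s')
    (C : ℝ) : ∃ l₀ > (0 : ℝ), ∀ (lam : ℝ) (s : Set (E n)) (y : E n), 0 < lam →
      Rat B.g U C lam s → y ∈ s → l₀ ≤ lam := by
  obtain ⟨Λ, hE⟩ := hB.met.ell hB.flat
  have h1 := hE.one
  have ha := hS.a0
  have hb := bb_pos hB.dim
  have hn : (0 : ℝ) < n := by have := hB.dim; positivity
  obtain ⟨u, hu⟩ : ∃ u, u = (a / 2) ^ (2 * bb n) := ⟨_, rfl⟩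
  have hu0 : 0 < u := by rw [hu]; positivity
  refine ⟨√(u / (Λ * (|C| + 1))), by positivity, fun lam s y hl hR hy => ?_⟩
  refine Real.sqrt_le_iff.2 ⟨hl.le, ?_⟩
  have h2 : u ≤ U y ^ (2 * bb n) := by
    rw [hu]; exact Real.rpow_le_rpow (by positivity) (hS.half hB y) (by linarith)
  have h3 := (hR y hy fun _ => 1).2
  have h4 : ∑ i, ∑ j, cf U B.g y i j * 1 * 1 = U y ^ (2 * bb n) * ∑ i, ∑ j, B.g y i j * 1 * 1 := by
    simp only [cf, Finset.mul_sum, mul_assoc]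
  have h5 := hE.g_lo y fun _ => 1
  have h6 := hB.met.g_nonneg y fun _ => 1
  have h7 : ∑ _i : Fin n, (1 : ℝ) ^ 2 = n := by simp
  rw [h4, h7] at h3
  rw [h7] at h5
  have h8 := (mul_le_mul_of_nonneg_right h2 h6).trans h3
  have h9 : C * lam ^ 2 * n ≤ (|C| + 1) * lam ^ 2 * n :=
    mul_le_mul_of_nonneg_right (mul_le_mul_of_nonneg_right (by linarith [le_abs_self C])
      (sq_nonneg _)) hn.le
  rw [div_le_iff₀ (by positivity)]
  refine le_of_mul_le_mul_right ?_ hn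
  calc u * n ≤ u * (Λ * ∑ i, ∑ j, B.g y i j * 1 * 1) := mul_le_mul_of_nonneg_left h5 hu0.le
    _ = Λ * (u * ∑ i, ∑ j, B.g y i j * 1 * 1) := by ring
    _ ≤ Λ * ((|C| + 1) * lam ^ 2 * n) := mul_le_mul_of_nonneg_left (h8.trans h9) (by linarith)
    _ = _ := by ring

end Vale.Agent.P366Z.DensH
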