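import Vale.Agent.P366Z.DensB

/-!
# P366Z: the density estimate, the competitor
-/

open MeasureTheory Metric Filter Topology Set
open scoped ContDiff ENNReal NNReal
open Vale.Agent.P366.Stmt

noncomputable section

namespace Vale.Agent.P366Z.DensH

theorem alg_g {u η P R T s : ℝ} (η0 : 0 ≤ η) (η1 : η ≤ 1) (P0 : 0 ≤ P) (T0 : 0 ≤ T)
    (cs : R ^ 2 ≤ P * T) (hs : s ^ 2 = 1) :
    (1 - η ^ 2) ^ 2 * P + 4 * (1 - η ^ 2) * (s * u) * η * R + 4 * u ^ 2 * η ^ 2 * T ≤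
      P - η ^ 2 * P / 2 + 12 * u ^ 2 * T := by
  have z0 : 0 ≤ η ^ 2 := sq_nonneg _
  have z1 : η ^ 2 ≤ 1 := pow_le_one₀ η0 η1
  have h1 : (1 - η ^ 2) ^ 2 * P ≤ (1 - η ^ 2) * P :=
    mul_le_mul_of_nonneg_right (by nlinarith) P0
  have h2 : u ^ 2 * η ^ 2 * T ≤ u ^ 2 * T :=
    mul_le_mul_of_nonneg_right (mul_le_of_le_one_right (sq_nonneg _) z1) T0
  have h3 : 4 * (1 - η ^ 2) * (s * u) * η * R ≤ η ^ 2 * P / 2 + 8 * u ^ 2 * T := by
    refine (abs_le_of_sq_le_sq' ?_ (by positivity)).2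
    have h4 : (4 * (1 - η ^ 2) * (s * u) * η * R) ^ 2 =
        (1 - η ^ 2) ^ 2 * (16 * u ^ 2 * η ^ 2 * R ^ 2) := by
      linear_combination (16 * (1 - η ^ 2) ^ 2 * u ^ 2 * η ^ 2 * R ^ 2) * hs
    have h5 : (1 - η ^ 2) ^ 2 ≤ 1 := by nlinarith
    have h6 := mul_le_mul_of_nonneg_left cs (show 0 ≤ 16 * u ^ 2 * η ^ 2 by positivity)
    have h7 := mul_le_of_le_one_left (show 0 ≤ 16 * u ^ 2 * η ^ 2 * R ^ 2 by positivity) h5
    nlinarith [sq_nonneg (η ^ 2 * P / 2 - 8 * u ^ 2 * T)]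
  linarith

theorem Wp_eq (u : ℝ) : Wp (1 - u) = 2 * u ^ 2 - 2 * u ^ 3 + u ^ 4 / 2 := by unfold Wp; ring

theorem alg_w1 {u v : ℝ} (v0 : 0 ≤ v) (h : v ≤ u) (u1 : u ≤ 1 / 10) :
    Wp (1 - v) + 3 / 2 * (u ^ 2 - v ^ 2) ≤ Wp (1 - u) := by
  rw [Wp_eq, Wp_eq]
  have h1 : v ^ 4 ≤ u ^ 4 := pow_le_pow_left₀ v0 h 4
  have h2 : 0 ≤ (u - v) * ((u + v) / 2 - 2 * (u ^ 2 + u * v + v ^ 2)) :=
    mul_nonneg (by linarith) (by nlinarith)
  nlinarith

theorem alg_w2 {u v : ℝ} (v0 : 0 ≤ v) (h : v ≤ u) (u2 : u ≤ 2) :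
    Wp (1 - v) ≤ Wp (1 - u) + 2 * (u - v) := by
  have e : Wp (1 - v) - Wp (1 - u) =
      (u - v) * ((u + v - 2) * ((1 - (1 - v) ^ 2 + (1 - (1 - u) ^ 2)) / 2)) := by
    unfold Wp; ring
  have h1 : (u + v - 2) * ((1 - (1 - v) ^ 2 + (1 - (1 - u) ^ 2)) / 2) ≤ 2 * 1 := by
    refine (mul_le_mul_of_nonneg_right (show u + v - 2 ≤ 2 by linarith) ?_).trans
      (mul_le_mul_of_nonneg_left (by nlinarith [sq_nonneg (1 - v), sq_nonneg (1 - u)]) two_pos.le)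
    nlinarith [mul_nonneg v0 (show 0 ≤ 2 - v by linarith),
      mul_nonneg (v0.trans h) (show 0 ≤ 2 - u by linarith)]
  nlinarith [mul_le_mul_of_nonneg_left h1 (sub_nonneg.2 h)]

theorem alg_w3 {v : ℝ} (v0 : 0 ≤ v) (v2 : v ≤ 2) : Wp (1 - v) ≤ 2 * v ^ 2 := by
  rw [Wp_eq]
  nlinarith [mul_nonneg (pow_nonneg v0 3) (show 0 ≤ 4 - v by linarith)]

theorem Wp_nonneg (w : ℝ) : 0 ≤ Wp w := by unfold Wp; positivity

theorem alg {u η η₀ τ P P' T k b : ℝ} (u0 : 0 < u) (u2 : u < 2) (η0 : 0 ≤ η) (η1 : η ≤ η₀)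
    (η2 : η₀ ≤ η + τ) (η3 : η₀ ≤ 1) (P0 : 0 ≤ P)
    (hP : P' ≤ P - η ^ 2 * P / 2 + 12 * u ^ 2 * T) (k0 : 0 ≤ k) (k1 : k ≤ 1 / 8)
    (hb : (b = 0 ∧ T = 0 ∧ η = 1 - τ) ∨ (b = η₀ ^ 2 ∧ 16 * T ≤ η₀ ^ 2)) :
    P' / 2 + Wp (1 - u * (1 - η ^ 2)) + 2 * k * η ^ 2 * u ^ 2 +
      (if 1 / 20 ≤ u ∧ u ≤ 1 / 10 then η ^ 2 * (P / 4 + 1 / 800) else 0) ≤
      P / 2 + Wp (1 - u) + 32 * ((if 1 / 20 ≤ u then b + k * η₀ ^ 2 else 0) + τ ^ 2) := by
  have z0 : 0 ≤ η ^ 2 := sq_nonneg _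
  have z1 : η ^ 2 ≤ 1 := pow_le_one₀ η0 (η1.trans η3)
  have z2 : η ^ 2 ≤ η₀ ^ 2 := pow_le_pow_left₀ η0 η1 2
  have z3 : η₀ ^ 2 ≤ 2 * η ^ 2 + 2 * τ ^ 2 := by
    have := pow_le_pow_left₀ (η0.trans η1) η2 2
    nlinarith [sq_nonneg (η - τ)]
  have v0 : 0 ≤ u * (1 - η ^ 2) := mul_nonneg u0.le (by linarith)
  have v1 : u * (1 - η ^ 2) ≤ u := mul_le_of_le_one_right u0.le (by linarith)
  have b0 : 0 ≤ b := by
    rcases hb with h | h
    · exact h.1.ge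
    · rw [h.1]; positivity
  have T1 : 16 * T ≤ b := by
    rcases hb with h | h
    · rw [h.1, h.2.1]; norm_num
    · rw [h.1]; exact h.2
  have b1 : b ≤ η₀ ^ 2 := by
    rcases hb with h | h
    · rw [h.1]; positivity
    · exact h.1.le
  have q0 : 0 ≤ η ^ 2 * P := mul_nonneg z0 P0
  have q1 : 0 ≤ k * η₀ ^ 2 := by positivity
  have q2 : 0 ≤ η ^ 2 * u ^ 2 := by positivity
  by_cases h1 : u ≤ 1 / 10
  · have h2 := alg_w1 v0 v1 h1
    have h3 : η ^ 2 * u ^ 2 ≤ u ^ 2 - (u * (1 - η ^ 2)) ^ 2 := by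
      nlinarith [mul_nonneg q2 (sub_nonneg.2 z1)]
    have h4 : u ^ 2 * (16 * T) ≤ u ^ 2 * (2 * η ^ 2 + 2 * τ ^ 2) :=
      mul_le_mul_of_nonneg_left (by linarith) (sq_nonneg _)
    have h5 : u ^ 2 * τ ^ 2 ≤ τ ^ 2 := mul_le_of_le_one_left (sq_nonneg _) (by nlinarith)
    have h6 : k * (η ^ 2 * u ^ 2) ≤ 1 / 8 * (η ^ 2 * u ^ 2) := mul_le_mul_of_nonneg_right k1 q2
    have h7 : 0 ≤ τ ^ 2 := sq_nonneg _
    by_cases h8 : 1 / 20 ≤ u
    · rw [if_pos ⟨h8, h1⟩, if_pos h8]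
      have h9 : η ^ 2 * (1 / 400) ≤ η ^ 2 * u ^ 2 := mul_le_mul_of_nonneg_left (by nlinarith) z0
      linarith
    · rw [if_neg fun h => h8 h.1, if_neg h8]
      linarith
  · rw [if_neg fun h => h1 h.2, if_pos (by linarith)]
    have u4 : u ^ 2 ≤ 4 := by nlinarith
    have h3 : k * (η ^ 2 * u ^ 2) ≤ k * (η₀ ^ 2 * 4) :=
      mul_le_mul_of_nonneg_left (mul_le_mul z2 u4 (sq_nonneg _) (sq_nonneg _)) k0
    have h4 : u ^ 2 * (16 * T) ≤ 4 * b :=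
      (mul_le_mul_of_nonneg_left T1 (sq_nonneg _)).trans (mul_le_mul_of_nonneg_right u4 b0)
    have h5 : Wp (1 - u * (1 - η ^ 2)) ≤ Wp (1 - u) + 4 * b + 32 * τ ^ 2 := by
      rcases hb with h | h
      · have h6 := alg_w3 v0 (by linarith)
        have h7 : u * (1 - η ^ 2) ≤ 2 * (2 * τ) :=
          mul_le_mul u2.le (by rw [h.2.2]; nlinarith) (by linarith) two_pos.le
        have h8 := pow_le_pow_left₀ v0 h7 2
        linarith [Wp_nonneg (1 - u)]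
      · have h6 := alg_w2 v0 v1 u2.le
        have h7 : u * η ^ 2 ≤ 2 * η₀ ^ 2 := mul_le_mul u2.le z2 z0 two_pos.le
        rw [h.1]
        linarith [sq_nonneg τ]
    linarith

variable {n : ℕ} {x y : E n} {t h r τ : ℝ}

/-- the square root of the weight -/
def e0 (x : E n) (h r : ℝ) (y : E n) : ℝ := Real.exp (-(max (‖y - x‖ - r) 0) / (2 * h))

/-- the truncated weight -/
def et (x : E n) (h r τ : ℝ) (y : E n) : ℝ := max (e0 x h r y - τ) 0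

theorem e0_sq (x : E n) (h r : ℝ) (y : E n) : e0 x h r y ^ 2 = wt x h r y := by
  unfold e0 wt
  rw [sq, ← Real.exp_add]
  congr 1
  ring

theorem e0_pos (x : E n) (h r : ℝ) (y : E n) : 0 < e0 x h r y := Real.exp_pos _

theorem e0_le_one (hh : 0 < h) (x : E n) (r : ℝ) (y : E n) : e0 x h r y ≤ 1 :=
  wt_le_one (h := 2 * h) (by positivity) x r y

theorem e0_sub (hh : 0 < h) (x : E n) (r : ℝ) (y z : E n) :
    e0 x h r z - e0 x h r y ≤ e0 x h r z / (2 * h) * ‖z - y‖ := by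
  have h1 : max (‖y - x‖ - r) 0 - max (‖z - x‖ - r) 0 ≤ ‖z - y‖ := by
    refine (le_abs_self _).trans ((abs_max_sub_max_le_abs _ _ _).trans ?_)
    have h2 := abs_norm_sub_norm_le (y - x) (z - x)
    rwa [sub_sub_sub_cancel_right, norm_sub_rev y z, ← sub_sub_sub_cancel_right _ _ r] at h2
  unfold e0
  generalize max (‖y - x‖ - r) 0 = a at h1
  generalize max (‖z - x‖ - r) 0 = b at h1
  have h2 : Real.exp (-a / (2 * h)) = Real.exp (-b / (2 * h)) * Real.exp ((b - a) / (2 * h)) := by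
    rw [← Real.exp_add]; congr 1; ring
  have h3 := mul_le_mul_of_nonneg_left (Real.add_one_le_exp ((b - a) / (2 * h)))
    (Real.exp_pos (-b / (2 * h))).le
  have h4 := mul_le_mul_of_nonneg_left h1
    (show 0 ≤ Real.exp (-b / (2 * h)) / (2 * h) by positivity)
  have h5 : Real.exp (-b / (2 * h)) / (2 * h) * (a - b) =
      -(Real.exp (-b / (2 * h)) * ((b - a) / (2 * h))) := by ring
  linarith

theorem et_sub (hh : 0 < h) {M : ℝ} {z : E n} (hy : e0 x h r y ≤ M) (hz : e0 x h r z ≤ M) :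
    |et x h r τ z - et x h r τ y| ≤ M / (2 * h) * ‖z - y‖ := by
  refine (abs_max_sub_max_le_abs _ _ _).trans ?_
  have h1 := (e0_sub hh x r y z).trans (mul_le_mul_of_nonneg_right
    (div_le_div_of_nonneg_right hz (by positivity)) (norm_nonneg _))
  have h2 := (e0_sub hh x r z y).trans (mul_le_mul_of_nonneg_right
    (div_le_div_of_nonneg_right hy (by positivity)) (norm_nonneg _))
  rw [norm_sub_rev] at h2
  exact abs_le.2 ⟨by linarith, by linarith⟩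

theorem lip_et (hh : 0 < h) : Lip (et x h r τ) :=
  lip_of_le fun y z => et_sub hh (e0_le_one hh x r z) (e0_le_one hh x r y)

theorem et_fderiv (hh : 0 < h) : h * ‖fderiv ℝ (et x h r τ) y‖ ≤ e0 x h r y := by
  have h0 := e0_pos x h r y
  have h1 : ‖fderiv ℝ (et x h r τ) y‖ ≤ 2 * e0 x h r y / (2 * h) := by
    refine norm_fderiv_le_of_lip' ℝ (by positivity) ?_
    filter_upwards [(cont_wt x (2 * h) r).continuousAt.eventually
      (ge_mem_nhds (show wt x (2 * h) r y < 2 * e0 x h r y from by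
        change e0 x h r y < _; linarith))] with z hz
    exact et_sub hh (by linarith) hz
  rw [le_div_iff₀ (by positivity)] at h1
  linarith

theorem e0_in (hy : y ∈ ball x r) : e0 x h r y = 1 := by
  rw [mem_ball, dist_eq_norm] at hy
  unfold e0
  rw [max_eq_right (by linarith)]
  simp

theorem et_in (hh : 0 < h) (hy : y ∈ ball x r) : fderiv ℝ (et x h r τ) y = 0 :=
  IsLocalMax.fderiv_eq_zero (Eventually.of_forall fun z => max_le_max
    (by rw [e0_in hy]; linarith [e0_le_one hh x r z]) le_rfl)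

theorem et_out (hh : 0 < h) (hr : r ≤ t / 2) (ht : 0 ≤ t) (hy : y ∉ ball x t) :
    et x h r (Real.exp (-t / (8 * h))) y = 0 := by
  rw [mem_ball, dist_eq_norm, not_lt] at hy
  refine max_eq_right (sub_nonpos.2 (Real.exp_le_exp.2 ?_))
  rw [div_le_div_iff₀ (by positivity) (by positivity)]
  nlinarith [le_max_left (‖y - x‖ - r) 0]

theorem et_ge (hh : 0 < h) (hτ : τ ≤ 1 / 4) (hy : y ∈ ball x (r + h)) : 1 / 4 ≤ et x h r τ y := by
  have h1 := wt_ge hh hy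
  rw [← e0_sq] at h1
  have h2 : 1 / 2 ≤ e0 x h r y := by nlinarith [e0_pos x h r y]
  exact le_max_of_le_left (by linarith)

end Vale.Agent.P366Z.DensH
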