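import Vale.Agent.P366Z.Ex2

/-!
# P366Z, row EX: minimisers exist
-/

open MeasureTheory Metric Filter Topology Set
open scoped ContDiff ENNReal NNReal
open Vale.Agent.P366.Stmt

noncomputable section

namespace Vale.Agent.P366Z

namespace ExA

variable {n : ℕ} {g : Field n} {U α p q μ z w v u : E n → ℝ} {ρ ε l C Λ : ℝ}

/-- bounded Lipschitz functions -/
def BLp (u : E n → ℝ) : Prop := Lip u ∧ ∃ A, ∀ x, |u x| ≤ A

theorem blp_const (c : ℝ) : BLp fun _ : E n => c := ⟨lip_const c, |c|, fun _ => le_rfl⟩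

theorem BLp.add (hu : BLp u) (hv : BLp v) : BLp fun x => u x + v x :=
  ⟨hu.1.add hv.1, _, fun x =>
    (abs_add_le _ _).trans (add_le_add (hu.2.choose_spec x) (hv.2.choose_spec x))⟩

theorem BLp.sub (hu : BLp u) (hv : BLp v) : BLp fun x => u x - v x :=
  ⟨hu.1.sub hv.1, _, fun x =>
    (abs_sub _ _).trans (add_le_add (hu.2.choose_spec x) (hv.2.choose_spec x))⟩

theorem BLp.mul (hu : BLp u) (hv : BLp v) : BLp fun x => u x * v x :=
  ⟨hu.1.mul hv.1 hu.2.choose_spec hv.2.choose_spec, _, fun x => (abs_mul _ _).trans_le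
    (mul_le_mul (hu.2.choose_spec x) (hv.2.choose_spec x) (abs_nonneg _)
      ((abs_nonneg _).trans (hu.2.choose_spec x)))⟩

theorem blp_out (hu : Smooth u) {R c : ℝ} (e : ∀ y, R < ‖y‖ → u y = c) : BLp u :=
  ⟨lip_of_const hu e, _, fun x => ((bdd_of_const hu e).choose_spec.2 x).1⟩

theorem blp_comp (hu : Lip u) {a b : ℝ} (h : ∀ x, u x ∈ Icc a b) {F : ℝ → ℝ}
    (hF : ContDiffOn ℝ 1 F (Icc a b)) : BLp fun x => F (u x) := by
  obtain ⟨K, hK⟩ := hF.exists_lipschitzOnWith one_ne_zero (convex_Icc a b) isCompact_Icc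
  obtain ⟨L, -, hL⟩ := hu.le
  obtain ⟨A, hA⟩ := isCompact_Icc.exists_bound_of_continuousOn hF.continuousOn
  refine ⟨lip_of_le (K := K * L) fun x y => ?_, A, fun x => hA _ (h x)⟩
  have h1 := hK.dist_le_mul _ (h x) _ (h y)
  rw [Real.dist_eq, Real.dist_eq] at h1
  rw [mul_assoc]
  exact h1.trans (mul_le_mul_of_nonneg_left (hL x y) K.2)

theorem BLp.bl (hu : BLp u) : ∃ M, BL M u := by
  obtain ⟨K, K0, hK⟩ := hu.1.le
  obtain ⟨A, hA⟩ := hu.2
  exact ⟨max K A, fun x => (hA x).trans (le_max_right _ _), fun x y =>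
    (hK x y).trans (mul_le_mul_of_nonneg_right (le_max_left _ _) (norm_nonneg _))⟩

theorem blp_f0 (hα : BLp α) (hp : BLp p) (hq : BLp q) (hμ : BLp μ) (hw : BLp w) :
    BLp fun x => f0 (α x) (p x) (q x) (μ x) (w x) := by
  have h1 := (blp_const 1).sub (hw.mul hw)
  simp only [f0, sq]
  exact (hα.mul (((((blp_const (-2)).mul hw).mul h1).add (((blp_const 2).mul hp).mul
    ((blp_const 1).add hw))).sub (((blp_const 2).mul hq).mul ((blp_const 1).sub hw)))).add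
    (hμ.mul h1)

/-- the strong minimum principle -/
theorem strict (hC : CHAIN) (hg : Met g) (hU : Smooth U) (U0 : ∀ x, 0 < U x) {c : ℝ} (hc : 0 ≤ c)
    (hu : ContDiff ℝ 2 u) (h0 : ∀ x, 0 ≤ u x) (h1 : ∀ x, wl g U u x ≤ c * u x) {x₀ : E n}
    (hx : u x₀ ≠ 0) (x : E n) : 0 < u x := by
  have t0 : 0 < u x₀ := lt_of_le_of_ne (h0 _) hx.symm
  obtain ⟨r, r0, hr⟩ := Metric.isOpen_iff.1 (isOpen_lt continuous_const hu.continuous
    (f := fun _ => u x₀ / 2)) x₀ (by simpa using t0)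
  obtain ⟨c', c0, h2⟩ := hC n g U c r univ {x} x₀ hg hU U0 hc isOpen_univ isPreconnected_univ
    isCompact_singleton (subset_univ _) r0 (subset_univ _)
  have h3 := h2 (fun y => 2 / u x₀ * u y) (fun y _ => ⟨(contDiff_const.mul hu).contDiffAt,
    mul_nonneg (by positivity) (h0 y), by
      rw [wl_const_mul, mul_left_comm]
      exact mul_le_mul_of_nonneg_left (h1 y) (by positivity)⟩) (fun y hy => by
      have : u x₀ / 2 < u y := hr hy
      rw [div_mul_eq_mul_div, le_div_iff₀ t0]; linarith) x rfl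
  exact (mul_pos_iff_of_pos_left (by positivity)).1 (c0.trans_le h3)

/-- the output of one step -/
structure Tz (g : Field n) (U α p q μ : E n → ℝ) (ε l K : ℝ) (w z : E n → ℝ) : Prop where
  c2 : ContDiff ℝ 2 z
  one : ∀ x, |z x| ≤ 1
  lip : ∀ x y, |z x - z y| ≤ K * ‖x - y‖
  h2 : ∀ R, ∃ K, H2 K z (ball 0 R)
  eqn : ∀ x, ε * wl g U z x = ε * U x ^ 2 * l * (z x - w x) + f0 (α x) (p x) (q x) (μ x) (w x)

/-- the fixed point -/
theorem Dt.fix (h : Dt g U α p q μ ρ ε l C Λ) (U0 : ∀ x, 0 < U x) {K : ℝ} (K0 : 0 < K)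
    (hT : ∀ w, Lip w → (∀ x, |w x| ≤ 1) → ∃ z, Tz g U α p q μ ε l K w z)
    (h1 : ∫⁻ x, ENNReal.ofReal (ed g U α p q μ ε (fun _ => 1) x * dens g x) < ⊤) :
    ∃ z, Tz g U α p q μ ε l K z z ∧
      ∫⁻ x, ENNReal.ofReal (ed g U α p q μ ε z x * dens g x) < ⊤ ∧
      ∀ w, Lip w → (∀ x, |w x| ≤ 1) → ∫⁻ x, ENNReal.ofReal (ed g U α p q μ ε z x * dens g x) ≤
        ∫⁻ x, ENNReal.ofReal (ed g U α p q μ ε w x * dens g x) := by
  set En : (E n → ℝ) → ℝ≥0∞ :=
    fun w => ∫⁻ x, ENNReal.ofReal (ed g U α p q μ ε w x * dens g x) with hEn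
  set I : ℝ≥0∞ := ⨅ w : {w : E n → ℝ // Lip w ∧ ∀ x, |w x| ≤ 1}, En w with hI
  have Ile : ∀ w, Lip w → (∀ x, |w x| ≤ 1) → I ≤ En w := fun w a b =>
    iInf_le (fun w : {w : E n → ℝ // Lip w ∧ ∀ x, |w x| ≤ 1} => En w) ⟨w, a, b⟩
  have Ilt : I < ⊤ := (Ile _ (lip_const 1) fun _ => by simp).trans_lt h1
  have ε0 := h.ε0
  have hs : ∀ k : ℕ, ∃ v : E n → ℝ, (∀ x, |v x| ≤ 1) ∧ (∀ x y, |v x - v y| ≤ K * ‖x - y‖) ∧
      En v ≤ I + ENNReal.ofReal (1 / (k + 1)) := fun k => by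
    obtain ⟨⟨w, a, b⟩, hw⟩ := iInf_lt_iff.1 (ENNReal.lt_add_right Ilt.ne
      (ENNReal.ofReal_pos.2 (show (0 : ℝ) < 1 / (k + 1) by positivity)).ne')
    obtain ⟨v, hv⟩ := hT w a b
    refine ⟨v, hv.one, hv.lip, le_trans (lintegral_mono fun x => ENNReal.ofReal_le_ofReal ?_)
      ((h.maj hv.c2 (lip_of_le hv.lip) hv.one a.cont b hv.eqn (I := En w) fun R η hη =>
        ⟨w, a, b, fun x _ => by simpa using hη.le, le_self_add⟩).trans hw.le)⟩
    exact mul_le_mul_of_nonneg_right (le_add_of_nonneg_right (by positivity)) (dens_nonneg _ _)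
  choose v v1 vK vE using hs
  have hl : ∀ x, ∃ t ∈ Icc (-1 : ℝ) 1, Tendsto (fun k => v k x) (hyperfilter ℕ) (𝓝 t) :=
    fun x => isCompact_Icc.ultrafilter_le_nhds ((hyperfilter ℕ).map fun k => v k x)
      (le_principal_iff.2 (mem_map.2 (Eventually.of_forall fun k => abs_le.1 (v1 k x))))
  choose w w1 wt using hl
  have wK : ∀ x y, |w x - w y| ≤ K * ‖x - y‖ := fun x y =>
    le_of_tendsto' ((wt x).sub (wt y)).abs fun k => vK k x y
  have w1' : ∀ x, |w x| ≤ 1 := fun x => abs_le.2 (w1 x)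
  obtain ⟨z, hz⟩ := hT w (lip_of_le wK) w1'
  have key := h.maj hz.c2 (lip_of_le hz.lip) hz.one (lip_of_le wK).cont w1' hz.eqn (I := I)
    fun R η hη => by
      obtain ⟨t, -, tf, ht⟩ := finite_cover_balls_of_compact (isCompact_closedBall (0 : E n) R)
        (show 0 < η / 3 / K by positivity)
      have e1 : ∀ᶠ k in hyperfilter ℕ, ∀ y ∈ t, dist (v k y) (w y) < η / 3 :=
        (eventually_all_finite tf).2 fun y _ => Metric.tendsto_nhds.1 (wt y) _ (by positivity)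
      have e2 : ∀ᶠ k : ℕ in hyperfilter ℕ, 1 / ((k : ℝ) + 1) < η :=
        Nat.hyperfilter_le_atTop (tendsto_one_div_add_atTop_nhds_zero_nat.eventually_lt_const hη)
      obtain ⟨k, a, b⟩ := (e1.and e2).exists
      refine ⟨v k, lip_of_le (vK k), v1 k, fun x hx => ?_,
        (vE k).trans (add_le_add le_rfl (ENNReal.ofReal_le_ofReal b.le))⟩
      obtain ⟨y, hy, hxy⟩ := mem_iUnion₂.1 (ht (show x ∈ closedBall (0 : E n) R by
        simpa using hx.le))
      have a1 := a y hy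
      rw [mem_ball, dist_eq_norm, lt_div_iff₀ K0] at hxy
      rw [Real.dist_eq] at a1
      have a2 := abs_le.1 (vK k x y)
      have a3 := abs_le.1 (wK x y)
      have a4 := abs_lt.1 a1
      rw [abs_le]; constructor <;> linarith
  have cU := h.smU.cont
  have cz := hz.c2.continuous
  have cw := (lip_of_le wK).cont
  have cd := h.met.sm_dens.cont
  have cs : Continuous fun x => ε * U x ^ 2 * (w x - z x) ^ 2 / 2 * dens g x := by fun_prop
  have s0 : ∀ x, 0 ≤ ε * U x ^ 2 * (w x - z x) ^ 2 / 2 * dens g x := fun x => by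
    have := dens_nonneg g x; positivity
  have e1 : ∀ x, ENNReal.ofReal ((ed g U α p q μ ε z x + ε * U x ^ 2 * (w x - z x) ^ 2 / 2) *
      dens g x) = ENNReal.ofReal (ed g U α p q μ ε z x * dens g x) +
        ENNReal.ofReal (ε * U x ^ 2 * (w x - z x) ^ 2 / 2 * dens g x) := fun x => by
    rw [add_mul, ENNReal.ofReal_add (mul_nonneg (h.ed_nonneg (hz.one x)) (dens_nonneg _ _)) (s0 x)]
  simp only [e1] at key
  rw [lintegral_add_right _ cs.measurable.ennreal_ofReal] at key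
  have zI : En z ≤ I := le_self_add.trans key
  have e2 := (ENNReal.add_le_add_iff_left (zI.trans_lt Ilt).ne).1
    ((key.trans (Ile z (lip_of_le hz.lip) hz.one)).trans_eq (add_zero _).symm)
  rw [nonpos_iff_eq_zero, lintegral_eq_zero_iff cs.measurable.ennreal_ofReal] at e2
  have e3 : w = z := (cw.ae_eq_iff_eq volume cz).1 (e2.mono fun x hx => by
    have a1 := le_antisymm (ENNReal.ofReal_eq_zero.1 hx) (s0 x)
    have a2 := (h.met.dens_pos x).ne'
    have a3 := (U0 x).ne'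
    simpa [a2, a3, ε0.ne', sub_eq_zero] using a1)
  subst e3
  exact ⟨w, hz, zI.trans_lt Ilt, fun w' a b => zI.trans (Ile w' a b)⟩

/-- one step -/
theorem tstep (hR : RES) (hM : WMB) (hG : GRAD) (hn : 3 ≤ n) (hg : Met g) (hf : Flat g ρ)
    (hW : Wt g U) (ε0 : 0 < ε) (hα : BLp α) (hp : BLp p) (hq : BLp q) (hμ : BLp μ) :
    ∃ l₀ : ℝ, ∀ l ≥ l₀, 1 ≤ l → (∀ x, Co (α x) (p x) (q x) (μ x) (ε * U x ^ 2 * l)) →
      ∃ K > 0, ∀ w, Lip w → (∀ x, |w x| ≤ 1) → ∃ z, Tz g U α p q μ ε l K w z := by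
  obtain ⟨l₀, h0⟩ := hR n g ρ U (by omega) hg hf hW
  obtain ⟨CG, hCG⟩ := hG n g ρ U hn hg hf hW
  obtain ⟨c, c0, C, hC⟩ := hW.bd
  have U0 : ∀ x, 0 < U x := fun x => c0.trans_le (hC x).1
  have hi : BLp fun x => (ε * U x ^ 2)⁻¹ :=
    blp_comp (lip_of_fderiv hW.sm.diff fun x => (hC x).2.2.1) (fun x => ⟨(hC x).1, (hC x).2.1⟩)
      (F := fun t => (ε * t ^ 2)⁻¹) (ContDiffOn.inv (by fun_prop) fun t ht => by
        have := c0.trans_le ht.1; positivity)
  refine ⟨l₀, fun l hl l1 co => ?_⟩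
  obtain ⟨K, K₂, h1⟩ := h0 l hl
  refine ⟨max 1 (CG * (1 / 1 + 1 * (2 * l * C ^ 2))), by positivity, fun w wL w1 => ?_⟩
  obtain ⟨M, hM'⟩ := (((blp_const l).mul ⟨wL, 1, w1⟩).sub
    ((blp_f0 hα hp hq hμ ⟨wL, 1, w1⟩).mul hi)).bl
  obtain ⟨z, c2, zB, zH, ze⟩ := h1 M _ hM'
  have l0 : 0 < l := one_pos.trans_le l1
  have fb : ∀ x, |U x ^ 2 * (l * w x - f0 (α x) (p x) (q x) (μ x) (w x) * (ε * U x ^ 2)⁻¹)| ≤
      l * U x ^ 2 := fun x => by
    have a1 := (co x).phi (w1 x)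
    have a2 := U0 x
    have e : U x ^ 2 * (l * w x - f0 (α x) (p x) (q x) (μ x) (w x) * (ε * U x ^ 2)⁻¹) =
        (ε * U x ^ 2 * l * w x - f0 (α x) (p x) (q x) (μ x) (w x)) / ε := by field_simp
    rw [e, abs_div, abs_of_pos ε0, div_le_iff₀ ε0]
    linarith
  have z1 : ∀ x, |z x| ≤ 1 := fun x => by
    have a1 := hM n g ρ l U (fun y => 1 - z y) hg hf hW l0 (contDiff_const.sub c2)
      ⟨|1| + K * M, fun y => (abs_sub _ _).trans (add_le_add le_rfl (zB.1 y))⟩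
      (fun y => by rw [wl_const_sub]; linarith [ze y, (abs_le.1 (fb y)).2]) x
    have a2 := hM n g ρ l U (fun y => z y + 1) hg hf hW l0 (c2.add contDiff_const)
      ⟨K * M + |1|, fun y => (abs_add_le _ _).trans (add_le_add (zB.1 y) le_rfl)⟩
      (fun y => by rw [wl_add_const]; linarith [ze y, (abs_le.1 (fb y)).1]) x
    exact abs_le.2 ⟨by linarith, by linarith⟩
  refine ⟨z, c2, z1, fun x y => ?_, fun R => ⟨_, zH R⟩, fun x => ?_⟩
  · refine Convex.norm_image_sub_le_of_norm_fderiv_le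
      (fun y _ => c2.differentiable (by norm_num) y) (fun y _ => le_max_of_le_right
        (hCG 1 1 _ y z one_pos le_rfl fun x _ => ⟨c2.contDiffAt, z1 x, ?_⟩)) convex_univ
      (mem_univ y) (mem_univ x)
    have a1 : l * U x ^ 2 ≤ l * C ^ 2 :=
      mul_le_mul_of_nonneg_left (pow_le_pow_left₀ (U0 x).le (hC x).2.1 2) l0.le
    have a2 : 0 ≤ l * U x ^ 2 := by positivity
    have a3 := mul_le_mul_of_nonneg_left (abs_le.1 (z1 x)).1 a2
    have a4 := mul_le_mul_of_nonneg_left (abs_le.1 (z1 x)).2 a2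
    have a5 := abs_le.1 (fb x)
    rw [abs_le]; constructor <;> linarith [ze x]
  · have a2 := (U0 x).ne'
    rw [show wl g U z x = l * U x ^ 2 * z x - U x ^ 2 * (l * w x -
      f0 (α x) (p x) (q x) (μ x) (w x) * (ε * U x ^ 2)⁻¹) by linarith [ze x]]
    field_simp
    ring

end ExA

open ExA

theorem ex_of (hR : RES) (hE : REG) (hG : GRAD) (hM : WMB) (hC : CHAIN) (hS : STWT) : EX := by
  intro n B L m p q U a β R s' hB hP hU κ ε κ0 ε0
  have hW := hS n B U a β R s' hB hU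
  have hg := hB.met
  have n0 : 0 < n := by have := hB.dim; omega
  have U0 := hU.pos hB
  obtain ⟨c, c0, C, hb⟩ := hW.bd
  have hα : BLp fun x => U x ^ (n * bb n) / ε :=
    blp_comp (lip_of_fderiv hW.sm.diff fun x => (hb x).2.2.1) (fun x => ⟨(hb x).1, (hb x).2.1⟩)
      (F := fun t => t ^ (n * bb n) / ε) (ContDiffOn.div_const
        (contDiffOn_id.rpow_const_of_ne fun t ht => (c0.trans_le ht.1).ne') _)
  have α0 : ∀ x, 0 < U x ^ (n * bb n) / ε := fun x => div_pos (Real.rpow_pos_of_pos (U0 x) _) ε0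
  have p0 : ∀ y, B.ρ < ‖y‖ → p y = 0 := fun y hy =>
    hP.p0 y (by linarith [hB.far y hy.le, hB.s0])
  have hp : BLp p := blp_out hP.smp p0
  have hq : BLp q := blp_out hP.smq fun y hy => hP.q4 y hy.le
  have hμ : BLp fun x => κ * m x := (blp_const κ).mul (blp_out hP.smm fun y hy => hP.m0 y hy.le)
  obtain ⟨l₀, hl⟩ := tstep hR hM hG hB.dim hg hB.flat hW ε0 hα hp hq hμ
  obtain ⟨A, hA⟩ := hα.2
  obtain ⟨l, l1, l2, l3⟩ : ∃ l, l₀ ≤ l ∧ 1 ≤ l ∧ (20 * A + 2 * κ) / (ε * c ^ 2) ≤ l :=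
    ⟨max l₀ (max 1 _), le_max_left _ _, le_max_of_le_right (le_max_left _ _),
      le_max_of_le_right (le_max_right _ _)⟩
  have co : ∀ x, Co (U x ^ (n * bb n) / ε) (p x) (q x) (κ * m x) (ε * U x ^ 2 * l) := fun x => by
    refine ⟨(α0 x).le, hP.p04 x, hP.q04 x, mul_nonneg κ0 (hP.m01 x).1, ?_⟩
    rw [div_le_iff₀ (by positivity)] at l3
    have a1 := mul_le_of_le_one_right κ0 (hP.m01 x).2
    have a2 := mul_le_mul_of_nonneg_left (pow_le_pow_left₀ c0.le (hb x).1 2)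
      (show 0 ≤ l * ε by positivity)
    linarith [(abs_le.1 (hA x)).2]
  obtain ⟨K, K0, hT⟩ := hl l l1 l2 co
  obtain ⟨Λ, hΛ⟩ := hg.ell hB.flat
  have uC : ∀ x, U x ^ 2 ≤ C ^ 2 := fun x => pow_le_pow_left₀ (U0 x).le (hb x).2.1 2
  have h : Dt B.g U (fun x => U x ^ (n * bb n) / ε) p q (fun x => κ * m x) B.ρ ε l (ε * C ^ 2) Λ :=
    ⟨n0, hg, hB.flat, hΛ, hU.sm, ε0, l2, fun x => mul_le_mul_of_nonneg_left (uC x) ε0.le, co,
      hα.1.cont, hp.1.cont, hq.1.cont, hμ.1.cont⟩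
  have ee : ∀ w, en B m p q U κ ε w = ∫⁻ x, ENNReal.ofReal (ed B.g U
      (fun x => U x ^ (n * bb n) / ε) p q (fun x => κ * m x) ε w x * dens B.g x) := fun w => by
    unfold en ed G0
    congr 1; funext x; congr 1; ring
  obtain ⟨z, hz, f1, f2⟩ := h.fix U0 K0 hT (by
    refine (integrable_of_out ((h.cont_ed contDiff_const).mul hg.sm_dens.cont)
      (R := max (B.ρ + 1) (L + 1)) fun y hy => ?_).lintegral_lt_top
    have a1 := p0 y (by linarith [le_max_left (B.ρ + 1) (L + 1)])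
    have a2 := hP.m0 y ((le_max_right _ _).trans hy)
    simp [ed, G0, Wp, ip_const_left, a1, a2])
  have ze : ∀ x, ε * wl B.g U z x = f0 (U x ^ (n * bb n) / ε) (p x) (q x) (κ * m x) (z x) :=
    fun x => by simpa using hz.eqn x
  have l0 : 0 ≤ l := zero_le_one.trans l2
  have k : ∀ x (t s : ℝ), 0 ≤ t → ε * s ≤ ε * U x ^ 2 * l * t → s ≤ l * C ^ 2 * t :=
    fun x t s t0 e => by
      have := mul_le_mul_of_nonneg_left (uC x) (show 0 ≤ ε * l * t by positivity)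
      exact le_of_mul_le_mul_left (by linarith) ε0
  have zc : ∀ σ : ℝ, (∀ x, z x = σ) → ∀ x,
      f0 (U x ^ (n * bb n) / ε) (p x) (q x) (κ * m x) σ = 0 := fun σ e x => by
    rw [← e x, ← ze x, show z = fun _ => σ from funext e, wl_const, mul_zero]
  obtain ⟨x₁, h1⟩ : ∃ x, 1 - z x ≠ 0 := by
    by_contra! e
    obtain ⟨x, hx⟩ := hB.deep
    have a1 := zc 1 (fun y => by linarith [e y]) x
    rw [hP.p4 x (by linarith [hB.s0])] at a1
    unfold f0 at a1
    linarith [α0 x]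
  obtain ⟨x₂, h2⟩ : ∃ x, z x + 1 ≠ 0 := by
    by_contra! e
    have := nontriv n0
    obtain ⟨x, hx⟩ := NormedSpace.exists_lt_norm ℝ (E n) (L + 2)
    have a1 := zc (-1) (fun y => by linarith [e y]) x
    rw [hP.q4 x hx.le] at a1
    unfold f0 at a1
    linarith [α0 x]
  refine ⟨z, hE n B.g U z (fun y => f0 (U y.1 ^ (n * bb n) / ε) (p y.1) (q y.1) (κ * m y.1) y.2 / ε)
    hg hU.sm U0 ?_ hz.c2 hz.h2 fun x => ?_, lip_of_le hz.lip, fun x => ?_, (ee z).trans_lt f1,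
    fun w a b => ?_, fun x => ?_⟩
  · have a1 : ContDiff ℝ ∞ fun x => U x ^ (n * bb n) := hU.sm.rpow U0 _
    have a2 : ContDiff ℝ ∞ p := hP.smp
    have a3 : ContDiff ℝ ∞ q := hP.smq
    have a4 : ContDiff ℝ ∞ m := hP.smm
    have a5 := a1.comp (contDiff_fst (𝕜 := ℝ) (E := E n) (F := ℝ))
    unfold f0
    refine ContDiff.div_const (ContDiff.add (ContDiff.mul (a5.div_const _) ?_) ?_) _ <;> fun_prop
  · rw [eq_div_iff ε0.ne', ← ze x, mul_comm]
  · have a1 := strict hC hg hU.sm U0 (c := l * C ^ 2) (by positivity) (u := fun y => 1 - z y)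
      (contDiff_const.sub hz.c2) (fun y => sub_nonneg.2 (abs_le.1 (hz.one y)).2) (fun y =>
        k y _ _ (sub_nonneg.2 (abs_le.1 (hz.one y)).2) (by
          rw [wl_const_sub]; linarith [ze y, (abs_le.1 ((co y).phi (hz.one y))).2])) h1 x
    have a2 := strict hC hg hU.sm U0 (c := l * C ^ 2) (by positivity) (u := fun y => z y + 1)
      (hz.c2.add contDiff_const) (fun y => by linarith [(abs_le.1 (hz.one y)).1]) (fun y =>
        k y _ _ (by linarith [(abs_le.1 (hz.one y)).1]) (by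
          rw [wl_add_const]; linarith [ze y, (abs_le.1 ((co y).phi (hz.one y))).1])) h2 x
    exact abs_lt.2 ⟨by linarith, by linarith⟩
  · rw [ee, ee]; exact f2 w a b
  · rw [ze]; unfold f0; ring

end Vale.Agent.P366Z
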