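import Vale.Agent.P366Z.Int
import Mathlib.Analysis.Calculus.BumpFunction.Convolution
import Mathlib.Analysis.Calculus.ContDiff.Convolution
import Mathlib.Analysis.Calculus.ParametricIntegral
import Mathlib.MeasureTheory.Function.Jacobian
import Mathlib.Analysis.SpecialFunctions.Trigonometric.ArctanDeriv

/-!
# P366Z, LINK: smooth approximation with few critical values
-/

open MeasureTheory Metric Filter Topology Set ContinuousLinearMap
open scoped ContDiff ENNReal Convolution
open Vale.Agent.P366.Stmt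

noncomputable section

namespace Vale.Agent.P366Z.Lk

variable {n : ℕ} {ψ u : E n → ℝ} {Φ : E n × (Fin n → ℝ) → ℝ} {K : Set (E n)}

/-- the derivative of a convolution -/
theorem pd_conv {ρ : E n → ℝ} (hρ : Continuous ρ) (hc : HasCompactSupport ρ) (hψ : Lip ψ)
    (i : Fin n) (x : E n) :
    pd i (ρ ⋆[lsmul ℝ ℝ, volume] ψ) x = (ρ ⋆[lsmul ℝ ℝ, volume] pd i ψ) x := by
  obtain ⟨A, hA0, hA⟩ := hψ.le
  set e : E n := EuclideanSpace.single i 1 with he
  have h1 : ‖e‖ = 1 := by simp [he]
  have hψc := hψ.cont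
  have hm : ∀ s : ℝ, Continuous fun y => ρ y * ψ (x + s • e - y) := fun s => by fun_prop
  have hd : ∀ᵐ y, DifferentiableAt ℝ ψ (x - y) :=
    (Measure.measurePreserving_sub_left volume x).quasiMeasurePreserving.ae hψ.ae_diff
  refine (hasDerivAt_integral_of_dominated_loc_of_lip (𝕜 := ℝ) (x₀ := 0) (s := univ)
    (F := fun s y => ρ y * ψ (x + s • e - y)) (F' := fun y => ρ y * pd i ψ (x - y))
    (bound := fun y => |ρ y| * A) univ_mem (.of_forall fun s => (hm s).aestronglyMeasurable)
    ((hm 0).integrable_of_hasCompactSupport hc.mul_right)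
    (hρ.measurable.mul ((measurable_pd hψc i).comp (by fun_prop))).aestronglyMeasurable
    (.of_forall fun y => ?_) ((hρ.integrable_of_hasCompactSupport hc).abs.mul_const A)
    (hd.mono fun y hy => ?_)).2.deriv
  · refine LipschitzOnWith.of_dist_le_mul fun s _ s' _ => ?_
    have := hA (x + s • e - y) (x + s' • e - y)
    rw [show x + s • e - y - (x + s' • e - y) = (s - s') • e by module, norm_smul, h1,
      mul_one] at this
    rw [Real.dist_eq, ← mul_sub, abs_mul, Real.coe_nnabs, abs_of_nonneg (a := |ρ y| * A)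
      (by positivity), mul_assoc]
    exact mul_le_mul_of_nonneg_left this (abs_nonneg _)
  · refine HasDerivAt.const_mul (ρ y) ?_
    simp only [add_sub_right_comm]
    exact (hy.lineDifferentiableAt (v := e)).hasLineDerivAt

/-- mollification -/
theorem moll (hψ : Lip ψ) (hΦ : Continuous Φ) (hK : IsCompact K) {ε : ℝ} (hε : 0 < ε) :
    ∃ u, Smooth u ∧ (∀ x, |u x - ψ x| ≤ ε) ∧
      ∫ x in K, Φ (x, fun i => pd i u x) ≤ (∫ x in K, Φ (x, fun i => pd i ψ x)) + ε := by
  obtain ⟨A, hA0, hA⟩ := hψ.le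
  obtain ⟨M, hM0, hM⟩ := hψ.pd_bd
  have hp : ∀ j : ℕ, (0 : ℝ) < 1 / ((j : ℝ) + 1) := fun j => by positivity
  let φ : ℕ → ContDiffBump (0 : E n) := fun j =>
    ⟨1 / ((j : ℝ) + 1) / 2, 1 / ((j : ℝ) + 1), half_pos (hp j), half_lt_self (hp j)⟩
  have hφ : Tendsto (fun j => (φ j).rOut) atTop (𝓝 0) := tendsto_one_div_add_atTop_nhds_zero_nat
  let v : ℕ → E n → ℝ := fun j => (φ j).normed volume ⋆[lsmul ℝ ℝ, volume] ψ
  have hv : ∀ j, Smooth (v j) := fun j =>
    (φ j).hasCompactSupport_normed.contDiff_convolution_left _ (φ j).contDiff_normed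
      hψ.cont.locallyIntegrable
  have hd : ∀ j i x, pd i (v j) x = ((φ j).normed volume ⋆[lsmul ℝ ℝ, volume] pd i ψ) x :=
    fun j i x => pd_conv (φ j).continuous_normed (φ j).hasCompactSupport_normed hψ i x
  have hm : ∀ i, AEStronglyMeasurable (pd i ψ) volume := fun i =>
    (measurable_pd hψ.cont i).aestronglyMeasurable
  have hb : ∀ j i x, |pd i (v j) x| ≤ 3 * M := fun j i x => by
    have h1 := (φ j).dist_normed_convolution_le (μ := volume) (x₀ := x) (ε := 2 * M) (hm i)
      fun y _ => (abs_sub _ _).trans (by linarith [hM y i, hM x i])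
    rw [← hd, Real.dist_eq] at h1
    linarith [abs_sub_abs_le_abs_sub (pd i (v j) x) (pd i ψ x), hM x i]
  have hl : ∀ᵐ x, ∀ i, Tendsto (fun j => pd i (v j) x) atTop (𝓝 (pd i ψ x)) := by
    refine ae_all_iff.2 fun i => ?_
    simp only [hd]
    refine ContDiffBump.ae_convolution_tendsto_right_of_locallyIntegrable (K := 2) hφ
      (.of_forall fun j => le_of_eq (by simp only [φ]; ring)) ?_
    exact (memLp_top_of_bound (hm i) M (.of_forall fun x => hM x i)).locallyIntegrable le_top
  obtain ⟨C, hC⟩ := (hK.prod (isCompact_closedBall (0 : Fin n → ℝ) (3 * M))).exists_bound_of_continuousOn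
    hΦ.continuousOn
  have : IsFiniteMeasure (volume.restrict K) := ⟨by simpa using hK.measure_lt_top⟩
  have ht : Tendsto (fun j => ∫ x in K, Φ (x, fun i => pd i (v j) x)) atTop
      (𝓝 (∫ x in K, Φ (x, fun i => pd i ψ x))) := by
    refine tendsto_integral_of_dominated_convergence (fun _ => C) (fun j => ?_) (integrable_const C)
      (fun j => (ae_restrict_mem hK.measurableSet).mono fun x hx => hC _ ⟨hx, ?_⟩)
      ((ae_restrict_of_ae hl).mono fun x hx => (hΦ.tendsto _).comp
        (tendsto_const_nhds.prodMk_nhds (tendsto_pi_nhds.2 hx)))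
    · exact (hΦ.comp (continuous_id.prodMk (continuous_pi fun i =>
        ((hv j).pd i).cont))).aestronglyMeasurable
    · exact mem_closedBall_zero_iff.2 ((pi_norm_le_iff_of_nonneg (by positivity)).2 fun i => hb j i x)
  obtain ⟨j, h1, h2⟩ := ((ht.eventually (gt_mem_nhds (lt_add_of_pos_right _ hε))).and
    (hφ.eventually (gt_mem_nhds (div_pos hε hA0)))).exists
  refine ⟨v j, hv j, fun x => ?_, h1.le⟩
  refine (φ j).dist_normed_convolution_le (μ := volume) hψ.cont.aestronglyMeasurable fun y hy => ?_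
  have h3 := (lt_div_iff₀ hA0).1 ((mem_ball_iff_norm.1 hy).trans h2)
  exact (hA y x).trans (by linarith)

/-- the perturbation -/
def pt (u : E n → ℝ) (a : Fin n → ℝ) (x : E n) : ℝ := u x - ∑ i, a i * Real.arctan (x i)

theorem sm_at (i : Fin n) : Smooth fun x : E n => Real.arctan (x i) :=
  Real.contDiff_arctan.comp (contDiff_coord i)

theorem sm_pt (hu : Smooth u) (a : Fin n → ℝ) : Smooth (pt u a) :=
  ContDiff.sub hu (ContDiff.sum fun i _ => contDiff_const.mul (sm_at i))

theorem pd_pt (hu : Smooth u) (a : Fin n → ℝ) (i : Fin n) (x : E n) :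
    pd i (pt u a) x = pd i u x - a i * (1 / (1 + x i ^ 2)) := by
  have h : ∀ k, Smooth fun y : E n => a k * Real.arctan (y k) := fun k =>
    contDiff_const.mul (sm_at k)
  have h' : Smooth fun y : E n => ∑ k, a k * Real.arctan (y k) := ContDiff.sum fun k _ => h k
  unfold pt
  rw [pd_sub (hu.diff x) (h'.diff x), pd_sum _ fun k _ => (h k).diff x, Finset.sum_eq_single i]
  · rw [pd_const_mul, pd_comp (f := fun y : E n => y i) (Real.hasDerivAt_arctan _)
      (Smooth.diff (contDiff_coord i) x), pd_coord, if_pos rfl, mul_one]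
  · intro k _ hk
    rw [pd_const_mul, pd_comp (f := fun y : E n => y k) (Real.hasDerivAt_arctan _)
      (Smooth.diff (contDiff_coord k) x), pd_coord, if_neg hk.symm, mul_zero, mul_zero]
  · simp

/-- the critical values -/
def Cv (u : E n → ℝ) : Set ℝ := {t | ∃ x, u x = t ∧ ∀ i, pd i u x = 0}

theorem cv_null (hu : Smooth u) : ∀ᵐ a : Fin n → ℝ, volume (Cv (pt u a)) = 0 := by
  let H : E n → (Fin n → ℝ) × ℝ := fun x => (fun i => pd i u x * (1 + x i ^ 2),
    u x - ∑ i, pd i u x * (1 + x i ^ 2) * Real.arctan (x i))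
  have h0 : ∀ i, Smooth fun x : E n => pd i u x * (1 + x i ^ 2) := fun i =>
    ContDiff.mul (hu.pd i) (contDiff_const.add ((contDiff_coord i).pow 2))
  have hH : Differentiable ℝ H := (differentiable_pi.2 fun i x => (h0 i).diff x).prodMk
    (Smooth.diff (ContDiff.sub hu (ContDiff.sum fun i _ => ContDiff.mul (h0 i) (sm_at i))))
  let T : (Fin n → ℝ) × ℝ →L[ℝ] E n :=
    (EuclideanSpace.equiv (Fin n) ℝ).symm.toContinuousLinearMap.comp (fst ℝ _ _)
  have hN : (volume.prod volume : Measure ((Fin n → ℝ) × ℝ)) ((fun q => H (T q)) '' univ) = 0 := by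
    refine addHaar_image_eq_zero_of_det_fderivWithin_eq_zero _
      (f' := fun q => (fderiv ℝ H (T q)).comp T)
      (fun q _ => ((hH _).hasFDerivAt.comp q T.hasFDerivAt).hasFDerivWithinAt) fun q _ => ?_
    refine LinearMap.det_eq_zero_iff_ker_ne_bot.2 ((Submodule.ne_bot_iff _).2 ⟨(0, 1), ?_, by simp⟩)
    simp [T]
  filter_upwards [Measure.measure_ae_null_of_prod_null hN] with a ha
  refine measure_mono_null ?_ ha
  rintro t ⟨x, h1, h2⟩
  have h3 : ∀ i, pd i u x * (1 + x i ^ 2) = a i := fun i => by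
    have h4 := h2 i
    have h5 : 1 + x i ^ 2 ≠ 0 := by positivity
    rw [pd_pt hu, sub_eq_zero] at h4
    rw [h4]
    field_simp
  refine ⟨(x.ofLp, 0), trivial, ?_⟩
  show H x = _
  simp only [H, h3]
  exact Prod.ext rfl h1

/-- **smooth approximation with few critical values** -/
theorem apx (hψ : Lip ψ) (hΦ : Continuous Φ) (hK : IsCompact K) {ε : ℝ} (hε : 0 < ε) :
    ∃ u, Smooth u ∧ (∀ x, |u x - ψ x| ≤ ε) ∧ volume (Cv u) = 0 ∧
      ∫ x in K, Φ (x, fun i => pd i u x) ≤ (∫ x in K, Φ (x, fun i => pd i ψ x)) + ε := by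
  obtain ⟨u, hu, h1, h2⟩ := moll hψ hΦ hK (half_pos hε)
  have hc : Continuous fun a : Fin n → ℝ => ∫ x in K, Φ (x, fun i => pd i (pt u a) x) := by
    refine continuous_parametric_integral_of_continuous
      (f := fun (a : Fin n → ℝ) x => Φ (x, fun i => pd i (pt u a) x)) ?_ hK
    refine hΦ.comp (f := fun q : (Fin n → ℝ) × E n => (q.2, fun i => pd i (pt u q.1) q.2))
      (continuous_snd.prodMk (continuous_pi fun i => ?_))
    simp only [pd_pt hu]
    refine ((hu.pd i).cont.comp continuous_snd).sub (Continuous.mul (by fun_prop)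
      (continuous_const.div (by fun_prop) fun q => by positivity))
  have e0 : pt u 0 = u := funext fun x => by simp [pt]
  have k1 := (hc.tendsto 0).eventually (gt_mem_nhds (lt_add_of_pos_right _ (half_pos hε)))
  have hs : Continuous fun a : Fin n → ℝ => ∑ i, |a i| * 2 := by fun_prop
  have k2 := (hs.tendsto 0).eventually (gt_mem_nhds (a := ε / 2) (by simpa using hε))
  obtain ⟨a, k5, k0⟩ := (Measure.dense_of_ae (cv_null hu)).inter_nhds_nonempty (k1.and k2)
  obtain ⟨k3, k4⟩ := k0
  refine ⟨pt u a, sm_pt hu a, fun x => ?_, k5, ?_⟩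
  · have k6 : |∑ i, a i * Real.arctan (x i)| ≤ ∑ i, |a i| * 2 :=
      (Finset.abs_sum_le_sum_abs _ _).trans (Finset.sum_le_sum fun i _ => by
        rw [abs_mul]
        refine mul_le_mul_of_nonneg_left (abs_le.2 ⟨?_, ?_⟩) (abs_nonneg _)
        · linarith [Real.neg_pi_div_two_lt_arctan (x i), Real.pi_le_four]
        · linarith [Real.arctan_lt_pi_div_two (x i), Real.pi_le_four])
    rw [pt, sub_right_comm]
    linarith [abs_sub (u x - ψ x) (∑ i, a i * Real.arctan (x i)), h1 x]
  · rw [e0] at k3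
    linarith

end Vale.Agent.P366Z.Lk
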