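import Vale.Agent.P366Z.Int
import Mathlib.MeasureTheory.Integral.Average
import Mathlib.MeasureTheory.Integral.IntervalIntegral.FundThmCalculus
import Mathlib.Analysis.Normed.Module.Connected
import Mathlib.Geometry.Manifold.PartitionOfUnity

/-!
# P366Z, LINK: the choice of the level, the unbounded component
-/

open MeasureTheory Metric Filter Topology Set
open scoped ContDiff ENNReal Manifold
open Vale.Agent.P366.Stmt

noncomputable section

namespace Vale.Agent.P366Z.Lk

variable {n : ℕ} {u w : E n → ℝ} {K : Set (E n)} {t : ℝ}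

/-- the ramp -/
def th (k : ℕ) (r : ℝ) : ℝ := Real.smoothTransition ((k + 1) * r + 1)

/-- its derivative -/
def th' (k : ℕ) (r : ℝ) : ℝ := deriv Real.smoothTransition ((k + 1) * r + 1) * (k + 1)

theorem sm_th (k : ℕ) : ContDiff ℝ ∞ (th k) :=
  Real.smoothTransition.contDiff.comp ((contDiff_const.mul contDiff_id).add contDiff_const)

theorem hd_th (k : ℕ) (r : ℝ) : HasDerivAt (th k) (th' k r) r := by
  have h1 : HasDerivAt (fun r : ℝ => ((k : ℝ) + 1) * r + 1) (k + 1) r := by
    simpa using ((hasDerivAt_id r).const_mul ((k : ℝ) + 1)).add_const 1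
  exact ((Real.smoothTransition.contDiff (n := 1)).differentiable one_ne_zero _).hasDerivAt.comp r h1

theorem th'_nonneg (k : ℕ) (r : ℝ) : 0 ≤ th' k r :=
  mul_nonneg Real.smoothTransition.monotone.deriv_nonneg (by positivity)

theorem th_one (k : ℕ) {r : ℝ} (hr : 0 ≤ r) : th k r = 1 :=
  Real.smoothTransition.one_of_one_le (le_add_of_nonneg_left (by positivity))

theorem th'_zero (k : ℕ) {r : ℝ} (hr : 0 < r) : th' k r = 0 :=
  (hd_th k r).unique ((hasDerivAt_const r (1 : ℝ)).congr_of_eventuallyEq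
    ((lt_mem_nhds hr).mono fun _ h => th_one k h.le))

theorem cont_th' (k : ℕ) : Continuous (th' k) :=
  (((Real.smoothTransition.contDiff (n := 1)).continuous_deriv le_rfl).comp (by fun_prop)).mul
    continuous_const

theorem th_ev {r : ℝ} (hr : r < 0) : ∀ᶠ k : ℕ in atTop, th k r = 0 := by
  obtain ⟨m, hm⟩ := exists_nat_gt (1 / -r)
  filter_upwards [eventually_ge_atTop m] with k hk
  have h1 : (m : ℝ) ≤ k := by exact_mod_cast hk
  have h2 := (div_lt_iff₀ (neg_pos.2 hr)).1 hm
  exact Real.smoothTransition.zero_of_nonpos (by nlinarith)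

theorem int_th' (k : ℕ) (v : ℝ) {a b : ℝ} (h : a ≤ b) :
    ∫⁻ t in Ioo a b, ENNReal.ofReal (th' k (v - t)) ≤ 1 := by
  have hc : Continuous fun t => th' k (v - t) := (cont_th' k).comp (by fun_prop)
  have h1 : ∫ t in a..b, th' k (v - t) = -th k (v - b) - -th k (v - a) :=
    intervalIntegral.integral_eq_sub_of_hasDerivAt (f := fun t => -th k (v - t))
      (fun t _ => by
        have := ((hd_th k (v - t)).comp t ((hasDerivAt_id t).const_sub v)).neg
        rwa [mul_neg_one, neg_neg] at this) (hc.intervalIntegrable _ _)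
  rw [← ofReal_integral_eq_lintegral_ofReal
    ((hc.integrableOn_Icc (a := a) (b := b)).mono_set Ioo_subset_Icc_self)
    (.of_forall fun t => th'_nonneg k _), ← integral_Ioc_eq_integral_Ioo,
    ← intervalIntegral.integral_of_le h, h1]
  refine ENNReal.ofReal_le_one.2 ?_
  linarith [show 0 ≤ th k (v - b) from Real.smoothTransition.nonneg _,
    show th k (v - a) ≤ 1 from Real.smoothTransition.le_one _]

/-- the approximate area of the level `t` -/
def pk (u w : E n → ℝ) (K : Set (E n)) (k : ℕ) (t : ℝ) : ℝ≥0∞ :=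
  ∫⁻ x in K, ENNReal.ofReal (th' k (u x - t)) * ENNReal.ofReal (w x)

/-- **the choice of the level** -/
theorem lev (hu : Continuous u) (hw : Continuous w) (K : Set (E n)) {a b : ℝ} (h : a < b)
    {N : Set ℝ} (hN : volume N = 0) : ∃ t ∈ Ioo a b, t ∉ N ∧ liminf (fun k => pk u w K k t) atTop ≤
      (∫⁻ x in K, ENNReal.ofReal (w x)) / ENNReal.ofReal (b - a) := by
  have hm : ∀ k, Measurable fun q : ℝ × E n =>
      ENNReal.ofReal (th' k (u q.2 - q.1)) * ENNReal.ofReal (w q.2) := fun k =>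
    (((cont_th' k).comp (by fun_prop)).measurable.ennreal_ofReal).mul
      (hw.comp continuous_snd).measurable.ennreal_ofReal
  have hp : ∀ k, Measurable (pk u w K k) := fun k => (hm k).lintegral_prod_right'
  have h1 : ∀ k, ∫⁻ t in Ioo a b, pk u w K k t ≤ ∫⁻ x in K, ENNReal.ofReal (w x) := fun k => by
    unfold pk
    rw [lintegral_lintegral_swap (hm k).aemeasurable]
    refine lintegral_mono fun x => ?_
    have hc : Continuous fun t => th' k (u x - t) := (cont_th' k).comp (by fun_prop)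
    rw [lintegral_mul_const _ hc.measurable.ennreal_ofReal]
    exact mul_le_of_le_one_left' (int_th' k _ h.le)
  have : IsFiniteMeasure (volume.restrict (Ioo a b)) := ⟨by simp⟩
  obtain ⟨t, ht, h2⟩ := exists_notMem_null_le_laverage (μ := volume.restrict (Ioo a b))
    (N := N ∪ (Ioo a b)ᶜ) (by simpa using h) (Measurable.liminf hp).aemeasurable
    (measure_union_null (le_antisymm ((Measure.restrict_le_self N).trans hN.le) zero_le)
      (ae_restrict_mem measurableSet_Ioo))
  rw [mem_union, not_or, notMem_compl_iff] at ht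
  refine ⟨t, ht.2, ht.1, h2.trans ?_⟩
  rw [setLAverage_eq, Real.volume_Ioo]
  refine ENNReal.div_le_div_right ((lintegral_liminf_le hp).trans ?_) _
  exact liminf_le_of_frequently_le' (.of_forall h1)

/-- **the area of a level** -/
theorem ibp_lev (hu : Smooth u) (hK : MeasurableSet K) {Z : Fin n → E n → ℝ}
    (hZ : ∀ i, Smooth (Z i)) {R : ℝ} (hR : ∀ i x, R ≤ ‖x‖ → Z i x = 0)
    (h1 : ∀ x ∈ K, -∑ i, pd i u x * Z i x ≤ w x) (h2 : ∀ x ∉ K, t < u x) :
    ENNReal.ofReal (∫ x in {x | t ≤ u x}, ∑ i, pd i (Z i) x) ≤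
      liminf (fun k => pk u w K k t) atTop := by
  have hf : ∀ k, Smooth fun x => th k (u x - t) := fun k =>
    (sm_th k).comp (ContDiff.sub hu contDiff_const)
  have hd : ∀ k i x, pd i (fun x => th k (u x - t)) x = th' k (u x - t) * pd i u x := fun k i x => by
    rw [pd_comp (f := fun x => u x - t) (hd_th k _) ((hu.diff x).sub_const t), pd_sub_const]
  have hz : ∀ i x, R + 1 ≤ ‖x‖ → pd i (Z i) x = 0 := fun i x hx =>
    pd_zero_of_out (hR i) (by linarith) i
  have i1 : ∀ k i, Integrable fun x => pd i (Z i) x * th k (u x - t) := fun k i =>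
    integrable_of_out (((hZ i).pd i).cont.mul (hf k).cont) fun x hx => by rw [hz i x hx, zero_mul]
  have i2 : ∀ k i, Integrable fun x => Z i x * pd i (fun x => th k (u x - t)) x := fun k i =>
    integrable_of_out ((hZ i).cont.mul ((hf k).pd i).cont) fun x hx => by rw [hR i x hx, zero_mul]
  have i3 : Integrable fun x => ∑ i, pd i (Z i) x := integrable_finsetSum _ fun i _ =>
    integrable_of_out ((hZ i).pd i).cont (hz i)
  have e1 : ∀ k, ∫ x, (∑ i, pd i (Z i) x) * th k (u x - t) =
      ∫ x, -∑ i, Z i x * pd i (fun x => th k (u x - t)) x := fun k => by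
    simp only [Finset.sum_mul]
    rw [integral_finsetSum _ fun i _ => i1 k i, integral_neg, integral_finsetSum _ fun i _ => i2 k i,
      ← Finset.sum_neg_distrib]
    refine Finset.sum_congr rfl fun i _ => ?_
    rw [ibp (lip_of_supp ((hZ i).of_le (by norm_cast)) (supp_of_out (hR i))) (supp_of_out (hR i))
      ((hf k).of_le (by norm_cast)) i, neg_neg]
  have e2 : ∀ k, ENNReal.ofReal (∫ x, (∑ i, pd i (Z i) x) * th k (u x - t)) ≤ pk u w K k t := by
    intro k
    have i4 : Integrable fun x => -∑ i, Z i x * pd i (fun x => th k (u x - t)) x :=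
      (integrable_finsetSum _ fun i _ => i2 k i).neg
    rw [e1, integral_eq_lintegral_pos_part_sub_lintegral_neg_part i4]
    refine (ENNReal.ofReal_le_ofReal (sub_le_self _ ENNReal.toReal_nonneg)).trans
      (ENNReal.ofReal_toReal_le.trans ?_)
    rw [pk, ← lintegral_indicator hK]
    refine lintegral_mono fun x => ?_
    have e3 : -∑ i, Z i x * pd i (fun x => th k (u x - t)) x =
        th' k (u x - t) * -∑ i, pd i u x * Z i x := by
      rw [mul_neg, Finset.mul_sum]
      exact congrArg _ (Finset.sum_congr rfl fun i _ => by rw [hd]; ring)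
    rw [e3]
    by_cases hx : x ∈ K
    · rw [indicator_of_mem hx, ← ENNReal.ofReal_mul (th'_nonneg k _)]
      exact ENNReal.ofReal_le_ofReal (mul_le_mul_of_nonneg_left (h1 x hx) (th'_nonneg k _))
    · rw [th'_zero k (sub_pos.2 (h2 x hx)), zero_mul, ENNReal.ofReal_zero]
      exact zero_le
  have hA : MeasurableSet {x | t ≤ u x} := (isClosed_le continuous_const hu.cont).measurableSet
  have e4 : Tendsto (fun k => ∫ x, (∑ i, pd i (Z i) x) * th k (u x - t)) atTop
      (𝓝 (∫ x in {x | t ≤ u x}, ∑ i, pd i (Z i) x)) := by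
    rw [← integral_indicator hA]
    refine tendsto_integral_of_dominated_convergence _ (fun k =>
      (i3.1.mul (hf k).cont.aestronglyMeasurable)) i3.norm (fun k => .of_forall fun x => ?_)
      (.of_forall fun x => ?_)
    · rw [norm_mul]
      refine mul_le_of_le_one_right (norm_nonneg _) ?_
      exact (abs_of_nonneg (Real.smoothTransition.nonneg _)).trans_le
        (Real.smoothTransition.le_one _)
    · by_cases hx : t ≤ u x
      · rw [indicator_of_mem (show x ∈ {x | t ≤ u x} from hx)]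
        simp only [th_one _ (sub_nonneg.2 hx), mul_one, tendsto_const_nhds]
      · rw [indicator_of_notMem (show x ∉ {x | t ≤ u x} from hx)]
        exact tendsto_const_nhds.congr' ((th_ev (sub_neg.2 (not_le.1 hx))).mono fun k hk => by
          simp only [hk, mul_zero])
  rw [← (ENNReal.tendsto_ofReal e4).liminf_eq]
  exact liminf_le_liminf (.of_forall e2)

/-- the set `{t ≤ u}` is locally connected for a regular value `t` -/
theorem loc (hu : Smooth u) (hr : ∀ x, u x = t → ∃ i, pd i u x ≠ 0) {x : E n} (hx : t ≤ u x) :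
    ∀ᶠ y in 𝓝 x, t ≤ u y →
      connectedComponentIn {x | t ≤ u x} x = connectedComponentIn {x | t ≤ u x} y := by
  have key : ∀ z, t < u z → ∃ δ > 0, ∀ y ∈ ball z δ,
      connectedComponentIn {x | t ≤ u x} z = connectedComponentIn {x | t ≤ u x} y := fun z hz => by
    obtain ⟨δ, h0, h1⟩ := Metric.eventually_nhds_iff_ball.1 (hu.cont.continuousAt.eventually (lt_mem_nhds hz))
    exact ⟨δ, h0, fun y hy => connectedComponentIn_eq
      (isPreconnected_ball.subset_connectedComponentIn (mem_ball_self h0)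
        (fun y hy => (h1 y hy).le) hy)⟩
  rcases hx.lt_or_eq with h | h
  · obtain ⟨δ, h0, h1⟩ := key x h
    filter_upwards [ball_mem_nhds x h0] with y hy _ using h1 y hy
  obtain ⟨v, hv1, hv⟩ : ∃ v : E n, ‖v‖ = 1 ∧ 0 < fderiv ℝ u x v := by
    obtain ⟨i, hi⟩ := hr x h.symm
    rw [pd_eq (hu.diff x)] at hi
    rcases hi.lt_or_gt with k | k
    · exact ⟨-EuclideanSpace.single i 1, by simp, by rwa [map_neg, neg_pos]⟩
    · exact ⟨_, by simp, k⟩
  have hc : Continuous fun y => fderiv ℝ u y v :=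
    (hu.continuous_fderiv (by simp)).clm_apply continuous_const
  obtain ⟨r, h0, h1⟩ := Metric.eventually_nhds_iff_ball.1 (hc.continuousAt.eventually (lt_mem_nhds hv))
  have mono : ∀ y ∈ ball x (r / 2), StrictMonoOn (fun s : ℝ => u (y + s • v)) (Icc 0 (r / 4)) := by
    intro y hy
    refine strictMonoOn_of_deriv_pos (convex_Icc _ _) (hu.cont.comp (by fun_prop)).continuousOn
      fun s hs => ?_
    have h2 : HasDerivAt (fun s : ℝ => y + s • v) v s := by
      simpa using ((hasDerivAt_id s).smul_const v).const_add y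
    refine (h1 _ (mem_ball_iff_norm.2 ?_)).trans_eq
      ((hu.diff _).hasFDerivAt.comp_hasDerivAt s h2).deriv.symm
    have h3 := interior_subset hs
    have h4 := norm_add_le (y - x) (s • v)
    rw [norm_smul, hv1, mul_one, Real.norm_of_nonneg h3.1] at h4
    rw [add_sub_right_comm]
    linarith [mem_ball_iff_norm.1 hy, h3.2]
  have r4 : r / 4 ∈ Icc 0 (r / 4) := ⟨by positivity, le_rfl⟩
  have r0 : (0 : ℝ) ∈ Icc 0 (r / 4) := ⟨le_rfl, by positivity⟩
  have seg : ∀ y ∈ ball x (r / 2), t ≤ u y → connectedComponentIn {x | t ≤ u x} y =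
      connectedComponentIn {x | t ≤ u x} (y + (r / 4) • v) := fun y hy ht => by
    refine connectedComponentIn_eq (((isPreconnected_Icc (a := 0) (b := r / 4)).image
      (fun s : ℝ => y + s • v) (by fun_prop)).subset_connectedComponentIn ⟨0, r0, by simp⟩ ?_
      ⟨_, r4, rfl⟩)
    rintro _ ⟨s, hs, rfl⟩
    have := (mono y hy).monotoneOn r0 hs hs.1
    simp only [zero_smul, add_zero] at this
    exact ht.trans this
  have hx2 : x ∈ ball x (r / 2) := mem_ball_self (half_pos h0)
  have h5 := mono x hx2 r0 r4 (by positivity)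
  simp only [zero_smul, add_zero] at h5
  obtain ⟨δ, d0, d1⟩ := key _ (h.trans_lt h5)
  filter_upwards [ball_mem_nhds x d0, ball_mem_nhds x (half_pos h0)] with y k1 k2 k3
  rw [seg x hx2 hx, seg y k2 k3]
  exact d1 _ (by simpa using k1)

theorem ext_conn (hn : 2 ≤ n) {L : ℝ} (hL : 0 ≤ L) : IsConnected {x : E n | L < ‖x‖} := by
  have h1 : 1 < Module.rank ℝ (E n) := by
    rw [← Module.finrank_eq_rank, finrank_euclideanSpace_fin]
    exact_mod_cast hn
  have h2 := ((isConnected_Ioi (a := L)).prod (isConnected_sphere h1 (0 : E n) zero_le_one)).image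
    (fun q : ℝ × E n => q.1 • q.2) (by fun_prop)
  refine (congrArg IsConnected (Subset.antisymm ?_ fun x hx => ?_)).mp h2
  · rintro _ ⟨q, ⟨k1, k2⟩, rfl⟩
    show L < ‖q.1 • q.2‖
    rwa [norm_smul, mem_sphere_zero_iff_norm.1 k2, mul_one, Real.norm_of_nonneg (hL.trans k1.le)]
  · have h3 : ‖x‖ ≠ 0 := (hL.trans_lt hx).ne'
    exact ⟨(‖x‖, ‖x‖⁻¹ • x), ⟨hx, by simp [norm_smul, h3]⟩, smul_inv_smul₀ h3 x⟩

/-- **the unbounded component** -/
theorem comp (hn : 2 ≤ n) (hu : Smooth u) (hr : ∀ x, u x = t → ∃ i, pd i u x ≠ 0) {L C : ℝ}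
    (hL : 0 ≤ L) (h1 : ∀ x, L < ‖x‖ → t < u x) (h2 : ∀ x, u x - t < C) {Q : Set (E n)}
    (hQ : IsClosed Q) (h3 : ∀ x ∈ Q, u x < t) : ∃ β G : E n → ℝ, Smooth β ∧ IsExt G ∧
      (∀ x, β x ∈ Icc (0 : ℝ) 1) ∧ (∀ x ∈ Q, β x = 1) ∧ (∀ x, 0 ≤ G x → t ≤ u x) ∧
      ∀ x, t ≤ u x → (∀ i, pd i β x = 0) ∧ β x = if 0 ≤ G x then 0 else 1 := by
  obtain ⟨⟨x₀, hx₀⟩, hO⟩ := ext_conn hn hL
  set A := {x | t ≤ u x} with hA
  set A₀ := connectedComponentIn A x₀ with hA₀
  have hs : A₀ ⊆ A := connectedComponentIn_subset _ _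
  have hO' : {x : E n | L < ‖x‖} ⊆ A₀ :=
    hO.subset_connectedComponentIn hx₀ fun x hx => (h1 x hx).le
  have hout : ∀ x ∉ A, ∀ᶠ y in 𝓝 x, y ∉ A := fun x hx =>
    (isClosed_le continuous_const hu.cont).isOpen_compl.mem_nhds hx
  have c0 : IsClosed A₀ := isOpen_compl_iff.1 (isOpen_iff_mem_nhds.2 fun x hx => by
    by_cases h : x ∈ A
    · filter_upwards [loc hu hr h] with y hy k
      refine hx ?_
      rw [hA₀, connectedComponentIn_eq k, ← hy (hs k)]
      exact mem_connectedComponentIn h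
    · exact (hout x h).mono fun y hy k => hy (hs k))
  have c1 : IsClosed (A \ A₀) := isOpen_compl_iff.1 (isOpen_iff_mem_nhds.2 fun x hx => by
    by_cases h : x ∈ A
    · have h0 : x ∈ A₀ := by_contra fun k => hx ⟨h, k⟩
      filter_upwards [loc hu hr h] with y hy k
      refine k.2 ?_
      rw [hA₀, connectedComponentIn_eq h0, hy k.1]
      exact mem_connectedComponentIn k.1
    · exact (hout x h).mono fun y hy k => hy k.1)
  obtain ⟨β, b0, b1, b2⟩ := exists_contMDiffMap_zero_one_of_isClosed (n := ⊤) 𝓘(ℝ, E n) c0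
    (c1.union hQ) (disjoint_left.2 fun x hx k => k.elim (fun k => k.2 hx) fun k =>
      (h3 x k).not_ge (hs hx))
  have hβ : Smooth β := β.contMDiff.contDiff
  have hC : 0 < C := by linarith [h1 x₀ hx₀, h2 x₀]
  have hG : ∀ x, 0 ≤ u x - t - C * β x ↔ x ∈ A₀ := fun x => by
    refine ⟨fun h => by_contra fun k => ?_, fun h => ?_⟩
    · have k1 : x ∈ A := by
        show t ≤ u x
        linarith [mul_nonneg hC.le (b2 x).1]
      rw [b1 (Or.inl ⟨k1, k⟩), Pi.one_apply] at h
      linarith [h2 x]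
    · rw [b0 h, Pi.zero_apply, mul_zero, sub_zero, sub_nonneg]
      exact hs h
  have hd : ∀ x ∈ A, ∀ i, pd i β x = 0 := fun x hx i => by
    rw [pd_eq (hβ.diff x)]
    by_cases h : x ∈ A₀
    · rw [IsLocalMin.fderiv_eq_zero (.of_forall fun y => (b0 h).trans_le (b2 y).1)]
      rfl
    · rw [IsLocalMax.fderiv_eq_zero (.of_forall fun y => (b2 y).2.trans (b1 (Or.inl ⟨hx, h⟩)).ge)]
      rfl
  refine ⟨β, fun x => u x - t - C * β x, hβ, ⟨ContDiff.sub (ContDiff.sub hu contDiff_const)
    (contDiff_const.mul hβ), fun x hx => ?_, ?_, L, fun x hx => ?_⟩, b2,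
    fun x hx => b1 (Or.inr hx), fun x hx => hs ((hG x).1 hx), fun x hx => ⟨hd x hx, ?_⟩⟩
  · have h0 := (hG x).1 hx.ge
    replace hx : u x - t - C * β x = 0 := hx
    rw [b0 h0, Pi.zero_apply, mul_zero, sub_zero, sub_eq_zero] at hx
    obtain ⟨i, hi⟩ := hr x hx
    refine ⟨i, ?_⟩
    rwa [pd_sub ((hu.diff x).sub_const t) ((hβ.diff x).const_mul C), pd_const_mul, hd x (hs h0),
      mul_zero, sub_zero, pd_sub_const]
  · rw [show {x | 0 ≤ u x - t - C * β x} = A₀ from Set.ext hG]
    exact isConnected_connectedComponentIn_iff.2 (h1 x₀ hx₀).le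
  · show 0 < u x - t - C * β x
    rw [b0 (hO' hx), Pi.zero_apply, mul_zero, sub_zero, sub_pos]
    exact h1 x hx
  · split_ifs with h
    · exact b0 ((hG x).1 h)
    · exact b1 (Or.inl ⟨hx, fun k => h ((hG x).2 k)⟩)

end Vale.Agent.P366Z.Lk
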