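import Vale.Agent.P366Z.McB
import Vale.Agent.P366Z.Int

/-!
# P366Z, row MC: cut-off functions and inequalities
-/

open MeasureTheory Metric Filter Topology Set
open scoped ContDiff ENNReal
open Vale.Agent.P366.Stmt

noncomputable section

namespace Vale.Agent.P366Z

namespace McX

/-- the properties of a cut-off function -/
structure Cut (a b K : ℝ) (θ : ℝ → ℝ) : Prop where
  pos : 0 < K
  sm : ContDiff ℝ ∞ θ
  mem : ∀ x, 0 ≤ θ x ∧ θ x ≤ 1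
  one : ∀ x ≤ a, θ x = 1
  zero : ∀ x, b ≤ x → θ x = 0
  bd : ∀ x, |deriv θ x| ≤ K
  supp : ∀ x, deriv θ x ≠ 0 → a ≤ x ∧ x ≤ b

theorem deriv_zero {f : ℝ → ℝ} {O : Set ℝ} (hO : IsOpen O) {c x : ℝ} (h : ∀ y ∈ O, f y = c)
    (hx : x ∈ O) : deriv f x = 0 := by
  have e : f =ᶠ[𝓝 x] fun _ => c := mem_of_superset (hO.mem_nhds hx) h
  rw [e.deriv_eq, deriv_const]

theorem cutoff {a b : ℝ} (hab : a < b) : ∃ K θ, Cut a b K θ := by
  obtain ⟨θ, hθ⟩ : ∃ θ : ℝ → ℝ, θ = fun x => Real.smoothTransition ((b - x) / (b - a)) := ⟨_, rfl⟩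
  have p : 0 < b - a := sub_pos.2 hab
  have sm : ContDiff ℝ ∞ θ :=
    hθ ▸ Real.smoothTransition.contDiff.comp ((contDiff_const.sub contDiff_id).div_const _)
  have one : ∀ x ≤ a, θ x = 1 := fun x hx => by
    rw [hθ]
    exact Real.smoothTransition.one_of_one_le ((one_le_div p).2 (by linarith))
  have zero : ∀ x, b ≤ x → θ x = 0 := fun x hx => by
    rw [hθ]
    exact Real.smoothTransition.zero_of_nonpos (div_nonpos_of_nonpos_of_nonneg (by linarith) p.le)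
  have supp : ∀ x, deriv θ x ≠ 0 → a ≤ x ∧ x ≤ b := fun x hx =>
    ⟨not_lt.1 fun h => hx (deriv_zero isOpen_Iio (fun y hy => one y (le_of_lt hy)) h),
      not_lt.1 fun h => hx (deriv_zero isOpen_Ioi (fun y hy => zero y (le_of_lt hy)) h)⟩
  obtain ⟨K, hK⟩ := (isCompact_Icc (a := a) (b := b)).exists_bound_of_continuousOn
    (sm.continuous_deriv (by simp)).continuousOn
  refine ⟨|K| + 1, θ, by positivity, sm, fun x => ?_, one, zero, fun x => ?_, supp⟩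
  · rw [hθ]
    exact ⟨Real.smoothTransition.nonneg _, Real.smoothTransition.le_one _⟩
  · by_cases h : deriv θ x = 0
    · rw [h, abs_zero]
      positivity
    · have h1 := hK x (supp x h)
      rw [Real.norm_eq_abs] at h1
      linarith [le_abs_self K]

theorem Cut.has {a b K : ℝ} {θ : ℝ → ℝ} (h : Cut a b K θ) (x : ℝ) : HasDerivAt θ (deriv θ x) x :=
  (h.sm.differentiable (by simp) x).hasDerivAt

theorem log_bds {w : ℝ} (hw : |w| < 1) : 2 * w ≤ (1 + w) * Real.log ((1 + w) / (1 - w)) ∧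
    (1 - w) * Real.log ((1 + w) / (1 - w)) ≤ 2 * w := by
  obtain ⟨h1, h2⟩ := abs_lt.1 hw
  have p1 : 0 < 1 + w := by linarith
  have p2 : 0 < 1 - w := by linarith
  have a1 := Real.log_le_sub_one_of_pos (div_pos p1 p2)
  have a2 := Real.one_sub_inv_le_log_of_pos (div_pos p1 p2)
  rw [inv_div] at a2
  have a3 := mul_le_mul_of_nonneg_left a1 p2.le
  have a4 := mul_le_mul_of_nonneg_left a2 p1.le
  rw [mul_sub, mul_div_cancel₀ _ p2.ne'] at a3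
  rw [mul_sub, mul_div_cancel₀ _ p1.ne'] at a4
  constructor <;> linarith

variable {n : ℕ} {w : E n → ℝ} {ε : ℝ} {x : E n}

theorem dd_abs (hε : 0 < ε) (hw : |w x| < 1) : (1 - w x ^ 2) * |dd ε w x| ≤ 2 * ε := by
  obtain ⟨a1, a2⟩ := log_bds hw
  obtain ⟨h1, h2⟩ := abs_lt.1 hw
  have p : 0 ≤ 1 - w x ^ 2 := by nlinarith
  rw [← abs_of_nonneg p, ← abs_mul, dd, abs_le]
  have a3 := mul_le_mul_of_nonneg_left a1 (by linarith : 0 ≤ 1 - w x)
  have a4 := mul_le_mul_of_nonneg_left a2 (by linarith : 0 ≤ 1 + w x)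
  constructor <;> nlinarith

theorem dd_low (hε : 0 < ε) (hw : |w x| < 1) (h : -(9 / 10) ≤ w x) : -(9 * ε) ≤ dd ε w x := by
  obtain ⟨a1, -⟩ := log_bds hw
  have p1 : 0 < 1 + w x := by linarith
  have a2 : -18 ≤ Real.log ((1 + w x) / (1 - w x)) := by
    by_contra h1
    nlinarith [not_le.1 h1]
  rw [dd]
  nlinarith

theorem dd_neg (hε : 0 < ε) (hw : |w x| < 1) (h : w x ≤ 0) : dd ε w x ≤ 0 := by
  obtain ⟨-, a2⟩ := log_bds hw
  have a3 : Real.log ((1 + w x) / (1 - w x)) ≤ 0 := by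
    by_contra h1
    nlinarith [not_le.1 h1]
  rw [dd]
  nlinarith

theorem dd_sm (hw : Smooth w) (h : ∀ x, |w x| < 1) : Smooth (dd ε w) := by
  have p1 : ∀ x, 0 < 1 + w x := fun x => by linarith [(abs_lt.1 (h x)).1]
  have p2 : ∀ x, 0 < 1 - w x := fun x => by linarith [(abs_lt.1 (h x)).2]
  exact contDiff_const.mul (((contDiff_const.add hw).div (contDiff_const.sub hw)
    fun x => (p2 x).ne').log fun x => (div_pos (p1 x) (p2 x)).ne')

theorem pd_dd (hw : Smooth w) (h : |w x| < 1) (j : Fin n) :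
    pd j (dd ε w) x = ε / (1 - w x ^ 2) * pd j w x := by
  have p1 : 0 < 1 + w x := by linarith [(abs_lt.1 h).1]
  have p2 : 0 < 1 - w x := by linarith [(abs_lt.1 h).2]
  have d1 := (hw.diff x).const_add 1
  have d2 := (hw.diff x).const_sub 1
  have e : (1 - w x ^ 2 : ℝ) = (1 + w x) * (1 - w x) := by ring
  have d3 : DifferentiableAt ℝ (fun y => (1 + w y) / (1 - w y)) x := by
    simp only [div_eq_mul_inv]
    exact d1.fun_mul (d2.fun_inv p2.ne')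
  unfold dd
  rw [pd_const_mul, pd_log d3 (div_pos p1 p2).ne', pd_div d1 d2 p2.ne',
    pd_const_add, pd_const_sub, e]
  have := p1.ne'
  have := p2.ne'
  field_simp
  ring

theorem ev_small (A : ℝ) {a : ℝ} (ha : 0 < a) : ∀ᶠ ε in 𝓝[>] (0 : ℝ), A * ε ≤ a := by
  have h : Tendsto (fun ε : ℝ => A * ε) (𝓝[>] 0) (𝓝 (A * 0)) :=
    ((continuous_const.mul continuous_id).tendsto 0).mono_left nhdsWithin_le_nhds
  rw [mul_zero] at h
  exact h.eventually (eventually_le_nhds ha)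

/-- bounds for the scalar curvature of the states -/
theorem sig {B : Bg n} (hB : B.Ok) (L : ℝ) {a₀ : ℝ} (ha : 0 < a₀) : ∃ σ₀ C₀ : ℝ, 0 < σ₀ ∧ 0 ≤ C₀ ∧
    ∀ U a β R s', St B U a β R s' → a₀ ≤ a → ∀ x, ∃ σ, cl B.g U x = σ * U x ^ (2 * bb n) * U x ∧
      (0 ≤ B.F x → 0 < σ) ∧ (0 ≤ B.F x → ‖x‖ ≤ L → σ₀ ≤ σ) ∧ -C₀ ≤ σ := by
  have hb := bb_pos hB.dim
  have hγ : 0 < gam n := by linarith [one_lt_gam hB.dim]
  have U0 : ∀ x, 0 < B.U x := fun x => by linarith [(hB.Ub x).1]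
  have cQ : Continuous B.Q := by
    have e : B.Q = fun x => lap B.g B.U x / B.U x :=
      funext fun x => by rw [hB.eqn, mul_div_cancel_right₀ _ (U0 x).ne']
    rw [e]
    exact (hB.met.sm_lap hB.smU).cont.div hB.smU.cont fun x => (U0 x).ne'
  obtain ⟨S, hS⟩ : ∃ S : E n → ℝ, S = fun x => scal B.g x - 4 * gam n * B.Q x := ⟨_, rfl⟩
  have cS : Continuous S := hS ▸ hB.met.sm_scal.cont.sub (continuous_const.mul cQ)
  have S0 : ∀ x, 0 ≤ B.F x → 0 < S x := fun x hx => by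
    rw [hS]
    exact sub_pos.2 (hB.slack x hx)
  obtain ⟨σ₁, p1, h1⟩ := ((isCompact_closedBall (0 : E n) L).inter_left
    (isClosed_le continuous_const hB.smF.cont : IsClosed {x | 0 ≤ B.F x})).exists_forall_le'
    cS.continuousOn fun x hx => S0 x hx.1
  obtain ⟨C₁, h2⟩ := (isCompact_closedBall (0 : E n) B.ρ).exists_bound_of_continuousOn
    cS.continuousOn
  refine ⟨σ₁ / 2 ^ (2 * bb n), |C₁| / (a₀ / 2) ^ (2 * bb n), by positivity, by positivity,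
    fun U a β R s' hU haa x => ?_⟩
  have u0 := hU.pos hB x
  have u1 : 0 < U x ^ (2 * bb n) := Real.rpow_pos_of_pos u0 _
  have u2 : U x ^ (2 * bb n) ≤ 2 ^ (2 * bb n) :=
    Real.rpow_le_rpow u0.le (hU.le_two hB x) (by positivity)
  have u3 : (a₀ / 2) ^ (2 * bb n) ≤ U x ^ (2 * bb n) :=
    Real.rpow_le_rpow (by positivity) (by linarith [hU.half hB x]) (by positivity)
  have key : S x / U x ^ (2 * bb n) ≤ cl B.g U x / (U x ^ (2 * bb n) * U x) := by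
    rw [le_div_iff₀ (by positivity), ← mul_assoc, div_mul_cancel₀ _ u1.ne', hS, cl]
    nlinarith [mul_le_mul_of_nonneg_left (hU.sup x) hγ.le]
  refine ⟨cl B.g U x / (U x ^ (2 * bb n) * U x), by field_simp,
    fun hx => (div_pos (S0 x hx) u1).trans_le key, fun hx hL => le_trans ?_ key, le_trans ?_ key⟩
  · exact div_le_div₀ (S0 x hx).le (h1 x ⟨hx, mem_closedBall_zero_iff.2 hL⟩) u1 u2
  · by_cases hx : 0 ≤ B.F x
    · exact (neg_nonpos.2 (by positivity)).trans (div_pos (S0 x hx) u1).le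
    · have h3 : ‖x‖ ≤ B.ρ := le_of_not_ge fun h => hx (by linarith [hB.far x h, hB.s0])
      have h4 := h2 x (mem_closedBall_zero_iff.2 h3)
      rw [Real.norm_eq_abs] at h4
      have h5 : |C₁| / U x ^ (2 * bb n) ≤ |C₁| / (a₀ / 2) ^ (2 * bb n) :=
        div_le_div_of_nonneg_left (abs_nonneg _) (by positivity) u3
      have h6 : -|C₁| / U x ^ (2 * bb n) ≤ S x / U x ^ (2 * bb n) :=
        div_le_div_of_nonneg_right (by linarith [neg_abs_le (S x), le_abs_self C₁]) u1.le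
      rw [neg_div] at h6
      linarith

/-- the lower bound of the coefficient of a sheet -/
theorem cq_low {b δ f f' σ M C₀ Λ y : ℝ} (hb : 0 ≤ b) (hδ : 0 < δ) (f1 : δ ≤ f) (f2 : f ≤ 1)
    (f3 : δ ≤ f') (hM : 0 ≤ M) (hC : 0 ≤ C₀)
    (h : (0 ≤ σ ∧ y ≤ 0) ∨ (-C₀ ≤ σ ∧ y ≤ 8 * Λ ^ 2 ∧
      C₀ / (4 * δ ^ b) + 8 * Λ ^ 2 ≤ δ ^ b * M / 2)) :
    δ ^ b * M / 2 + max σ 0 / 4 ≤ f ^ (-b) * σ / 4 - y + M * f' ^ b := by
  have k0 : 0 < δ ^ b := Real.rpow_pos_of_pos hδ _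
  have f0 : 0 < f := hδ.trans_le f1
  have a1 : δ ^ b ≤ f' ^ b := Real.rpow_le_rpow hδ.le f3 hb
  have a2 : 1 ≤ f ^ (-b) := Real.one_le_rpow_of_pos_of_le_one_of_nonpos f0 f2 (neg_nonpos.2 hb)
  have a3 : f ^ (-b) ≤ (δ ^ b)⁻¹ := by
    rw [Real.rpow_neg f0.le]
    exact inv_anti₀ k0 (Real.rpow_le_rpow hδ.le f1 hb)
  have a4 := mul_le_mul_of_nonneg_left a1 hM
  have a5 : 0 ≤ δ ^ b * M := mul_nonneg k0.le hM
  have a6 : 0 ≤ σ → σ ≤ f ^ (-b) * σ := fun h => le_mul_of_one_le_left h a2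
  rcases h with ⟨h1, h2⟩ | ⟨h1, h2, h3⟩
  · rw [max_eq_left h1]
    linarith [a6 h1]
  · have a7 : C₀ / (4 * δ ^ b) = (δ ^ b)⁻¹ * C₀ / 4 := by field_simp
    have a8 : 0 ≤ (δ ^ b)⁻¹ * C₀ := by positivity
    rcases le_total 0 σ with h4 | h4
    · rw [max_eq_left h4]
      linarith [a6 h4]
    · rw [max_eq_right h4]
      have a9 : f ^ (-b) * -σ ≤ (δ ^ b)⁻¹ * C₀ :=
        mul_le_mul a3 (by linarith) (by linarith) (by positivity)
      linarith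

/-- the upper bound of the length of `W` -/
theorem w_up {k c r χ e P M σ N t₁ t₂ t₃ t₄ t₅ y : ℝ} (hk : 0 ≤ k) (hc : 0 ≤ c)
    (hχ : 0 ≤ χ) (he : 0 ≤ e) (hP : 0 ≤ P) (hN : 0 < N)
    (hM : c ^ 2 * (χ * e + P) * P / 2 ≤ M) (h0 : χ ≠ 0 → r ≤ c * P)
    (h1 : χ ≠ 0 → t₁ ≤ k * r / 24 * e) (h2 : c * t₂ ≤ σ / 16)
    (h3 : t₃ ≤ k * c / 24 * (P * χ * e) + t₅) (h5 : c * t₅ ≤ σ / 16) (h4 : t₄ ≤ 2 * e)
    (hy0 : 0 ≤ y) (hy : χ ≠ 0 → y ≤ k * r / (48 * N)) :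
    2 * (c * (χ * t₁ + t₂ + t₃ + N * χ * t₄ * y)) ≤ k * M / 2 + σ / 4 := by
  have a1 : k * (c ^ 2 * (χ * e * P) / 2) ≤ k * M := by
    refine mul_le_mul_of_nonneg_left (le_trans ?_ hM) hk
    nlinarith [mul_nonneg (sq_nonneg c) (mul_nonneg hP hP)]
  have a2 := mul_le_mul_of_nonneg_left h3 hc
  have a3 : c * (χ * t₁) + c * (N * χ * t₄ * y) ≤ k * c ^ 2 * (χ * e * P) / 12 := by
    by_cases hz : χ = 0
    · simp [hz]
    have b1 := mul_le_mul_of_nonneg_left (h1 hz) (mul_nonneg hc hχ)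
    have b2 : t₄ * y ≤ 2 * e * (k * r / (48 * N)) := mul_le_mul h4 (hy hz) hy0 (by positivity)
    have b3 := mul_le_mul_of_nonneg_left b2 (by positivity : 0 ≤ c * N * χ)
    have b4 : c * N * χ * (2 * e * (k * r / (48 * N))) = c * χ * (k * r / 24 * e) := by
      field_simp
      ring
    have b5 := mul_le_mul_of_nonneg_left (h0 hz) (by positivity : 0 ≤ k * c * χ * e)
    nlinarith
  nlinarith

theorem chi {s K : ℝ} {θ : ℝ → ℝ} (h : Cut (s / 2) s K θ) (hs : 0 < s) (d : ℝ) : ∃ χd,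
    HasDerivAt (fun t => θ t * θ (-t)) χd d ∧ |χd| ≤ 2 * K ∧ (χd ≠ 0 → s / 2 ≤ |d| ∧ |d| ≤ s) ∧
    0 ≤ θ d * θ (-d) ∧ θ d * θ (-d) ≤ 1 ∧ (θ d * θ (-d) ≠ 0 → |d| ≤ s) ∧
    (|d| ≤ s / 2 → θ d * θ (-d) = 1) := by
  obtain ⟨a1, a2⟩ := h.mem d
  obtain ⟨a3, a4⟩ := h.mem (-d)
  refine ⟨_, (h.has d).fun_mul ((h.has (-d)).comp d (hasDerivAt_neg d)), ?_, fun hz => ?_,
    mul_nonneg a1 a3, mul_le_one₀ a2 a3 a4, fun hz => ?_, fun hd => ?_⟩
  · refine (abs_add_le _ _).trans ?_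
    simp only [abs_mul, abs_neg, abs_one, mul_one, abs_of_nonneg a1,
      abs_of_nonneg a3]
    nlinarith [h.bd d, h.bd (-d), abs_nonneg (deriv θ d), abs_nonneg (deriv θ (-d))]
  · by_cases h1 : deriv θ d = 0
    · have h2 := h.supp (-d) fun h2 => hz (by simp [h1, h2])
      rw [abs_of_nonpos (by linarith)]
      exact h2
    · have h2 := h.supp d h1
      rw [abs_of_nonneg (by linarith)]
      exact h2
  · refine abs_le.2 ⟨le_of_not_ge fun h1 => hz ?_, le_of_not_ge fun h1 => hz ?_⟩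
    · rw [h.zero (-d) (by linarith), mul_zero]
    · rw [h.zero d h1, zero_mul]
  · rw [h.one d (abs_le.1 hd).2, h.one (-d) (by linarith [(abs_le.1 hd).1]), mul_one]

/-- the elementary properties of the energy density -/
theorem en_facts {ε X W e ξ : ℝ} (hε : 0 < ε) (he : e = ε * X ^ 2 / 2 + Wp W / ε)
    (hξ : ξ = ε * X ^ 2 / 2 - Wp W / ε) :
    0 ≤ e ∧ |ξ| ≤ e ∧ (1 - W ^ 2) * X ≤ e ∧ ε * X ^ 2 ≤ 2 * e := by
  have a1 : 0 ≤ Wp W / ε := by unfold Wp; positivity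
  have a2 : 0 ≤ ε * X ^ 2 := by positivity
  refine ⟨by linarith, abs_le.2 ⟨by linarith, by linarith⟩, ?_, by linarith⟩
  have a3 : e - (1 - W ^ 2) * X = (ε * X - (1 - W ^ 2)) ^ 2 / (2 * ε) := by
    rw [he, Wp]
    field_simp
    ring
  have a4 : 0 ≤ (ε * X - (1 - W ^ 2)) ^ 2 / (2 * ε) := by positivity
  linarith

theorem en_small {ε X W e s : ℝ} (hε : 0 < ε) (hs : 0 < s) (he : e = ε * X ^ 2 / 2 + Wp W / ε)
    (hX : 0 ≤ X) (hW : 0 < 1 - W ^ 2) (h1 : ε / (1 - W ^ 2) * X ≤ 2)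
    (h2 : (1 - W ^ 2) * (s / 2) ≤ 2 * ε) : e ≤ 40 / s ^ 2 * ε := by
  obtain ⟨y, hy⟩ : ∃ y, y = 1 - W ^ 2 := ⟨_, rfl⟩
  rw [Wp] at he
  rw [← hy] at he hW h1 h2
  rw [div_mul_eq_mul_div, div_le_iff₀ hW] at h1
  have a1 : (ε * X) ^ 2 ≤ (2 * y) ^ 2 := pow_le_pow_left₀ (by positivity) h1 2
  have a2 : (y * (s / 2)) ^ 2 ≤ (2 * ε) ^ 2 := pow_le_pow_left₀ (by positivity) h2 2
  have a3 : e * ε = (ε * X) ^ 2 / 2 + y ^ 2 / 2 := by
    rw [he]
    field_simp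
  rw [div_mul_eq_mul_div, le_div_iff₀ (by positivity)]
  refine le_of_mul_le_mul_right ?_ hε
  have a4 : e * ε ≤ 5 / 2 * y ^ 2 := by nlinarith
  nlinarith [mul_le_mul_of_nonneg_right a4 (sq_nonneg s)]

end McX

end Vale.Agent.P366Z
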