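import Vale.Agent.P366Z.Int
import Mathlib.Analysis.SpecialFunctions.Artanh
import Mathlib.Analysis.SpecialFunctions.Trigonometric.DerivHyp
import Mathlib.Analysis.Normed.Lp.SmoothApprox
import Mathlib.MeasureTheory.Integral.IntervalIntegral.FundThmCalculus

/-!
# P366Z: the one dimensional profile, the average over the levels, the approximation
-/

open MeasureTheory Metric Filter Topology Set
open scoped ContDiff ENNReal NNReal
open Vale.Agent.P366.Stmt

noncomputable section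

namespace Vale.Agent.P366Z.Upp

open Real (tanh artanh)

theorem hd_tanh (s : ℝ) : HasDerivAt tanh (1 - tanh s ^ 2) s := by
  have h0 := (Real.cosh_pos s).ne'
  have h := (Real.hasDerivAt_sinh s).fun_div (Real.hasDerivAt_cosh s) h0
  rw [← funext Real.tanh_eq_sinh_div_cosh] at h
  refine h.congr_deriv ?_
  rw [Real.tanh_eq_sinh_div_cosh]
  field_simp

theorem cont_tanh : Continuous tanh := continuous_iff_continuousAt.2 fun s => (hd_tanh s).continuousAt

theorem lip_tanh : LipschitzWith 1 tanh :=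
  lipschitzWith_of_nnnorm_deriv_le (fun s => (hd_tanh s).differentiableAt) fun s => by
    rw [(hd_tanh s).deriv, ← NNReal.coe_le_coe, coe_nnnorm, Real.norm_eq_abs, NNReal.coe_one, abs_le]
    constructor <;> nlinarith [Real.tanh_sq_lt_one s, sq_nonneg (tanh s)]

/-- the truncated profile -/
def th (θ s : ℝ) : ℝ := max (-1) (min 1 (tanh s / θ))

theorem cont_th (θ : ℝ) : Continuous (th θ) :=
  continuous_const.max (continuous_const.min (cont_tanh.div_const θ))

theorem abs_th (θ s : ℝ) : |th θ s| ≤ 1 :=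
  abs_le.2 ⟨le_max_left _ _, max_le (by norm_num) (min_le_left _ _)⟩

variable {θ s : ℝ}

theorem le_tanh (h : θ ∈ Ioo (0 : ℝ) 1) : θ ≤ tanh s ↔ artanh θ ≤ s := by
  rw [← Real.artanh_le_artanh_iff ⟨by linarith [h.1], h.2⟩
    ⟨Real.neg_one_lt_tanh s, Real.tanh_lt_one s⟩, Real.artanh_tanh]

theorem th_one (h : θ ∈ Ioo (0 : ℝ) 1) (hs : artanh θ ≤ s) : th θ s = 1 := by
  rw [th, min_eq_left ((one_le_div h.1).2 ((le_tanh h).2 hs)), max_eq_right (by norm_num)]

theorem th_neg (h : θ ∈ Ioo (0 : ℝ) 1) (hs : s ≤ -artanh θ) : th θ s = -1 := by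
  have h1 : θ ≤ tanh (-s) := (le_tanh h).2 (by linarith)
  rw [Real.tanh_neg] at h1
  refine max_eq_left (min_le_of_right_le ?_)
  rw [div_le_iff₀ h.1]
  linarith

theorem tanh_mid (h : θ ∈ Ioo (0 : ℝ) 1) (hs : |s| < artanh θ) : |tanh s| < θ := by
  have h1 := mt (le_tanh (s := s) h).1 (not_le.2 (abs_lt.1 hs).2)
  have h2 := mt (le_tanh (s := -s) h).1 (not_le.2 (by linarith [(abs_lt.1 hs).1]))
  rw [Real.tanh_neg] at h2
  exact abs_lt.2 ⟨by linarith, by linarith⟩

theorem th_mid (h : θ ∈ Ioo (0 : ℝ) 1) (hs : |s| < artanh θ) : th θ s = tanh s / θ := by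
  have h1 := abs_lt.1 (tanh_mid h hs)
  rw [th, min_eq_right ((div_le_one h.1).2 h1.2.le),
    max_eq_right ((le_div_iff₀ h.1).2 (by linarith))]

theorem hd_th (h : θ ∈ Ioo (0 : ℝ) 1) (hs : |s| < artanh θ) :
    HasDerivAt (th θ) ((1 - tanh s ^ 2) / θ) s := by
  refine ((hd_tanh s).div_const θ).congr_of_eventuallyEq ?_
  filter_upwards [(isOpen_lt continuous_abs continuous_const).mem_nhds hs] with y hy
    using th_mid h hy

theorem wp_th (h : θ ∈ Ioo (0 : ℝ) 1) (hs : |s| < artanh θ) :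
    Wp (th θ s) ≤ (1 - tanh s ^ 2) ^ 2 / 2 := by
  have h1 : tanh s ^ 2 ≤ θ ^ 2 := sq_le_sq' (abs_lt.1 (tanh_mid h hs)).1.le
    (abs_lt.1 (tanh_mid h hs)).2.le
  have h2 : 0 < θ ^ 2 := pow_pos h.1 2
  have h3 : θ ^ 2 ≤ 1 := by nlinarith [h.1, h.2]
  have h4 : tanh s ^ 2 / θ ^ 2 ≤ 1 := (div_le_one h2).2 h1
  have h5 : tanh s ^ 2 ≤ tanh s ^ 2 / θ ^ 2 := le_div_self (sq_nonneg _) h2 h3
  rw [Wp, th_mid h hs, div_pow]
  gcongr

theorem ph_mem {w : ℝ} (h : |w| ≤ 1) : 0 ≤ Ph w ∧ Ph w ≤ 4 / 3 := by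
  have h1 := abs_le.1 h
  unfold Ph
  constructor
  · nlinarith [mul_nonneg (sq_nonneg (w + 1)) (sub_nonneg.2 (h1.2.trans one_le_two))]
  · nlinarith [mul_nonneg (sq_nonneg (w - 1)) (show 0 ≤ w + 2 by linarith [h1.1])]

theorem cont_ph : Continuous Ph := by unfold Ph; fun_prop

theorem hd_ph (w : ℝ) : HasDerivAt Ph (1 - w ^ 2) w := by
  have := (((hasDerivAt_id' w).sub ((hasDerivAt_pow 3 w).div_const 3)).add_const (2 / 3))
  exact this.congr_deriv (by push_cast; ring)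

theorem int1 (y a b : ℝ) {c : ℝ} (hc : 0 < c) :
    ∫⁻ t in Icc a b, ENNReal.ofReal ((1 - tanh ((y - t) / c) ^ 2) ^ 2) ≤
      ENNReal.ofReal (4 / 3 * c) := by
  rcases lt_or_ge b a with h | h
  · rw [Icc_eq_empty (not_le.2 h)]; simp
  have h1 : Continuous fun t => (1 - tanh ((y - t) / c) ^ 2) ^ 2 :=
    (continuous_const.sub ((cont_tanh.comp (by fun_prop)).pow 2)).pow 2
  rw [← ofReal_integral_eq_lintegral_ofReal h1.integrableOn_Icc
    (Eventually.of_forall fun t => sq_nonneg _), integral_Icc_eq_integral_Ioc,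
    ← intervalIntegral.integral_of_le h, intervalIntegral.integral_eq_sub_of_hasDerivAt
      (f := fun t => -c * Ph (tanh ((y - t) / c))) (fun t _ => ?_) (h1.intervalIntegrable _ _)]
  · refine ENNReal.ofReal_le_ofReal ?_
    have h2 := ph_mem (Real.abs_tanh_lt_one ((y - a) / c)).le
    have h3 := ph_mem (Real.abs_tanh_lt_one ((y - b) / c)).le
    nlinarith [h2.2, h3.1]
  · have h2 : HasDerivAt (fun t => (y - t) / c) (-1 / c) t :=
      ((hasDerivAt_id' t).const_sub y).div_const c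
    refine (((hd_ph _).comp t ((hd_tanh _).comp t h2)).const_mul (-c)).congr_deriv ?_
    simp only [Function.comp]
    field_simp

theorem int2 (h : θ ∈ Ioo (0 : ℝ) 1) (y a b : ℝ) {c : ℝ} (hc : 0 < c) (ha : artanh θ * c ≤ a) :
    ∫⁻ t in Icc a b, ENNReal.ofReal (Ph (th θ ((y - t) / c))) ≤ ENNReal.ofReal (4 / 3 * y) := by
  refine (setLIntegral_mono' measurableSet_Icc (g := (Icc a (y + a)).indicator fun _ =>
    ENNReal.ofReal (4 / 3)) fun t ht => ?_).trans ?_
  · by_cases k : t ≤ y + a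
    · rw [indicator_of_mem (show t ∈ Icc a (y + a) from ⟨ht.1, k⟩)]
      exact ENNReal.ofReal_le_ofReal (ph_mem (abs_th _ _)).2
    · rw [th_neg h (by rw [div_le_iff₀ hc]; linarith), show Ph (-1) = 0 by norm_num [Ph]]
      simp
  · refine (setLIntegral_le_lintegral _ _).trans ?_
    rw [lintegral_indicator_const measurableSet_Icc, Real.volume_Icc,
      ENNReal.ofReal_mul (by norm_num), add_sub_cancel_right]

/-- the average over the levels -/
theorem avg {X : Type} [MeasurableSpace X] (μ : Measure X) [SFinite μ] (h : θ ∈ Ioo (0 : ℝ) 1)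
    {ψ c H v : X → ℝ} (hψ : Measurable ψ) (hc : Measurable c) (hH : Measurable H)
    (hv : Measurable v) (c0 : ∀ x, 0 < c x) (H0 : ∀ x, 0 ≤ H x) (v0 : ∀ x, 0 ≤ v x)
    (ψ0 : ∀ x, 0 ≤ ψ x) {a b : ℝ} (ha : ∀ x, artanh θ * c x ≤ a) {e : ℝ≥0∞}
    (he : ∀ t ∈ Icc a b, e ≤ ∫⁻ x, ENNReal.ofReal ((1 - tanh ((ψ x - t) / c x) ^ 2) ^ 2 * H x +
      v x * Ph (th θ ((ψ x - t) / c x))) ∂μ) :
    e * ENNReal.ofReal (b - a) ≤ ∫⁻ x, ENNReal.ofReal (4 / 3 * c x * H x + 4 / 3 * v x * ψ x) ∂μ := by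
  have m1 := cont_tanh.measurable
  have m2 := (cont_ph.comp (cont_th θ)).measurable
  rw [← Real.volume_Icc, ← setLIntegral_const]
  refine (setLIntegral_mono' measurableSet_Icc he).trans ?_
  have m3 : Measurable fun z : ℝ × X => (ψ z.2 - z.1) / c z.2 := by fun_prop
  rw [lintegral_lintegral_swap]
  · refine lintegral_mono fun x => ?_
    have m4 : Measurable fun t : ℝ => (ψ x - t) / c x := by fun_prop
    have e1 : ∀ t, ENNReal.ofReal ((1 - tanh ((ψ x - t) / c x) ^ 2) ^ 2 * H x +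
        v x * Ph (th θ ((ψ x - t) / c x))) =
        ENNReal.ofReal ((1 - tanh ((ψ x - t) / c x) ^ 2) ^ 2) * ENNReal.ofReal (H x) +
        ENNReal.ofReal (v x) * ENNReal.ofReal (Ph (th θ ((ψ x - t) / c x))) := fun t => by
      rw [ENNReal.ofReal_add (mul_nonneg (sq_nonneg _) (H0 x))
        (mul_nonneg (v0 x) (ph_mem (abs_th _ _)).1), ENNReal.ofReal_mul (sq_nonneg _),
        ENNReal.ofReal_mul (v0 x)]
    have m5 : Measurable fun t => ENNReal.ofReal ((1 - tanh ((ψ x - t) / c x) ^ 2) ^ 2) :=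
      ((measurable_const.sub ((m1.comp m4).pow_const 2)).pow_const 2).ennreal_ofReal
    simp only [e1]
    rw [lintegral_add_left (m5.mul_const _), lintegral_mul_const _ m5,
      lintegral_const_mul' _ _ ENNReal.ofReal_ne_top,
      ENNReal.ofReal_add (mul_nonneg (by linarith [c0 x]) (H0 x))
        (mul_nonneg (by linarith [v0 x]) (ψ0 x)), ENNReal.ofReal_mul (by linarith [c0 x]),
      show 4 / 3 * v x * ψ x = v x * (4 / 3 * ψ x) by ring, ENNReal.ofReal_mul (v0 x)]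
    gcongr
    · exact int1 _ _ _ (c0 x)
    · exact int2 h _ _ _ (c0 x) (ha x)
  · exact ((((measurable_const.sub ((m1.comp m3).pow_const 2)).pow_const 2).mul
      (hH.comp measurable_snd)).add ((hv.comp measurable_snd).mul
        (m2.comp m3))).ennreal_ofReal.aemeasurable

theorem defect {f M r y : ℝ} (h0 : 0 ≤ f) (hM : f ≤ M) (hr : 0 < r) :
    f ^ 2 / √(y ^ 2 + r ^ 2) + √(y ^ 2 + r ^ 2) - 2 * f ≤ r + (1 + M / r) * |f - y| := by
  have h1 : r ≤ √(y ^ 2 + r ^ 2) := Real.le_sqrt_of_sq_le (by nlinarith)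
  have h2 : |y| ≤ √(y ^ 2 + r ^ 2) := Real.abs_le_sqrt (by nlinarith)
  have h3 : √(y ^ 2 + r ^ 2) ≤ |y| + r := Real.sqrt_le_iff.2
    ⟨by positivity, by nlinarith [sq_abs y, mul_nonneg (abs_nonneg y) hr.le]⟩
  generalize √(y ^ 2 + r ^ 2) = k at *
  have h4 : 0 < k := hr.trans_le h1
  have h5 := abs_le.1 ((abs_abs_sub_abs_le f y).trans_eq (Real.norm_eq_abs _))
  rw [abs_of_nonneg h0] at h5
  have h6 : 0 ≤ M / r := div_nonneg (h0.trans hM) hr.le
  have h7 := abs_nonneg (f - y)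
  rw [show f ^ 2 / k + k - 2 * f = (f - k) * ((f - k) / k) by field_simp; ring]
  rcases le_total f k with h | h
  · have : (k - f) / k ≤ 1 := (div_le_one h4).2 (by linarith)
    have h8 : (f - k) * ((f - k) / k) = (k - f) * ((k - f) / k) := by ring
    nlinarith [mul_nonneg h6 h7, mul_le_mul_of_nonneg_left this (sub_nonneg.2 h)]
  · have : (f - k) / k ≤ M / r := div_le_div₀ (h0.trans hM) (by linarith) hr h1
    nlinarith [mul_le_mul (show f - k ≤ |f - y| by linarith) this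
      (div_nonneg (sub_nonneg.2 h) h4.le) h7]

/-- the approximation of a bounded function by a smooth positive function -/
theorem approx {n : ℕ} {f : E n → ℝ} (hf : Integrable f) {M : ℝ} (h0 : ∀ x, 0 ≤ f x)
    (hM : ∀ x, f x ≤ M) {S : Set (E n)} (hS : volume S ≠ ⊤) {δ : ℝ} (hδ : 0 < δ) :
    ∃ (k : E n → ℝ) (r K : ℝ), 0 < r ∧ Smooth k ∧ Lip k ∧ Lip (fun x => (k x)⁻¹) ∧
      (∀ x, r ≤ k x ∧ k x ≤ K) ∧
      ∫⁻ x in S, ENNReal.ofReal (f x ^ 2 / k x + k x - 2 * f x) ≤ ENNReal.ofReal δ := by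
  have hV : 0 ≤ (volume S).toReal := ENNReal.toReal_nonneg
  obtain ⟨r, hr, hr'⟩ : ∃ r, 0 < r ∧ r * (volume S).toReal ≤ δ / 2 :=
    ⟨δ / 2 / ((volume S).toReal + 1), by positivity, by
      rw [div_mul_eq_mul_div, div_le_iff₀ (by positivity)]; nlinarith⟩
  have hM0 : 0 < 1 + M / r := by have := (h0 0).trans (hM 0); positivity
  obtain ⟨y, h1, h2, h3⟩ := (memLp_one_iff_integrable.2 hf).exist_eLpNorm_sub_le ENNReal.one_ne_top
    le_rfl (ε := δ / 2 / (1 + M / r)) (by positivity)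
  obtain ⟨R, -, hR⟩ := out_of_supp h1
  have h4 : ∀ x, r ≤ √(y x ^ 2 + r ^ 2) := fun x => Real.le_sqrt_of_sq_le (by nlinarith)
  have h5 : Smooth fun x => √(y x ^ 2 + r ^ 2) :=
    ContDiff.sqrt ((h2.pow 2).add contDiff_const) fun x => by positivity
  have h6 : ∀ x, R < ‖x‖ → √(y x ^ 2 + r ^ 2) = √(0 ^ 2 + r ^ 2) := fun x k => by rw [hR x k.le]
  obtain ⟨K, -, hK⟩ := bdd_of_const h5 h6
  refine ⟨_, r, K, hr, h5, lip_of_const h5 h6, lip_of_const (ContDiff.inv h5 fun x =>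
    (hr.trans_le (h4 x)).ne') fun x k => congrArg _ (h6 x k),
    fun x => ⟨h4 x, (le_abs_self _).trans (hK x).1⟩, ?_⟩
  rw [eLpNorm_one_eq_lintegral_enorm] at h3
  refine (lintegral_mono (g := fun x => ENNReal.ofReal r + ENNReal.ofReal (1 + M / r) * ‖(f - y) x‖ₑ)
    fun x => ?_).trans ?_
  · refine (ENNReal.ofReal_le_ofReal (defect (h0 x) (hM x) hr)).trans_eq ?_
    rw [ENNReal.ofReal_add hr.le (by positivity), ENNReal.ofReal_mul hM0.le, ← Real.norm_eq_abs,
      ofReal_norm]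
    rfl
  · rw [lintegral_add_left measurable_const, lintegral_const_mul' _ _ ENNReal.ofReal_ne_top,
      setLIntegral_const, ← add_halves δ,
      ENNReal.ofReal_add (p := δ / 2) (by positivity) (by positivity)]
    refine add_le_add ?_ ?_
    · rw [← ENNReal.ofReal_toReal hS, ← ENNReal.ofReal_mul hr.le]
      exact ENNReal.ofReal_le_ofReal hr'
    · refine (mul_le_mul_right ((setLIntegral_le_lintegral _ _).trans h3) _).trans_eq ?_
      rw [← ENNReal.ofReal_mul hM0.le, mul_div_cancel₀ _ hM0.ne']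

end Vale.Agent.P366Z.Upp
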