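import Vale.Agent.P366Z.Sk
import Vale.Agent.P366Z.Int

/-!
# P366Z, row E4: decay of the potential near a fat set
-/

open MeasureTheory Metric Filter Topology Set
open scoped ContDiff ENNReal
open Vale.Agent.P366.Stmt

noncomputable section

namespace Vale.Agent.P366Z

namespace E4H

variable {n : ℕ}

theorem step (hMV : MV) (hn : 3 ≤ n) {C c d a t M : ℝ} {U h : E n → ℝ} {x₀ y : E n} (ha : 0 < a)
    (ht : 0 < t) (hU : Smooth U) (hh : Smooth h) (hd : d ≤ M)
    (hb : ∀ x ∈ ball x₀ (3 * t), a ≤ U x ∧ U x ≤ C * a ∧ lap (eu n) U x ≤ 0 ∧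
      0 ≤ wl (eu n) U h x ∧ h x ≤ M)
    (hf : ENNReal.ofReal (c * t ^ n) ≤ volume (ball x₀ t ∩ {x | h x ≤ d})) (hy : y ∈ ball x₀ t) :
    c * (M - d) ≤ omega n / n * 2 ^ n * C * (M - h y) := by
  have hn0 : 0 < n := by omega
  have hom := omega_pos hn0
  have hk : ContDiff ℝ 2 fun z => M - h z := contDiff_const.sub (ContDiff.of_le hh (by norm_cast))
  have hU2 : ContDiff ℝ 2 U := ContDiff.of_le hU (by norm_cast)
  have hu : ContDiff ℝ 2 fun z => U z * (M - h z) := hU2.mul hk
  have s1 : ball y (2 * t) ⊆ ball x₀ (3 * t) := ball_subset_ball' (by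
    rw [mem_ball] at hy
    linarith)
  have s2 : ball x₀ t ⊆ ball y (2 * t) := ball_subset_ball' (by
    rw [mem_ball'] at hy
    linarith)
  have h1 := hMV n _ y (2 * t) hn (by positivity) hu fun z hz => by
    obtain ⟨b1, -, b3, b4, b5⟩ := hb z (s1 hz)
    have b0 : 0 < U z := ha.trans_le b1
    rw [met_eu.lap_mul_wl hU2.contDiffAt hk.contDiffAt b0.ne', wl_const_sub, neg_div]
    have := mul_nonpos_of_nonneg_of_nonpos (sub_nonneg.2 b5) b3
    have := div_nonneg b4 b0.le
    linarith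
  have hi : IntegrableOn (fun z => U z * (M - h z)) (ball y (2 * t)) :=
    (hu.continuous.continuousOn.integrableOn_compact (isCompact_closedBall y (2 * t))).mono_set
      ball_subset_closedBall
  have hA : MeasurableSet (ball x₀ t ∩ {x | h x ≤ d}) :=
    measurableSet_ball.inter (isClosed_le hh.continuous continuous_const).measurableSet
  have s3 : ball x₀ t ∩ {x | h x ≤ d} ⊆ ball y (2 * t) := inter_subset_left.trans s2
  have hfin : volume (ball x₀ t ∩ {x | h x ≤ d}) ≠ ⊤ :=
    ((measure_mono inter_subset_left).trans_lt measure_ball_lt_top).ne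
  have h2 : ∫ z in ball x₀ t ∩ {x | h x ≤ d}, U z * (M - h z) ≤
      ∫ z in ball y (2 * t), U z * (M - h z) :=
    setIntegral_mono_set hi ((ae_restrict_iff' measurableSet_ball).2 (.of_forall fun z hz =>
      mul_nonneg (ha.le.trans (hb z (s1 hz)).1) (sub_nonneg.2 (hb z (s1 hz)).2.2.2.2)))
      s3.eventuallyLE
  have h3 := setIntegral_ge_of_const_le_real (c := a * (M - d)) hA hfin
    (fun z hz => mul_le_mul (hb z (s1 (s3 hz))).1 (sub_le_sub_left hz.2 M) (sub_nonneg.2 hd)
      (ha.le.trans (hb z (s1 (s3 hz))).1)) (hi.mono_set s3)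
  have h4 : c * t ^ n ≤ volume.real (ball x₀ t ∩ {x | h x ≤ d}) :=
    (ENNReal.ofReal_le_iff_le_toReal hfin).1 hf
  obtain ⟨-, b2, -, -, b5⟩ := hb y (s1 (mem_ball_self (by positivity)))
  have h5 : a * (M - d) * (c * t ^ n) ≤ omega n / n * (2 * t) ^ n * (C * a * (M - h y)) := by
    rw [real_ball hn0 y (by positivity)] at h1
    refine (mul_le_mul_of_nonneg_left h4 (mul_nonneg ha.le (sub_nonneg.2 hd))).trans
      (h3.trans (h2.trans (h1.trans ?_)))
    exact mul_le_mul_of_nonneg_left (mul_le_mul_of_nonneg_right b2 (sub_nonneg.2 b5))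
      (by positivity)
  refine le_of_mul_le_mul_right ?_ (mul_pos ha (pow_pos ht n))
  rw [mul_pow] at h5
  linarith

end E4H

theorem e4_of (hMV : MV) : E4 := by
  intro n C₀ c δ₂ hn hc hδ
  have hn0 : 0 < n := by omega
  have hom := omega_pos hn0
  have hK : 0 < omega n / n * 2 ^ n * max C₀ 1 := by positivity
  set K := omega n / n * 2 ^ n * max C₀ 1 with hKd
  set θ := min (c / K) (1 / 2) with hθ
  have θ0 : 0 < θ := lt_min (by positivity) (by norm_num)
  have θ1 : θ ≤ 1 / 2 := min_le_right _ _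
  have θ2 : θ * K ≤ c := (le_div_iff₀ hK).1 (min_le_left _ _)
  obtain ⟨m, hm⟩ := exists_pow_lt_of_lt_one (half_pos hδ) (sub_lt_self 1 θ0)
  refine ⟨(1 / 3) ^ m, by positivity, fun U h x₀ a R ha hR hU hh hb hf => ?_⟩
  have hle : ∀ i : ℕ, (1 / 3 : ℝ) ^ i * R ≤ R := fun i =>
    mul_le_of_le_one_left hR.le (pow_le_one₀ (by norm_num) (by norm_num))
  have key : ∀ i ≤ m, ∀ x ∈ ball x₀ ((1 / 3) ^ i * R), h x ≤ δ₂ / 2 + (1 - θ) ^ i := by
    intro i
    induction i with
    | zero =>
      intro _ x hx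
      rw [pow_zero, one_mul] at hx
      rw [pow_zero]
      linarith [(hb x hx).2.2.2.2.2]
    | succ i ih =>
      intro hi y hy
      have hp : 0 ≤ (1 - θ) ^ i := pow_nonneg (by linarith) _
      have e : 3 * ((1 / 3 : ℝ) ^ (i + 1) * R) = (1 / 3) ^ i * R := by ring
      have h1 := E4H.step hMV hn (C := max C₀ 1) (c := c) (d := δ₂ / 2)
        (M := δ₂ / 2 + (1 - θ) ^ i) ha (by positivity) hU hh (by linarith)
        (fun x hx => by
          rw [e] at hx
          obtain ⟨b1, b2, b3, b4, -, -⟩ := hb x (ball_subset_ball (hle i) hx)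
          exact ⟨b1, b2.trans (mul_le_mul_of_nonneg_right (le_max_left _ _) ha.le), b3, b4,
            ih (by omega) x hx⟩)
        (hf _ (mul_le_mul_of_nonneg_right
          (pow_le_pow_of_le_one (by norm_num) (by norm_num) hi) hR.le) (hle _)) hy
      rw [← hKd, add_sub_cancel_left] at h1
      have h2 : K * (θ * (1 - θ) ^ i) ≤ K * (δ₂ / 2 + (1 - θ) ^ i - h y) := by
        have := mul_le_mul_of_nonneg_right θ2 hp
        linarith
      have h3 := le_of_mul_le_mul_left h2 hK
      rw [pow_succ]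
      linarith
  intro x hx
  linarith [key m le_rfl x hx]

end Vale.Agent.P366Z
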