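import Vale.Agent.P366Z.Int

/-!
# P366Z, row GROW: the frozen quadratic form
-/

open MeasureTheory Metric Filter Topology Set
open scoped ContDiff
open Vale.Agent.P366.Stmt

noncomputable section

namespace Vale.Agent.P366Z.Grow

variable {n : ℕ} {g : Field n} {U : E n → ℝ} {Λ : ℝ}

theorem abs_sum_le {f : Fin n → ℝ} {B : ℝ} (h : ∀ i, |f i| ≤ B) : |∑ i, f i| ≤ n * B := by
  refine (Finset.abs_sum_le_sum_abs _ _).trans ?_
  simpa using Finset.sum_le_card_nsmul Finset.univ (fun i => |f i|) B fun i _ => h i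

theorem abs_mul_le {a b A B : ℝ} (ha : |a| ≤ A) (hb : |b| ≤ B) : |a * b| ≤ A * B := by
  rw [abs_mul]
  exact mul_le_mul ha hb (abs_nonneg _) ((abs_nonneg _).trans ha)

/-- the covector of `y - x` for the metric at `x` -/
def xi (g : Field n) (x : E n) (i : Fin n) (y : E n) : ℝ := ∑ j, g x i j * (y j - x j)

/-- the squared length of `y - x` for the metric at `x` -/
def qf (g : Field n) (x y : E n) : ℝ := ∑ i, (y i - x i) * xi g x i y

theorem qf_eq (x y : E n) : qf g x y = ∑ i, ∑ j, g x i j * (y - x) i * (y - x) j := by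
  unfold qf xi
  refine Finset.sum_congr rfl fun i _ => ?_
  rw [Finset.mul_sum]
  refine Finset.sum_congr rfl fun j _ => ?_
  simp only [PiLp.sub_apply]
  ring

theorem sm_sub (x : E n) (i : Fin n) : Smooth fun y : E n => y i - x i :=
  (contDiff_coord i).sub contDiff_const

theorem sm_xi (x : E n) (i : Fin n) : Smooth (xi g x i) :=
  ContDiff.sum fun j _ => contDiff_const.mul (sm_sub x j)

theorem sm_qf (x : E n) : Smooth (qf g x) :=
  ContDiff.sum fun i _ => ContDiff.mul (sm_sub x i) (sm_xi x i)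

theorem pd_xi (x y : E n) (i k : Fin n) : pd k (xi g x i) y = g x i k := by
  unfold xi
  rw [pd_sum _ fun j _ => (Smooth.diff (f := fun y : E n => g x i j * (y j - x j))
    (contDiff_const.mul (sm_sub x j)) y)]
  simp [pd_const_mul, pd_sub_const, pd_coord]

theorem pd_qf (hg : Met g) (x : E n) (k : Fin n) : pd k (qf g x) = fun y => 2 * xi g x k y := by
  funext y
  unfold qf
  rw [pd_sum _ fun i _ => (Smooth.diff (f := fun y : E n => (y i - x i) * xi g x i y)
    (ContDiff.mul (sm_sub x i) (sm_xi x i)) y)]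
  have h : ∀ i, pd k (fun y : E n => (y i - x i) * xi g x i y) y =
      (if k = i then xi g x i y else 0) + g x k i * (y i - x i) := by
    intro i
    rw [pd_mul ((sm_sub x i).diff y) ((sm_xi x i).diff y), pd_xi, pd_sub_const, pd_coord,
      hg.sy x k i]
    split_ifs <;> ring
  simp only [h, Finset.sum_add_distrib, Finset.sum_ite_eq, Finset.mem_univ, if_true]
  unfold xi
  ring

theorem qf_lo (hΛ : Ell g Λ) (x y : E n) : ‖y - x‖ ^ 2 ≤ Λ * qf g x y := by
  rw [norm_sq_eq, qf_eq]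
  exact hΛ.g_lo x fun i => (y - x) i

theorem qf_hi (hΛ : Ell g Λ) (x y : E n) : qf g x y ≤ Λ * ‖y - x‖ ^ 2 := by
  rw [norm_sq_eq, qf_eq]
  exact hΛ.g_hi x fun i => (y - x) i

theorem qf_nonneg (hg : Met g) (x y : E n) : 0 ≤ qf g x y := by
  rw [qf_eq]
  exact hg.g_nonneg x fun i => (y - x) i

theorem abs_xi_le (hΛ : Ell g Λ) (x y : E n) (i : Fin n) :
    |xi g x i y| ≤ n * (Λ * ‖y - x‖) :=
  abs_sum_le fun j => abs_mul_le (hΛ.g_bd x i j).1 (PiLp.norm_apply_le (y - x) j)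

theorem up_lip (hg : Met g) (hΛ : Ell g Λ) (x y : E n) (i j : Fin n) :
    |up g i j y - up g i j x| ≤ Λ * ‖y - x‖ :=
  Convex.norm_image_sub_le_of_norm_fderiv_le (fun z _ => (hg.sm_up i j).diff z)
    (fun z _ => (hΛ.up_bd z i j).2) convex_univ (mem_univ x) (mem_univ y)

theorem up_xi (hg : Met g) (x y : E n) (i : Fin n) :
    ∑ j, up g i j x * xi g x j y = y i - x i := by
  unfold xi
  simp only [Finset.mul_sum, ← mul_assoc]
  rw [Finset.sum_comm]
  simp only [← Finset.sum_mul, hg.up_mul]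
  simp

theorem lap_qf (hg : Met g) (hΛ : Ell g Λ) (x y : E n) :
    |lap g (qf g x) y - 2 * n| ≤ 4 * (n * (n * (Λ * Λ))) * ‖y - x‖ := by
  have h1 : ∑ i, ∑ j, up g i j x * (2 * g x j i) = 2 * n := by
    have : ∀ i, ∑ j, up g i j x * (2 * g x j i) = 2 := by
      intro i
      have h := hg.up_mul i i x
      rw [if_pos rfl] at h
      calc _ = 2 * ∑ j, up g i j x * g x j i := by
            rw [Finset.mul_sum]
            exact Finset.sum_congr rfl fun j _ => by ring
        _ = 2 := by rw [h, mul_one]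
    simp only [this]
    simp [mul_comm]
  have h2 : lap g (qf g x) y - 2 * n = ∑ i, ∑ j, (up g i j y - up g i j x) * (2 * g x j i) +
      ∑ j, bv g j y * (2 * xi g x j y) := by
    rw [hg.lap_eq ((sm_qf x).c2 y), ← h1]
    simp only [pd_qf hg, pd_const_mul, pd_xi, sub_mul, Finset.sum_sub_distrib]
    ring
  have h3 : |∑ i, ∑ j, (up g i j y - up g i j x) * (2 * g x j i)| ≤
      n * (n * (Λ * ‖y - x‖ * (2 * Λ))) :=
    abs_sum_le fun i => abs_sum_le fun j => abs_mul_le (up_lip hg hΛ x y i j)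
      (abs_mul_le (by norm_num) (hΛ.g_bd x j i).1)
  have h4 : |∑ j, bv g j y * (2 * xi g x j y)| ≤ n * (Λ * (2 * (n * (Λ * ‖y - x‖)))) :=
    abs_sum_le fun j => abs_mul_le (hΛ.bv_bd y j).1 (abs_mul_le (by norm_num) (abs_xi_le hΛ x y j))
  rw [h2]
  refine (abs_add_le _ _).trans ((add_le_add h3 h4).trans (le_of_eq ?_))
  ring

theorem ip_qf (hg : Met g) (hΛ : Ell g Λ) (x y : E n) :
    |ip g (qf g x) (qf g x) y - 4 * qf g x y| ≤ 4 * (n * Λ) ^ 4 * ‖y - x‖ * qf g x y := by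
  have h1 : ∑ i, ∑ j, up g i j x * (2 * xi g x i y) * (2 * xi g x j y) = 4 * qf g x y := by
    unfold qf
    rw [Finset.mul_sum]
    refine Finset.sum_congr rfl fun i _ => ?_
    rw [← up_xi hg x y i, Finset.sum_mul, Finset.mul_sum]
    exact Finset.sum_congr rfl fun j _ => by ring
  have h2 : ip g (qf g x) (qf g x) y - 4 * qf g x y =
      ∑ i, ∑ j, (up g i j y - up g i j x) * (2 * xi g x i y) * (2 * xi g x j y) := by
    rw [← h1]
    simp only [ip, pd_qf hg, sub_mul, Finset.sum_sub_distrib]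
  have h3 : ∀ i, |2 * xi g x i y| ≤ 2 * (n * (Λ * ‖y - x‖)) := fun i =>
    abs_mul_le (by norm_num) (abs_xi_le hΛ x y i)
  rw [h2]
  refine (abs_sum_le fun i => abs_sum_le fun j =>
    abs_mul_le (abs_mul_le (up_lip hg hΛ x y i j) (h3 i)) (h3 j)).trans ?_
  have h4 := hΛ.one
  calc _ = 4 * n ^ 4 * Λ ^ 3 * ‖y - x‖ * ‖y - x‖ ^ 2 := by ring
    _ ≤ 4 * n ^ 4 * Λ ^ 3 * ‖y - x‖ * (Λ * qf g x y) :=
        mul_le_mul_of_nonneg_left (qf_lo hΛ x y) (by positivity)
    _ = _ := by ring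

/-- the two error terms -/
theorem err (hg : Met g) (hΛ : Ell g Λ) (hU : Wt g U) : ∃ K > (0 : ℝ), ∀ x y : E n,
    |wl g U (qf g x) y / U y ^ 2 - 2 * n| ≤ K * ‖y - x‖ ∧
    |ip g (qf g x) (qf g x) y - 4 * qf g x y| ≤ K * ‖y - x‖ * qf g x y := by
  obtain ⟨c, hc, C, hC⟩ := hU.bd
  have h1 := hΛ.one
  have hC0 : 0 ≤ C := (norm_nonneg _).trans (hC 0).2.2.1
  set K1 := 4 * (n * (n * (Λ * Λ))) + 2 / c * (n * (n * (Λ * C * (2 * (n * Λ))))) with hK1
  have a1 : 0 ≤ K1 := by positivity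
  have a2 : 0 ≤ 4 * (n * Λ) ^ 4 := by positivity
  refine ⟨K1 + 4 * (n * Λ) ^ 4 + 1, by positivity, fun x y => ⟨?_, (ip_qf hg hΛ x y).trans ?_⟩⟩
  · have h0 : 0 < U y := hc.trans_le (hC y).1
    have h2 : wl g U (qf g x) y / U y ^ 2 - 2 * n =
        (lap g (qf g x) y - 2 * n) + 2 / U y * ip g U (qf g x) y := by
      rw [hg.wl_eq (hU.sm.diff y) ((sm_qf x).c2 y)]
      field_simp
      ring
    have h3 : |ip g U (qf g x) y| ≤ n * (n * (Λ * C * (2 * (n * (Λ * ‖y - x‖))))) := by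
      unfold ip
      refine abs_sum_le fun i => abs_sum_le fun j => abs_mul_le (abs_mul_le (hΛ.up_bd y i j).1
        ((abs_pd_le (hU.sm.diff y) i).trans (hC y).2.2.1)) ?_
      rw [pd_qf hg]
      exact abs_mul_le (by norm_num) (abs_xi_le hΛ x y j)
    have h4 : |2 / U y| ≤ 2 / c := by
      rw [abs_of_pos (by positivity)]
      exact div_le_div_of_nonneg_left (by norm_num) hc (hC y).1
    rw [h2]
    refine (abs_add_le _ _).trans ((add_le_add (lap_qf hg hΛ x y) (abs_mul_le h4 h3)).trans ?_)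
    calc _ = K1 * ‖y - x‖ := by
          rw [hK1]
          ring
      _ ≤ _ := mul_le_mul_of_nonneg_right (by linarith) (norm_nonneg _)
  · exact mul_le_mul_of_nonneg_right (mul_le_mul_of_nonneg_right (by linarith) (norm_nonneg _))
      (qf_nonneg hg x y)

end Vale.Agent.P366Z.Grow
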