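import Vale.Agent.P366Z.Int

/-!
# P366Z, row GROW: the profile of the test function
-/

open Filter Topology Set
open scoped ContDiff

noncomputable section

namespace Vale.Agent.P366Z.Grow

/-- the cut-off at the outer boundary and its derivatives -/
def w0 (x : ℝ) : ℝ := x ^ (5 / 2 : ℝ)

/-- first derivative -/
def w1 (x : ℝ) : ℝ := 5 / 2 * x ^ (3 / 2 : ℝ)

/-- second derivative -/
def w2 (x : ℝ) : ℝ := 15 / 4 * x ^ (1 / 2 : ℝ)

theorem w0_neg {x : ℝ} (hx : x ≤ 0) : w0 x = 0 := by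
  unfold w0
  rcases hx.eq_or_lt with h | h
  · rw [h, Real.zero_rpow (by norm_num)]
  · rw [Real.rpow_def_of_neg h, show (5 / 2 : ℝ) * Real.pi = Real.pi / 2 + 2 * Real.pi by ring,
      Real.cos_add_two_pi, Real.cos_pi_div_two, mul_zero]

theorem w0_nonneg (x : ℝ) : 0 ≤ w0 x := by
  rcases le_total x 0 with h | h
  · exact (w0_neg h).ge
  · exact Real.rpow_nonneg h _

theorem d_w0 (x : ℝ) : HasDerivAt w0 (w1 x) x := by
  have h := Real.hasDerivAt_rpow_const (x := x) (p := 5 / 2) (Or.inr (by norm_num))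
  rwa [show (5 / 2 - 1 : ℝ) = 3 / 2 by norm_num] at h

theorem d_w1 (x : ℝ) : HasDerivAt w1 (w2 x) x := by
  have h := (Real.hasDerivAt_rpow_const (x := x) (p := 3 / 2) (Or.inr (by norm_num))).const_mul
    (5 / 2)
  rw [show (3 / 2 - 1 : ℝ) = 1 / 2 by norm_num] at h
  refine h.congr_deriv ?_
  unfold w2
  ring

theorem c2_w0 : ContDiff ℝ 2 w0 :=
  Real.contDiff_rpow_const_of_le (p := 5 / 2) (n := 2) (by norm_num)

theorem w_bd {x : ℝ} (h0 : 0 ≤ x) (h1 : x ≤ 1) :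
    w0 x ≤ 1 ∧ w0 x ≤ w1 x ∧ w1 x ≤ 3 ∧ 0 ≤ w2 x ∧ w2 x ≤ 4 := by
  have a1 : x ^ (5 / 2 : ℝ) ≤ x ^ (3 / 2 : ℝ) :=
    Real.rpow_le_rpow_of_exponent_ge' h0 h1 (by norm_num) (by norm_num)
  have a2 : x ^ (3 / 2 : ℝ) ≤ 1 := Real.rpow_le_one h0 h1 (by norm_num)
  have a3 : x ^ (1 / 2 : ℝ) ≤ 1 := Real.rpow_le_one h0 h1 (by norm_num)
  have a4 : 0 ≤ x ^ (3 / 2 : ℝ) := Real.rpow_nonneg h0 _
  have a5 : 0 ≤ x ^ (1 / 2 : ℝ) := Real.rpow_nonneg h0 _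
  unfold w0 w1 w2
  refine ⟨?_, ?_, ?_, ?_, ?_⟩ <;> linarith

theorem w0_lo {x : ℝ} (h0 : 1 / 2 ≤ x) (h1 : x ≤ 1) : 1 / 8 ≤ w0 x := by
  have a1 : x ^ ((3 : ℕ) : ℝ) ≤ x ^ (5 / 2 : ℝ) :=
    Real.rpow_le_rpow_of_exponent_ge (by linarith) h1 (by norm_num)
  rw [Real.rpow_natCast] at a1
  have a2 := pow_le_pow_left₀ (by norm_num) h0 3
  unfold w0
  linarith

/-- `z ^ (1 / 4)` -/
def ta (z : ℝ) : ℝ := z ^ (1 / 4 : ℝ)

/-- the singular profile -/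
def G0 (p z : ℝ) : ℝ := z ^ (-p) * w0 (1 - ta z)

/-- the reduced first derivative -/
def h1 (p t : ℝ) : ℝ := -p * w0 (1 - t) - t / 4 * w1 (1 - t)

/-- the reduced second derivative -/
def h2 (p t : ℝ) : ℝ :=
  p * (p + 1) * w0 (1 - t) + ((2 * p + 1) / 4 - 1 / 16) * t * w1 (1 - t) + t ^ 2 / 16 * w2 (1 - t)

variable {p z : ℝ}

theorem d_ta (hz : 0 < z) : HasDerivAt ta (ta z / z / 4) z := by
  refine (Real.hasDerivAt_rpow_const (p := 1 / 4) (Or.inl hz.ne')).congr_deriv ?_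
  rw [Real.rpow_sub_one hz.ne']
  unfold ta
  ring

theorem d_pw (hz : 0 < z) : HasDerivAt (fun z : ℝ => z ^ (-p)) (-p * (z ^ (-p) / z)) z := by
  refine (Real.hasDerivAt_rpow_const (p := -p) (Or.inl hz.ne')).congr_deriv ?_
  rw [Real.rpow_sub_one hz.ne']

theorem d_G0 (hz : 0 < z) : HasDerivAt (G0 p) (z ^ (-p) / z * h1 p (ta z)) z := by
  have h := (d_pw (p := p) hz).mul ((d_w0 (1 - ta z)).comp z ((d_ta hz).const_sub 1))
  refine h.congr_deriv ?_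
  simp only [h1, Function.comp]
  ring

theorem d_G1 (hz : 0 < z) : HasDerivAt (fun z => z ^ (-p) / z * h1 p (ta z))
    (z ^ (-p) / z / z * h2 p (ta z)) z := by
  have a0 := (d_w0 (1 - ta z)).comp z ((d_ta hz).const_sub 1)
  have a1 := (d_w1 (1 - ta z)).comp z ((d_ta hz).const_sub 1)
  have h := ((d_pw (p := p) hz).div (hasDerivAt_id z) hz.ne').mul
    ((a0.const_mul (-p)).sub (((d_ta hz).div_const 4).mul a1))
  refine h.congr_deriv ?_
  simp only [h2, Function.comp, Pi.div_apply, Pi.sub_apply, Pi.mul_apply, id]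
  field_simp
  ring

theorem c2_G0 (hz : 0 < z) : ContDiffAt ℝ 2 (G0 p) z :=
  (Real.contDiffAt_rpow_const_of_ne hz.ne').mul (c2_w0.contDiffAt.comp z
    (contDiffAt_const.sub (Real.contDiffAt_rpow_const_of_ne hz.ne')))

theorem ta_sq (hz : 0 ≤ z) : ta z ^ 2 = √z := by
  unfold ta
  rw [Real.sqrt_eq_rpow, ← Real.rpow_natCast, ← Real.rpow_mul hz]
  norm_num

theorem h_bd (hp : 1 / 2 ≤ p) {t : ℝ} (t0 : 0 ≤ t) (t1 : t ≤ 1) :
    |h1 p t| ≤ (p + 1) * w1 (1 - t) ∧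
      |h2 p t| ≤ (p + 1) ^ 2 * w1 (1 - t) + t * w2 (1 - t) := by
  obtain ⟨-, b2, -, b4, -⟩ := w_bd (x := 1 - t) (by linarith) (by linarith)
  have b0 := w0_nonneg (1 - t)
  have b1 : 0 ≤ w1 (1 - t) := b0.trans b2
  have c1 : t * w1 (1 - t) ≤ w1 (1 - t) := mul_le_of_le_one_left b1 t1
  have c2 : 0 ≤ t * w1 (1 - t) := mul_nonneg t0 b1
  have c3 : p * w0 (1 - t) ≤ p * w1 (1 - t) := mul_le_mul_of_nonneg_left b2 (by linarith)
  have c4 : 0 ≤ p * w0 (1 - t) := mul_nonneg (by linarith) b0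
  have c5 : 0 ≤ t * w2 (1 - t) := mul_nonneg t0 b4
  have c6 : t * (t * w2 (1 - t)) ≤ t * w2 (1 - t) := mul_le_of_le_one_left c5 t1
  have c7 : 0 ≤ t * (t * w2 (1 - t)) := mul_nonneg t0 c5
  have c8 : (p + 1) * (p * w0 (1 - t)) ≤ (p + 1) * (p * w1 (1 - t)) :=
    mul_le_mul_of_nonneg_left c3 (by linarith)
  have c9 : 0 ≤ (p + 1) * (p * w0 (1 - t)) := mul_nonneg (by linarith) c4
  have d1 : p * (t * w1 (1 - t)) ≤ p * w1 (1 - t) := mul_le_mul_of_nonneg_left c1 (by linarith)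
  have d2 : 0 ≤ p * (t * w1 (1 - t)) := mul_nonneg (by linarith) c2
  have d3 : 0 ≤ p * w1 (1 - t) := mul_nonneg (by linarith) b1
  unfold h1 h2
  constructor <;> rw [abs_le] <;> constructor <;> nlinarith

/-- the main inequality in reduced form -/
theorem h_main (hp : 1 / 2 ≤ p) {t A B : ℝ} (t0 : 0 ≤ t) (t1 : t ≤ 1)
    (hA : |A - (4 * p + 4)| ≤ 1 / (16 * (p + 1) ^ 2) * t ^ 2)
    (hB : |B - 4| ≤ 1 / (16 * (p + 1) ^ 2) * t ^ 2) :
    t * w1 (1 - t) / 8 ≤ h1 p t * A + h2 p t * B := by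
  obtain ⟨a1, a2⟩ := h_bd hp t0 t1
  obtain ⟨-, b2, -, b4, -⟩ := w_bd (x := 1 - t) (by linarith) (by linarith)
  have b1 : 0 ≤ w1 (1 - t) := (w0_nonneg _).trans b2
  have hP : 1 ≤ p + 1 := by linarith
  have hP2 : p + 1 ≤ (p + 1) ^ 2 := by nlinarith
  have hη : 1 / (16 * (p + 1) ^ 2) * t ^ 2 ≤ 1 / (16 * (p + 1) ^ 2) * t :=
    mul_le_mul_of_nonneg_left (by nlinarith) (by positivity)
  have e1 := (abs_le.1 ((abs_mul _ _).trans_le (mul_le_mul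
    (a1.trans (mul_le_mul_of_nonneg_right hP2 b1)) (hA.trans hη) (abs_nonneg _)
      (by positivity)))).1
  have e2 := (abs_le.1 ((abs_mul _ _).trans_le (mul_le_mul a2 (hB.trans hη) (abs_nonneg _)
      (by positivity)))).1
  have e3 : (p + 1) ^ 2 * w1 (1 - t) * (1 / (16 * (p + 1) ^ 2) * t) = t * w1 (1 - t) / 16 := by
    field_simp
  have e4 : t * w2 (1 - t) * (1 / (16 * (p + 1) ^ 2) * t) ≤ t * w2 (1 - t) * (1 / 4 * t) := by
    refine mul_le_mul_of_nonneg_left (mul_le_mul_of_nonneg_right ?_ t0) (mul_nonneg t0 b4)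
    exact one_div_le_one_div_of_le (by norm_num) (by nlinarith)
  have e5 : h1 p t * (4 * p + 4) + h2 p t * 4 =
      (p - 1 / 4) * (t * w1 (1 - t)) + t * w2 (1 - t) * (1 / 4 * t) := by
    unfold h1 h2
    ring
  have e6 : 1 / 4 * (t * w1 (1 - t)) ≤ (p - 1 / 4) * (t * w1 (1 - t)) :=
    mul_le_mul_of_nonneg_right (by linarith) (mul_nonneg t0 b1)
  rw [add_mul, e3] at e2
  rw [e3] at e1
  linarith

/-- the cut-off at the centre -/
def ch (t : ℝ) : ℝ := Real.smoothTransition (t - 1)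

theorem sm_ch : ContDiff ℝ ∞ ch :=
  Real.smoothTransition.contDiff.comp (contDiff_id.sub contDiff_const)

/-- the profile -/
def FF (p ε z : ℝ) : ℝ := ch (z / ε) * G0 p z

theorem FF_in {ε : ℝ} (hε : 0 < ε) (hz : z < ε) : FF p ε =ᶠ[𝓝 z] fun _ => 0 := by
  filter_upwards [eventually_lt_nhds hz] with y hy
  unfold FF ch
  rw [Real.smoothTransition.zero_of_nonpos, zero_mul]
  rw [sub_nonpos, div_le_one hε]
  exact hy.le

theorem FF_one {ε : ℝ} (hz : 1 ≤ z) : FF p ε z = 0 := by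
  unfold FF G0
  rw [w0_neg (x := 1 - ta z) (sub_nonpos.2 (Real.one_le_rpow hz (by norm_num))), mul_zero,
    mul_zero]

/-- the reduced first derivative of the profile -/
def X1 (p ε z : ℝ) : ℝ := deriv ch (z / ε) * (z / ε) * w0 (1 - ta z) + ch (z / ε) * h1 p (ta z)

/-- the reduced second derivative of the profile -/
def X2 (p ε z : ℝ) : ℝ := deriv (deriv ch) (z / ε) * (z / ε) ^ 2 * w0 (1 - ta z) +
  2 * (deriv ch (z / ε) * (z / ε) * h1 p (ta z)) + ch (z / ε) * h2 p (ta z)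

theorem d_FF {ε : ℝ} (hε : 0 < ε) (hz : 0 < z) (A B : ℝ) :
    deriv (FF p ε) z * A + deriv (deriv (FF p ε)) z * B =
      z ^ (-p) / z * (X1 p ε z * A + X2 p ε z * (B / z)) := by
  obtain ⟨a1, a2⟩ := contDiff_infty_iff_deriv.1 sm_ch
  have a3 := (contDiff_infty_iff_deriv.1 a2).1
  have b1 : ∀ y, HasDerivAt (fun y => ch (y / ε)) (deriv ch (y / ε) * (1 / ε)) y := fun y =>
    HasDerivAt.comp (h₂ := ch) y (a1 (y / ε)).hasDerivAt ((hasDerivAt_id y).div_const ε)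
  have b2 : HasDerivAt (fun y => deriv ch (y / ε)) (deriv (deriv ch) (z / ε) * (1 / ε)) z :=
    HasDerivAt.comp (h₂ := deriv ch) z (a3 (z / ε)).hasDerivAt ((hasDerivAt_id z).div_const ε)
  have c1 : ∀ y, 0 < y → deriv (FF p ε) y = deriv ch (y / ε) * (1 / ε) * G0 p y +
      ch (y / ε) * (y ^ (-p) / y * h1 p (ta y)) := fun y hy => ((b1 y).mul (d_G0 hy)).deriv
  have c2 : deriv (FF p ε) =ᶠ[𝓝 z] fun y => deriv ch (y / ε) * (1 / ε) * G0 p y +
      ch (y / ε) * (y ^ (-p) / y * h1 p (ta y)) := (eventually_gt_nhds hz).mono c1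
  have c3 := (((b2.mul_const (1 / ε)).mul (d_G0 (p := p) hz)).add
    ((b1 z).mul (d_G1 (p := p) hz))).deriv
  rw [c1 z hz, c2.deriv_eq.trans c3]
  unfold G0 X1 X2
  field_simp
  ring

theorem ta_mem (z0 : 0 ≤ z) (z1 : z ≤ 1) : 0 ≤ ta z ∧ ta z ≤ 1 :=
  ⟨Real.rpow_nonneg z0 _, Real.rpow_le_one z0 z1 (by norm_num)⟩

theorem outer (hp : 1 / 2 ≤ p) {ε A B : ℝ} (hε : 0 < ε) (h4 : 2 * ε < z) (z1 : z ≤ 1)
    (hA : |A - (4 * p + 4)| ≤ 1 / (16 * (p + 1) ^ 2) * ta z ^ 2)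
    (hB : |B - 4| ≤ 1 / (16 * (p + 1) ^ 2) * ta z ^ 2) :
    0 ≤ z ^ (-p) / z * (X1 p ε z * A + X2 p ε z * B) ∧ (z ≤ 1 / 16 → 1 / 64 ≤ FF p ε z ∧
      1 / 64 ≤ z ^ (-p) / z * (X1 p ε z * A + X2 p ε z * B)) := by
  have hz : 0 < z := by linarith
  obtain ⟨t0, t1⟩ := ta_mem hz.le z1
  have hb : 0 < z ^ (-p) / z := by positivity
  have b2 := (w_bd (x := 1 - ta z) (by linarith) (by linarith)).2.1
  have c0 : ch =ᶠ[𝓝 (z / ε)] fun _ => 1 := by
    filter_upwards [eventually_gt_nhds ((lt_div_iff₀ hε).2 h4)] with y hy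
    exact Real.smoothTransition.one_of_one_le (by linarith)
  have c1 : ch (z / ε) = 1 := c0.eq_of_nhds
  have c2 : deriv ch (z / ε) = 0 := by simp [c0.deriv_eq]
  have c3 : deriv (deriv ch) (z / ε) = 0 := by simp [c0.deriv.deriv_eq]
  have c4 : X1 p ε z * A + X2 p ε z * B = h1 p (ta z) * A + h2 p (ta z) * B := by
    unfold X1 X2
    rw [c1, c2, c3]
    ring
  have c5 := h_main hp t0 t1 hA hB
  rw [← c4] at c5
  have c6 : 0 ≤ ta z * w1 (1 - ta z) / 8 := by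
    have := (w0_nonneg _).trans b2
    positivity
  refine ⟨mul_nonneg hb.le (c6.trans c5), fun h5 => ?_⟩
  have c7 : ta z ≤ 1 / 2 := by
    refine (Real.rpow_le_rpow hz.le h5 (by norm_num)).trans (le_of_eq ?_)
    rw [show (1 / 16 : ℝ) = (1 / 2) ^ (4 : ℕ) by norm_num, ← Real.rpow_natCast,
      ← Real.rpow_mul (by norm_num)]
    norm_num
  have c8 := w0_lo (x := 1 - ta z) (by linarith) (by linarith)
  have c9 : 1 ≤ z ^ (-p) := Real.one_le_rpow_of_pos_of_le_one_of_nonpos hz z1 (by linarith)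
  have e1 : z ≤ ta z := by
    have := Real.rpow_le_rpow_of_exponent_ge hz z1 (show (1 / 4 : ℝ) ≤ 1 by norm_num)
    rwa [Real.rpow_one] at this
  constructor
  · unfold FF G0
    rw [c1, one_mul]
    exact le_trans (by norm_num) (mul_le_mul c9 c8 (by norm_num) (by linarith))
  · refine le_trans ?_ (mul_le_mul_of_nonneg_left c5 hb.le)
    calc (1 / 64 : ℝ) = 1 / z * (z * (1 / 8) / 8) := by
          field_simp
          norm_num
      _ ≤ _ := by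
          gcongr
          exact c8.trans b2

theorem inner (hp : 1 / 2 ≤ p) : ∃ C > (0 : ℝ), ∀ ε z A B : ℝ, 0 < ε → ε ≤ z → z ≤ 2 * ε →
    z ≤ 1 → |A| ≤ 4 * p + 5 → |B| ≤ 5 → |X1 p ε z * A + X2 p ε z * B| ≤ C := by
  obtain ⟨a1, a2⟩ := contDiff_infty_iff_deriv.1 sm_ch
  obtain ⟨K1, hK1⟩ := (isCompact_Icc (a := (1 : ℝ)) (b := 2)).exists_bound_of_continuousOn
    a2.continuous.continuousOn
  obtain ⟨K2, hK2⟩ := (isCompact_Icc (a := (1 : ℝ)) (b := 2)).exists_bound_of_continuousOn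
    (contDiff_infty_iff_deriv.1 a2).2.continuous.continuousOn
  have k1 : 0 ≤ K1 := (norm_nonneg _).trans (hK1 1 ⟨le_rfl, one_le_two⟩)
  have k2 : 0 ≤ K2 := (norm_nonneg _).trans (hK2 1 ⟨le_rfl, one_le_two⟩)
  refine ⟨(K1 * 2 * 1 + 1 * ((p + 1) * 3)) * (4 * p + 5) + (K2 * 2 ^ 2 * 1 +
    2 * (K1 * 2 * ((p + 1) * 3)) + 1 * ((p + 1) ^ 2 * 3 + 4)) * 5, by positivity,
    fun ε z A B hε h h4 z1 g3 g4 => ?_⟩
  obtain ⟨t0, t1⟩ := ta_mem (hε.trans_le h).le z1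
  obtain ⟨b1, -, b3, b4, b5⟩ := w_bd (x := 1 - ta z) (by linarith) (by linarith)
  have hζ : z / ε ∈ Icc (1 : ℝ) 2 := ⟨(one_le_div hε).2 h, (div_le_iff₀ hε).2 h4⟩
  have hζ' : |z / ε| ≤ 2 := by
    rw [abs_of_nonneg (zero_le_one.trans hζ.1)]
    exact hζ.2
  have am : ∀ {a b A B : ℝ}, |a| ≤ A → |b| ≤ B → |a * b| ≤ A * B := fun ha hb => by
    rw [abs_mul]
    exact mul_le_mul ha hb (abs_nonneg _) ((abs_nonneg _).trans ha)
  obtain ⟨f1, f2⟩ := h_bd hp t0 t1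
  have f3 : |h1 p (ta z)| ≤ (p + 1) * 3 := f1.trans (mul_le_mul_of_nonneg_left b3 (by linarith))
  have f4 : |h2 p (ta z)| ≤ (p + 1) ^ 2 * 3 + 4 := f2.trans (add_le_add
    (mul_le_mul_of_nonneg_left b3 (by positivity)) ((mul_le_of_le_one_left b4 t1).trans b5))
  have f5 : |w0 (1 - ta z)| ≤ 1 := by rwa [abs_of_nonneg (w0_nonneg _)]
  have f6 : |ch (z / ε)| ≤ 1 := by
    unfold ch
    rw [abs_of_nonneg (Real.smoothTransition.nonneg _)]
    exact Real.smoothTransition.le_one _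
  have f7 : |(z / ε) ^ 2| ≤ 2 ^ 2 := by
    rw [abs_pow]
    exact pow_le_pow_left₀ (abs_nonneg _) hζ' 2
  exact (abs_add_le _ _).trans (add_le_add
    (am ((abs_add_le _ _).trans (add_le_add (am (am (hK1 _ hζ) hζ') f5) (am f6 f3))) g3)
    (am ((abs_add_le _ _).trans (add_le_add ((abs_add_le _ _).trans (add_le_add
      (am (am (hK2 _ hζ) f7) f5) (am (by norm_num) (am (am (hK1 _ hζ) hζ') f3)))) (am f6 f4))) g4))

theorem prof {n : ℕ} (hn : 3 ≤ n) : ∃ η > (0 : ℝ), ∃ C > (0 : ℝ), ∀ e : ℝ, 0 < e →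
    ∃ F : ℝ → ℝ, ContDiff ℝ 2 F ∧ (∀ z, 0 ≤ z → 0 ≤ F z) ∧ (∀ z, 1 ≤ z → F z = 0) ∧
      ∀ z A B : ℝ, 0 ≤ z → z ≤ 1 → |A - 2 * n| ≤ η * √z → |B - 4 * z| ≤ η * √z * z →
        -(C / e ^ n) ≤ deriv F z * A + deriv (deriv F) z * B ∧
        (2 * e ^ 2 < z → 0 ≤ deriv F z * A + deriv (deriv F) z * B ∧
          (z ≤ 1 / 16 → 1 / 64 ≤ F z ∧ 1 / 64 ≤ deriv F z * A + deriv (deriv F) z * B)) := by
  obtain ⟨p, hp'⟩ : ∃ p : ℝ, (n : ℝ) = 2 * p + 2 := ⟨((n : ℝ) - 2) / 2, by ring⟩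
  have hn' : (3 : ℝ) ≤ n := by exact_mod_cast hn
  have hp : 1 / 2 ≤ p := by linarith
  have hnp : 2 * (n : ℝ) = 4 * p + 4 := by linarith
  obtain ⟨C, hC0, hC⟩ := inner hp
  have hη1 : 1 / (16 * (p + 1) ^ 2) ≤ 1 := by
    rw [div_le_one (by positivity)]
    nlinarith
  refine ⟨1 / (16 * (p + 1) ^ 2), by positivity, C, hC0, fun e he => ?_⟩
  have hε : 0 < e ^ 2 := by positivity
  refine ⟨FF p (e ^ 2), contDiff_iff_contDiffAt.2 fun z => ?_, fun z hz => ?_,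
    fun z hz => FF_one hz, fun z A B z0 z1 hA hB => ?_⟩
  · rcases lt_or_ge z (e ^ 2) with h | h
    · exact contDiffAt_const.congr_of_eventuallyEq (FF_in hε h)
    · exact (((sm_ch.of_le (by norm_cast)).comp (contDiff_id.div_const _)).contDiffAt).mul
        (c2_G0 (hε.trans_le h))
  · exact mul_nonneg (Real.smoothTransition.nonneg _)
      (mul_nonneg (Real.rpow_nonneg hz _) (w0_nonneg _))
  have hCe : -(C / e ^ n) ≤ 0 := neg_nonpos.2 (by positivity)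
  rcases lt_or_ge z (e ^ 2) with h | h
  · have h3 := (FF_in (p := p) hε h).deriv
    rw [h3.deriv_eq, h3.eq_of_nhds]
    refine ⟨by simpa using hCe, fun h4 => by linarith⟩
  have hz : 0 < z := hε.trans_le h
  obtain ⟨t0, t1⟩ := ta_mem z0 z1
  rw [← ta_sq z0] at hA hB
  rw [hnp] at hA
  have hB' : |B / z - 4| ≤ 1 / (16 * (p + 1) ^ 2) * ta z ^ 2 := by
    rw [div_sub' hz.ne', abs_div, abs_of_pos hz, div_le_iff₀ hz, mul_comm z]
    exact hB
  rw [d_FF hε hz]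
  refine ⟨?_, fun h4 => outer hp hε h4 z1 hA hB'⟩
  rcases lt_or_ge (2 * e ^ 2) z with h4 | h4
  · exact hCe.trans (outer hp hε h4 z1 hA hB').1
  have f8 : 1 / (16 * (p + 1) ^ 2) * ta z ^ 2 ≤ 1 := mul_le_one₀ hη1 (by positivity)
    (pow_le_one₀ t0 t1)
  have g3 : |A| ≤ 4 * p + 5 := by
    have := abs_le.1 (hA.trans f8)
    rw [abs_le]
    constructor <;> linarith [this.1, this.2]
  have g4 : |B / z| ≤ 5 := by
    have := abs_le.1 (hB'.trans f8)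
    rw [abs_le]
    constructor <;> linarith [this.1, this.2]
  have g6 : z ^ (-p) / z ≤ 1 / e ^ n := by
    rw [← Real.rpow_sub_one hz.ne']
    refine (Real.rpow_le_rpow_of_nonpos hε h (by linarith)).trans (le_of_eq ?_)
    rw [← Real.rpow_natCast, ← Real.rpow_mul he.le, one_div, ← Real.rpow_natCast,
      ← Real.rpow_neg he.le]
    congr 1
    rw [hp']
    push_cast
    ring
  have g7 := (abs_le.1 (hC _ z A (B / z) hε h h4 z1 g3 g4)).1
  have g8 := mul_le_mul_of_nonneg_left g7 (by positivity : 0 ≤ z ^ (-p) / z)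
  have g9 := mul_le_mul_of_nonneg_right g6 hC0.le
  rw [one_div_mul_eq_div] at g9
  linarith

end Vale.Agent.P366Z.Grow
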