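import Vale.Agent.P366Z.Sk
import Vale.Agent.P366Z.GrowA
import Vale.Agent.P366Z.GrowB

/-!
# P366Z, row GROW: the growth lemma
-/

open MeasureTheory Metric Filter Topology Set
open scoped ContDiff ENNReal
open Vale.Agent.P366.Stmt

noncomputable section

namespace Vale.Agent.P366Z

namespace Grow

variable {n : ℕ} {g : Field n} {U : E n → ℝ} {Λ : ℝ}

/-- the test function -/
theorem test (hn : 3 ≤ n) (hg : Met g) (hΛ : Ell g Λ) (hU : Wt g U) :
    ∃ c > (0 : ℝ), ∃ C > (0 : ℝ), ∃ r₀ > (0 : ℝ), ∀ (r e : ℝ) (x : E n), 0 < r → r ≤ r₀ → 0 < e →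
      ∃ φ : E n → ℝ, ContDiff ℝ 2 φ ∧ HasCompactSupport φ ∧ (∀ y, 0 ≤ φ y) ∧
        (∀ y, y ∉ ball x r → φ y = 0 ∧ wl g U φ y = 0) ∧
        (∀ y, -(C / (e ^ n * r ^ 2)) ≤ wl g U φ y) ∧
        ∀ y, y ∉ ball x (e * r) → 0 ≤ wl g U φ y ∧
          (y ∈ ball x (1 / (8 * Λ ^ 2) * r) → c ≤ φ y ∧ c / r ^ 2 ≤ wl g U φ y) := by
  obtain ⟨K, hK, hE⟩ := err hg hΛ hU
  obtain ⟨η, hη, C, hC, hP⟩ := prof hn
  obtain ⟨c0, hc0, C0, hC0⟩ := hU.bd
  have h1 := hΛ.one
  have hC1 : 0 < C0 := (hc0.trans_le (hC0 0).1).trans_le (hC0 0).2.1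
  have hm : 0 < min c0 1 := lt_min hc0 one_pos
  refine ⟨min c0 1 ^ 2 / 64, by positivity, C0 ^ 2 * (4 * Λ ^ 2) * C, by positivity, η / K,
    by positivity, fun r e x hr hr0 he => ?_⟩
  obtain ⟨F, F1, F2, F3, F4⟩ := hP e he
  set a : ℝ := 4 * Λ ^ 2 / r ^ 2 with ha
  have ha0 : 0 < a := by positivity
  have har : a * r ^ 2 = 4 * Λ ^ 2 := by
    rw [ha]
    field_simp
  set Q : E n → ℝ := fun y => a * qf g x y with hQ
  have hQs : Smooth Q := contDiff_const.mul (sm_qf x)
  have hQ0 : ∀ y, 0 ≤ Q y := fun y => mul_nonneg ha0.le (qf_nonneg hg x y)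
  have hd : ∀ y, 4 * ‖y - x‖ ^ 2 ≤ r ^ 2 * Q y := by
    intro y
    have a1 := qf_lo hΛ x y
    have a2 := qf_nonneg hg x y
    have a3 : Λ * qf g x y ≤ Λ ^ 2 * qf g x y := mul_le_mul_of_nonneg_right (by nlinarith) a2
    have a4 : r ^ 2 * Q y = 4 * (Λ ^ 2 * qf g x y) := by
      rw [hQ]
      linear_combination qf g x y * har
    linarith
  have hout : ∀ (s : ℝ) y, 0 < s → y ∉ ball x (s * r) → 4 * s ^ 2 ≤ Q y := by
    intro s y hs hy
    have a1 := pow_le_pow_left₀ (by positivity) (not_lt.1 (mt mem_ball_iff_norm.2 hy)) 2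
    refine le_of_mul_le_mul_left ?_ (by positivity : 0 < r ^ 2)
    have := hd y
    rw [mul_pow] at a1
    linarith
  have hzero : ∀ y, 1 < Q y → wl g U (fun y => F (Q y)) y = 0 := by
    intro y hy
    rw [wl_congr (U' := U) (v := fun _ => 0) (EventuallyEq.refl _ _), wl_const]
    filter_upwards [hQs.cont.continuousAt.eventually (eventually_gt_nhds hy)] with z hz
    exact F3 _ hz.le
  have hwl : ∀ y, wl g U (fun y => F (Q y)) y = U y ^ 2 * a *
      (deriv F (Q y) * (wl g U (qf g x) y / U y ^ 2) +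
        deriv (deriv F) (Q y) * (a * ip g (qf g x) (qf g x) y)) := by
    intro y
    have h0 : 0 < U y := hc0.trans_le (hC0 y).1
    rw [hg.wl_comp (hU.sm.diff y) (hQs.c2 y) F1.contDiffAt, hQ, wl_const_mul,
      ip_of_pd (pd_const_mul a) (pd_const_mul a)]
    field_simp
  have hin : ∀ y, Q y ≤ 1 → _ := fun y hy => F4 (Q y) (wl g U (qf g x) y / U y ^ 2)
    (a * ip g (qf g x) (qf g x) y) (hQ0 y) hy
  have hKd : ∀ y, K * ‖y - x‖ ≤ η * √(Q y) := by
    intro y
    have a1 : ‖y - x‖ ≤ r * √(Q y) := by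
      refine (abs_le_of_sq_le_sq' ?_ (by positivity)).2
      rw [mul_pow, Real.sq_sqrt (hQ0 y)]
      linarith [hd y, sq_nonneg ‖y - x‖]
    have a2 : r * K ≤ η := (le_div_iff₀ hK).1 hr0
    calc K * ‖y - x‖ ≤ K * (r * √(Q y)) := by gcongr
      _ = r * K * √(Q y) := by ring
      _ ≤ _ := by gcongr
  have hin' := fun y hy => hin y hy ((hE x y).1.trans (hKd y)) (by
    have a1 : a * ip g (qf g x) (qf g x) y - 4 * Q y =
        a * (ip g (qf g x) (qf g x) y - 4 * qf g x y) := by
      rw [hQ]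
      ring
    rw [a1, abs_mul, abs_of_pos ha0]
    calc _ ≤ a * (K * ‖y - x‖ * qf g x y) := mul_le_mul_of_nonneg_left (hE x y).2 ha0.le
      _ = K * ‖y - x‖ * Q y := by
          rw [hQ]
          ring
      _ ≤ _ := mul_le_mul_of_nonneg_right (hKd y) (hQ0 y))
  have hr1 : ∀ y, y ∉ ball x r → 1 < Q y := fun y hy => by
    linarith [hout 1 y one_pos (by rwa [one_mul])]
  refine ⟨fun y => F (Q y), F1.comp hQs.two, ?_, fun y => F2 _ (hQ0 y),
    fun y hy => ⟨F3 _ (hr1 y hy).le, hzero y (hr1 y hy)⟩, fun y => ?_, fun y hy => ?_⟩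
  · exact HasCompactSupport.intro (isCompact_closedBall x r) fun y hy =>
      F3 _ (hr1 y fun h => hy (ball_subset_closedBall h)).le
  · rcases lt_or_ge 1 (Q y) with h | h
    · rw [hzero y h]
      exact neg_nonpos.2 (by positivity)
    · rw [hwl]
      refine le_trans ?_ (mul_le_mul_of_nonneg_left (hin' y h).1 (by positivity))
      have a1 : U y ^ 2 ≤ C0 ^ 2 :=
        pow_le_pow_left₀ (hc0.trans_le (hC0 y).1).le (hC0 y).2.1 2
      rw [mul_neg, neg_le_neg_iff]
      calc U y ^ 2 * a * (C / e ^ n) ≤ C0 ^ 2 * a * (C / e ^ n) := by gcongr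
        _ = _ := by
            rw [ha]
            field_simp
  · have a0 : 2 * e ^ 2 < Q y := by linarith [hout e y he hy, pow_pos he 2]
    constructor
    · rcases lt_or_ge 1 (Q y) with h | h
      · exact (hzero y h).ge
      · rw [hwl]
        exact mul_nonneg (by positivity) ((hin' y h).2 a0).1
    · intro hy'
      have a1 : Q y ≤ 1 / 16 := by
        have b1 := pow_le_pow_left₀ (norm_nonneg _) (mem_ball_iff_norm.1 hy').le 2
        calc Q y ≤ a * (Λ * (1 / (8 * Λ ^ 2) * r) ^ 2) :=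
              mul_le_mul_of_nonneg_left ((qf_hi hΛ x y).trans
                (mul_le_mul_of_nonneg_left b1 (by linarith))) ha0.le
          _ = 1 / (16 * Λ) := by
              rw [ha]
              field_simp
              norm_num
          _ ≤ 1 / 16 := one_div_le_one_div_of_le (by norm_num) (by linarith)
      obtain ⟨a2, a3⟩ := ((hin' y (by linarith)).2 a0).2 a1
      have a4 : min c0 1 ^ 2 ≤ 1 := pow_le_one₀ hm.le (min_le_right _ _)
      have a5 : min c0 1 ^ 2 ≤ U y ^ 2 :=
        pow_le_pow_left₀ hm.le ((min_le_left _ _).trans (hC0 y).1) 2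
      refine ⟨by linarith, ?_⟩
      rw [hwl]
      refine le_trans ?_ (mul_le_mul_of_nonneg_left a3 (by positivity))
      have a6 : 1 / r ^ 2 ≤ a := div_le_div_of_nonneg_right (by nlinarith) (by positivity)
      calc min c0 1 ^ 2 / 64 / r ^ 2 = min c0 1 ^ 2 * (1 / r ^ 2) * (1 / 64) := by ring
        _ ≤ _ := by gcongr

end Grow

theorem grow : GROW := by
  intro n g ρ U hn hg hf hU
  obtain ⟨Λ, hΛ⟩ := hg.ell hf
  obtain ⟨c, hc, C, hC, r₀, hr₀, hT⟩ := Grow.test hn hg hΛ hU
  have h1 := hΛ.one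
  have hn0 : 0 < n := by omega
  set om : ℝ := omega n / n with hom'
  have hom : 0 < om := div_pos (omega_pos hn0) (by exact_mod_cast hn0)
  refine ⟨1 / (8 * Λ ^ 2), by positivity, fun θ hθ => ⟨c * θ / (8 * Λ ^ 2 * C * om), by positivity,
    r₀, hr₀, fun r M x u hr hr0 hu hb hA => ?_⟩⟩
  set θ' := c * θ / (8 * Λ ^ 2 * C * om) with hθ'
  have hθ0 : 0 < θ' := by positivity
  by_contra hcon
  have hx := hb x (mem_ball_self hr)
  have hv : M - u x < θ' * M := by linarith [not_le.1 hcon]
  have hM : 0 < M := (mul_pos_iff_of_pos_left hθ0).1 (by linarith [hx.2.1])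
  obtain ⟨e, he, he1, he2, he3⟩ : ∃ e : ℝ, 0 < e ∧ e ≤ 1 ∧ om * e ^ n ≤ θ / 2 ∧
      ∀ y ∈ ball x (e * r), M - u y ≤ θ' * M := by
    obtain ⟨δ, hδ, h2⟩ := Metric.eventually_nhds_iff_ball.1
      ((continuous_const.sub hu.continuous).continuousAt.eventually (eventually_lt_nhds hv))
    have h3 : ∀ᶠ e : ℝ in 𝓝 0, om * e ^ n < θ / 2 :=
      (by fun_prop : ContinuousAt (fun e : ℝ => om * e ^ n) 0).eventually
        (eventually_lt_nhds (by simpa [hn0.ne'] using hθ))
    obtain ⟨e, ⟨⟨a1, a2⟩, a3⟩, a4⟩ := ((((h3.and (eventually_lt_nhds one_pos)).and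
      (eventually_lt_nhds (div_pos hδ hr))).filter_mono nhdsWithin_le_nhds).and
        (self_mem_nhdsWithin (s := Ioi (0 : ℝ)))).exists
    exact ⟨e, a4, a2.le, a1.le, fun y hy =>
      (h2 y (ball_subset_ball ((le_div_iff₀ hr).1 a3.le) hy)).le⟩
  obtain ⟨φ, p1, p2, p3, p4, p5, p6⟩ := hT r e x hr hr0 he
  have hU1 : ContDiff ℝ 1 U := ContDiff.of_le hU.sm (by norm_cast)
  have hv2 : ContDiff ℝ 2 fun y => M - u y := contDiff_const.sub hu
  have hG := hg.green_wl p1 p2 hU1 hv2
  simp only [wl_const_sub] at hG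
  have i1 : Integrable fun y => φ y * -wl g U u y * dens g y :=
    ((p1.continuous.mul (hg.cont_wl hU1 hu).neg).mul
      hg.sm_dens.cont).integrable_of_hasCompactSupport p2.mul_right.mul_right
  have i2 : Integrable fun y => (M - u y) * wl g U φ y * dens g y :=
    ((hv2.continuous.mul (hg.cont_wl hU1 p1)).mul hg.sm_dens.cont).integrable_of_hasCompactSupport
      (HasCompactSupport.intro (isCompact_closedBall x r) fun y hy => by
        simp [(p4 y fun h => hy (ball_subset_closedBall h)).2])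
  set A := ball x (1 / (8 * Λ ^ 2) * r) ∩ {y | u y ≤ r ^ 2 * wl g U u y} with hA'
  have hAm : MeasurableSet A := measurableSet_ball.inter
    (isClosed_le hu.continuous (continuous_const.mul (hg.cont_wl hU1 hu))).measurableSet
  have hAf : volume A ≠ ⊤ := ((measure_mono inter_subset_left).trans_lt measure_ball_lt_top).ne
  set g1 := M * c / (2 * Λ * r ^ 2) with hg1
  set g2 := θ' * M * (C / (e ^ n * r ^ 2)) * Λ with hg2
  have g10 : 0 < g1 := by positivity
  have g20 : 0 < g2 := by positivity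
  have j1 : Integrable (A.indicator fun _ => g1) :=
    (integrable_indicator_iff hAm).2 (integrableOn_const hAf)
  have j2 : Integrable ((ball x (e * r)).indicator fun _ => g1 + g2) :=
    (integrable_indicator_iff measurableSet_ball).2 (integrableOn_const measure_ball_lt_top.ne)
  have hpt : ∀ y, A.indicator (fun _ => g1) y - (ball x (e * r)).indicator (fun _ => g1 + g2) y ≤
      (M - u y) * wl g U φ y * dens g y - φ y * -wl g U u y * dens g y := by
    intro y
    have d0 := hg.dens_pos y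
    have k0 : 1 / (8 * Λ ^ 2) * r ≤ r := mul_le_of_le_one_left hr.le (by
      rw [div_le_one (by positivity)]
      nlinarith)
    by_cases hy : y ∈ ball x r
    swap
    · rw [indicator_of_notMem fun h => hy (ball_subset_ball k0 h.1), indicator_of_notMem fun h =>
        hy (ball_subset_ball (mul_le_of_le_one_left hr.le he1) h), (p4 y hy).1, (p4 y hy).2]
      simp
    obtain ⟨b1, b2, b3⟩ := hb y hy
    have b4 : 0 ≤ φ y * wl g U u y * dens g y := by
      have := p3 y
      positivity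
    have b5 : 0 ≤ M - u y := by linarith
    by_cases hy1 : y ∈ ball x (e * r)
    · have b6 : A.indicator (fun _ => g1) y ≤ g1 := indicator_le_self' (fun _ _ => g10.le) y
      have b7 : (M - u y) * (C / (e ^ n * r ^ 2)) * dens g y ≤ g2 := by
        have := he3 y hy1
        have := hΛ.dens_hi y
        rw [hg2]
        gcongr
      have b8 := mul_le_mul_of_nonneg_right (mul_le_mul_of_nonneg_left (p5 y) b5) d0.le
      rw [indicator_of_mem hy1]
      linarith
    obtain ⟨b6, b7⟩ := p6 y hy1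
    have b8 : 0 ≤ (M - u y) * wl g U φ y * dens g y := by positivity
    rw [indicator_of_notMem hy1]
    by_cases hy2 : y ∈ A
    swap
    · rw [indicator_of_notMem hy2]
      linarith
    obtain ⟨b9, b10⟩ := b7 hy2.1
    have d1 : 1 / Λ ≤ dens g y := by
      rw [div_le_iff₀' (by linarith)]
      exact hΛ.dens_lo y
    rw [indicator_of_mem hy2]
    rcases le_total (u y) (M / 2) with h | h
    · have : g1 ≤ (M - u y) * wl g U φ y * dens g y := by
        calc g1 = M / 2 * (c / r ^ 2) * (1 / Λ) := by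
              rw [hg1]
              field_simp
          _ ≤ _ := by
              gcongr
              linarith
      linarith
    · have d2 : M / 2 / r ^ 2 ≤ wl g U u y := by
        rw [div_le_iff₀' (by positivity)]
        exact h.trans hy2.2
      have : g1 ≤ φ y * wl g U u y * dens g y := by
        calc g1 = c * (M / 2 / r ^ 2) * (1 / Λ) := by
              rw [hg1]
              field_simp
          _ ≤ _ := by
              have := p3 y
              gcongr
      linarith
  have h2 := integral_mono (j1.sub j2) (i2.sub i1) hpt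
  simp only [Pi.sub_apply] at h2
  rw [integral_sub j1 j2, integral_sub i2 i1, hG, sub_self, integral_indicator_const _ hAm,
    integral_indicator_const _ measurableSet_ball, measureReal_def, measureReal_def,
    real_ball hn0 x (by positivity), smul_eq_mul, smul_eq_mul, ← hom', mul_pow] at h2
  have h3 := mul_le_mul_of_nonneg_right ((ENNReal.ofReal_le_iff_le_toReal hAf).1 hA) g10.le
  have h4 : om * (e ^ n * r ^ n) * g1 ≤ θ / 2 * r ^ n * g1 := by
    rw [← mul_assoc]
    gcongr
  have h5 : om * (e ^ n * r ^ n) * g2 = θ / 4 * r ^ n * g1 := by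
    rw [hg2, hg1, hθ']
    field_simp
    ring
  have h6 : 0 < θ * r ^ n * g1 := by positivity
  linarith

end Vale.Agent.P366Z
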