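import Vale.Agent.P366Z.StabC

/-!
# P366Z, row STAB: an almost parallel spinor forces the conformal factor to be almost constant
-/

open MeasureTheory Metric Filter Topology Set
open scoped ContDiff ENNReal
open Vale.Agent.P366.Stmt

noncomputable section

namespace Vale.Agent.P366Z

namespace StabH

variable {n N : ℕ} {v w : E n → ℝ} {y : E n → E N}

/-! ### the scaling -/

theorem fd_scale {V : Type} [NormedAddCommGroup V] [NormedSpace ℝ V] {f : E n → V}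
    (hf : ContDiff ℝ ∞ f) (R : ℝ) (x ξ : E n) :
    fderiv ℝ (fun z => f (R • z)) x ξ = R • fderiv ℝ f (R • x) ξ := by
  have h := ((hf.differentiable (by simp) (R • x)).hasFDerivAt.comp x
    ((hasFDerivAt_id x).const_smul R)).fderiv
  refine (congrArg (fun T : E n →L[ℝ] V => T ξ) h).trans ?_
  simp

theorem sm_scale (hv : Smooth v) (s R : ℝ) : Smooth fun z => s * v (R • z) :=
  contDiff_const.mul (ContDiff.comp hv (contDiff_id.const_smul R))

theorem pd_scale (hv : Smooth v) (s R : ℝ) (i : Fin n) :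
    pd i (fun z => s * v (R • z)) = fun x => s * R * pd i v (R • x) := funext fun x => by
  have h : Smooth fun z => v (R • z) := ContDiff.comp hv (contDiff_id.const_smul R)
  rw [pd_const_mul, pd_eq (h.diff x), fd_scale hv, pd_eq (hv.diff _), smul_eq_mul, mul_assoc]

theorem lap_scale (hv : Smooth v) (s R : ℝ) (x : E n) :
    lap (eu n) (fun z => s * v (R • z)) x = s * R ^ 2 * lap (eu n) v (R • x) := by
  rw [lap_eu, lap_eu, Finset.mul_sum]
  refine Finset.sum_congr rfl fun i _ => ?_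
  rw [pd_scale hv, pd_scale (hv.pd i)]
  ring

theorem df_scale (c : Cl n N) (hv : Smooth v) (hy : ContDiff ℝ ∞ y) {s : ℝ} (hs : s ≠ 0) (R : ℝ)
    (i : Fin n) (x : E n) : c.df (fun z => s * v (R • z)) (fun z => y (R • z)) i x =
      R • c.df v y i (R • x) := by
  have e : ∑ j, (s * R * pd j v (R • x)) • c.e j (y (R • x)) =
      (s * R) • ∑ j, pd j v (R • x) • c.e j (y (R • x)) := by
    simp only [Finset.smul_sum, smul_smul]
  simp only [Cl.df, pd_scale hv, fd_scale hy, e, map_smul, smul_sub, smul_add, smul_smul]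
  congr 3 <;> simp only [mul_inv] <;> field_simp

theorem par_scale {a R e : ℝ} (hR : 0 < R) (ha : 0 < a) (hv : Smooth v)
    (h0 : ∀ x, R ≤ ‖x‖ → 0 ≤ v x) (h : Par v R (e * a ^ (-bb n) * R ^ (n - 2 : ℝ))) :
    Par (fun z => a⁻¹ * v (R • z)) 1 e := by
  obtain ⟨N, c, y, y₀, hy, h1, ⟨R', h2⟩, h3⟩ := h
  have nr : ∀ x : E n, ‖R • x‖ = R * ‖x‖ := fun x => by rw [norm_smul, Real.norm_of_nonneg hR.le]
  refine ⟨N, c, fun z => y (R • z), y₀, hy.comp (contDiff_id.const_smul R), h1,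
    ⟨R' / R, fun x hx => h2 _ (by rwa [nr, mul_comm, ← div_le_iff₀ hR])⟩, ?_⟩
  have me : MeasurableEmbedding fun x : E n => R • x :=
    (Homeomorph.smulOfNeZero (α := E n) R hR.ne').measurableEmbedding
  have e1 : {x : E n | 1 ≤ ‖x‖} = (fun x => R • x) ⁻¹' {x | R ≤ ‖x‖} := by
    ext x
    simp only [mem_ofPred_eq, mem_preimage, nr, le_mul_iff_one_le_right hR]
  have e2 := me.lintegral_map (μ := volume.restrict {x : E n | 1 ≤ ‖x‖})
    fun x => ENNReal.ofReal (v x ^ (-bb n) * ∑ i, ‖c.df v y i x‖ ^ 2)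
  have e3 := me.restrict_map volume {x | R ≤ ‖x‖}
  rw [← e1, Measure.map_addHaar_smul volume hR.ne'] at e3
  rw [← e3, Measure.restrict_smul, lintegral_smul_measure] at e2
  have p0 : 0 ≤ a ^ bb n * R ^ 2 := by positivity
  calc _ = ∫⁻ x in {x : E n | 1 ≤ ‖x‖}, ENNReal.ofReal (a ^ bb n * R ^ 2) *
        ENNReal.ofReal (v (R • x) ^ (-bb n) * ∑ i, ‖c.df v y i (R • x)‖ ^ 2) := by
        refine setLIntegral_congr_fun (isClosed_le continuous_const continuous_norm).measurableSet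
          fun x hx => ?_
        simp only [df_scale c hv hy (inv_ne_zero ha.ne'), norm_smul, mul_pow, ← Finset.mul_sum]
        rw [← ENNReal.ofReal_mul p0, Real.mul_rpow (inv_nonneg.2 ha.le) (h0 _ (e1.subset hx)),
          Real.inv_rpow ha.le, Real.rpow_neg ha.le, inv_inv, Real.norm_of_nonneg hR.le]
        congr 1
        ring
    _ ≤ ENNReal.ofReal (a ^ bb n * R ^ 2) * (ENNReal.ofReal |(R ^ n)⁻¹| *
        ENNReal.ofReal (e * a ^ (-bb n) * R ^ (n - 2 : ℝ))) := by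
        rw [lintegral_const_mul' _ _ ENNReal.ofReal_ne_top, ← e2, finrank_euclideanSpace_fin,
          smul_eq_mul]
        gcongr
    _ = _ := by
        rw [← ENNReal.ofReal_mul (abs_nonneg _), ← ENNReal.ofReal_mul p0, Real.rpow_neg ha.le,
          Real.rpow_sub hR, Real.rpow_natCast, Real.rpow_two, abs_of_pos (by positivity)]
        congr 1
        have := (Real.rpow_pos_of_pos ha (bb n)).ne'
        field_simp

/-! ### the twistor spinor -/

theorem tw_eq (hn : 3 ≤ n) (c : Cl n N) (hw : Smooth w) (h0 : ∀ x, 0 < w x) (hy : ContDiff ℝ ∞ y)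
    (i : Fin n) (x : E n) : tw c (fun z => w z ^ (-(n * bb n / 2)) • y z)
      (chi c (fun z => w z ^ (-bb n)) fun z => w z ^ (-(n * bb n / 2)) • y z) i x =
      w x ^ (-(n * bb n / 2)) • c.df w y i x := by
  have e1 : D i (fun z => w z ^ (-(n * bb n / 2)) • y z) x = w x ^ (-(n * bb n / 2)) • D i y x +
      pd i (fun z => w z ^ (-(n * bb n / 2))) x • y x := by
    rw [D, fderiv_fun_smul ((hw.rpow h0 _).diff x) (dif hy x), pd_eq ((hw.rpow h0 _).diff x)]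
    rfl
  have e2 : ∑ l, (-bb n * w x ^ (-bb n - 1) * pd l w x) • c.e l (w x ^ (-(n * bb n / 2)) • y x) =
      (-bb n * w x ^ (-bb n - 1) * w x ^ (-(n * bb n / 2))) • ∑ l, pd l w x • c.e l (y x) := by
    simp only [Finset.smul_sum, map_smul, smul_smul]
    exact Finset.sum_congr rfl fun l _ => by rw [mul_right_comm]
  have a1 := (h0 x).ne'
  have a2 := (Real.rpow_pos_of_pos (h0 x) (-bb n)).ne'
  have a3 := (nm2_pos hn).ne'
  simp only [tw, chi, e1, pd_rpow (hw.diff x) a1, e2]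
  simp only [Cl.df, map_smul, smul_sub, smul_add, smul_smul, Real.rpow_sub_one a1]
  rw [D, ← sub_sub, sub_eq_add_neg (_ • fderiv ℝ y x _), ← neg_smul]
  generalize w x ^ (-bb n) = s at a2
  generalize w x ^ (-(n * bb n / 2)) = t
  have b1 : -(n * bb n / 2) * (t / w x) * pd i w x =
      -(t * (((n - 2) * w x)⁻¹ * (n * pd i w x))) := by
    unfold bb
    field_simp
  have b2 : -(2 * s)⁻¹ * (-bb n * (s / w x) * t) = t * ((n - 2) * w x)⁻¹ := by
    unfold bb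
    field_simp
  rw [b1, b2]

theorem rp_le {t p : ℝ} (ht : 1 / 8 ≤ t) (h0 : 0 ≤ p) (h4 : p ≤ 4) : t ^ (-p) ≤ 4096 := by
  refine (Real.rpow_le_rpow_of_nonpos (by norm_num) ht (neg_nonpos.2 h0)).trans ?_
  rw [one_div, Real.inv_rpow (by norm_num), Real.rpow_neg (by norm_num), inv_inv]
  exact (Real.rpow_le_rpow_of_exponent_le (by norm_num) h4).trans_eq (by norm_num)

theorem cont1 (p : ℝ) {η : ℝ} (hη : 0 < η) : ∃ d > (0 : ℝ), ∀ t : ℝ, |t - 1| ≤ d → |t ^ p - 1| ≤ η := by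
  have h := (Real.continuousAt_rpow_const 1 p (Or.inl one_ne_zero)).tendsto
  rw [Real.one_rpow] at h
  obtain ⟨d, hd, h⟩ := nhds_basis_closedBall.mem_iff.1 (h (closedBall_mem_nhds 1 hη))
  exact ⟨d, hd, fun t ht => h ht⟩

theorem geo {i j : Fin n} (hij : i ≠ j) (x : E n) {p q : ℝ} (hp : 0 ≤ p * x i) (hq : 0 ≤ q * x j) :
    ‖x‖ ^ 2 + p ^ 2 + q ^ 2 ≤ ‖x + (p • ee i + q • ee j)‖ ^ 2 := by
  simp only [norm_add_sq_real, inner_add_right, real_inner_smul_right,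
    EuclideanSpace.inner_single_right, norm_smul, PiLp.norm_single, norm_one, mul_one,
    Real.norm_eq_abs, sq_abs, PiLp.smul_apply, PiLp.single_apply, if_neg hij.symm, conj_trivial,
    one_mul, smul_zero, mul_zero]
  linarith

theorem geo' {i j : Fin n} (x : E n) {a b s t M : ℝ} (hx : ‖x‖ ≤ M) (ha : |a| = M) (hb : |b| = M)
    (hs : s ∈ Icc (0 : ℝ) 1) (ht : t ∈ Icc (0 : ℝ) 1) :
    ‖x + ((s * a) • ee i + (t * b) • ee j)‖ ≤ 3 * M := by
  refine (norm_add_le _ _).trans ((add_le_add hx (norm_add_le _ _)).trans ?_)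
  simp only [norm_smul, PiLp.norm_single, norm_one, mul_one, Real.norm_eq_abs, abs_mul, ha, hb,
    abs_of_nonneg hs.1, abs_of_nonneg ht.1]
  have := (norm_nonneg x).trans hx
  nlinarith [hs.2, ht.2]

theorem modif {A δ : ℝ} (hA : 1 ≤ A) (hδ : 0 < δ) : ∃ L > (0 : ℝ), ∀ w : E n → ℝ, Smooth w →
    (∀ x, 1 ≤ ‖x‖ → 1 / 8 ≤ w x ∧ w x ≤ A) → (∀ x, 1 + δ ≤ ‖x‖ → ‖fderiv ℝ w x‖ ≤ A) →
    ∃ v : E n → ℝ, Smooth v ∧ (∀ x, 1 / 8 ≤ v x ∧ v x ≤ A ∧ ‖fderiv ℝ v x‖ ≤ L) ∧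
      ∀ x, 1 + 2 * δ ≤ ‖x‖ → v x = w x := by
  obtain ⟨ζ, ζs, ζ0, ζ1, ζ2, -⟩ := ex_zeta (n := n) (R := 1 + δ) (R' := 1 + 2 * δ)
    (by positivity) (by linarith)
  obtain ⟨K, hK⟩ := lip_of_const ζs (R := 1 + 2 * δ) fun x h => ζ2 x h.le
  refine ⟨A + A * K, by positivity, fun w hw h1 h2 => ⟨fun x => ζ x * (w x - 1) + 1,
    (ContDiff.mul ζs (ContDiff.sub hw contDiff_const)).add contDiff_const, fun x => ?_,
    fun x hx => by simp only [ζ2 x hx, one_mul, sub_add_cancel]⟩⟩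
  by_cases h : ‖x‖ < 1 + δ
  · have e : (fun x => ζ x * (w x - 1) + 1) =ᶠ[𝓝 x] fun _ => 1 :=
      ((isOpen_lt continuous_norm continuous_const).eventually_mem h).mono fun z hz => by
        simp only [ζ1 z (le_of_lt hz), zero_mul, zero_add]
    rw [e.fderiv_eq, fderiv_fun_const, Pi.zero_apply, norm_zero]
    simp only [ζ1 x h.le, zero_mul, zero_add]
    exact ⟨by norm_num, hA, by positivity⟩
  obtain ⟨a1, a2⟩ := h1 x (by linarith)
  obtain ⟨a3, a4⟩ := ζ0 x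
  refine ⟨by nlinarith, by nlinarith, ?_⟩
  rw [fderiv_add_const, fderiv_fun_mul (ζs.diff x) ((hw.diff x).sub_const 1), fderiv_sub_const]
  refine (norm_add_le _ _).trans (add_le_add ?_ ?_) <;> rw [norm_smul, Real.norm_eq_abs]
  · rw [abs_of_nonneg a3]
    exact (mul_le_of_le_one_left (norm_nonneg _) a4).trans (h2 x (not_lt.1 h))
  · exact mul_le_mul (abs_le.2 ⟨by linarith, by linarith⟩) (norm_fderiv_le_of_lipschitz ℝ hK)
      (norm_nonneg _) (by positivity)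

theorem eb_of (hn : 3 ≤ n) (c : Cl n N) {R R' e : ℝ} (he : 0 ≤ e) (hR : 1 ≤ R') (hR' : R' ≤ R)
    (hv : Smooth v) (h0 : ∀ x, 1 / 8 ≤ v x) (hy : ContDiff ℝ ∞ y) (h1 : ∀ x, R' ≤ ‖x‖ → v x = w x)
    (h : ∫⁻ x in {x : E n | 1 ≤ ‖x‖}, ENNReal.ofReal (w x ^ (-bb n) * ∑ i, ‖c.df w y i x‖ ^ 2) ≤
      ENNReal.ofReal e) : Eb R (4096 * e)
      (en c (fun z => v z ^ (-bb n)) fun z => v z ^ (-(n * bb n / 2)) • y z) := by
  have v0 : ∀ x, 0 < v x := fun x => lt_of_lt_of_le (by norm_num) (h0 x)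
  intro ψ ψc ψs ψ0 ψ1
  have φs : ContDiff ℝ ∞ fun z => v z ^ (-(n * bb n / 2)) • y z := (hv.rpow v0 _).smul hy
  refine (integral_eq_lintegral_of_nonneg_ae (Eventually.of_forall fun x =>
    mul_nonneg (ψ0 x).1 (en_nn c x)) (ψc.mul (cont_en c (hv.rpow v0 _)
      (fun x => Real.rpow_pos_of_pos (v0 x) _) φs)).aestronglyMeasurable).trans_le
    (ENNReal.toReal_le_of_le_ofReal (by positivity) ?_)
  rw [ENNReal.ofReal_mul (by norm_num)]
  refine le_trans ?_ (mul_le_mul_right h _)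
  rw [← lintegral_const_mul' _ _ ENNReal.ofReal_ne_top,
    ← lintegral_indicator (isClosed_le continuous_const continuous_norm).measurableSet]
  refine lintegral_mono fun x => ?_
  by_cases hx : ‖x‖ ≤ R
  · simp only [ψ1 x hx, zero_mul, ENNReal.ofReal_zero, zero_le]
  have ev : v =ᶠ[𝓝 x] w := ((isOpen_lt continuous_const continuous_norm).eventually_mem
    (not_le.1 hx)).mono fun z hz => h1 z (hR'.trans (le_of_lt hz))
  rw [indicator_of_mem (show x ∈ {x : E n | 1 ≤ ‖x‖} from by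
    rw [mem_ofPred_eq]; linarith), ← ENNReal.ofReal_mul (by norm_num)]
  refine ENNReal.ofReal_le_ofReal ((mul_le_of_le_one_left (en_nn c x) (ψ0 x).2).trans ?_)
  have e1 : ∀ i, c.df w y i x = c.df v y i x := fun i => by
    simp only [Cl.df, pd_congr ev, ev.eq_of_nhds]
  have e2 : ‖v x ^ (-(n * bb n / 2))‖ ^ 2 = v x ^ (-(2 * gam n)) * v x ^ (-bb n) := by
    rw [Real.norm_eq_abs, sq_abs, sq, ← Real.rpow_add (v0 x), ← Real.rpow_add (v0 x),
      ← nm1_bb hn]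
    congr 1
    ring
  simp only [en, tw_eq hn c hv v0 hy, norm_smul, mul_pow, ← Finset.mul_sum, e1, e2,
    ← ev.eq_of_nhds, mul_assoc]
  refine mul_le_mul_of_nonneg_right (rp_le (h0 x) ?_ ?_) (mul_nonneg
    (Real.rpow_nonneg (v0 x).le _) (Finset.sum_nonneg fun _ _ => sq_nonneg _))
  · linarith [one_lt_gam hn]
  · linarith [gam_le hn]

theorem unit (hn : 3 ≤ n) {A δ η : ℝ} (hA : 1 ≤ A) (hδ : 0 < δ) (hη : 0 < η) :
    ∃ e > (0 : ℝ), ∀ w : E n → ℝ, Smooth w → (∀ x, 1 ≤ ‖x‖ → 1 / 8 ≤ w x ∧ w x ≤ A) →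
      (∀ x, 1 + δ ≤ ‖x‖ → ‖fderiv ℝ w x‖ ≤ A) → (∀ x, 4 ≤ ‖x‖ → |w x - 1| ≤ A / ‖x‖) →
      Par w 1 e → ∀ x, 1 + 4 * δ ≤ ‖x‖ → |w x - 1| ≤ η := by
  obtain ⟨L₀, hL₀, hm⟩ := modif (n := n) hA hδ
  obtain ⟨η₁, hη₁, k1⟩ := cont1 (-bb n)⁻¹ hη
  obtain ⟨η₂, hη₂, k2⟩ := cont1 (-bb n) (η := η₁ / 4) (by positivity)
  obtain ⟨M, M4, M1⟩ : ∃ M : ℝ, 4 ≤ M ∧ A / M ≤ η₂ := ⟨4 + A / η₂, le_add_of_nonneg_right
    (by positivity), by
      rw [div_le_iff₀ (by positivity), mul_add, mul_div_cancel₀ _ hη₂.ne']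
      linarith⟩
  let i : Fin n := ⟨0, by omega⟩
  let j : Fin n := ⟨1, by omega⟩
  have hij : i ≠ j := by simp [i, j]
  have b0 := bb_pos hn
  have b2 := bb_le hn
  choose G hE hc using fun a b => core hn (i := i) (j := j) (k := ⟨2, by omega⟩) hij
    (by simp [i]) (by simp [j]) (L := 8192 * A ^ 2 * (1 + L₀)) (R₀ := 1 + 3 * δ)
    (R₁ := 1 + 4 * δ) (M := 3 * M) (η := η₁ / 4) (by positivity) (by positivity) (by linarith)
    (by positivity) (by positivity) a b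
  obtain ⟨e, he, e1⟩ : ∃ e > (0 : ℝ), ∀ a b, |a| = M → |b| = M → 4096 * e ≤ G a b := by
    refine ⟨min (min (G M M) (G M (-M))) (min (G (-M) M) (G (-M) (-M))) / 4096,
      div_pos (lt_min (lt_min (hE _ _) (hE _ _)) (lt_min (hE _ _) (hE _ _))) (by norm_num),
      fun a b ha hb => ?_⟩
    rw [mul_div_cancel₀ _ (by norm_num)]
    rcases (abs_eq (by linarith)).1 ha with rfl | rfl <;>
      rcases (abs_eq (by linarith)).1 hb with hb | hb <;> rw [hb] <;> simp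
  refine ⟨e, he, fun w hw h1 h2 h3 ⟨N, c, y, y₀, hy, n1, ⟨R', y1⟩, h4⟩ x hx => ?_⟩
  obtain ⟨v, hv, v1, v2⟩ := hm w hw h1 h2
  have v0 : ∀ x, 0 < v x := fun x => lt_of_lt_of_le (by norm_num) (v1 x).1
  have far : ∀ z, 1 + 4 * δ ≤ ‖z‖ → M ≤ ‖z‖ → |v z ^ (-bb n) - 1| ≤ η₁ / 4 := fun z a1 a2 =>
    k2 _ (by
      rw [v2 z (by linarith)]
      exact (h3 z (M4.trans a2)).trans ((div_le_div_of_nonneg_left (by linarith) (by linarith)
        a2).trans M1))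
  rw [← v2 x (by linarith), ← Real.rpow_rpow_inv (v0 x).le (neg_ne_zero.2 b0.ne')]
  refine k1 _ ?_
  by_cases hM : M ≤ ‖x‖
  · linarith [far x hx hM]
  have sg : ∀ t : ℝ, ∃ a, |a| = M ∧ 0 ≤ a * t := fun t => by
    rcases le_total 0 t with h | h
    · exact ⟨M, abs_of_nonneg (by linarith), mul_nonneg (by linarith) h⟩
    · exact ⟨-M, by rw [abs_neg, abs_of_nonneg (by linarith)], by nlinarith⟩
  obtain ⟨a, ha, a0⟩ := sg (x i)
  obtain ⟨b, hb, c0⟩ := sg (x j)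
  have g1 : ∀ s t : ℝ, 0 ≤ s → 0 ≤ t → ‖x‖ ^ 2 + (s * a) ^ 2 + (t * b) ^ 2 ≤
      ‖x + ((s * a) • ee i + (t * b) • ee j)‖ ^ 2 := fun s t hs ht =>
    geo hij x (by rw [mul_assoc]; positivity) (by rw [mul_assoc]; positivity)
  have g2 : ∀ s t : ℝ, 0 ≤ s → 0 ≤ t → 1 + 4 * δ ≤ ‖x + ((s * a) • ee i + (t * b) • ee j)‖ :=
    fun s t hs ht => hx.trans (abs_le_of_sq_le_sq' (by nlinarith [g1 s t hs ht])
      (norm_nonneg _)).2
  have g3 : ∀ s t : ℝ, 0 ≤ s → 0 ≤ t → s = 1 ∨ t = 1 →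
      |v (x + ((s * a) • ee i + (t * b) • ee j)) ^ (-bb n) - 1| ≤ η₁ / 4 := fun s t hs ht h => by
    refine far _ (g2 s t hs ht) (abs_le_of_sq_le_sq' ?_ (norm_nonneg _)).2
    have := g1 s t hs ht
    rcases h with rfl | rfl
    · nlinarith [sq_abs a]
    · nlinarith [sq_abs b]
  have key := hc a b N c (fun z => v z ^ (-bb n)) (fun z => v z ^ (-(n * bb n / 2)) • y z) x
    (hv.rpow v0 _) ((hv.rpow v0 _).smul hy) (fun z => ⟨?_, ?_, ?_⟩) ?_
    (fun ψ p1 p2 p3 p4 => (eb_of hn c he.le (by linarith) (by linarith) hv (fun z => (v1 z).1) hy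
      v2 h4 ψ p1 p2 p3 p4).trans (e1 a b ha hb))
    fun s hs t ht => ⟨g2 s t hs.1 ht.1, geo' x (not_le.1 hM).le ha hb hs ht⟩
  · have d1 := g3 1 0 zero_le_one le_rfl (Or.inl rfl)
    have d2 := g3 0 1 le_rfl zero_le_one (Or.inr rfl)
    have d3 := g3 1 1 zero_le_one zero_le_one (Or.inl rfl)
    simp only [one_mul, zero_mul, zero_smul, add_zero, zero_add] at d1 d2 d3
    rw [abs_le] at key d1 d2 d3 ⊢
    constructor <;> linarith [key.1, key.2, d1.1, d1.2, d2.1, d2.2, d3.1, d3.2]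
  · refine le_trans ?_ (Real.rpow_le_rpow_of_nonpos (v0 z) (v1 z).2.1 (by linarith))
    refine le_trans ?_ (Real.rpow_le_rpow_of_exponent_le hA (show -2 ≤ -bb n by linarith))
    rw [Real.rpow_neg (by linarith), Real.rpow_two, one_div]
    exact inv_anti₀ (by positivity) (by nlinarith [mul_pos (pow_pos (by linarith : 0 < A) 2) hL₀])
  · refine (rp_le (v1 z).1 b0.le (by linarith)).trans ?_
    nlinarith [mul_pos (pow_pos (by linarith : 0 < A) 2) hL₀]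
  · rw [((hv.diff z).hasFDerivAt.rpow_const (Or.inl (v0 z).ne')).fderiv, norm_smul,
      Real.norm_eq_abs, abs_mul, abs_neg, abs_of_pos b0,
      abs_of_pos (Real.rpow_pos_of_pos (v0 z) _), show -bb n - 1 = -(bb n + 1) by ring]
    refine (mul_le_mul (mul_le_mul b2 (rp_le (v1 z).1 (by linarith) (by linarith))
      (Real.rpow_nonneg (v0 z).le _) zero_le_two) (v1 z).2.2 (norm_nonneg _) (by norm_num)).trans ?_
    nlinarith [mul_le_mul_of_nonneg_right (one_le_pow₀ (n := 2) hA) hL₀.le]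
  · have t0 := tendsto_norm_cocompact_atTop (E := E n)
    have t1 : Tendsto v (cocompact (E n)) (𝓝 1) := by
      refine tendsto_sub_nhds_zero_iff.1 (squeeze_zero_norm' ?_ (t0.const_div_atTop A))
      filter_upwards [t0.eventually_ge_atTop 4, t0.eventually_ge_atTop (1 + 2 * δ)] with z a1 a2
      rw [v2 z a2]
      exact h3 z a1
    have t2 := t1.rpow_const (p := -(2 * gam n)) (Or.inl one_ne_zero)
    rw [Real.one_rpow] at t2
    refine t2.congr' ((t0.eventually_ge_atTop R').mono fun z hz => ?_)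
    simp only [real_inner_self_eq_norm_sq, norm_smul, y1 z hz, n1, mul_one, Real.norm_eq_abs,
      sq_abs]
    rw [sq, ← Real.rpow_add (v0 z), ← Real.rpow_sub (v0 z), ← nm1_bb hn]
    congr 1
    ring

theorem decay (hn : 3 ≤ n) {C M β : ℝ} (hM : 0 ≤ M) (h1 : ∀ x, 1 ≤ ‖x‖ → |w x - 1| ≤ M)
    (h2 : ∀ x, 4 * 1 ≤ ‖x‖ →
      |w x - 1 - β * ‖x‖ ^ (2 - n : ℝ)| ≤ C * (M + 1) * (1 / ‖x‖) ^ (n - 1 : ℝ)) (x : E n)
    (hx : 4 ≤ ‖x‖) : |w x - 1| ≤ ((M + |C| * (M + 1)) * 4 ^ (n - 2 : ℝ) + |C| * (M + 1)) / ‖x‖ := by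
  have n3 : (3 : ℝ) ≤ n := by exact_mod_cast hn
  have h3 : ∀ x : E n, 4 ≤ ‖x‖ → |w x - 1 - β * ‖x‖ ^ (2 - n : ℝ)| ≤ |C| * (M + 1) * (1 / ‖x‖) :=
    fun x hx => (h2 x (by linarith)).trans (mul_le_mul (mul_le_mul_of_nonneg_right (le_abs_self C)
      (by positivity)) ((Real.rpow_le_rpow_of_exponent_ge (by positivity)
        (by rw [div_le_one (by positivity)]; linarith) (show 1 ≤ (n - 1 : ℝ) by linarith)).trans_eq
          (Real.rpow_one _)) (by positivity) (by positivity))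
  obtain ⟨z, hz⟩ : ∃ z : E n, ‖z‖ = 4 := ⟨(4 / ‖x‖) • x, by
    rw [norm_smul, Real.norm_of_nonneg (by positivity), div_mul_cancel₀ _ (by positivity)]⟩
  have a1 := h3 z hz.ge
  have a2 := h1 z (by linarith)
  rw [hz] at a1
  have a3 : |β| * 4 ^ (2 - n : ℝ) ≤ M + |C| * (M + 1) := by
    rw [← abs_of_pos (Real.rpow_pos_of_pos four_pos (2 - n : ℝ)), ← abs_mul]
    have : 0 ≤ |C| * (M + 1) := by positivity
    rw [abs_le] at a1 a2 ⊢
    constructor <;> linarith [a1.1, a1.2, a2.1, a2.2]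
  have a4 : |β| ≤ (M + |C| * (M + 1)) * 4 ^ (n - 2 : ℝ) := by
    refine le_trans (le_of_eq ?_) (mul_le_mul_of_nonneg_right a3 (by positivity))
    rw [mul_assoc, ← Real.rpow_add four_pos, sub_add_sub_cancel, sub_self, Real.rpow_zero, mul_one]
  have a5 : |β * ‖x‖ ^ (2 - n : ℝ)| ≤ (M + |C| * (M + 1)) * 4 ^ (n - 2 : ℝ) * (1 / ‖x‖) := by
    rw [abs_mul, abs_of_pos (Real.rpow_pos_of_pos (by positivity) _), one_div,
      ← Real.rpow_neg_one]
    exact mul_le_mul a4 (Real.rpow_le_rpow_of_exponent_le (by linarith) (by linarith))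
      (by positivity) (by positivity)
  have a6 := abs_le.1 (h3 x hx)
  rw [abs_le] at a5 ⊢
  rw [div_eq_mul_one_div, add_mul]
  constructor <;> linarith [a5.1, a5.2, a6.1, a6.2]

end StabH

open StabH in
theorem stab_of (hG : GRAD) (hN : NEWT) (hA : ASY) : STAB := by
  intro n C₀ δ η hn hδ hη
  obtain ⟨C, hC⟩ := hN n hn
  obtain ⟨K, hK⟩ := hG n (eu n) 0 (fun _ => 1) hn met_eu (flat_eu 0)
    ⟨contDiff_const, 1, one_pos, 1, fun x => by simp [lap_const]⟩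
  obtain ⟨M, hM⟩ : ∃ M, M = |C₀| + 1 := ⟨_, rfl⟩
  have M0 : 0 ≤ M := by rw [hM]; positivity
  obtain ⟨r, hr, r1, r2⟩ : ∃ r : ℝ, 0 < r ∧ r ≤ 1 ∧ r ≤ δ / 4 :=
    ⟨min 1 (δ / 4), lt_min one_pos (by positivity), min_le_left _ _, min_le_right _ _⟩
  obtain ⟨A₁, hA₁⟩ : ∃ A, A = (M + |C| * (M + 1)) * 4 ^ (n - 2 : ℝ) + |C| * (M + 1) := ⟨_, rfl⟩
  have A1 : 0 ≤ A₁ := by rw [hA₁]; positivity
  have A2 : 0 ≤ |K| * (M / r + r * 1) := by positivity
  obtain ⟨e, he, hu⟩ := unit hn (A := M + A₁ + |K| * (M / r + r * 1)) (δ := δ / 4)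
    (by linarith [abs_nonneg C₀]) (by positivity) hη
  refine ⟨min e 1, lt_min he one_pos, fun v a β R S hR ha hv hS h1 h2 h3 x hx => ?_⟩
  have R0 : 0 < R := one_pos.trans_le hR
  have nr : ∀ x : E n, ‖R • x‖ = R * ‖x‖ := fun x => by rw [norm_smul, Real.norm_of_nonneg R0.le]
  have ws := sm_scale hv a⁻¹ R
  have w1 : ∀ z : E n, 1 ≤ ‖z‖ → (1 / 8 ≤ a⁻¹ * v (R • z) ∧ a⁻¹ * v (R • z) ≤ |C₀|) ∧
      |lap (eu n) (fun z => a⁻¹ * v (R • z)) z| ≤ 1 * ‖z‖ ^ (-(n + 2) : ℝ) := fun z hz => by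
    obtain ⟨a1, a2, a3⟩ := h1 (R • z) (by rw [nr]; exact le_mul_of_one_le_right R0.le hz)
    refine ⟨⟨by rw [le_inv_mul_iff₀ ha]; linarith, by
      rw [inv_mul_le_iff₀ ha]; nlinarith [le_abs_self C₀]⟩, ?_⟩
    rw [nr, Real.mul_rpow R0.le (norm_nonneg _), ← mul_assoc] at a3
    rw [lap_scale hv, abs_mul, abs_of_pos (by positivity)]
    refine (mul_le_mul_of_nonneg_left a3 (by positivity)).trans ?_
    rw [← mul_assoc]
    refine mul_le_mul_of_nonneg_right ?_ (by positivity)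
    have b1 : a⁻¹ * S ≤ 1 := by
      rw [inv_mul_le_iff₀ ha]
      nlinarith [min_le_right e 1]
    have b2 : R ^ 2 * R ^ (-(n + 2) : ℝ) ≤ 1 := by
      rw [← Real.rpow_two, ← Real.rpow_add R0]
      exact Real.rpow_le_one_of_one_le_of_nonpos hR (by linarith [n.cast_nonneg (α := ℝ)])
    nlinarith [mul_le_mul_of_nonneg_right b1 (show 0 ≤ R ^ 2 * R ^ (-(n + 2) : ℝ) by positivity)]
  have w2 : ∀ z : E n, 1 ≤ ‖z‖ → |a⁻¹ * v (R • z) - 1| ≤ M := fun z hz =>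
    abs_le.2 ⟨by linarith [(w1 z hz).1.1, abs_nonneg C₀], by linarith [(w1 z hz).1.2]⟩
  have t1 : Tendsto (fun z => a⁻¹ * v (R • z)) (cocompact (E n)) (𝓝 1) := by
    rw [← inv_mul_cancel₀ ha.ne']
    exact ((hA n v v a a β β hn hv hv h2).1.1.comp
      (Homeomorph.smulOfNeZero (α := E n) R R0.ne').isClosedEmbedding.tendsto_cocompact).const_mul _
  obtain ⟨β', -, h4⟩ := hC _ 1 1 M 1 le_rfl ws (fun z hz => ⟨w2 z hz, (w1 z hz).2⟩) t1
  obtain ⟨N, c, y, y₀, p1, p2, p3, p4⟩ := par_scale R0 ha hv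
    (fun z hz => le_trans (by positivity) (h1 z hz).1) h3
  have key := hu _ ws (fun z hz => ⟨(w1 z hz).1.1, by linarith [(w1 z hz).1.2]⟩) (fun z hz => ?_)
    (fun z hz => (decay hn M0 w2 h4 z hz).trans
      (div_le_div_of_nonneg_right (by linarith) (norm_nonneg _)))
    ⟨N, c, y, y₀, p1, p2, p3, p4.trans (ENNReal.ofReal_le_ofReal (min_le_left _ _))⟩ (R⁻¹ • x) (by
      rw [norm_smul, Real.norm_of_nonneg (by positivity), le_inv_mul_iff₀ R0]
      linarith)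
  · rw [smul_inv_smul₀ R0.ne', show a⁻¹ * v x - 1 = a⁻¹ * (v x - a) by field_simp, abs_mul,
      abs_of_pos (inv_pos.2 ha), inv_mul_le_iff₀ ha] at key
    linarith
  · refine (hK r M 1 z _ hr r1 fun s hs => ?_).trans ((mul_le_mul_of_nonneg_right (le_abs_self K)
      (by positivity)).trans (by linarith))
    have s1 : 1 ≤ ‖s‖ := by linarith [norm_sub_norm_le z s, mem_ball_iff_norm'.1 hs]
    refine ⟨ws.c2 s, abs_le.2 ⟨by linarith [(w1 s s1).1.1], by linarith [(w1 s s1).1.2]⟩, ?_⟩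
    rw [wl_one]
    exact (w1 s s1).2.trans ((one_mul _).trans_le (Real.rpow_le_one_of_one_le_of_nonpos s1
      (by linarith [n.cast_nonneg (α := ℝ)])))

end Vale.Agent.P366Z
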