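import Vale.Agent.P366Z.Sk
import Vale.Agent.P366Z.Int

/-!
# P366Z: nested minimisers, the loss of area, the perimeter of a sphere
-/

open MeasureTheory Metric Filter Topology Set
open scoped ContDiff ENNReal NNReal
open Vale.Agent.P366.Stmt

noncomputable section

namespace Vale.Agent.P366Z

theorem nest : NEST := by
  intro n B L m p q U U' κ κ' η ψ ψ' hB hP hU hU' _ he h1 h2
  have c1 := h1.1.max h2.1
  have c2 := h1.1.min h2.1
  have k1 := h1.2 _ c1
  have k2 := h2.2 _ c2
  have e1 : per B U (fun x => max (ψ x) (ψ' x)) + per B U' (fun x => min (ψ x) (ψ' x)) =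
      per B U ψ + per B U' ψ' := by
    unfold per
    rw [← integral_add (c1.int_per hB hU) (c2.int_per hB hU'),
      ← integral_add (h1.1.int_per hB hU) (h2.1.int_per hB hU')]
    refine integral_congr_ae ?_
    filter_upwards [h1.1.lip.ae_gn_max h2.1.lip B.g, h1.1.lip.ae_gn_min h2.1.lip B.g] with x a1 a2
    rw [a1, a2]
    split_ifs with e
    · rfl
    · rw [he x ((not_le.1 e).trans_le (h2.1.mem x).2), add_comm]
  have i1 := Cls.int_vol hB hP h1.1.lip.cont
  have i2 := Cls.int_vol hB hP c2.lip.cont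
  have i3 := Cls.int_vol hB hP (ψ := fun x => max (ψ' x - ψ x) 0)
    ((h2.1.lip.cont.sub h1.1.lip.cont).max continuous_const)
  have e2 : ∫ x, m x * max (ψ x) (ψ' x) * dens B.g x =
      (∫ x, m x * ψ x * dens B.g x) + ∫ x, m x * max (ψ' x - ψ x) 0 * dens B.g x := by
    rw [← integral_add i1 i3]
    refine integral_congr_ae (.of_forall fun x => ?_)
    have : max (ψ x) (ψ' x) = ψ x + max (ψ' x - ψ x) 0 := by
      rw [← max_add_add_left, add_sub_cancel, add_zero, max_comm]
    simp only [this]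
    ring
  have e3 : ∫ x, m x * ψ' x * dens B.g x =
      (∫ x, m x * min (ψ x) (ψ' x) * dens B.g x) + ∫ x, m x * max (ψ' x - ψ x) 0 * dens B.g x := by
    rw [← integral_add i2 i3]
    refine integral_congr_ae (.of_forall fun x => ?_)
    have : ψ' x = min (ψ x) (ψ' x) + max (ψ' x - ψ x) 0 := by
      rcases le_total (ψ x) (ψ' x) with h | h
      · rw [min_eq_left h, max_eq_left (sub_nonneg.2 h), add_sub_cancel]
      · rw [min_eq_right h, max_eq_right (sub_nonpos.2 h), add_zero]
    show m x * ψ' x * _ = _ + _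
    rw [← add_mul, ← mul_add, ← this]
  unfold pp at k1 k2
  rw [e2] at k1
  rw [e3] at k2
  linarith

theorem ramp : RAMP := by
  intro n B U L r M η hB hU hr hL hη hM
  have hn : 0 < n := by have := hB.dim; omega
  have r0 : 0 < r := by linarith [hB.one]
  have hp : 0 ≤ 2 * gam n := by linarith [one_lt_gam hB.dim]
  have hc : ContinuousAt (fun s : ℝ => omega n * (r + s) ^ (n - 1) * M ^ (2 * gam n)) 0 := by
    fun_prop
  have h1 := hc.eventually (gt_mem_nhds (lt_add_of_pos_right _ hη))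
  obtain ⟨s, ⟨h2, h3⟩, s0⟩ := ((h1.and (gt_mem_nhds (sub_pos.2 hL))).filter_mono
    (nhdsWithin_le_nhds (s := Ioi 0))).and self_mem_nhdsWithin |>.exists
  replace s0 : 0 < s := s0
  have l1 : Lip fun x : E n => (‖x‖ - r) / s := (lip_norm.sub (lip_const r)).div_const s
  have l2 := l1.min (lip_const 1)
  have c1 : Cls B L fun x => max 0 (min ((‖x‖ - r) / s) 1) := by
    refine ⟨(lip_const 0).max l2, fun x => ⟨le_max_left _ _, max_le zero_le_one (min_le_right _ _)⟩,
      fun x hx => max_eq_left (min_le_of_left_le (div_nonpos_of_nonpos_of_nonneg ?_ s0.le)),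
      fun x hx => ?_⟩
    · by_contra h
      linarith [hB.far x (by linarith), hB.s0]
    · rw [min_eq_right ((one_le_div s0).2 (by linarith)), max_eq_right zero_le_one]
  refine ⟨_, c1, le_trans ?_ (h2.le.trans_eq ?_)⟩
  swap
  · simp only [add_zero]
    rw [← Real.rpow_natCast, Nat.cast_sub hn, Nat.cast_one]
  have := nontriv hn
  obtain ⟨y, hy⟩ := exists_norm_eq (E n) r0.le
  have M0 : 0 ≤ M := (hM y hy.ge).1.trans (hM y hy.ge).2
  have hK : 0 ≤ M ^ (2 * gam n) / s := by positivity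
  set K := M ^ (2 * gam n) / s with hKd
  have i1 : Integrable fun x : E n => (Icc r (r + s)).indicator (fun _ => K) ‖x‖ := by
    have := integrable_of_bd (f := fun _ : E n => (1 : ℝ))
      (h := fun x => (Icc r (r + s)).indicator (fun _ => K) ‖x‖) (K := K) (R := r + s)
      continuous_const ((measurable_const.indicator measurableSet_Icc).comp measurable_norm)
      (fun x => by by_cases h : ‖x‖ ∈ Icc r (r + s) <;> simp [h, abs_of_nonneg hK, hK])
      fun x hx => indicator_of_notMem (fun h => absurd h.2 (not_le.2 hx)) _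
    simpa using this
  refine (integral_mono_ae (c1.int_per hB hU) i1 ?_).trans ?_
  · filter_upwards [(lip_const 0).ae_gn_max l2 B.g, l1.ae_gn_min (lip_const 1) B.g] with x a1 a2
    have z : ∀ c : ℝ, gn B.g (fun _ => c) x = 0 := fun c => gn_zero fun i => pd_const c i x
    have h0 := indicator_nonneg (s := Icc r (r + s)) (f := fun _ => K) (fun _ _ => hK) ‖x‖
    rw [a1, a2]
    split_ifs with e1 e2
    · simpa [z] using h0
    · simpa [z] using h0
    have b1 : r < ‖x‖ := by
      by_contra h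
      exact e1 (min_le_of_left_le (div_nonpos_of_nonpos_of_nonneg (by linarith) s0.le))
    have b2 : ‖x‖ ≤ r + s := by
      by_contra h
      exact e2 ((one_le_div s0).2 (by linarith))
    have x0 : x ≠ 0 := norm_pos_iff.1 (r0.trans b1)
    have b3 : gn B.g (fun y => (‖y‖ - r) / s) x = s⁻¹ := by
      rw [gn_of_pd (u' := fun y => ‖y‖) (s := s⁻¹) fun i => by
          simp only [div_eq_inv_mul]; rw [pd_const_mul, pd_sub_const],
        hB.flat.gn_eq (hr.trans b1.le), gn, ip_eu_norm x0, Real.sqrt_one, mul_one,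
        abs_of_pos (inv_pos.2 s0)]
    rw [indicator_of_mem (mem_Icc.2 ⟨b1.le, b2⟩), b3, hB.flat.dens_eq (hr.trans b1.le), mul_one,
      hKd, div_eq_mul_inv]
    exact mul_le_mul_of_nonneg_right (Real.rpow_le_rpow (hM x b1.le).1 (hM x b1.le).2 hp)
      (inv_pos.2 s0).le
  rw [integral_radial hn, mul_assoc]
  refine mul_le_mul_of_nonneg_left ?_ (omega_pos hn).le
  have i2 : Integrable ((Icc r (r + s)).indicator fun _ => (r + s) ^ (n - 1) * K) :=
    (integrable_indicator_iff measurableSet_Icc).2 (integrableOn_const measure_Icc_lt_top.ne)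
  have h4 : 0 ≤ (r + s) ^ (n - 1) * K := by positivity
  refine (integral_mono_of_nonneg ?_ i2.integrableOn ?_).trans
    ((setIntegral_le_integral i2 (.of_forall (indicator_nonneg fun _ _ => h4))).trans_eq ?_)
  · filter_upwards [ae_restrict_mem measurableSet_Ioi] with t ht
    exact mul_nonneg (pow_nonneg (le_of_lt ht) _) (indicator_nonneg (fun _ _ => hK) t)
  · refine .of_forall fun t => ?_
    by_cases h : t ∈ Icc r (r + s)
    · simp only [indicator_of_mem h]
      exact mul_le_mul_of_nonneg_right (pow_le_pow_left₀ (r0.le.trans h.1) h.2 _) hK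
    · simp [indicator_of_notMem h]
  · rw [integral_indicator_const _ measurableSet_Icc, Real.volume_real_Icc_of_le (by linarith),
      add_sub_cancel_left, smul_eq_mul, hKd]
    field_simp

namespace AreaX

theorem fc_mono {η' η'' : ℝ} {f : ℝ → ℝ} (h : Fc η' η'' f) : Monotone f :=
  monotone_of_deriv_nonneg (h.sm.differentiable (by simp)) fun t => (h.d1 t).1

theorem fc_nonneg {η' η'' : ℝ} {f : ℝ → ℝ} (h : Fc η' η'' f) (t : ℝ) : 0 ≤ f t := by
  rcases le_total t η' with e | e
  · rw [h.zero t e]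
  · exact (h.zero η' le_rfl).ge.trans (fc_mono h e)

theorem fc_le {η' η'' : ℝ} {f : ℝ → ℝ} (h : Fc η' η'' f) (h0 : 0 < η') {t : ℝ} (ht : t ≤ 1) :
    f t ≤ 1 := by
  have h1 := image_sub_le_mul_sub_of_deriv_le (h.sm.differentiable (by simp))
    (fun t => (h.d1 t).2) (zero_le_one (α := ℝ))
  rw [h.zero 0 h0.le] at h1
  linarith [fc_mono h ht]

theorem fc_deriv {η' η'' : ℝ} {f : ℝ → ℝ} (h : Fc η' η'' f) {t : ℝ} (ht : t ≤ η') :
    deriv f t = 0 :=
  IsLocalMin.deriv_eq_zero (.of_forall fun y => (h.zero t ht).trans_le (fc_nonneg h y))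

theorem pow_le {U y p : ℝ} (hU : 0 < U) (h0 : 0 ≤ y) (h1 : y ≤ 1 / 2) (hp : p ≤ 4) :
    U ^ p ≤ (U * (1 - y)) ^ p * (1 + 64 * y) := by
  have h2 : (1 - y) ^ (4 : ℝ) ≤ (1 - y) ^ p :=
    Real.rpow_le_rpow_of_exponent_ge (by linarith) (by linarith) hp
  rw [show (4 : ℝ) = (4 : ℕ) by norm_num, Real.rpow_natCast] at h2
  have h3 : 1 - 4 * y ≤ (1 - y) ^ 4 := by
    simpa [sub_eq_add_neg] using one_add_mul_le_pow (a := -y) (by linarith) 4
  have h4 : (1 / 2) ^ 4 ≤ (1 - y) ^ 4 := pow_le_pow_left₀ (by norm_num) (by linarith) 4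
  rw [Real.mul_rpow hU.le (by linarith), mul_assoc]
  exact le_mul_of_one_le_right (Real.rpow_nonneg hU.le _) (by nlinarith)

theorem pow_le' {U U' p : ℝ} (h0 : 0 < U') (h1 : U' ≤ U) (h2 : U ≤ 2) (hp : 1 ≤ p) (hp' : p ≤ 4) :
    U' ^ p ≤ 8 * U := by
  have h3 : U' ^ (p - 1) ≤ 2 ^ (3 : ℝ) :=
    (Real.rpow_le_rpow h0.le (h1.trans h2) (by linarith)).trans
      (Real.rpow_le_rpow_of_exponent_le one_le_two (by linarith))
  rw [show (3 : ℝ) = (3 : ℕ) by norm_num, Real.rpow_natCast, Real.rpow_sub_one h0.ne',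
    div_le_iff₀ h0] at h3
  linarith

theorem cs {n : ℕ} {A : Set (E n)} {a d : E n → ℝ} {e V R : ℝ} (hA : MeasurableSet A)
    (hR : A ⊆ closedBall 0 R) (ha : Continuous a) (hd : Continuous d) (d0 : ∀ x, 0 ≤ d x)
    (he : 0 ≤ e) (hV : 0 ≤ V) (h1 : ∫⁻ x, ENNReal.ofReal (a x ^ 2 * d x) ≤ ENNReal.ofReal e)
    (h2 : ∫⁻ x in A, ENNReal.ofReal (d x) ≤ ENNReal.ofReal V) :
    ∫ x in A, a x * d x ≤ √(e * V) := by
  have i : ∀ {F : E n → ℝ}, Continuous F → IntegrableOn F A := fun hF =>
    (hF.continuousOn.integrableOn_compact (isCompact_closedBall 0 R)).mono_set hR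
  have i1 := i (F := fun x => a x ^ 2 * d x) ((ha.pow 2).mul hd)
  have i2 := i (F := fun x => a x * d x) (ha.mul hd)
  have k1 : ∫ x in A, a x ^ 2 * d x ≤ e := (ENNReal.ofReal_le_ofReal_iff he).1 (by
    rw [ofReal_integral_eq_lintegral_ofReal i1 (.of_forall fun x => mul_nonneg (sq_nonneg _) (d0 x))]
    exact (setLIntegral_le_lintegral _ _).trans h1)
  have k2 : ∫ x in A, d x ≤ V := (ENNReal.ofReal_le_ofReal_iff hV).1 (by
    rwa [ofReal_integral_eq_lintegral_ofReal (i hd) (.of_forall d0)])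
  have k3 := discrim_le_zero (a := e) (b := -2 * ∫ x in A, a x * d x) (c := V) fun t => by
    have k4 : ∫ x in A, (2 * t) * (a x * d x) ≤ ∫ x in A, (t * t * (a x ^ 2 * d x) + d x) :=
      setIntegral_mono_on (i2.const_mul _) ((i1.const_mul _).add (i hd)) hA fun x _ => by
        nlinarith [mul_nonneg (sq_nonneg (t * a x - 1)) (d0 x)]
    rw [integral_add (i1.const_mul _) (i hd), integral_const_mul, integral_const_mul] at k4
    nlinarith [mul_le_mul_of_nonneg_left k1 (mul_self_nonneg t)]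
  refine Real.le_sqrt_of_sq_le ?_
  rw [discrim] at k3
  nlinarith

end AreaX

open AreaX in
theorem area : AREA := by
  refine fun n => ⟨512, by norm_num, ?_⟩
  intro B L m p q U a β R s' h η' η'' f τ κ η e V ψ hB hP hS hh h01 hz hf h0 hτ hκ hη he hV hN
    hE hVo
  have L0 : 0 < L := by linarith [hP.big, hB.one]
  have g1 := one_lt_gam hB.dim
  have g2 := gam_le hB.dim
  have sk : Smooth fun x => f (h x) := hf.sm.comp hh
  have sk' : Smooth fun x => cut L x * f (h x) := ContDiff.mul (sm_cut L) sk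
  have o1 : ∀ y, 2 * L ≤ ‖y‖ → cut L y * f (h y) = 0 := fun y hy => by rw [cut_zero L0 hy, zero_mul]
  have lk : Lip fun x => cut L x * f (h x) := lip_of_const sk' fun y hy => o1 y hy.le
  have k0 : ∀ x, 0 ≤ f (h x) := fun x => fc_nonneg hf _
  have k1 : ∀ x, f (h x) ≤ 1 := fun x => fc_le hf h0 (h01 x).2
  have k2 : ∀ x, 0 ≤ cut L x * f (h x) := fun x => mul_nonneg (cut_nonneg _ _) (k0 x)
  have k3 : ∀ x, cut L x * f (h x) ≤ 1 := fun x => mul_le_one₀ (cut_le_one _ _) (k0 x) (k1 x)
  have y0 : ∀ x, 0 ≤ τ * f (h x) := fun x => mul_nonneg hτ.1.le (k0 x)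
  have y1 : ∀ x, τ * f (h x) ≤ 1 / 2 := fun x =>
    (mul_le_of_le_one_right hτ.1.le (k1 x)).trans hτ.2
  set k : E n → ℝ := fun x => cut L x * f (h x) with hk
  set U' : E n → ℝ := fun x => U x * (1 - τ * f (h x)) with hU'
  have u0 : ∀ x, 0 < U' x := fun x => mul_pos (hS.pos hB x) (by linarith [y1 x])
  have cU : Continuous U' := hS.sm.cont.mul (continuous_const.sub (continuous_const.mul sk.cont))
  have cW : Continuous fun x => U' x ^ (2 * gam n) * dens B.g x :=
    (cU.rpow_const fun x => Or.inl (u0 x).ne').mul hB.met.sm_dens.cont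
  have W0 : ∀ x, 0 ≤ U' x ^ (2 * gam n) * dens B.g x := fun x =>
    mul_nonneg (Real.rpow_nonneg (u0 x).le _) (dens_nonneg _ _)
  have c0 := hN.1
  have l1 : Lip fun x => 1 - ψ x := (lip_const 1).sub c0.lip
  have l2 : Lip fun x => 1 - k x := (lip_const 1).sub lk
  have c1 : Cls B L fun x => 1 - (1 - ψ x) * (1 - k x) := by
    refine ⟨(lip_const 1).sub (l1.mul l2 (A := 1) (B := 1)
      (fun x => abs_le.2 ⟨by linarith [(c0.mem x).2], by linarith [(c0.mem x).1]⟩)
      fun x => abs_le.2 ⟨by linarith [k3 x], by linarith [k2 x]⟩), fun x => ⟨?_, ?_⟩,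
      fun x hx => ?_, fun x hx => by rw [c0.one x hx, sub_self, zero_mul, sub_zero]⟩
    · nlinarith [c0.mem x, k2 x, k3 x]
    · nlinarith [c0.mem x, k2 x, k3 x]
    · simp [hk, c0.zero x hx, hf.zero _ (hz x hx)]
  have i1 := c0.int_per hB cU
  have i2 := c0.lip.integrable_gn hB.met hB.flat c0.one (lk.cont.mul cW)
  have i3 := lk.integrable_gn hB.met hB.flat o1 (l1.cont.mul cW)
  simp only [Pi.mul_apply] at i2 i3
  have sA : per B U ψ ≤ per B U' ψ +
      64 * τ * ∫ x, k x * (U' x ^ (2 * gam n) * dens B.g x) * gn B.g ψ x := by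
    unfold per
    rw [← integral_const_mul, ← integral_add i1 (i2.const_mul _)]
    refine integral_mono (c0.int_per hB hS.sm.cont) (i1.add (i2.const_mul _)) fun x => ?_
    rcases le_or_gt ‖x‖ L with hx | hx
    · have := mul_le_mul_of_nonneg_right (pow_le (p := 2 * gam n) (hS.pos hB x) (y0 x) (y1 x)
        (by linarith)) (mul_nonneg (gn_nonneg B.g ψ x) (dens_nonneg B.g x))
      simp only [hk, hU', cut_one hx]
      linarith
    · simp [gn_zero (pd_zero_of_out c0.one hx)]
  have sB : per B U' (fun x => 1 - (1 - ψ x) * (1 - k x)) ≤ per B U' ψ -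
      (∫ x, k x * (U' x ^ (2 * gam n) * dens B.g x) * gn B.g ψ x) +
      ∫ x, (1 - ψ x) * (U' x ^ (2 * gam n) * dens B.g x) * gn B.g k x := by
    unfold per
    rw [← integral_sub i1 i2, ← integral_add (i1.sub' i2) i3]
    refine integral_mono_ae (c1.int_per hB cU) ((i1.sub i2).add i3) ?_
    filter_upwards [c0.lip.ae_diff] with x d1
    have d2 := sk'.diff x
    have b1 := hB.met.gn_add_le (x := x) (u := fun x => 1 - (1 - ψ x) * (1 - k x))
      (u₁ := fun y => (1 - k x) * ψ y) (u₂ := fun y => (1 - ψ x) * k y) fun i => by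
        rw [pd_const_sub, pd_mul (d1.const_sub 1) (d2.const_sub 1), pd_const_sub, pd_const_sub,
          pd_const_mul, pd_const_mul]
        ring
    rw [gn_of_pd (pd_const_mul (f := ψ) _), gn_of_pd (pd_const_mul (f := k) _),
      abs_of_nonneg (sub_nonneg.2 (k3 x)), abs_of_nonneg (sub_nonneg.2 (c0.mem x).2)] at b1
    have := mul_le_mul_of_nonneg_left b1 (W0 x)
    show _ ≤ _ - _ + _
    linarith
  have iv : Integrable fun x => m x * dens B.g x := by
    simpa using Cls.int_vol hB hP (ψ := fun _ => 1) continuous_const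
  have md : ∀ x, 0 ≤ m x * dens B.g x := fun x => mul_nonneg (hP.m01 x).1 (dens_nonneg _ _)
  have sV : ∫ x, m x * (1 - (1 - ψ x) * (1 - k x)) * dens B.g x ≤
      (∫ x, m x * ψ x * dens B.g x) + ∫ x, m x * dens B.g x := by
    rw [← integral_add (Cls.int_vol hB hP c0.lip.cont) iv]
    refine integral_mono (Cls.int_vol hB hP c1.lip.cont) ((Cls.int_vol hB hP c0.lip.cont).add iv)
      fun x => ?_
    have := mul_le_mul_of_nonneg_left ((c1.mem x).2.trans
      (le_add_of_nonneg_left (c0.mem x).1)) (md x)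
    show _ ≤ _ + _
    linarith
  have hA : IsOpen {x | η' < h x ∧ ψ x < 1} :=
    (isOpen_lt continuous_const hh.cont).inter (isOpen_lt c0.lip.cont continuous_const)
  have hL : ∀ x, ψ x < 1 → ‖x‖ < L := fun x hx => not_le.1 fun hl => hx.ne (c0.one x hl)
  have ca : Continuous fun x => U x * gn B.g h x :=
    hS.sm.cont.mul (hB.met.sm_ip hh hh).cont.sqrt
  have hR : {x | η' < h x ∧ ψ x < 1} ⊆ closedBall 0 L := fun x hx =>
    mem_closedBall_zero_iff.2 (hL x hx.2).le
  have sC : ∫ x, (1 - ψ x) * (U' x ^ (2 * gam n) * dens B.g x) * gn B.g k x ≤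
      8 * ∫ x in {x | η' < h x ∧ ψ x < 1}, U x * gn B.g h x * dens B.g x := by
    rw [← integral_const_mul, ← integral_indicator hA.measurableSet]
    refine integral_mono i3 ((integrable_indicator_iff hA.measurableSet).2
      (((continuous_const.mul (ca.mul hB.met.sm_dens.cont)).continuousOn.integrableOn_compact
        (isCompact_closedBall 0 L)).mono_set hR)) fun x => ?_
    rcases (c0.mem x).2.eq_or_lt with hx | hx
    · simp [hx]
    have b1 : gn B.g k x = deriv f (h x) * gn B.g h x := by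
      rw [gn_congr (u' := fun y => f (h y)), gn_comp ((hf.sm.differentiable (by simp)) _).hasDerivAt
        (hh.diff x), abs_of_nonneg (hf.d1 _).1]
      filter_upwards [(isOpen_lt continuous_norm continuous_const).mem_nhds (hL x hx)] with y hy
      rw [hk]
      simp only [cut_one (le_of_lt hy), one_mul]
    rcases le_or_gt (h x) η' with hx' | hx'
    · simp [b1, fc_deriv hf hx', hx'.not_gt]
    rw [indicator_of_mem (show x ∈ {x | η' < h x ∧ ψ x < 1} from ⟨hx', hx⟩), b1]
    have b2 := pow_le' (p := 2 * gam n) (u0 x) (mul_le_of_le_one_right (hS.pos hB x).le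
      (by linarith [y0 x])) (hS.le_two hB x) (by linarith) (by linarith)
    have b3 : deriv f (h x) * gn B.g h x ≤ gn B.g h x :=
      mul_le_of_le_one_left (gn_nonneg _ _ _) (hf.d1 _).2
    have b4 : (1 - ψ x) * (U' x ^ (2 * gam n) * dens B.g x) ≤ 8 * U x * dens B.g x :=
      (mul_le_of_le_one_left (W0 x) (by linarith [(c0.mem x).1])).trans
        (mul_le_mul_of_nonneg_right b2 (dens_nonneg _ _))
    refine (mul_le_mul b4 b3 (mul_nonneg (hf.d1 _).1 (gn_nonneg _ _ _)) (mul_nonneg
      (by linarith [hS.pos hB x]) (dens_nonneg _ _))).trans_eq (by ring)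
  have sD := cs hA.measurableSet hR ca hB.met.sm_dens.cont (dens_nonneg _) he hV
    (by simpa only [mul_pow, hB.met.gn_sq] using hE) hVo
  have sN := hN.2 _ c1
  unfold pp at sN
  have v0 : 0 ≤ κ * ∫ x, m x * dens B.g x := mul_nonneg hκ (integral_nonneg md)
  have sE := mul_le_mul_of_nonneg_left sV hκ
  have sF : ∫ x, k x * (U' x ^ (2 * gam n) * dens B.g x) * gn B.g ψ x ≤
      8 * (√(e * V) + η + κ * ∫ x, m x * dens B.g x) := by linarith
  nlinarith [mul_le_mul_of_nonneg_left sF hτ.1.le]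

end Vale.Agent.P366Z
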