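import Vale.Agent.P366Z.Sk
import Vale.Agent.P366Z.Calc2

/-!
# P366Z: the gradient of the approximate distance (row B1)
-/

open MeasureTheory Metric Filter Topology Set
open scoped ContDiff ENNReal
open Vale.Agent.P366.Stmt

noncomputable section

namespace Vale.Agent.P366Z

namespace B1H

theorem alg2 {N A e W v s Lz Q R C : ℝ} (hN : 1 ≤ N) (he : 0 < e) (he1 : e ≤ 1)
    (hW : W ^ 2 ≤ 1) (hv : 0 < v) (hs : 0 < s) (hs1 : s ≤ 1) (hA : 0 ≤ A)
    (a5 : s * (2 * v ^ 2 - A) ≤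
      N * (4 * W * v * Q - s * R + s * (C * (e * v + 1)) + s * Lz / 2))
    (hQ : Q ^ 2 ≤ (e * v + 1) * A) (hR : R ^ 2 ≤ (e * v + 1) * A) (hC : C ≤ A)
    (hL : s ^ 2 * Lz ≤ 9 * A * (e * v)) :
    s ^ 2 * v ≤ 2 * (N * (4 * N * A + 7 * A + 1)) + 1 := by
  obtain ⟨u, hu⟩ : ∃ u, u = s ^ 2 * v := ⟨_, rfl⟩
  have hu0 : 0 < u := by rw [hu]; positivity
  have N0 : 0 ≤ N := zero_le_one.trans hN
  have s2 : s ^ 2 ≤ 1 := pow_le_one₀ hs.le hs1
  have c1 : e * u ≤ u := mul_le_of_le_one_left hu0.le he1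
  have b0 : A * (s ^ 2 * (e * v + 1)) ≤ A * (u + 1) :=
    mul_le_mul_of_nonneg_left (by rw [hu] at c1 ⊢; linarith only [c1, s2]) hA
  have b1 : (s * Q) ^ 2 ≤ A * (u + 1) := by
    linarith only [mul_le_mul_of_nonneg_left hQ (sq_nonneg s), b0]
  have b2 : (s * R) ^ 2 ≤ A * (u + 1) := by
    linarith only [mul_le_mul_of_nonneg_left hR (sq_nonneg s), b0]
  have b3 : N * (4 * W * u * (s * Q)) ≤ u ^ 2 + 4 * N ^ 2 * (A * (u + 1)) := by
    have : W ^ 2 * (s * Q) ^ 2 ≤ A * (u + 1) := (mul_le_of_le_one_left (sq_nonneg _) hW).trans b1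
    linarith only [sq_nonneg (u - 2 * N * W * (s * Q)),
      mul_le_mul_of_nonneg_left this (sq_nonneg N)]
  have b4 : -(s ^ 3 * (s * R)) ≤ 1 / 2 + A * (u + 1) / 2 := by
    have : (s ^ 3) ^ 2 ≤ 1 := pow_le_one₀ (by positivity) (pow_le_one₀ hs.le hs1)
    linarith only [sq_nonneg (s ^ 3 + s * R), this, b2]
  have b5 : s ^ 2 * (s ^ 2 * (C * (e * v + 1))) ≤ A * (u + 1) := by
    have c2 : s ^ 2 * (C * (e * v + 1)) ≤ A * (u + 1) := by
      linarith only [b0, mul_le_mul_of_nonneg_right hC (by positivity : 0 ≤ s ^ 2 * (e * v + 1))]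
    exact (mul_le_mul_of_nonneg_left c2 (sq_nonneg s)).trans
      (mul_le_of_le_one_left (by positivity) s2)
  have b6 : s ^ 2 * (s ^ 2 * Lz) ≤ 9 * (A * (u + 1)) := by
    have c2 := mul_le_mul_of_nonneg_left c1 hA
    rw [hu] at c2 ⊢
    linarith only [mul_le_mul_of_nonneg_left hL (sq_nonneg s), c2, hA]
  have b7 : s ^ 2 * (s ^ 2 * A) ≤ N * (A * (u + 1)) :=
    ((mul_le_of_le_one_left (by positivity) s2).trans (mul_le_of_le_one_left hA s2)).trans
      ((le_mul_of_one_le_right hA (by linarith only [hu0])).trans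
        (le_mul_of_one_le_left (by positivity) hN))
  have b8 : 2 * u ^ 2 - s ^ 2 * (s ^ 2 * A) ≤ N * (4 * W * u * (s * Q)) + N * (-(s ^ 3 * (s * R)) +
      s ^ 2 * (s ^ 2 * (C * (e * v + 1))) + s ^ 2 * (s ^ 2 * Lz) / 2) := by
    rw [hu]
    linarith only [mul_le_mul_of_nonneg_left a5 (by positivity : 0 ≤ s ^ 3)]
  have b9 := mul_le_mul_of_nonneg_left (add_le_add (add_le_add b4 b5)
    (div_le_div_of_nonneg_right b6 zero_le_two)) N0
  have c2 : u ^ 2 ≤ N * (4 * N * A + 7 * A + 1) * (u + 1) := by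
    linarith only [b3, b7, b8, b9, N0, mul_nonneg N0 hu0.le]
  have c0 : 0 ≤ N * (4 * N * A + 7 * A + 1) := by positivity
  rw [← hu]
  generalize N * (4 * N * A + 7 * A + 1) = D at c0 c2
  by_contra h
  nlinarith only [c0, c2, h, hu0]

theorem alg {N A e W Y s H Lz P Q R k C : ℝ} (hN : 1 ≤ N) (he : 0 < e) (he1 : e ≤ 1)
    (hW : W ^ 2 ≤ 1) (hY : 0 < Y) (hs : 0 < s) (hs1 : s ≤ 1) (hk : k ^ 2 ≤ A)
    (h1 : (2 / e * (W * Y) + k) ^ 2 ≤ N * H)
    (h2 : H + (2 / e * (Y * ((1 - W ^ 2) / e * (Y + 1)) + W * P) + R) - C * (Y + 1) ≤ Lz / 2)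
    (hP : s * P = -2 * Y * Q) (hQ : Q ^ 2 ≤ (Y + 1) * A) (hR : R ^ 2 ≤ (Y + 1) * A) (hC : C ≤ A)
    (hL : s ^ 2 * Lz ≤ 9 * A * Y) : s ^ 2 * Y ≤ (2 * (N * (4 * N * A + 7 * A + 1)) + 1) * e := by
  obtain ⟨v, rfl⟩ : ∃ v, Y = e * v := ⟨Y / e, by field_simp⟩
  have hv : 0 < v := (mul_pos_iff_of_pos_left he).1 hY
  have e1 : 2 / e * (W * (e * v)) = 2 * W * v := by field_simp
  have e2 : s * (2 / e * (e * v * ((1 - W ^ 2) / e * (e * v + 1)) + W * P)) =
      s * (2 * (1 - W ^ 2) * v ^ 2) + s * (2 * (1 - W ^ 2) * v / e) - 4 * W * v * Q := by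
    have : P = -2 * (e * v) * Q / s := by field_simp; linarith only [hP]
    rw [this]; field_simp; ring
  rw [e1] at h1
  have a1 : 2 * W ^ 2 * v ^ 2 - A ≤ N * H := by linarith only [sq_nonneg (W * v + k), h1, hk]
  have a0 : 0 ≤ 1 - W ^ 2 := sub_nonneg.2 hW
  have a2 : 0 ≤ s * (2 * (1 - W ^ 2) * v / e) := by positivity
  have a3 := mul_le_mul_of_nonneg_left h2 hs.le
  rw [mul_sub, mul_add, mul_add, e2] at a3
  replace a3 : s * H + s * (2 * (1 - W ^ 2) * v ^ 2) - 4 * W * v * Q + s * R -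
      s * (C * (e * v + 1)) ≤ s * Lz / 2 := by linarith only [a3, a2]
  have a4 : s * (2 * (1 - W ^ 2) * v ^ 2) ≤ N * (s * (2 * (1 - W ^ 2) * v ^ 2)) :=
    le_mul_of_one_le_left (by positivity) hN
  have a5 := alg2 hN he he1 hW hv hs hs1 ((sq_nonneg k).trans hk) (by
    linarith only [mul_le_mul_of_nonneg_left a3 (zero_le_one.trans hN), a4,
      mul_le_mul_of_nonneg_left a1 hs.le]) hQ hR hC hL
  linarith only [mul_le_mul_of_nonneg_right a5 he.le]

variable {n : ℕ} {g : Field n} {w : E n → ℝ} {ε : ℝ} {x : E n}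

theorem sm_dd (hs : Smooth w) (hw : ∀ x, |w x| < 1) (ε : ℝ) : Smooth (dd ε w) :=
  ContDiff.mul contDiff_const (ContDiff.log (ContDiff.div (contDiff_const.add hs)
    (contDiff_const.sub hs) fun x => (sub_pos.2 (abs_lt.1 (hw x)).2).ne') fun x =>
      (div_pos (by linarith [(abs_lt.1 (hw x)).1]) (sub_pos.2 (abs_lt.1 (hw x)).2)).ne')

theorem pd_w (hs : Smooth w) (hw : ∀ x, |w x| < 1) (hε : ε ≠ 0) (i : Fin n) (x : E n) :
    pd i w x = (1 - w x ^ 2) / ε * pd i (dd ε w) x := by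
  have h1 : 1 + w x ≠ 0 := by linarith [(abs_lt.1 (hw x)).1]
  have h2 : 1 - w x ≠ 0 := (sub_pos.2 (abs_lt.1 (hw x)).2).ne'
  have d1 : DifferentiableAt ℝ (fun y => 1 + w y) x := (hs.diff x).const_add 1
  have d2 : DifferentiableAt ℝ (fun y => 1 - w y) x := (hs.diff x).const_sub 1
  unfold dd
  rw [pd_const_mul, pd_log (f := fun y => (1 + w y) / (1 - w y)) (d1.fun_mul (d2.fun_inv h2))
    (div_ne_zero h1 h2), pd_div d1 d2 h2, pd_const_add,
    pd_const_sub]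
  field_simp
  ring

theorem lap_dd (hg : Met g) (hs : Smooth w) (hw : ∀ x, |w x| < 1) (hε : ε ≠ 0) {k : ℝ}
    (h : ε * lap g w x = -2 * w x * (1 - w x ^ 2) / ε + k * (1 - w x ^ 2)) :
    lap g (dd ε w) x = 2 / ε * (w x * (ip g (dd ε w) (dd ε w) x - 1)) + k := by
  have h0 : 1 - w x ^ 2 ≠ 0 := (sub_pos.2 ((sq_lt_one_iff_abs_lt_one _).2 (hw x))).ne'
  have d1 : DifferentiableAt ℝ (fun y => (1 - w y ^ 2) / ε) x :=
    (((hs.diff x).fun_pow 2).const_sub 1).mul_const ε⁻¹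
  have h1 := hg.wl_of_pd (U := fun _ => 1) (u := w) (b := fun _ => 0) (differentiableAt_const _) d1
    (differentiableAt_const _) ((sm_dd hs hw ε).c2 x) ((sm_dd hs hw ε).c2 x)
    (.of_forall fun y i => by rw [pd_w hs hw hε, zero_mul, add_zero])
  have h2 : ∀ i, pd i (fun y => (1 - w y ^ 2) / ε) x =
      (-2 * w x / ε * ((1 - w x ^ 2) / ε)) * pd i (dd ε w) x := fun i => by
    simp only [div_eq_mul_inv (1 - w _ ^ 2)]
    rw [pd_mul_const, pd_const_sub, pd_pow (hs.diff x), pd_w hs hw hε]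
    push_cast
    ring
  rw [wl_one, wl_one, ip_of_pd h2 (t := 1) (v' := dd ε w) (fun i => (one_mul _).symm),
    ip_const_left] at h1
  rw [h1] at h
  field_simp at h ⊢
  refine mul_left_cancel₀ h0 ?_
  linear_combination h

/-- the local estimate -/
theorem est (hB : BOCH) (hP : PTM) (hn : 0 < n) (hg : Met g) {ζ k : E n → ℝ} (hζ : Smooth ζ)
    (hk : Smooth k) (h01 : ∀ x, 0 ≤ ζ x ∧ ζ x ≤ 1) {K O : Set (E n)} (hK : IsCompact K)
    (hO : IsOpen O) (hOK : O ⊆ K) (hs : ∀ x, ζ x ≠ 0 → x ∈ O) : ∃ C : ℝ, 0 ≤ C ∧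
      ∀ ε ∈ Ioc (0 : ℝ) 1, ∀ w : E n → ℝ, Smooth w → (∀ x, |w x| < 1) →
      (∀ x ∈ O, ε * lap g w x = -2 * w x * (1 - w x ^ 2) / ε + k x * (1 - w x ^ 2)) →
      ∀ x, ζ x = 1 → ip g (dd ε w) (dd ε w) x ≤ 1 + C * ε := by
  obtain ⟨⟨C, hC⟩, hB2⟩ := (hB n g hg).imp_left fun h => h K hK
  have z2 : Smooth fun y => ζ y * ζ y := ContDiff.mul hζ hζ
  obtain ⟨A, hA⟩ := hK.exists_bound_of_continuousOn (f := fun y => ip g ζ ζ y +
    |lap g (fun y => ζ y * ζ y) y| + k y ^ 2 + ip g k k y + |C|)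
    (((((hg.sm_ip hζ hζ).cont.add (hg.sm_lap z2).cont.abs).add (hk.cont.pow 2)).add
      (hg.sm_ip hk hk).cont).add continuous_const).continuousOn
  refine ⟨2 * (n * (4 * n * |A| + 7 * |A| + 1)) + 1, by positivity,
    fun ε hε w hw h1 he x hx => ?_⟩
  have hd := sm_dd hw h1 ε
  have hz : Smooth fun y => ip g (dd ε w) (dd ε w) y - 1 :=
    ContDiff.sub (hg.sm_ip hd hd) contDiff_const
  have hf : Smooth fun y => ζ y * ζ y * (ip g (dd ε w) (dd ε w) y - 1) := ContDiff.mul z2 hz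
  have hxK := hOK (hs x (by simp [hx]))
  obtain ⟨a, haK, ha⟩ := hK.exists_isMaxOn ⟨x, hxK⟩ hf.cont.continuousOn
  have h2 : ζ x * ζ x * (ip g (dd ε w) (dd ε w) x - 1) ≤
    ζ a * ζ a * (ip g (dd ε w) (dd ε w) a - 1) := ha hxK
  rw [hx] at h2
  by_contra h3
  have h4 : 0 < (2 * (n * (4 * n * |A| + 7 * |A| + 1)) + 1) * ε := mul_pos (by positivity) hε.1
  have h5 : 0 < ζ a * ζ a * (ip g (dd ε w) (dd ε w) a - 1) := by linarith
  have h6 : 0 < ζ a := (h01 a).1.lt_of_ne fun h => by simp [← h] at h5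
  have h7 : 0 < ip g (dd ε w) (dd ε w) a - 1 := (mul_pos_iff_of_pos_left (mul_pos h6 h6)).1 h5
  have haO := hO.mem_nhds (hs a h6.ne')
  obtain ⟨m1, m2⟩ := hP n g (fun _ => 1) _ a hg contDiff_const (hf.c2 a)
    (ha.isLocalMax (mem_of_superset haO hOK))
  have m3 : ∀ i, pd i (ip g (dd ε w) (dd ε w)) a =
      (-2 * (ip g (dd ε w) (dd ε w) a - 1) / ζ a) * pd i ζ a := fun i => by
    have := m1 i
    rw [pd_mul (z2.diff a) (hz.diff a), pd_mul (hζ.diff a) (hζ.diff a), pd_sub_const] at this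
    field_simp
    refine mul_left_cancel₀ h6.ne' ?_
    linear_combination this
  have m4 : ∀ i, pd i (fun y => ip g (dd ε w) (dd ε w) y - 1) a =
      (-2 * (ip g (dd ε w) (dd ε w) a - 1) / ζ a) * pd i ζ a := fun i =>
    (pd_sub_const 1 i).trans (m3 i)
  have m5 : ∀ i, pd i (fun y => ζ y * ζ y) a = (2 * ζ a) * pd i ζ a := fun i => by
    rw [pd_mul (hζ.diff a) (hζ.diff a)]; ring
  have m6 : lap g (fun y => ip g (dd ε w) (dd ε w) y - 1) a = lap g (ip g (dd ε w) (dd ε w)) a :=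
    lap_add_const (-1)
  rw [wl_one, hg.lap_mul (z2.c2 a) (hz.c2 a), ip_of_pd m5 m4, m6] at m2
  have m7 : lap g (dd ε w) =ᶠ[𝓝 a]
      fun y => 2 / ε * (w y * (ip g (dd ε w) (dd ε w) y - 1)) + k y :=
    mem_of_superset haO fun y hy => lap_dd hg hw h1 hε.1.ne' (he y hy)
  have m8 := hC _ hd a haK
  have m9 := (hB2 _ ζ hd a).1
  rw [m7.eq_of_nhds] at m9
  rw [ip_congr EventuallyEq.rfl m7, ip_add_right (((hw.diff a).fun_mul (hz.diff a)).const_mul _)
    (hk.diff a), ip_of_pd (s := 1) (u' := dd ε w) (fun i => (one_mul _).symm) (pd_const_mul _),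
    ip_mul_right (hw.diff a) (hz.diff a), ip_of_pd (s := 1) (u' := dd ε w)
    (fun i => (one_mul _).symm) fun i => pd_w hw h1 hε.1.ne' i a] at m8
  have b0 := (le_abs_self _).trans ((hA a haK).trans (le_abs_self A))
  have b1 := hg.ip_nonneg ζ a
  have b2 := hg.ip_nonneg k a
  have b3 := abs_nonneg (lap g (fun y => ζ y * ζ y) a)
  have b4 := sq_nonneg (k a)
  have b5 := abs_nonneg C
  have b6 := hg.ip_nonneg (dd ε w) a
  have := alg (N := n) (A := |A|) (s := ζ a) (C := C) (R := ip g (dd ε w) k a)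
    (Lz := lap g (ip g (dd ε w) (dd ε w)) a) (Q := ip g (dd ε w) ζ a)
    (P := ip g (dd ε w) (fun y => ip g (dd ε w) (dd ε w) y - 1) a)
    (by exact_mod_cast hn) hε.1 hε.2 ((sq_lt_one_iff_abs_lt_one _).2 (h1 a)).le h7 h6 (h01 a).2
    (by linarith) m9 (by simpa only [one_mul, sub_add_cancel] using m8)
    (by rw [ip_of_pd (s := 1) (u' := dd ε w) (fun i => (one_mul _).symm) m4]; field_simp)
    ((hg.ip_cs _ _ a).trans (by
      rw [sub_add_cancel]; exact mul_le_mul_of_nonneg_left (by linarith) b6))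
    ((hg.ip_cs _ _ a).trans (by
      rw [sub_add_cancel]; exact mul_le_mul_of_nonneg_left (by linarith) b6))
    (by linarith [le_abs_self C]) (by
      have c1 : 2 * (2 * ζ a * (-2 * (ip g (dd ε w) (dd ε w) a - 1) / ζ a) * ip g ζ ζ a) =
        -8 * (ip g (dd ε w) (dd ε w) a - 1) * ip g ζ ζ a := by field_simp; ring
      have c2 : -lap g (fun y => ζ y * ζ y) a ≤ |A| := by
        linarith [neg_le_abs (lap g (fun y => ζ y * ζ y) a)]
      have c3 : ip g ζ ζ a ≤ |A| := by linarith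
      rw [c1] at m2
      linarith only [m2, mul_le_mul_of_nonneg_left c2 h7.le, mul_le_mul_of_nonneg_left c3 h7.le])
  exact h3 (by linarith only [this, h2])

end B1H

open B1H in
/-- row B1 -/
theorem b1_of (hB : BOCH) (hP : PTM) (_ : GW) (_ : STWT) : B1 := by
  intro n B L m p q U a β R s' hOk hPen hSt κ _
  have hU : ∀ x, 0 < U x := fun x =>
    (mul_pos hSt.a0 (by linarith [(hOk.Ub x).1])).trans_le (hSt.lo x)
  have hs := hOk.s0
  have hL : 2 ≤ L := by linarith [hPen.big, hOk.one]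
  have sT : ContDiff ℝ ∞ Real.smoothTransition := Real.smoothTransition.contDiff
  obtain ⟨C, -, hC⟩ := est hB hP (by linarith [hOk.dim]) (hOk.met.cf hSt.sm hU)
    (ζ := fun x => Real.smoothTransition (4 / B.s * B.F x + 2) *
      Real.smoothTransition ((L + 1) ^ 2 - ‖x‖ ^ 2))
    (k := fun x => κ * m x * U x ^ (-(n * bb n)))
    (ContDiff.mul (sT.comp ((contDiff_const.mul hOk.smF).add contDiff_const))
      (sT.comp (contDiff_const.sub contDiff_normSq)))
    (ContDiff.mul (ContDiff.mul contDiff_const hPen.smm) (hSt.sm.rpow hU _))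
    (fun x => ⟨mul_nonneg (Real.smoothTransition.nonneg _) (Real.smoothTransition.nonneg _),
      mul_le_one₀ (Real.smoothTransition.le_one _) (Real.smoothTransition.nonneg _)
        (Real.smoothTransition.le_one _)⟩) (isCompact_closedBall 0 (L + 1))
    ((isOpen_lt (continuous_const (y := -(B.s / 2))) hOk.smF.cont).inter
      (isOpen_ball (x := 0) (ε := L + 1)))
    (inter_subset_right.trans ball_subset_closedBall) (fun x hx => by
      have h1 := lt_of_not_ge (mt Real.smoothTransition.zero_of_nonpos (left_ne_zero_of_mul hx))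
      have h2 := lt_of_not_ge (mt Real.smoothTransition.zero_of_nonpos (right_ne_zero_of_mul hx))
      refine ⟨?_, mem_ball_zero_iff.2 (lt_of_pow_lt_pow_left₀ 2 (by linarith) (by linarith))⟩
      have h3 := mul_pos hs h1
      field_simp at h3
      show -(B.s / 2) < B.F x
      linarith)
  refine ⟨C, mem_of_superset (Ioc_mem_nhdsGT one_pos) fun ε hε w hw x h1 h2 =>
    hC ε hε w hw.sm hw.lt (fun y hy => ?_) x ?_⟩
  · have h3 := hw.eqn y
    have h4 : U y ^ (-(n * bb n)) * U y ^ (n * bb n) = 1 := by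
      rw [← Real.rpow_add (hU y), neg_add_cancel, Real.rpow_zero]
    rw [hPen.p0 y (le_of_lt hy.1), hPen.q0 y (mem_ball_zero_iff.1 hy.2).le] at h3
    rw [hOk.met.lap_cf hOk.dim hU]
    linear_combination U y ^ (-(n * bb n)) * h3 + (-2 * w y * (1 - w y ^ 2) / ε) * h4
  · rw [Real.smoothTransition.one_of_one_le, Real.smoothTransition.one_of_one_le, mul_one]
    · nlinarith [norm_nonneg x]
    · have h3 : 4 / B.s * -(B.s / 4) = -1 := by field_simp
      linarith [mul_le_mul_of_nonneg_left h1 (by positivity : 0 ≤ 4 / B.s)]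

end Vale.Agent.P366Z
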