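import Vale.Agent.P366Z.ConfA

/-!
# P366Z: the confinement
-/

open MeasureTheory Metric Filter Topology Set
open scoped ContDiff ENNReal
open Vale.Agent.P366.Stmt

noncomputable section

namespace Vale.Agent.P366Z

namespace Conf

variable {n : ℕ} {B : Bg n} {L : ℝ} {m p q U w : E n → ℝ} {a β R s' κ ε C c r : ℝ}

theorem half_pow (hn : 3 ≤ n) (ha : 0 < a) : a ^ (2 * gam n) / 16 ≤ (a / 2) ^ (2 * gam n) := by
  rw [Real.div_rpow ha.le zero_le_two]
  have h : (2 : ℝ) ^ (2 * gam n) ≤ 2 ^ ((4 : ℕ) : ℝ) :=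
    Real.rpow_le_rpow_of_exponent_le one_le_two (by have := gam_le hn; push_cast; linarith)
  rw [Real.rpow_natCast] at h
  exact div_le_div_of_nonneg_left (by positivity) (by positivity) (by linarith)

theorem half_pow' (hn : 3 ≤ n) (ha : 0 < a) : a ^ bb n / 4 ≤ (a / 2) ^ bb n := by
  rw [Real.div_rpow ha.le zero_le_two]
  have h : (2 : ℝ) ^ bb n ≤ 2 ^ ((2 : ℕ) : ℝ) :=
    Real.rpow_le_rpow_of_exponent_le one_le_two (by have := bb_le hn; push_cast; linarith)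
  rw [Real.rpow_natCast] at h
  exact div_le_div_of_nonneg_left (by positivity) (by positivity) (by linarith)

theorem mm (hB : B.Ok) (hP : Pen B L m p q) (hS : St B U a β R s') (hκ : 0 ≤ κ) (hε : 0 < ε)
    (hw : Mn B m p q U κ ε w) {x : E n} (hx : B.ρ ≤ ‖x‖) :
    (1 - w x ^ 2) * ‖fderiv ℝ w x‖ ≤ 16 / a ^ (2 * gam n) * ((ε * U x ^ 2 * ip B.g w w x / 2 +
      U x ^ (n * bb n) * (Wp (w x) + p x * (1 + w x) ^ 2 + q x * (1 - w x) ^ 2) / ε +
      κ * m x * Ph (w x)) * dens B.g x) := by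
  have ha := hS.a0
  have hn := hB.dim
  have hU := hS.pos hB x
  have h1 := abs_lt.1 (hw.lt x)
  have h2 : 0 ≤ 1 - w x ^ 2 := by nlinarith
  have e1 : ip B.g w w x = ‖fderiv ℝ w x‖ ^ 2 := by
    rw [hB.flat.ip_eq hx, ← met_eu.gn_sq, gn_eu (hw.sm.diff x)]
  have e2 : U x ^ (n * bb n) = (U x ^ (n * bb n / 2)) ^ 2 := by
    rw [← Real.rpow_natCast, ← Real.rpow_mul hU.le]
    push_cast
    rw [div_mul_cancel₀ _ two_ne_zero]
  have e3 : U x * U x ^ (n * bb n / 2) = U x ^ (2 * gam n) := by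
    rw [gam_eq hn, n_bb hn, show 2 * (1 + bb n / 2) = 1 + (2 + 2 * bb n) / 2 by ring,
      Real.rpow_add hU, Real.rpow_one]
  have h3 : a ^ (2 * gam n) / 16 ≤ U x * U x ^ (n * bb n / 2) := by
    rw [e3]
    exact (half_pow hn ha).trans (Real.rpow_le_rpow (by positivity) (hS.half hB x)
      (by have := one_lt_gam hn; linarith))
  have h4 : 0 ≤ κ * m x * Ph (w x) := by
    refine mul_nonneg (mul_nonneg hκ (hP.m01 x).1) ?_
    have : Ph (w x) = (w x + 1) ^ 2 * (2 - w x) / 3 := by unfold Ph; ring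
    rw [this]
    have : 0 ≤ 2 - w x := by linarith
    positivity
  have h5 : 0 ≤ p x * (1 + w x) ^ 2 + q x * (1 - w x) ^ 2 := by
    have := (hP.p04 x).1
    have := (hP.q04 x).1
    positivity
  rw [hB.flat.dens_eq hx, mul_one, e1, e2, Wp]
  generalize U x ^ (n * bb n / 2) = V at h3 ⊢
  generalize ‖fderiv ℝ w x‖ = G, hG : norm_nonneg (fderiv ℝ w x) = hG0
  have hP0 : 0 < a ^ (2 * gam n) := by positivity
  generalize a ^ (2 * gam n) = P at h3 hP0 ⊢
  rw [div_mul_eq_mul_div, le_div_iff₀ hP0]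
  have k1 : (1 - w x ^ 2) * G * (P / 16) ≤ (1 - w x ^ 2) * G * (U x * V) := by gcongr
  have k2 : (1 - w x ^ 2) * G * (U x * V) ≤
      ε * U x ^ 2 * G ^ 2 / 2 + V ^ 2 * ((1 - w x ^ 2) ^ 2 / 2) / ε := by
    have : ε * U x ^ 2 * G ^ 2 / 2 + V ^ 2 * ((1 - w x ^ 2) ^ 2 / 2) / ε -
        (1 - w x ^ 2) * G * (U x * V) = (ε * U x * G - V * (1 - w x ^ 2)) ^ 2 / (2 * ε) := by
      field_simp
      ring
    have : 0 ≤ (ε * U x * G - V * (1 - w x ^ 2)) ^ 2 / (2 * ε) := by positivity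
    linarith
  have k3 : V ^ 2 * ((1 - w x ^ 2) ^ 2 / 2) / ε ≤
      V ^ 2 * ((1 - w x ^ 2) ^ 2 / 2 + p x * (1 + w x) ^ 2 + q x * (1 - w x) ^ 2) / ε := by
    gcongr
    linarith
  linarith

theorem rat (hB : B.Ok) (hS : St B U a β R s') {s : Set (E n)}
    (hs : ∀ x ∈ s, B.ρ ≤ ‖x‖ ∧ U x ≤ C * a) :
    Rat B.g U ((2 * C) ^ (2 * bb n)) ((a / 2) ^ bb n) s := by
  intro x hx ξ
  have ha := hS.a0
  have hb := bb_pos hB.dim
  have hU := hS.pos hB x
  have hC : 0 < C := (mul_pos_iff_of_pos_right ha).1 (hU.trans_le (hs x hx).2)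
  have e1 : ∑ i, ∑ j, cf U B.g x i j * ξ i * ξ j = U x ^ (2 * bb n) * ∑ i, ξ i ^ 2 := by
    rw [Finset.mul_sum]
    refine Finset.sum_congr rfl fun i _ => ?_
    simp only [cf, hB.flat x (hs x hx).1, eu, mul_ite, ite_mul, mul_one, mul_zero, zero_mul,
      Finset.sum_ite_eq, Finset.mem_univ, if_true]
    ring
  have e2 : ((a / 2) ^ bb n) ^ 2 = (a / 2) ^ (2 * bb n) := by
    rw [← Real.rpow_natCast, ← Real.rpow_mul (by positivity), mul_comm]
    rfl
  have h0 : 0 ≤ ∑ i, ξ i ^ 2 := by positivity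
  rw [e1, e2, ← Real.mul_rpow (by positivity) (by positivity)]
  refine ⟨mul_le_mul_of_nonneg_right (Real.rpow_le_rpow (by positivity) (hS.half hB x)
    (by positivity)) h0, mul_le_mul_of_nonneg_right (Real.rpow_le_rpow hU.le ?_ (by positivity)) h0⟩
  linarith [(hs x hx).2]

theorem vol_term (hB : B.Ok) (hP : Pen B L m p q) (hκ : 0 ≤ κ) {ψ : E n → ℝ} (hψ : Cls B L ψ)
    {D : ℝ} (hD : ∀ x, κ * (L + 1) ^ n * dens B.g x ≤ D) :
    κ * ∫ x, m x * ψ x * dens B.g x ≤ D * (omega n / n) := by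
  have hn0 : 0 < n := by have := hB.dim; omega
  have hL : 0 < L + 1 := by linarith [hP.big, hB.one]
  have hLn : 0 < (L + 1) ^ n := by positivity
  have hD0 : 0 ≤ D := le_trans (by have := dens_nonneg B.g 0; positivity) (hD 0)
  rw [← integral_const_mul]
  have h1 : ∫ x, κ * (m x * ψ x * dens B.g x) ≤
      ∫ x, (ball (0 : E n) (L + 1)).indicator (fun _ => D / (L + 1) ^ n) x := by
    refine integral_mono ((Cls.int_vol hB hP hψ.lip.cont).const_mul κ)
      ((integrable_indicator_iff measurableSet_ball).2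
        (integrableOn_const measure_ball_lt_top.ne)) fun x => ?_
    by_cases k : x ∈ ball (0 : E n) (L + 1)
    · simp only [indicator_of_mem k]
      rw [le_div_iff₀ hLn]
      refine le_trans ?_ (hD x)
      have a1 := hP.m01 x
      have a2 := hψ.mem x
      have a3 := dens_nonneg B.g x
      have a4 : m x * ψ x ≤ 1 := mul_le_one₀ a1.2 a2.1 a2.2
      calc _ = m x * ψ x * (κ * (L + 1) ^ n * dens B.g x) := by ring
        _ ≤ _ := mul_le_of_le_one_left (by positivity) a4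
    · simp only [indicator_of_notMem k]
      rw [hP.m0 x (by rwa [mem_ball_zero_iff, not_lt] at k)]
      simp
  refine h1.trans_eq ?_
  rw [integral_indicator_const _ measurableSet_ball, Measure.real, real_ball hn0 _ hL.le,
    smul_eq_mul]
  field_simp

theorem far {d : ℝ} {x : E n} (hε : 0 < ε) (hd : 20 * ε ≤ d) (h1 : |w x| < 1) (h : d ≤ dd ε w x) :
    19 / 20 ≤ w x := by
  by_contra k
  have h2 := abs_lt.1 h1
  have h3 : 0 < (1 + w x) / (1 - w x) := div_pos (by linarith) (by linarith)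
  have h4 : (1 + w x) / (1 - w x) < 39 := by
    rw [div_lt_iff₀ (by linarith)]
    linarith
  have h5 := Real.log_le_sub_one_of_pos h3
  unfold dd at h
  nlinarith

theorem norm_ge {x y : E n} {t : ℝ} (h : y ∈ ball x t) : ‖x‖ - t ≤ ‖y‖ := by
  have := norm_sub_norm_le x y
  rw [mem_ball, dist_comm, dist_eq_norm] at h
  linarith

theorem num (hn : 3 ≤ n) {A A₀ P cD : ℝ} (hA : 0 < A) (hA₀ : 0 < A₀) (hP : 0 < P) (hc : 0 < c)
    (hc1 : c ≤ 1) (hr : 0 < r) (h1 : c * (A * (16 * A₀ + 1)) ≤ 1)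
    (h2 : A * (c * (A * (16 * A₀ + 1))) < cD / 8 ^ n) :
    A * (A * (16 / P * (A₀ * (c * P * r ^ (n - 1 : ℝ))) + (c * r) ^ (n - 1))) ^
      ((n : ℝ) / ((n : ℝ) - 1)) < cD * (r / 8) ^ n := by
  have h3 : (3 : ℝ) ≤ n := by exact_mod_cast hn
  have hp : 1 ≤ (n : ℝ) / ((n : ℝ) - 1) := by
    rw [le_div_iff₀ (by linarith)]
    linarith
  have e1 : r ^ (n - 1) = r ^ (n - 1 : ℝ) := by
    rw [← Real.rpow_natCast, Nat.cast_sub (by omega), Nat.cast_one]
  have e2 : (r ^ (n - 1 : ℝ)) ^ ((n : ℝ) / ((n : ℝ) - 1)) = r ^ n := by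
    rw [← Real.rpow_mul hr.le, mul_div_cancel₀ _ (by linarith), Real.rpow_natCast]
  have a1 : c ^ (n - 1) ≤ c := pow_le_of_le_one hc.le hc1 (by omega)
  have a2 : A * (16 / P * (A₀ * (c * P * r ^ (n - 1 : ℝ))) + (c * r) ^ (n - 1)) ≤
      c * (A * (16 * A₀ + 1)) * r ^ (n - 1 : ℝ) := by
    rw [mul_pow, e1]
    calc _ ≤ A * (16 / P * (A₀ * (c * P * r ^ (n - 1 : ℝ))) + c * r ^ (n - 1 : ℝ)) := by gcongr
      _ = _ := by field_simp
  calc _ ≤ A * (c * (A * (16 * A₀ + 1)) * r ^ (n - 1 : ℝ)) ^ ((n : ℝ) / ((n : ℝ) - 1)) := by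
        gcongr
    _ = A * (c * (A * (16 * A₀ + 1))) ^ ((n : ℝ) / ((n : ℝ) - 1)) * r ^ n := by
        rw [Real.mul_rpow (by positivity) (by positivity), e2, mul_assoc]
    _ ≤ A * (c * (A * (16 * A₀ + 1))) * r ^ n := by
        gcongr
        exact Real.rpow_le_self_of_le_one (by positivity) h1 hp
    _ < cD / 8 ^ n * r ^ n := by gcongr
    _ = _ := by rw [div_pow]; ring

theorem choose (n : ℕ) (A A₁ : ℝ) {cD cE : ℝ} (hD : 0 < cD) (hE : 0 < cE) :
    ∃ c > (0 : ℝ), c ≤ 1 / 8 ∧ c ≤ cD / 16 ∧ c ≤ cE / 32 ∧ c * A₁ ≤ 1 ∧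
      A * (c * A₁) < cD / 8 ^ n := by
  have h : ∀ᶠ c in 𝓝 (0 : ℝ), c < 1 / 8 ∧ c < cD / 16 ∧ c < cE / 32 ∧ c * A₁ < 1 ∧
      A * (c * A₁) < cD / 8 ^ n := by
    refine (eventually_lt_nhds (by norm_num)).and ((eventually_lt_nhds (by positivity)).and
      ((eventually_lt_nhds (by positivity)).and (Eventually.and ?_ ?_)))
    · exact ContinuousAt.eventually_lt (by fun_prop) continuousAt_const (by simp)
    · exact ContinuousAt.eventually_lt (by fun_prop) continuousAt_const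
        (by simp only [zero_mul, mul_zero]; positivity)
  obtain ⟨c, h1, h2⟩ := ((h.filter_mono nhdsWithin_le_nhds).and
    (self_mem_nhdsWithin (a := (0 : ℝ)) (s := Ioi 0))).exists
  exact ⟨c, h2, h1.1.le, h1.2.1.le, h1.2.2.1.le, h1.2.2.2.1.le, h1.2.2.2.2⟩

end Conf

open Conf in
theorem conf_of (hD : DENS) (hE : EXP) (_ : LOW) (hUP : UP) : CONF := by
  intro n C
  by_cases hn : 3 ≤ n
  swap
  · exact ⟨1 / 8, by norm_num, le_rfl, fun B _ _ _ _ _ _ _ _ _ hB => absurd hB.dim hn⟩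
  obtain ⟨cD, hcD, hD⟩ := hD n ((2 * C) ^ (2 * bb n))
  obtain ⟨cE, hcE, hE⟩ := hE n ((2 * C) ^ (2 * bb n))
  obtain ⟨A, hA, hI⟩ := iso hn
  have hω := omega_pos (n := n) (by omega)
  have hn0 : (0 : ℝ) < n := by exact_mod_cast (by omega : 0 < n)
  obtain ⟨A₀, hA₀⟩ : ∃ A₀ : ℝ, A₀ = 4 / 3 * (1 + omega n / n) + 1 := ⟨_, rfl⟩
  have pA₀ : 0 < A₀ := by rw [hA₀]; positivity
  obtain ⟨c, hc, c1, c2, c3, c4, c5⟩ :=
    choose n A (A * (16 * A₀ + 1)) hcD hcE
  refine ⟨c, hc, c1, fun B L m p q U a β R s' hB hP hS κ hκ r hC => ?_⟩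
  have ha := hS.a0
  have h1 := hB.one
  have h2 := hC.ρr
  have hr : 0 < r := (mul_pos_iff_of_pos_left hc).1 (by linarith)
  have h3 : c * r ≤ r / 8 := by nlinarith
  have hL := hC.rL
  obtain ⟨ψ, hψ, hper⟩ := hC.per
  have hPa : 0 < a ^ (2 * gam n) := by positivity
  have hlam : 0 < (a / 2) ^ bb n := by positivity
  have hr1 : 1 ≤ r ^ (n - 1 : ℝ) := Real.one_le_rpow (by linarith)
    (by have : (3 : ℝ) ≤ n := by exact_mod_cast hn
        linarith)
  have hpp : 4 / 3 * pp B m U κ ψ + c * a ^ (2 * gam n) * r ^ (n - 1 : ℝ) ≤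
      A₀ * (c * a ^ (2 * gam n) * r ^ (n - 1 : ℝ)) := by
    have a1 := vol_term hB hP hκ.1 hψ hC.kap
    have a2 : c * a ^ (2 * gam n) * (omega n / n) ≤
        c * a ^ (2 * gam n) * r ^ (n - 1 : ℝ) * (omega n / n) :=
      mul_le_mul_of_nonneg_right (le_mul_of_one_le_right (by positivity) hr1) (by positivity)
    rw [hA₀, pp]
    linarith
  have hp0 : ∀ y : E n, B.ρ ≤ ‖y‖ → p y = 0 := fun y hy =>
    hP.p0 y (by linarith [hB.far y hy, hB.s0])
  have hrat : ∀ x : E n, 7 * r / 8 ≤ ‖x‖ →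
      Rat B.g U ((2 * C) ^ (2 * bb n)) ((a / 2) ^ bb n) (ball x (r / 8)) := fun x hx =>
    rat hB hS fun y hy => by
      have := norm_ge hy
      exact ⟨by linarith, hC.up y (by linarith)⟩
  have hd : 0 < cE * (a / 2) ^ bb n * (r / 8) := by positivity
  filter_upwards [hUP n B L m p q U a β R s' hB hP hS κ hκ ψ hψ
      (c * a ^ (2 * gam n) * r ^ (n - 1 : ℝ)) (by positivity),
    hD B L m p q U a β R s' hB hP hS κ hκ (r / 8) (by positivity),
    hE B L m p q U a β R s' hB hP hS κ hκ (r / 8) (by positivity),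
    Ioc_mem_nhdsGT (show (0 : ℝ) < cE * (a / 2) ^ bb n * (r / 8) / 20 by positivity)]
    with ε k1 k2 k3 k4 w hw x hx
  have f1 : ∀ y : E n, L + 2 + r / 8 ≤ ‖y‖ → 19 / 20 ≤ w y := fun y hy => by
    refine far k4.1 (d := cE * (a / 2) ^ bb n * (r / 8)) (by linarith [k4.2]) (hw.lt y) ?_
    have := k3 w hw 1 _ (r / 8) y (Or.inl rfl) hlam le_rfl (hrat y (by linarith)) fun z hz => by
      have := norm_ge hz
      rw [if_pos rfl]
      exact ⟨hp0 z (by linarith), Or.inr (hP.q4 z (by linarith))⟩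
    rwa [one_mul] at this
  have f2 := hI w _ (c * r) (16 / a ^ (2 * gam n)) _ hw.sm hw.lt (by positivity) (by positivity)
    (by positivity) (fun y hy => mm hB hP hS hκ.1 k4.1 hw (h2.trans hy.le))
    ((k1 w hw).trans (ENNReal.ofReal_le_ofReal hpp)) ⟨_, f1⟩
  have f3 : ∀ y : E n, 7 * r / 8 ≤ ‖y‖ → 9 / 10 ≤ w y := fun y hy => by
    by_contra k
    have a1 := k2 w hw 1 _ (r / 8) y (Or.inl rfl) hlam le_rfl (hrat y hy) (fun z hz => by
      have := norm_ge hz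
      rw [if_pos rfl]
      refine ⟨hp0 z (by linarith), ?_⟩
      have b1 : ((a / 2) ^ bb n) ^ (n - 1 : ℝ) = (a / 2) ^ (2 * gam n) := by
        rw [← Real.rpow_mul (by positivity), mul_comm, nm1_bb hn]
      have b2 : r / 8 ≤ (L + 1) ^ n :=
        le_trans (by linarith) (le_self_pow₀ (a := L + 1) (by linarith) (by omega))
      have b3 := dens_nonneg B.g z
      have b4 := hκ.1
      rw [b1]
      calc _ ≤ κ * dens B.g z * (L + 1) ^ n := by gcongr
        _ = κ * (L + 1) ^ n * dens B.g z := by ring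
        _ ≤ c * a ^ (2 * gam n) := hC.kap z
        _ ≤ cD / 16 * a ^ (2 * gam n) := by gcongr
        _ = cD * (a ^ (2 * gam n) / 16) := by ring
        _ ≤ _ := mul_le_mul_of_nonneg_left (half_pow hn ha) hcD.le) (by linarith)
    have a2 : ball y (r / 8) ∩ {z | 1 * w z ≤ 9 / 10} ⊆
        {z : E n | 2 * (c * r) ≤ ‖z‖ ∧ w z ≤ 9 / 10} := fun z hz => by
      have := norm_ge hz.1
      exact ⟨by linarith, by simpa using hz.2⟩
    have a3 := (a1.trans (measure_mono a2)).trans f2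
    rw [ENNReal.ofReal_le_ofReal_iff (by positivity)] at a3
    exact absurd a3 (not_le.2 (num hn hA pA₀ hPa hc (by linarith) hr c4 c5))
  have f4 := k3 w hw 1 _ (r / 8) x (Or.inl rfl) hlam le_rfl (hrat x (by linarith)) fun z hz => by
    have := norm_ge hz
    rw [if_pos rfl]
    exact ⟨hp0 z (by linarith), Or.inl (f3 z (by linarith))⟩
  rw [one_mul] at f4
  refine le_trans ?_ f4
  calc _ ≤ cE / 32 * a ^ bb n * r := by gcongr
    _ = cE * (a ^ bb n / 4) * (r / 8) := by ring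
    _ ≤ _ := by gcongr; exact half_pow' hn ha

end Vale.Agent.P366Z
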