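import Vale.Agent.P366Z.Sk
import Vale.Agent.P366Z.Int

/-!
# P366Z: the bounds of the potential near the layer
-/

open MeasureTheory Metric Filter Topology Set
open scoped ContDiff ENNReal
open Vale.Agent.P366.Stmt

noncomputable section

namespace Vale.Agent.P366Z

namespace Hbz

variable {n : ℕ} {ε : ℝ} {w h U m p q : E n → ℝ} {x : E n} {g : Field n}

/-! ### the approximate distance -/

theorem dd_le (hε : 0 ≤ ε) (h1 : |w x| < 1) (h2 : w x ≤ 19 / 20) : dd ε w x ≤ 19 * ε := by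
  obtain ⟨h3, h4⟩ := abs_lt.1 h1
  have h5 : 0 < (1 + w x) / (1 - w x) := div_pos (by linarith) (by linarith)
  have h6 : (1 + w x) / (1 - w x) ≤ 39 := by rw [div_le_iff₀ (by linarith)]; linarith
  have h7 := Real.log_le_sub_one_of_pos h5
  unfold dd
  nlinarith

theorem le_dd (hε : 0 ≤ ε) (h1 : |w x| < 1) (h2 : -(19 / 20) ≤ w x) : -(19 * ε) ≤ dd ε w x := by
  obtain ⟨h3, h4⟩ := abs_lt.1 h1
  have h5 : 0 < (1 - w x) / (1 + w x) := div_pos (by linarith) (by linarith)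
  have h6 : (1 - w x) / (1 + w x) ≤ 39 := by rw [div_le_iff₀ (by linarith)]; linarith
  have h7 := Real.log_le_sub_one_of_pos h5
  have h8 : Real.log ((1 + w x) / (1 - w x)) = -Real.log ((1 - w x) / (1 + w x)) := by
    rw [← Real.log_inv, inv_div]
  unfold dd
  rw [h8]
  nlinarith

theorem dd_nonneg (hε : 0 ≤ ε) (h1 : |w x| < 1) (h2 : 0 ≤ w x) : 0 ≤ dd ε w x := by
  obtain ⟨h3, h4⟩ := abs_lt.1 h1
  refine mul_nonneg (by linarith) (Real.log_nonneg ?_)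
  rw [le_div_iff₀ (by linarith)]; linarith

theorem dd_nonpos (hε : 0 ≤ ε) (h1 : |w x| < 1) (h2 : w x ≤ 0) : dd ε w x ≤ 0 := by
  obtain ⟨h3, h4⟩ := abs_lt.1 h1
  refine mul_nonpos_of_nonneg_of_nonpos (by linarith) (Real.log_nonpos ?_ ?_)
  · exact div_nonneg (by linarith) (by linarith)
  · rw [div_le_one (by linarith)]; linarith

/-- the profile -/
def ar (ε s : ℝ) : ℝ := ε / 2 * Real.log ((1 + s) / (1 - s))

theorem cd_ar {s : ℝ} (hs : |s| < 1) : ContDiffAt ℝ ∞ (ar ε) s := by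
  obtain ⟨h3, h4⟩ := abs_lt.1 hs
  have h5 : (1 - s) ≠ 0 := by linarith
  have h6 : (1 + s) / (1 - s) ≠ 0 := (div_pos (by linarith) (by linarith)).ne'
  exact contDiffAt_const.mul
    (((contDiffAt_const.add contDiffAt_id).div (contDiffAt_const.sub contDiffAt_id) h5).log h6)

theorem der_ar {s : ℝ} (hs : |s| < 1) : HasDerivAt (ar ε) (ε / (1 - s ^ 2)) s := by
  obtain ⟨h3, h4⟩ := abs_lt.1 hs
  have h5 : (1 - s) ≠ 0 := by linarith
  have h7 : (1 + s) ≠ 0 := by linarith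
  have h6 : (1 + s) / (1 - s) ≠ 0 := div_ne_zero h7 h5
  have h8 : (1 - s ^ 2) ≠ 0 := by
    have : 1 - s ^ 2 = (1 - s) * (1 + s) := by ring
    rw [this]; exact mul_ne_zero h5 h7
  have h1 := ((((hasDerivAt_id' s).const_add 1).fun_div ((hasDerivAt_id' s).const_sub 1) h5).log
    h6).const_mul (ε / 2)
  refine h1.congr_deriv ?_
  field_simp
  ring

theorem der2_ar {s : ℝ} (hs : |s| < 1) :
    deriv (deriv (ar ε)) s = 2 * ε * s / (1 - s ^ 2) ^ 2 := by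
  have h8 : (1 - s ^ 2) ≠ 0 := by
    have := (sq_lt_one_iff_abs_lt_one s).2 hs
    linarith
  have e : deriv (ar ε) =ᶠ[𝓝 s] fun t => ε / (1 - t ^ 2) := by
    filter_upwards [(isOpen_lt continuous_abs continuous_const).mem_nhds hs] with t ht
    exact (der_ar ht).deriv
  rw [e.deriv_eq]
  have h1 := (hasDerivAt_const s ε).fun_div ((hasDerivAt_pow 2 s).const_sub 1) h8
  rw [h1.deriv]
  simp only [Nat.cast_ofNat, Nat.add_one_sub_one, pow_one]
  ring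

theorem sm_dd (hw : Smooth w) (h1 : ∀ x, |w x| < 1) : Smooth (dd ε w) :=
  contDiff_iff_contDiffAt.2 fun x => (cd_ar (h1 x)).comp x (ContDiff.contDiffAt hw)

theorem wl_dd (hg : Met g) (hU : Smooth U) (hw : Smooth w) (h1 : |w x| < 1) (hε : ε ≠ 0) :
    wl g U (dd ε w) x = ε * wl g U w x / (1 - w x ^ 2) +
      2 * w x / ε * (U x ^ 2 * ip g (dd ε w) (dd ε w) x) := by
  have h8 : (1 - w x ^ 2) ≠ 0 := by
    have := (sq_lt_one_iff_abs_lt_one (w x)).2 h1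
    linarith
  have e1 : wl g U (dd ε w) x = _ :=
    hg.wl_comp (φ := ar ε) (hU.diff x) (hw.c2 x) ((cd_ar h1).of_le (by norm_cast))
  have e2 : ip g (dd ε w) (dd ε w) x = _ :=
    ip_comp (g := g) (u := w) (v := w) (φ := ar ε) (ψ := ar ε) (der_ar h1) (der_ar h1)
      (hw.diff x) (hw.diff x)
  rw [e1, e2, (der_ar h1).deriv, der2_ar h1]
  field_simp

theorem cv_zero {s : ℝ} (hs : -(9 / 10) ≤ s) : cv s = 0 :=
  Real.smoothTransition.zero_of_nonpos (by linarith)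

theorem cv_one {s : ℝ} (hs : s ≤ -(19 / 20)) : cv s = 1 :=
  Real.smoothTransition.one_of_one_le (by linarith)

theorem cv_mem (s : ℝ) : 0 ≤ cv s ∧ cv s ≤ 1 :=
  ⟨Real.smoothTransition.nonneg _, Real.smoothTransition.le_one _⟩

variable {B : Bg n} {L a β R s' κ t Λ : ℝ}

theorem pow_nb (hn : 3 ≤ n) {u : ℝ} (hu : 0 < u) :
    u ^ (n * bb n) * u ^ (-(2 * bb n)) = u ^ 2 := by
  rw [← Real.rpow_add hu, n_bb hn, ← Real.rpow_two]
  congr 1; ring

/-- the equation of the approximate distance away from the penalties -/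
theorem wl_dd' (hB : B.Ok) (hS : St B U a β R s') (hw : Mn B m p q U κ ε w) (hε : ε ≠ 0)
    (hp : p x = 0) (hq : q x = 0) : wl B.g U (dd ε w) x = 2 * w x / ε * (U x ^ (n * bb n) *
      (ip (cf U B.g) (dd ε w) (dd ε w) x - 1)) + κ * m x := by
  have h8 : (1 - w x ^ 2) ≠ 0 := by
    have := (sq_lt_one_iff_abs_lt_one (w x)).2 (hw.lt x)
    linarith
  rw [wl_dd hB.met hS.sm hw.sm (hw.lt x) hε, hw.eqn x, hp, hq, hB.met.ip_cf (hS.pos hB x),
    ← pow_nb hB.dim (hS.pos hB x)]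
  field_simp
  ring

theorem Lay.F_gt (hL : Lay B L t ε w) (hx : -t ≤ dd ε w x) : B.s / 4 < B.F x :=
  lt_of_not_ge fun e => absurd (hL.inn x e) (not_lt.2 hx)

theorem Lay.norm_lt (hL : Lay B L t ε w) (hx : dd ε w x ≤ t) : ‖x‖ < L :=
  lt_of_not_ge fun e => absurd (hL.out x e) (not_lt.2 hx)

theorem bar_alg {P P₀ C₁ C z w k ε : ℝ} (hP₀ : 0 < P₀) (hP : P₀ ≤ P) (hC₁ : 0 ≤ C₁)
    (hC : C = 4 * C₁ + 2 / P₀) (hz0 : 0 ≤ z) (hz : z ≤ 1 + C₁ * ε) (hw0 : 9 / 10 < w) (hw1 : w < 1)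
    (hk : k ≤ 1) (hε : 0 < ε) (hε' : ε ≤ 9 / 10 * P₀) :
    2 * w / ε * (P * (z - 1)) + k - C * (P * z) ≤ 0 := by
  have hP1 : 0 < P := hP₀.trans_le hP
  have h1 : 0 < 2 / P₀ := by positivity
  have h2 : 2 ≤ 2 / P₀ * P := by
    rw [div_mul_eq_mul_div, le_div_iff₀ hP₀]; linarith
  have h3 : 0 < 2 * w / ε := by positivity
  rcases le_total (1 / 2) z with e | e
  · have h4 : 2 * w / ε * (P * (z - 1)) ≤ 2 * w / ε * (P * (C₁ * ε)) :=
      mul_le_mul_of_nonneg_left (mul_le_mul_of_nonneg_left (by linarith) hP1.le) h3.le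
    have h5 : 2 * w / ε * (P * (C₁ * ε)) = 2 * w * (P * C₁) := by field_simp
    have h6 : 2 * w * (P * C₁) ≤ 2 * (P * C₁) := by nlinarith [mul_nonneg hP1.le hC₁]
    have h7 : C * (P * (1 / 2)) ≤ C * (P * z) :=
      mul_le_mul_of_nonneg_left (mul_le_mul_of_nonneg_left e hP1.le) (by rw [hC]; positivity)
    have h8 : C * (P * (1 / 2)) = 2 * (P * C₁) + 2 / P₀ * P / 2 := by rw [hC]; ring
    linarith
  · have h4 : 2 * w / ε * (P * (z - 1)) ≤ 2 * w / ε * (P * (-(1 / 2))) :=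
      mul_le_mul_of_nonneg_left (mul_le_mul_of_nonneg_left (by linarith) hP1.le) h3.le
    have h5 : 2 * w / ε * (P * (-(1 / 2))) = -(w * P / ε) := by field_simp
    have h6 : 1 ≤ w * P / ε := by
      rw [le_div_iff₀ hε]; nlinarith
    have h7 : 0 ≤ C * (P * z) := by rw [hC]; positivity
    linarith

/-- the gradient bound of `B1` -/
def G1 (B : Bg n) (L : ℝ) (U : E n → ℝ) (C ε : ℝ) (w : E n → ℝ) : Prop :=
  ∀ x, -(B.s / 4) ≤ B.F x → ‖x‖ ≤ L + 1 / 2 → ip (cf U B.g) (dd ε w) (dd ε w) x ≤ 1 + C * ε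

/-- the barrier -/
theorem bar (hW : WMP) (hB : B.Ok) (hP : Pen B L m p q) (hS : St B U a β R s')
    (hκ : κ ∈ Icc (0 : ℝ) 1) {C₁ P₀ : ℝ} (ht : 0 < t) (hC₁ : 0 ≤ C₁) (hP₀ : 0 < P₀)
    (hP₁ : ∀ x, P₀ ≤ U x ^ (n * bb n)) : ∃ A, 0 ≤ A ∧ ∀ (ε Λ μ : ℝ) (w h : E n → ℝ), 0 < ε →
      ε ≤ 9 / 10 * P₀ → Mn B m p q U κ ε w → Lay B L t ε w → Pot B U Λ w h → G1 B L U C₁ ε w →
      (∀ x, w x ≤ 9 / 10 → h x ≤ μ) → 0 ≤ μ →
      ∀ x, dd ε w x ≤ t → h x ≤ μ + A * max (dd ε w x) 0 := by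
  obtain ⟨C, hC⟩ : ∃ C, C = 4 * C₁ + 2 / P₀ := ⟨_, rfl⟩
  have hC0 : 0 < C := by rw [hC]; positivity
  have hE : 0 < 1 - Real.exp (-C * t) := by
    have : Real.exp (-C * t) < 1 := Real.exp_lt_one_iff.2 (by nlinarith)
    linarith
  obtain ⟨A, hA⟩ : ∃ A, A = (1 - Real.exp (-C * t))⁻¹ := ⟨_, rfl⟩
  have hA0 : 0 < A := by rw [hA]; positivity
  have hA1 : A * (1 - Real.exp (-C * t)) = 1 := by rw [hA]; exact inv_mul_cancel₀ hE.ne'
  refine ⟨A * C, by positivity, fun ε Λ μ w h hε hε' hw hL hh hG hμ hμ0 => ?_⟩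
  have hd : Smooth (dd ε w) := sm_dd hw.sm hw.lt
  have hs0 := hB.s0
  set φ : ℝ → ℝ := fun s => μ + A * (1 - Real.exp (-C * s)) with hφ
  have hφs : ContDiff ℝ ∞ φ := by rw [hφ]; fun_prop
  have hφ1 : ∀ s, HasDerivAt φ (A * C * Real.exp (-C * s)) s := fun s => by
    have h1 := (((((hasDerivAt_id' s).const_mul (-C)).exp).const_sub 1).const_mul A).const_add μ
    exact h1.congr_deriv (by ring)
  have hφ2 : ∀ s, deriv (deriv φ) s = -C * (A * C * Real.exp (-C * s)) := fun s => by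
    have e : deriv φ = fun s => A * C * Real.exp (-C * s) := funext fun s => (hφ1 s).deriv
    rw [e]
    have h1 := ((((hasDerivAt_id' s).const_mul (-C)).exp)).const_mul (A * C)
    rw [h1.deriv]; ring
  have hφt : ∀ s, t ≤ s → 1 ≤ φ s := fun s hs => by
    have h1 : Real.exp (-C * s) ≤ Real.exp (-C * t) := Real.exp_le_exp.2 (by nlinarith)
    have h2 : A * (1 - Real.exp (-C * t)) ≤ A * (1 - Real.exp (-C * s)) :=
      mul_le_mul_of_nonneg_left (by linarith) hA0.le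
    simp only [hφ]; linarith
  have hφ0 : ∀ s, 0 ≤ s → μ ≤ φ s := fun s hs => by
    have h1 : Real.exp (-C * s) ≤ 1 := Real.exp_le_one_iff.2 (by nlinarith)
    have h2 : 0 ≤ A * (1 - Real.exp (-C * s)) := mul_nonneg hA0.le (by linarith)
    simp only [hφ]; linarith
  have hφu : ∀ s, φ s ≤ μ + A * C * max s 0 := fun s => by
    have h1 := Real.add_one_le_exp (-C * s)
    have h2 : A * (1 - Real.exp (-C * s)) ≤ A * (C * max s 0) :=
      mul_le_mul_of_nonneg_left (by nlinarith [le_max_left s 0]) hA0.le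
    simp only [hφ]; linarith
  have hsm : Smooth fun y => φ (dd ε w y) := hφs.comp hd
  set O : Set (E n) := {y | 9 / 10 < w y ∧ dd ε w y < t} with hO
  have hOo : IsOpen O :=
    (isOpen_lt continuous_const hw.sm.cont).inter (isOpen_lt hd.cont continuous_const)
  have key := hW n B.g U (fun y => φ (dd ε w y) - h y) (fun _ => 0) O
    (by have := hB.dim; omega) hB.met hS.sm (hS.pos hB) hOo
    (hsm.cont.sub hh.sm.cont).continuousOn (fun y hy => ?_) (fun y hy => ?_)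
    (fun e he => ⟨L, fun y hy hy' => absurd (hL.out y hy') (not_lt.2 hy.2.le)⟩)
  · intro x hx
    rcases le_or_gt (w x) (9 / 10) with e | e
    · have : 0 ≤ A * C * max (dd ε w x) 0 := mul_nonneg (by positivity) (le_max_right _ _)
      linarith [hμ x e]
    · rcases hx.eq_or_lt with e' | e'
      · linarith [hφt _ e'.ge, hφu (dd ε w x), (hh.h01 x).2]
      · have := key x ⟨e, e'⟩
        linarith [hφu (dd ε w x)]
  · refine ⟨(hsm.c2 y).sub (hh.sm.c2 y), le_rfl, ?_⟩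
    have hd0 : 0 ≤ dd ε w y := dd_nonneg hε.le (hw.lt y) (by linarith [hy.1])
    have hF : B.s / 4 < B.F y := Lay.F_gt hL (by linarith)
    have hN : ‖y‖ < L := Lay.norm_lt hL hy.2.le
    rw [hB.met.wl_sub (hS.sm.diff y) (hsm.c2 y) (hh.sm.c2 y), hh.eqn y,
      cv_zero (by linarith [hy.1]), hB.met.wl_comp (hS.sm.diff y) (hd.c2 y)
        (hφs.contDiffAt.of_le (by norm_cast)), (hφ1 _).deriv, hφ2,
      wl_dd' hB hS hw hε.ne' (hP.p0 y (by linarith)) (hP.q0 y (by linarith))]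
    have h1 := bar_alg hP₀ (hP₁ y) hC₁ hC
      ((hB.met.cf hS.sm (hS.pos hB)).ip_nonneg (dd ε w) y) (hG y (by linarith) (by linarith))
      hy.1 (abs_lt.1 (hw.lt y)).2 (k := κ * m y)
      (mul_le_one₀ hκ.2 (hP.m01 y).1 (hP.m01 y).2) hε hε'
    have h2 : U y ^ 2 * ip B.g (dd ε w) (dd ε w) y =
        U y ^ (n * bb n) * ip (cf U B.g) (dd ε w) (dd ε w) y := by
      rw [hB.met.ip_cf (hS.pos hB y), ← pow_nb hB.dim (hS.pos hB y)]; ring
    rw [h2]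
    have h3 : 0 ≤ A * C * Real.exp (-C * dd ε w y) := by positivity
    have h4 := mul_nonpos_of_nonneg_of_nonpos h3 h1
    linarith
  · rw [hOo.frontier_eq] at hy
    have h1 : 9 / 10 ≤ w y :=
      closure_minimal (t := {y | 9 / 10 ≤ w y}) (fun z hz => le_of_lt hz.1)
        (isClosed_le continuous_const hw.sm.cont) hy.1
    have hd0 : 0 ≤ dd ε w y := dd_nonneg hε.le (hw.lt y) (by linarith)
    rcases le_or_gt (w y) (9 / 10) with e | e
    · linarith [hμ y e, hφ0 _ hd0]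
    · have h2 : t ≤ dd ε w y := le_of_not_gt fun e' => hy.2 ⟨e, e'⟩
      linarith [hφt _ h2, (hh.h01 y).2]

theorem geo (hB : B.Ok) (L : ℝ) : ∃ ρ₀ > (0 : ℝ), ρ₀ ≤ 1 / 2 ∧
    ∀ x y : E n, ‖x‖ ≤ L → y ∈ ball x ρ₀ → |B.F y - B.F x| ≤ B.s / 4 := by
  have h1 := (isCompact_closedBall (0 : E n) (L + 1)).uniformContinuousOn_of_continuous
    hB.smF.cont.continuousOn
  obtain ⟨δ, hδ, h2⟩ := Metric.uniformContinuousOn_iff.1 h1 (B.s / 4) (by linarith [hB.s0])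
  refine ⟨min δ (1 / 2), by positivity, min_le_right _ _, fun x y hx hy => ?_⟩
  have h3 : dist y x < min δ (1 / 2) := hy
  have h4 : ‖y‖ ≤ ‖x‖ + dist y x := by
    rw [dist_eq_norm]; linarith [norm_sub_norm_le y x]
  have h5 := h2 y (mem_closedBall_zero_iff.2 (by linarith [min_le_right δ (1 / 2)])) x
    (mem_closedBall_zero_iff.2 (by linarith)) (h3.trans_le (min_le_left _ _))
  rw [Real.dist_eq] at h5
  exact h5.le

theorem norm_le_of_ball {y : E n} {r : ℝ} (hy : y ∈ ball x r) : ‖y‖ ≤ ‖x‖ + r := by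
  have h3 : dist y x < r := hy
  rw [dist_eq_norm] at h3
  linarith [norm_sub_norm_le y x]

theorem lipd (hB : B.Ok) (hS : St B U a β R s') {Λg C₁ r : ℝ} (hE : Ell B.g Λg)
    (hw : Mn B m p q U κ ε w) (hG : G1 B L U C₁ ε w) (hC : C₁ * ε ≤ 1)
    (hb : ∀ y ∈ ball x r, -(B.s / 4) ≤ B.F y ∧ ‖y‖ ≤ L + 1 / 2) :
    ∀ y ∈ ball x r, |dd ε w y - dd ε w x| ≤ 6 * Λg * r := by
  intro y hy
  have hd : Smooth (dd ε w) := sm_dd hw.sm hw.lt
  have h1 := hE.one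
  have hb2 := bb_le hB.dim
  have hb0 := bb_pos hB.dim
  have h2 : ∀ z ∈ ball x r, ‖fderiv ℝ (dd ε w) z‖ ≤ 6 * Λg := fun z hz => by
    have h3 := hG z (hb z hz).1 (hb z hz).2
    have hU := hS.pos hB z
    have h4 : ip B.g (dd ε w) (dd ε w) z =
        U z ^ (2 * bb n) * ip (cf U B.g) (dd ε w) (dd ε w) z := by
      rw [hB.met.ip_cf hU, ← mul_assoc, ← Real.rpow_add hU]; simp
    have h5 : U z ^ (2 * bb n) ≤ 16 :=
      calc U z ^ (2 * bb n) ≤ 2 ^ (2 * bb n) :=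
            Real.rpow_le_rpow hU.le (hS.le_two hB z) (by linarith)
        _ ≤ 2 ^ (4 : ℝ) := Real.rpow_le_rpow_of_exponent_le (by norm_num) (by linarith)
        _ = 16 := by norm_num
    have h6 : ip B.g (dd ε w) (dd ε w) z ≤ 16 * 2 := by
      rw [h4]
      exact mul_le_mul h5 (by linarith) ((hB.met.cf hS.sm (hS.pos hB)).ip_nonneg _ z)
        (by norm_num)
    refine (abs_le_of_sq_le_sq' ((hE.le_ip (hd.diff z)).trans ?_) (by positivity)).2
    nlinarith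
  have h7 := Convex.norm_image_sub_le_of_norm_fderiv_le (fun z _ => hd.diff z) h2
    (convex_ball x r) (mem_ball_self (pos_of_mem_ball hy)) hy
  have h8 : ‖y - x‖ ≤ r := by rw [← dist_eq_norm]; exact le_of_lt hy
  exact h7.trans (mul_le_mul_of_nonneg_left h8 (by positivity))

theorem Pot.wl_nonneg (hB : B.Ok) (hS : St B U a β R s') (hh : Pot B U Λ w h) (x : E n) :
    0 ≤ wl B.g U h x := by
  rw [hh.eqn x]
  exact mul_nonneg (mul_nonneg (mul_nonneg (sq_nonneg _)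
    (Real.rpow_nonneg (hS.pos hB x).le _)) (cv_mem _).1) (hh.h01 x).1.le

/-- the bound on the set `w ≤ 9 / 10` -/
theorem top (hB : B.Ok) (hP : Pen B L m p q) (hS : St B U a β R s') (hw : Mn B m p q U κ ε w)
    (hL : Lay B L t ε w) (hh : Pot B U Λ w h) {K ρ₀ A k θ θ' r c P₀ : ℝ} (hε : 0 < ε)
    (hεt : 19 * ε ≤ t) (hρ : ρ₀ ≤ 1 / 2)
    (hgeo : ∀ x y : E n, ‖x‖ ≤ L → y ∈ ball x ρ₀ → |B.F y - B.F x| ≤ B.s / 4)
    (hlip : ∀ x r, (∀ y ∈ ball x r, -(B.s / 4) ≤ B.F y ∧ ‖y‖ ≤ L + 1 / 2) →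
      ∀ y ∈ ball x r, |dd ε w y - dd ε w x| ≤ K * r)
    (hbar : ∀ μ, (∀ x, w x ≤ 9 / 10 → h x ≤ μ) → 0 ≤ μ →
      ∀ x, dd ε w x ≤ t → h x ≤ μ + A * max (dd ε w x) 0)
    (hgrow : ∀ M x, (∀ y ∈ ball x r, 0 ≤ h y ∧ h y ≤ M ∧ 0 ≤ wl B.g U h y) →
      ENNReal.ofReal (θ * r ^ n) ≤ volume (ball x (k * r) ∩ {y | h y ≤ r ^ 2 * wl B.g U h y}) →
      h x ≤ (1 - θ') * M)
    (hdens : ∀ x, (∀ y ∈ ball x (k * r), p y = 0) → w x ≤ 9 / 10 →
      ENNReal.ofReal (c * (k * r) ^ n) ≤ volume (ball x (k * r) ∩ {y | w y ≤ 9 / 10}))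
    (hlow : volume {x | |w x| < 19 / 20} ≤ ENNReal.ofReal (c / 2 * (k * r) ^ n))
    (hc : 0 < c) (hθ1 : θ ≤ c / 2 * k ^ n) (hθ2 : θ ≤ omega n / n * k ^ n) (hr0 : 0 < r)
    (hk : 0 < k) (hr1 : r ≤ ρ₀) (hr2 : k * r ≤ ρ₀) (hεr : ε ≤ r) (hrt : (K + 19) * r ≤ t)
    (hrΛ : 1 ≤ r ^ 2 * Λ ^ 2 * P₀) (hP₁ : ∀ x, P₀ ≤ U x ^ (n * bb n)) (hθ' : 0 < θ')
    (hK : 0 ≤ K) (hA : 0 ≤ A) :
    ∀ x, dd ε w x ≤ t → h x ≤ A * (K + 19) * r / θ' + A * max (dd ε w x) 0 := by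
  have hs0 := hB.s0
  have hn : 0 < n := by have := hB.dim; omega
  have hneg : ∀ y, B.F y ≤ B.s / 4 → w y ≤ -(19 / 20) := fun y hy => by
    by_contra e
    linarith [le_dd hε.le (hw.lt y) (not_le.1 e).le, hL.inn y hy]
  have hdd : ∀ y, w y ≤ 9 / 10 → dd ε w y ≤ 19 * ε := fun y hy =>
    dd_le hε.le (hw.lt y) (by linarith)
  have hSc : IsCompact {y | w y ≤ 9 / 10} :=
    (isCompact_closedBall (0 : E n) L).of_isClosed_subset (isClosed_le hw.sm.cont continuous_const)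
      fun y hy => mem_closedBall_zero_iff.2 (Lay.norm_lt hL ((hdd y hy).trans hεt)).le
  obtain ⟨x₁, hx₁⟩ := hB.deep
  obtain ⟨x₀, hx₀, hmax⟩ := hSc.exists_isMaxOn
    ⟨x₁, show w x₁ ≤ 9 / 10 by linarith [hneg x₁ (by linarith)]⟩ hh.sm.cont.continuousOn
  have hx₀' : w x₀ ≤ 9 / 10 := hx₀
  have hμ : ∀ y, w y ≤ 9 / 10 → h y ≤ h x₀ := fun y hy => hmax hy
  have hμ0 := (hh.h01 x₀).1
  have hb := hbar _ hμ hμ0.le
  have hN : ‖x₀‖ ≤ L := (Lay.norm_lt hL ((hdd x₀ hx₀').trans hεt)).le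
  have hX : 0 ≤ A * (K + 19) * r := by positivity
  have hfat : ∀ y, w y ≤ -(19 / 20) → h y ≤ r ^ 2 * wl B.g U h y := fun y hy => by
    rw [hh.eqn y, cv_one hy]
    have h1 : 1 ≤ r ^ 2 * Λ ^ 2 * U y ^ (n * bb n) :=
      hrΛ.trans (mul_le_mul_of_nonneg_left (hP₁ y) (by positivity))
    have h2 := mul_le_mul_of_nonneg_right h1 (hh.h01 y).1.le
    linarith
  have hrn : 0 ≤ r ^ n := by positivity
  have key : h x₀ ≤ (1 - θ') * (h x₀ + A * (K + 19) * r) := by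
    rcases le_total (B.F x₀) 0 with e | e
    · have h1 : ∀ y ∈ ball x₀ ρ₀, w y ≤ -(19 / 20) := fun y hy =>
        hneg y (by linarith [(abs_le.1 (hgeo x₀ y hN hy)).2])
      refine hgrow _ x₀ (fun y hy => ⟨(hh.h01 y).1.le, ?_, Pot.wl_nonneg hB hS hh y⟩) ?_
      · linarith [hμ y (by linarith [h1 y (ball_subset_ball hr1 hy)])]
      · have h2 : ball x₀ (k * r) ⊆ {y | h y ≤ r ^ 2 * wl B.g U h y} :=
          fun y hy => hfat y (h1 y (ball_subset_ball hr2 hy))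
        rw [inter_eq_left.2 h2, volume_ball hn x₀ (by positivity), mul_pow, ← mul_assoc]
        exact ENNReal.ofReal_le_ofReal (mul_le_mul_of_nonneg_right hθ2 hrn)
    · have h1 : ∀ y ∈ ball x₀ ρ₀, -(B.s / 4) ≤ B.F y ∧ ‖y‖ ≤ L + 1 / 2 := fun y hy =>
        ⟨by linarith [(abs_le.1 (hgeo x₀ y hN hy)).1], by linarith [norm_le_of_ball hy]⟩
      refine hgrow _ x₀ (fun y hy => ⟨(hh.h01 y).1.le, ?_, Pot.wl_nonneg hB hS hh y⟩) ?_
      · have h2 := (abs_le.1 (hlip x₀ r (fun z hz => h1 z (ball_subset_ball hr1 hz)) y hy)).2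
        have h3 : dd ε w y ≤ (K + 19) * r := by linarith [hdd x₀ hx₀']
        have h4 : A * max (dd ε w y) 0 ≤ A * ((K + 19) * r) :=
          mul_le_mul_of_nonneg_left (max_le h3 (by positivity)) hA
        linarith [hb y (h3.trans hrt)]
      · have h2 := hdens x₀ (fun y hy => hP.p0 y
          (by linarith [(h1 y (ball_subset_ball hr2 hy)).1])) hx₀'
        have h3 : ball x₀ (k * r) ∩ {y | w y ≤ 9 / 10} ⊆
            ball x₀ (k * r) ∩ {y | h y ≤ r ^ 2 * wl B.g U h y} ∪ {x | |w x| < 19 / 20} := by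
          intro y hy
          rcases le_or_gt (w y) (-(19 / 20)) with e' | e'
          · exact Or.inl ⟨hy.1, hfat y e'⟩
          · exact Or.inr (abs_lt.2 ⟨e', lt_of_le_of_lt hy.2 (by norm_num)⟩)
        have h4 := h2.trans ((measure_mono h3).trans ((measure_union_le _ _).trans
          (add_le_add le_rfl hlow)))
        have h5 : 0 ≤ c / 2 * (k * r) ^ n := by positivity
        have h6 : c * (k * r) ^ n = c / 2 * (k * r) ^ n + c / 2 * (k * r) ^ n := by ring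
        rw [h6, ENNReal.ofReal_add h5 h5,
          ENNReal.add_le_add_iff_right ENNReal.ofReal_ne_top] at h4
        refine le_trans (ENNReal.ofReal_le_ofReal ?_) h4
        rw [mul_pow, ← mul_assoc]
        exact mul_le_mul_of_nonneg_right hθ1 hrn
  have h7 : h x₀ ≤ A * (K + 19) * r / θ' := by
    rw [le_div_iff₀ hθ']
    nlinarith [mul_nonneg hθ'.le hX]
  intro x hx
  linarith [hb x hx]

/-- the gradient bound -/
theorem grad (hB : B.Ok) (hS : St B U a β R s') (hw : Mn B m p q U κ ε w)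
    (hL : Lay B L t ε w) (hh : Pot B U Λ w h) {K ρ₀ D Cg P₁ : ℝ} (hε : 0 < ε) (hρ : ρ₀ ≤ 1 / 2)
    (hgeo : ∀ x y : E n, ‖x‖ ≤ L → y ∈ ball x ρ₀ → |B.F y - B.F x| ≤ B.s / 4)
    (hlip : ∀ x r, (∀ y ∈ ball x r, -(B.s / 4) ≤ B.F y ∧ ‖y‖ ≤ L + 1 / 2) →
      ∀ y ∈ ball x r, |dd ε w y - dd ε w x| ≤ K * r)
    (hb : ∀ x, dd ε w x ≤ t → h x ≤ D * (max (dd ε w x) 0 + 1 / Λ))
    (hg : ∀ (r M S : ℝ) (x : E n), 0 < r → r ≤ 1 →
      (∀ y ∈ ball x r, ContDiffAt ℝ 2 h y ∧ |h y| ≤ M ∧ |wl B.g U h y| ≤ S) →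
      ‖fderiv ℝ h x‖ ≤ Cg * (M / r + r * S))
    (hK : 0 < K) (hKt : t ≤ K * ρ₀) (hD : 0 ≤ D) (hΛ : 0 < Λ) (hΛρ : 1 / Λ ≤ ρ₀)
    (hΛt : (K + 19) * (1 / Λ) ≤ t) (hP₁ : ∀ x, U x ^ (n * bb n) ≤ P₁)
    (hx : |dd ε w x| ≤ t / 2) :
    ‖fderiv ℝ h x‖ ≤ |Cg| * (D * (2 + K) * (1 + P₁) + 5 * K * D) := by
  have hs0 := hB.s0
  have hl : 0 < 1 / Λ := by positivity
  have ht : 0 < t := lt_of_lt_of_le (by positivity) hΛt
  obtain ⟨hx1, hx2⟩ := abs_le.1 hx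
  have hF : B.s / 4 < B.F x := Lay.F_gt hL (by linarith)
  have hN : ‖x‖ ≤ L := (Lay.norm_lt hL (by linarith)).le
  have hP0 : 0 ≤ P₁ := (Real.rpow_nonneg (hS.pos hB x).le _).trans (hP₁ x)
  have h1 : ∀ y ∈ ball x ρ₀, -(B.s / 4) ≤ B.F y ∧ ‖y‖ ≤ L + 1 / 2 := fun y hy =>
    ⟨by linarith [(abs_le.1 (hgeo x y hN hy)).1], by linarith [norm_le_of_ball hy]⟩
  have q1 : 0 ≤ D * (2 + K) * (1 + P₁) := by positivity
  have q2 : 0 ≤ 5 * K * D := by positivity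
  rcases le_or_gt (dd ε w x) (1 / Λ) with e | e
  · have h2 : ∀ y ∈ ball x (1 / Λ), h y ≤ D * ((2 + K) * (1 / Λ)) := fun y hy => by
      have h3 := (abs_le.1 (hlip x _ (fun z hz => h1 z (ball_subset_ball hΛρ hz)) y hy)).2
      have h4 : max (dd ε w y) 0 ≤ (1 + K) * (1 / Λ) := max_le (by linarith) (by positivity)
      refine (hb y (by linarith [le_max_left (dd ε w y) 0])).trans ?_
      exact mul_le_mul_of_nonneg_left (by linarith) hD
    have h5 := hg (1 / Λ) (D * ((2 + K) * (1 / Λ))) (Λ ^ 2 * P₁ * 1 * (D * ((2 + K) * (1 / Λ))))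
      x hl (by linarith) fun y hy => ⟨hh.sm.c2 y, by
        rw [abs_of_pos (hh.h01 y).1]; exact h2 y hy, by
        rw [abs_of_nonneg (Pot.wl_nonneg hB hS hh y), hh.eqn y]
        exact mul_le_mul (mul_le_mul (mul_le_mul_of_nonneg_left (hP₁ y) (sq_nonneg _))
          (cv_mem _).2 (cv_mem _).1 (by positivity)) (h2 y hy) (hh.h01 y).1.le (by positivity)⟩
    have h6 : D * ((2 + K) * (1 / Λ)) / (1 / Λ) +
        1 / Λ * (Λ ^ 2 * P₁ * 1 * (D * ((2 + K) * (1 / Λ)))) = D * (2 + K) * (1 + P₁) := by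
      field_simp
    rw [h6] at h5
    exact h5.trans (mul_le_mul (le_abs_self _) (by linarith) q1 (abs_nonneg _))
  · have hd : 0 < dd ε w x := hl.trans e
    have hr : 0 < dd ε w x / (2 * K) := by positivity
    have hr1 : dd ε w x / (2 * K) ≤ ρ₀ := by
      rw [div_le_iff₀ (by positivity)]; linarith
    have hr2 : K * (dd ε w x / (2 * K)) = dd ε w x / 2 := by field_simp
    have h5 := hg _ (D * (5 / 2 * dd ε w x)) 0 x hr (by linarith) fun y hy => by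
      have h3 := abs_le.1 (hlip x _ (fun z hz => h1 z (ball_subset_ball hr1 hz)) y hy)
      rw [hr2] at h3
      refine ⟨hh.sm.c2 y, ?_, ?_⟩
      · rw [abs_of_pos (hh.h01 y).1]
        refine (hb y (by linarith [h3.2])).trans (mul_le_mul_of_nonneg_left ?_ hD)
        have h4 : max (dd ε w y) 0 ≤ 3 / 2 * dd ε w x := max_le (by linarith [h3.2]) (by linarith)
        linarith
      · have h4 : 0 < w y := by
          by_contra e'
          linarith [dd_nonpos hε.le (hw.lt y) (not_lt.1 e'), h3.1]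
        rw [hh.eqn y, cv_zero (by linarith)]
        simp
    have h6 : D * (5 / 2 * dd ε w x) / (dd ε w x / (2 * K)) + dd ε w x / (2 * K) * 0 =
        5 * K * D := by
      field_simp
      ring
    rw [h6] at h5
    exact h5.trans (mul_le_mul (le_abs_self _) (by linarith) q2 (abs_nonneg _))

theorem ev_top (X : ℝ) {δ : ℝ} (hδ : 0 < δ) : ∀ᶠ Λ : ℝ in atTop, X * (1 / Λ) ≤ δ := by
  have h1 : Tendsto (fun Λ : ℝ => X * (1 / Λ)) atTop (𝓝 (X * 0)) := by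
    simpa only [one_div] using tendsto_inv_atTop_zero.const_mul X
  rw [mul_zero] at h1
  exact h1.eventually (eventually_le_nhds hδ)

theorem ev_zero (X : ℝ) {δ : ℝ} (hδ : 0 < δ) : ∀ᶠ ε : ℝ in 𝓝[>] 0, X * ε ≤ δ := by
  have h1 : Tendsto (fun ε : ℝ => X * ε) (𝓝 0) (𝓝 (X * 0)) := tendsto_id.const_mul X
  rw [mul_zero] at h1
  exact (h1.eventually (eventually_le_nhds hδ)).filter_mono nhdsWithin_le_nhds

theorem rat (hB : B.Ok) (hS : St B U a β R s') {Λg : ℝ} (hE : Ell B.g Λg) :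
    ∃ C lam, 0 < lam ∧ ∀ s, Rat B.g U C lam s := by
  have h1 := hE.one
  have ha := hS.a0
  have hb0 := bb_pos hB.dim
  obtain ⟨u, hu⟩ : ∃ u, u = (a / 2) ^ (2 * bb n) := ⟨_, rfl⟩
  obtain ⟨v, hv⟩ : ∃ v, v = (2 : ℝ) ^ (2 * bb n) := ⟨_, rfl⟩
  have hu0 : 0 < u := by rw [hu]; positivity
  refine ⟨v * Λg / (u / Λg), √(u / Λg), by positivity, fun s x _ ξ => ?_⟩
  have h2 : u ≤ U x ^ (2 * bb n) := by
    rw [hu]; exact Real.rpow_le_rpow (by positivity) (hS.half hB x) (by linarith)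
  have h3 : U x ^ (2 * bb n) ≤ v := by
    rw [hv]; exact Real.rpow_le_rpow (hS.pos hB x).le (hS.le_two hB x) (by linarith)
  have h4 : ∑ i, ∑ j, cf U B.g x i j * ξ i * ξ j =
      U x ^ (2 * bb n) * ∑ i, ∑ j, B.g x i j * ξ i * ξ j := by
    simp only [cf, Finset.mul_sum, mul_assoc]
  have h5 := hB.met.g_nonneg x ξ
  rw [h4, Real.sq_sqrt (by positivity), div_mul_cancel₀ _ (by positivity)]
  constructor
  · refine le_trans ?_ (mul_le_mul_of_nonneg_right h2 h5)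
    rw [div_mul_eq_mul_div, div_le_iff₀ (by positivity), mul_assoc]
    exact mul_le_mul_of_nonneg_left (by linarith [hE.g_lo x ξ]) hu0.le
  · rw [mul_assoc]
    exact mul_le_mul h3 (hE.g_hi x ξ) h5 ((hu0.le.trans h2).trans h3)

end Hbz

open Hbz in
theorem hb_of : B1 → DENS → GROW → GRAD → PTM → WMP → LOW → STWT → HB := by
  intro hB1 hDENS hGROW hGRAD _ hWMP hLOW hWT n B L m p q U a β R s' hB hP hS κ hκ t ht e
  have hn : 0 < n := by have := hB.dim; omega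
  have hn' : (0 : ℝ) < n := by exact_mod_cast hn
  have ha := hS.a0
  have hb0 := bb_pos hB.dim
  have hom := omega_pos hn
  have hWt := hWT n B U a β R s' hB hS
  obtain ⟨Λg, hE⟩ := hB.met.ell hB.flat
  have hΛg := hE.one
  obtain ⟨C₀, hC₀⟩ := hB1 n B L m p q U a β R s' hB hP hS κ hκ
  obtain ⟨Cr, lam, hlam, hRat⟩ := rat hB hS hE
  obtain ⟨c, hc, hD⟩ := hDENS n Cr
  obtain ⟨k, hk, hGr⟩ := hGROW n B.g B.ρ U hB.dim hB.met hB.flat hWt
  obtain ⟨θ, hθ⟩ : ∃ θ, θ = min (c / 2 * k ^ n) (omega n / n * k ^ n) := ⟨_, rfl⟩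
  have hθ0 : 0 < θ := by rw [hθ]; positivity
  obtain ⟨θ', hθ', r₀, hr₀, hGr⟩ := hGr θ hθ0
  obtain ⟨Cg, hCg⟩ := hGRAD n B.g B.ρ U hB.dim hB.met hB.flat hWt
  obtain ⟨Cl, hCl⟩ := hLOW n B L m p q U a β R s' hB hP hS (1 / 20) ⟨by norm_num, by norm_num⟩
  obtain ⟨ρ₀, hρ0, hρ, hgeo⟩ := geo hB L
  obtain ⟨P₀, hP₀⟩ : ∃ u, u = (a / 2) ^ (n * bb n) := ⟨_, rfl⟩
  have hP0 : 0 < P₀ := by rw [hP₀]; positivity
  have hP1 : ∀ x, P₀ ≤ U x ^ (n * bb n) := fun x => by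
    rw [hP₀]; exact Real.rpow_le_rpow (by positivity) (hS.half hB x) (by positivity)
  obtain ⟨P₁, hP₁⟩ : ∃ u, u = (2 : ℝ) ^ (n * bb n) := ⟨_, rfl⟩
  have hP2 : ∀ x, U x ^ (n * bb n) ≤ P₁ := fun x => by
    rw [hP₁]; exact Real.rpow_le_rpow (hS.pos hB x).le (hS.le_two hB x) (by positivity)
  obtain ⟨A, hA, hbar⟩ := bar hWMP hB hP hS hκ ht (abs_nonneg C₀) hP0 hP1
  obtain ⟨K, hK⟩ : ∃ K, K = 6 * Λg + t / ρ₀ := ⟨_, rfl⟩
  have hK1 : 6 * Λg ≤ K := by rw [hK]; exact le_add_of_nonneg_right (by positivity)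
  have hK0 : 0 < K := by linarith
  have hK2 : t ≤ K * ρ₀ := by
    rw [hK, add_mul, div_mul_cancel₀ _ hρ0.ne']; exact le_add_of_nonneg_left (by positivity)
  obtain ⟨r₁, hr₁⟩ : ∃ u, u = 1 + 1 / P₀ := ⟨_, rfl⟩
  have hr1 : 1 ≤ r₁ := by rw [hr₁]; exact le_add_of_nonneg_right (by positivity)
  have hr2 : 1 ≤ r₁ ^ 2 * P₀ := by
    have h1 : r₁ * P₀ = P₀ + 1 := by rw [hr₁]; field_simp
    nlinarith
  obtain ⟨D, hD'⟩ : ∃ u, u = A * (K + 19) * r₁ / θ' + A := ⟨_, rfl⟩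
  have hD1 : 0 ≤ A * (K + 19) * r₁ / θ' := by positivity
  have hD0 : 0 ≤ D := by rw [hD']; positivity
  obtain ⟨G, hG⟩ : ∃ u, u = |Cg| * (D * (2 + K) * (1 + P₁) + 5 * K * D) := ⟨_, rfl⟩
  refine ⟨max D ((a / 2) ^ (-bb n) * (Λg * G)), ?_⟩
  filter_upwards [eventually_gt_atTop 0, ev_top r₁ hr₀, ev_top r₁ hρ0, ev_top (k * r₁) hρ0,
    ev_top ((K + 19) * r₁) ht,
    ev_top (Λg * (k * r₁)) (δ := c * lam ^ (n - 1 : ℝ)) (by positivity)]
    with Λ hΛ l1 l2 l3 l4 l5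
  have hl : 0 < 1 / Λ := by positivity
  obtain ⟨r, hr⟩ : ∃ r, r = r₁ * (1 / Λ) := ⟨_, rfl⟩
  have hr0 : 0 < r := by rw [hr]; positivity
  have hlr : 1 / Λ ≤ r := by rw [hr]; exact le_mul_of_one_le_left hl.le hr1
  rw [mul_assoc] at l3 l4
  rw [mul_assoc, mul_assoc] at l5
  rw [← hr] at l1 l2 l3 l4 l5
  have hrΛ : 1 ≤ r ^ 2 * Λ ^ 2 * P₀ := by
    have : r ^ 2 * Λ ^ 2 = r₁ ^ 2 := by rw [hr]; field_simp
    rw [this]; exact hr2
  filter_upwards [hC₀, hD B L m p q U a β R s' hB hP hS κ hκ (k * r) (by positivity),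
    self_mem_nhdsWithin, ev_zero 1 (δ := 9 / 10 * P₀) (by positivity), ev_zero |C₀| one_pos,
    ev_zero 19 ht, ev_zero 1 hr0,
    ev_zero (|Cl| * |e|) (δ := c / 2 * (k * r) ^ n) (by positivity)]
    with ε e1 e2 hε e3 e4 e5 e6 e7 w h hw hen hL hh
  have hε : 0 < ε := hε
  rw [one_mul] at e3 e6
  have hG1 : G1 B L U |C₀| ε w := fun x h1 h2 => (e1 w hw x h1 h2).trans
    (by linarith [mul_le_mul_of_nonneg_right (le_abs_self C₀) hε.le])
  have hlip : ∀ x r, (∀ y ∈ ball x r, -(B.s / 4) ≤ B.F y ∧ ‖y‖ ≤ L + 1 / 2) →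
      ∀ y ∈ ball x r, |dd ε w y - dd ε w x| ≤ K * r := fun x r h1 y hy =>
    (lipd hB hS hE hw hG1 e4 h1 y hy).trans
      (mul_le_mul_of_nonneg_right hK1 (pos_of_mem_ball hy).le)
  have hlow : volume {x | |w x| < 19 / 20} ≤ ENNReal.ofReal (c / 2 * (k * r) ^ n) := by
    have h1 := (hCl κ ε w hκ.1 hε hw ⟨L, fun x hx => by
      by_contra e'
      linarith [dd_le hε.le (hw.lt x) (by linarith [not_le.1 e']), hL.out x hx]⟩).2.2
    rw [show (1 : ℝ) - 1 / 20 = 19 / 20 by norm_num] at h1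
    refine h1.trans ((mul_le_mul' (ENNReal.ofReal_le_ofReal
      (mul_le_mul_of_nonneg_right (le_abs_self Cl) hε.le))
      (hen.trans (ENNReal.ofReal_le_ofReal (le_abs_self e)))).trans ?_)
    rw [← ENNReal.ofReal_mul (by positivity)]
    exact ENNReal.ofReal_le_ofReal (by linarith)
  have h1 := top hB hP hS hw hL hh hε e5 hρ hgeo hlip
    (fun μ => hbar ε Λ μ w h hε e3 hw hL hh hG1)
    (fun M x => hGr r M x h hr0 l1 hh.sm.two)
    (fun x hp hx => by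
      have := e2 w hw 1 lam (k * r) x (Or.inl rfl) hlam le_rfl (hRat _) (fun y hy => by
        rw [if_pos rfl]
        refine ⟨hp y hy, le_trans ?_ l5⟩
        refine mul_le_mul_of_nonneg_right ?_ (by positivity)
        have := mul_le_mul hκ.2 (hE.dens_hi y) (dens_nonneg _ _) zero_le_one
        linarith) (by linarith)
      simpa only [one_mul] using this)
    hlow hc (by rw [hθ]; exact min_le_left _ _) (by rw [hθ]; exact min_le_right _ _) hr0 hk l2 l3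
    e6 l4 hrΛ hP1 hθ' hK0.le hA
  have h2 : ∀ x, dd ε w x ≤ t → h x ≤ D * (max (dd ε w x) 0 + 1 / Λ) := fun x hx => by
    refine (h1 x hx).trans ?_
    have h3 : A * (K + 19) * r / θ' = A * (K + 19) * r₁ / θ' * (1 / Λ) := by rw [hr]; ring
    have h4 := mul_nonneg hD1 (le_max_right (dd ε w x) 0)
    have h5 := mul_nonneg hA hl.le
    rw [h3, hD']
    linarith
  intro x
  refine ⟨fun hx => (h2 x hx).trans (mul_le_mul_of_nonneg_right (le_max_left _ _)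
    (add_nonneg (le_max_right _ _) hl.le)), fun hx => le_trans ?_ (le_max_right _ _)⟩
  have h3 := grad hB hS hw hL hh hε hρ hgeo hlip h2 (fun r M S x => hCg r M S x h) hK0 hK2 hD0 hΛ
    (hlr.trans l2) (le_trans (mul_le_mul_of_nonneg_left hlr (by positivity)) l4) hP2 hx
  rw [← hG] at h3
  rw [hB.met.gn_cf (hS.pos hB x)]
  refine mul_le_mul (Real.rpow_le_rpow_of_nonpos (by positivity) (hS.half hB x) (by linarith))
    ((hE.gn_le (hh.sm.diff x)).trans (mul_le_mul_of_nonneg_left h3 (by linarith)))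
    (gn_nonneg _ _ _) (by positivity)

end Vale.Agent.P366Z
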