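import Vale.Agent.P366Z.Int

/-!
# P366Z: the lower bound of the energy and the coarse gradient bound
-/

open MeasureTheory Metric Filter Topology Set
open scoped ContDiff ENNReal
open Vale.Agent.P366.Stmt

noncomputable section

namespace Vale.Agent.P366Z

namespace Low

variable {n : ℕ}

theorem ofReal_int {f : E n → ℝ} (h : ∀ x, 0 ≤ f x) :
    ENNReal.ofReal (∫ x, f x) ≤ ∫⁻ x, ENNReal.ofReal (f x) :=
  (Real.ofReal_le_enorm _).trans ((enorm_integral_le_lintegral_enorm _).trans_eq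
    (lintegral_congr fun x => Real.enorm_of_nonneg (h x)))

theorem ph_nonneg {t : ℝ} (h : t ≤ 2) : 0 ≤ Ph t := by
  rw [show Ph t = (t + 1) ^ 2 * (2 - t) / 3 by unfold Ph; ring]
  have := sub_nonneg.2 h
  positivity

theorem ph_der (t : ℝ) : HasDerivAt Ph (1 - t ^ 2) t := by
  have h := (((hasDerivAt_id t).sub ((hasDerivAt_pow 3 t).div_const 3)).add_const (2 / 3))
  exact h.congr_deriv (by norm_num)

theorem gap {ι : ℝ} (h : ι ∈ Ioo (0 : ℝ) 1) : 0 < Ph (1 - ι) - Ph (-1 + ι) := by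
  rw [show Ph (1 - ι) - Ph (-1 + ι) = 2 * (1 - ι) * (2 + ι * (2 - ι)) / 3 by unfold Ph; ring]
  have h1 := h.1
  have h2 := sub_pos.2 h.2
  have h3 : 0 < 2 - ι := by linarith
  positivity

theorem amgm {ε u P s G : ℝ} (h : 0 < ε) :
    u * P * (s * G) ≤ ε * u ^ 2 * G ^ 2 / 2 + P ^ 2 * (s ^ 2 / 2) / ε := by
  have e : ε * u ^ 2 * G ^ 2 / 2 + P ^ 2 * (s ^ 2 / 2) / ε - u * P * (s * G) =
      (ε * u * G - P * s) ^ 2 / (2 * ε) := by
    field_simp
    ring
  rw [← sub_nonneg, e]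
  positivity

end Low

theorem low : LOW := by
  intro n B L m p q U a β R s' hB hP hS ι hι
  have D0 := Low.gap hι
  have hg := hB.met
  obtain ⟨d, d0, hd⟩ := low_of_const hg.sm_dens.cont hg.dens_pos one_pos
    fun y hy => (hB.flat.dens_eq hy.le).ge
  have a0 : 0 < (a / 2) ^ (n * bb n) := Real.rpow_pos_of_pos (half_pos hS.a0) _
  have i0 : 0 < 1 - (1 - ι) ^ 2 := by nlinarith [hι.1, hι.2]
  refine ⟨((a / 2) ^ (n * bb n) * ((1 - (1 - ι) ^ 2) ^ 2 / 2) * d)⁻¹,
    fun κ ε w κ0 e0 hM _ => ?_⟩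
  have w1 : ∀ x, w x ^ 2 ≤ 1 := fun x => (sq_le_one_iff_abs_le_one _).2 (hM.lt x).le
  have w2 : ∀ x, 0 ≤ Ph (w x) := fun x => Low.ph_nonneg (by linarith [(abs_lt.1 (hM.lt x)).2])
  have pen : ∀ x, Wp (w x) ≤ Wp (w x) + p x * (1 + w x) ^ 2 + q x * (1 - w x) ^ 2 := fun x => by
    linarith [mul_nonneg (hP.p04 x).1 (sq_nonneg (1 + w x)),
      mul_nonneg (hP.q04 x).1 (sq_nonneg (1 - w x))]
  have l1 : Lip fun x => (Ph (w x) - Ph (-1 + ι)) / (Ph (1 - ι) - Ph (-1 + ι)) :=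
    hM.lip.comp_c1 (fun x => (hM.lt x).le)
      (F := fun t => (Ph t - Ph (-1 + ι)) / (Ph (1 - ι) - Ph (-1 + ι))) (by unfold Ph; fun_prop)
  have l2 := (lip_const 1).min l1
  refine ⟨(lip_const 0).max l2, ?_, ?_⟩
  · have t0 : ∀ x, 0 ≤ tru ι w x := fun x => le_max_left _ _
    rw [pp, per, mul_add, ← mul_assoc, ← integral_const_mul, ← integral_const_mul]
    refine ENNReal.ofReal_add_le.trans ((add_le_add (Low.ofReal_int fun x => ?_)
      (Low.ofReal_int fun x => ?_)).trans ((le_lintegral_add _ _).trans (lintegral_mono_ae ?_)))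
    · exact mul_nonneg D0.le (mul_nonneg (mul_nonneg (Real.rpow_nonneg (hS.pos hB x).le _)
        (gn_nonneg _ _ _)) (dens_nonneg _ _))
    · exact mul_nonneg (mul_nonneg D0.le κ0)
        (mul_nonneg (mul_nonneg (hP.m01 x).1 (t0 x)) (dens_nonneg _ _))
    filter_upwards [(lip_const 0).ae_gn_max l2 B.g, (lip_const 1).ae_gn_min l1 B.g] with x h1 h2
    have U0 := hS.pos hB x
    have s0 := sub_nonneg.2 (w1 x)
    have k0 : ∀ c, gn B.g (fun _ => c) x = 0 := fun c => gn_zero fun i => pd_const c i x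
    have k1 : (Ph (1 - ι) - Ph (-1 + ι)) * gn B.g (tru ι w) x ≤ (1 - w x ^ 2) * gn B.g w x := by
      have k := gn_comp (g := B.g) (((Low.ph_der (w x)).sub_const (Ph (-1 + ι))).div_const
        (Ph (1 - ι) - Ph (-1 + ι))) (hM.sm.diff x)
      rw [abs_of_nonneg (div_nonneg s0 D0.le)] at k
      have k' := mul_nonneg s0 (gn_nonneg B.g w x)
      erw [h1]
      rw [h2, k0, k0, k]
      split_ifs
      · rwa [mul_zero]
      · rw [← mul_assoc, mul_div_cancel₀ _ D0.ne']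
      · rwa [mul_zero]
    have k2 : (Ph (1 - ι) - Ph (-1 + ι)) * tru ι w x ≤ Ph (w x) := by
      rw [← le_div_iff₀' D0]
      exact max_le (div_nonneg (w2 x) D0.le) ((min_le_right _ _).trans
        (div_le_div_of_nonneg_right (by linarith [Low.ph_nonneg (by linarith [hι.2] :
          -1 + ι ≤ 2)]) D0.le))
    have e1 : U x ^ (2 * gam n) = U x * U x ^ (1 + bb n) := by
      rw [gam_eq hB.dim, ← Real.rpow_one_add' U0.le (by linarith [bb_pos hB.dim])]
      congr 1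
      ring
    have e2 : U x ^ (n * bb n) = (U x ^ (1 + bb n)) ^ 2 := by
      rw [n_bb hB.dim, ← Real.rpow_mul_natCast U0.le]
      congr 1
      push_cast
      ring
    have P0 : 0 < U x ^ (1 + bb n) := Real.rpow_pos_of_pos U0 _
    have k3 := (mul_le_mul_of_nonneg_left k1 (mul_pos U0 P0).le).trans (Low.amgm e0)
    have k4 := div_le_div_of_nonneg_right (mul_le_mul_of_nonneg_left (pen x)
      (sq_nonneg (U x ^ (1 + bb n)))) e0.le
    have k5 := mul_le_mul_of_nonneg_left k2 (mul_nonneg κ0 (hP.m01 x).1)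
    rw [← ENNReal.ofReal_add (mul_nonneg D0.le (mul_nonneg (mul_nonneg (Real.rpow_nonneg U0.le _)
      (gn_nonneg _ _ _)) (dens_nonneg _ _))) (mul_nonneg (mul_nonneg D0.le κ0)
        (mul_nonneg (mul_nonneg (hP.m01 x).1 (t0 x)) (dens_nonneg _ _))), e1, e2, ← hg.gn_sq]
    refine ENNReal.ofReal_le_ofReal (le_of_eq_of_le ?_
      (mul_le_mul_of_nonneg_right (add_le_add (k3.trans (add_le_add_right k4 _)) k5)
        (dens_nonneg _ _)))
    ring
  · have C0 : 0 < (a / 2) ^ (n * bb n) * ((1 - (1 - ι) ^ 2) ^ 2 / 2) * d := by positivity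
    rw [en, ← lintegral_const_mul' _ _ ENNReal.ofReal_ne_top, ← lintegral_indicator_one
      (isOpen_lt hM.sm.cont.abs continuous_const).measurableSet]
    refine lintegral_mono fun x => indicator_apply_le' (fun hx => ?_) fun _ => zero_le
    rw [← ENNReal.ofReal_mul (by positivity), Pi.one_apply, ENNReal.one_le_ofReal, mul_assoc,
      ← div_eq_inv_mul, one_le_div C0, ← mul_assoc]
    have k1 : (a / 2) ^ (n * bb n) ≤ U x ^ (n * bb n) := Real.rpow_le_rpow (half_pos hS.a0).le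
      (hS.half hB x) (mul_nonneg (Nat.cast_nonneg _) (bb_pos hB.dim).le)
    have k2 : (1 - (1 - ι) ^ 2) ^ 2 / 2 ≤ Wp (w x) := div_le_div_of_nonneg_right
      (pow_le_pow_left₀ i0.le (by
        linarith [sq_lt_sq.2 ((show |w x| < 1 - ι from hx).trans_le (le_abs_self _))]) 2) two_pos.le
    refine mul_le_mul ((mul_le_mul k1 (k2.trans (pen x)) (by positivity) (a0.le.trans k1)).trans
      ?_) (hd x) d0.le ?_
    · have k3 := mul_nonneg (mul_nonneg e0.le (sq_nonneg (U x))) (hg.ip_nonneg w x)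
      have k4 := mul_nonneg (mul_nonneg κ0 (hP.m01 x).1) (w2 x)
      rw [← div_le_iff₀' e0]
      linarith
    · have k3 := mul_nonneg (mul_nonneg e0.le (sq_nonneg (U x))) (hg.ip_nonneg w x)
      have k4 := mul_nonneg (mul_nonneg κ0 (hP.m01 x).1) (w2 x)
      have k5 := div_nonneg (mul_nonneg (a0.le.trans k1)
        ((le_trans (by positivity) k2).trans (pen x))) e0.le
      exact mul_nonneg e0.le (by linarith)

theorem gw_of (h : GRAD) (hW : STWT) : GW := by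
  intro n B L m p q U a β R s' hB hP hS
  obtain ⟨C, hC⟩ := h n B.g B.ρ U hB.dim hB.met hB.flat (hW n B U a β R s' hB hS)
  refine ⟨C * (2 + 2 ^ (n * bb n) * 34), fun ε ⟨e0, e1⟩ κ ⟨κ0, κ1⟩ w hM x => ?_⟩
  have k := hC ε 1 ((2 ^ (n * bb n) * 34 + 1) / ε / ε) x w e0 e1
    fun y _ => ⟨hM.sm.c2 y, (hM.lt y).le, ?_⟩
  · refine (mul_le_mul_of_nonneg_left k e0.le).trans_eq ?_
    field_simp
    ring
  obtain ⟨w0, w1⟩ := abs_lt.1 (hM.lt y)
  obtain ⟨p0, p1⟩ := hP.p04 y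
  obtain ⟨q0, q1⟩ := hP.q04 y
  obtain ⟨m0, m1⟩ := hP.m01 y
  have s0 : 0 ≤ 1 - w y ^ 2 := by nlinarith
  have s1 : 1 - w y ^ 2 ≤ 1 := by nlinarith
  have k1 : |-2 * w y * (1 - w y ^ 2) + 2 * p y * (1 + w y) - 2 * q y * (1 - w y)| ≤ 34 := by
    have := mul_nonneg p0 (by linarith : 0 ≤ 1 + w y)
    have := mul_nonneg q0 (by linarith : 0 ≤ 1 - w y)
    exact abs_le.2 ⟨by nlinarith, by nlinarith⟩
  have k2 : U y ^ (n * bb n) ≤ 2 ^ (n * bb n) := Real.rpow_le_rpow (hS.pos hB y).le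
    (hS.le_two hB y) (mul_nonneg (Nat.cast_nonneg _) (bb_pos hB.dim).le)
  have k3 : |κ * m y * (1 - w y ^ 2)| ≤ 1 / ε := by
    rw [abs_of_nonneg (by positivity)]
    exact (mul_le_one₀ (mul_le_one₀ κ1 m0 m1) s0 s1).trans (one_le_one_div e0 e1)
  rw [le_div_iff₀' e0, ← abs_of_pos e0, ← abs_mul, abs_of_pos e0, hM.eqn, add_div]
  refine (abs_add_le _ _).trans (add_le_add ?_ k3)
  rw [abs_div, abs_of_pos e0, abs_mul, abs_of_pos (Real.rpow_pos_of_pos (hS.pos hB y) _)]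
  exact div_le_div_of_nonneg_right (mul_le_mul k2 k1 (abs_nonneg _) (by positivity)) e0.le

end Vale.Agent.P366Z
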