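import Vale.Agent.P366Z.Sch1
import Vale.Agent.P366Z.Asy

/-!
# P366Z, row SCH: the potential
-/

open MeasureTheory Metric Filter Topology Set Asymptotics
open scoped ContDiff ENNReal
open Vale.Agent.P366.Stmt

noncomputable section

namespace Vale.Agent.P366Z

namespace SchX

variable {n : ℕ} {f k u U v h : E n → ℝ} {a β βh : ℝ}

theorem of_far {C R : ℝ} (e : ∀ x, R ≤ ‖x‖ → |f x| ≤ C * k x) (k0 : ∀ x, 0 ≤ k x) :
    f =O[cocompact (E n)] k :=
  IsBigO.of_bound C ((AsyF.far R).mono fun x hx => by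
    rw [Real.norm_eq_abs, Real.norm_of_nonneg (k0 x)]
    exact e x hx)

theorem of_bd {C : ℝ} (e : ∀ x, |f x| ≤ C) : f =O[cocompact (E n)] fun _ => (1 : ℝ) :=
  of_far (C := C) (R := 0) (fun x _ => by rw [mul_one]; exact e x) fun _ => zero_le_one

theorem to_far {P : E n → Prop} (e : ∀ᶠ x in cocompact (E n), P x) :
    ∃ R, ∀ x, R ≤ ‖x‖ → P x := by
  obtain ⟨A, hA, h1⟩ := mem_cocompact.1 e
  obtain ⟨R, hR⟩ := hA.isBounded.subset_ball 0
  exact ⟨R, fun x hx => h1 fun k => (mem_ball_zero_iff.1 (hR k)).not_ge hx⟩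

theorem val (hn : 3 ≤ n) (e : Asy u a β) :
    (fun x => u x - a) =O[cocompact (E n)] fun x => ‖x‖⁻¹ := by
  obtain ⟨C, R, e⟩ := e
  have n3 : (3 : ℝ) ≤ n := by exact_mod_cast hn
  refine of_far (C := |C| + |β|) (R := max R 1) (fun x hx => ?_) fun x => by positivity
  have r1 := (le_max_right _ _).trans hx
  have h1 := Real.rpow_le_rpow_of_exponent_le r1 (by linarith : (1 - n : ℝ) ≤ -1)
  have h2 := Real.rpow_le_rpow_of_exponent_le r1 (by linarith : (2 - n : ℝ) ≤ -1)
  rw [Real.rpow_neg_one] at h1 h2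
  have h3 := (e x ((le_max_left _ _).trans hx)).1.trans
    (mul_le_mul (le_abs_self C) h1 (by positivity) (abs_nonneg C))
  have h4 : |β * ‖x‖ ^ (2 - n : ℝ)| ≤ |β| * ‖x‖⁻¹ := by
    rw [abs_mul, abs_of_nonneg (by positivity : 0 ≤ ‖x‖ ^ (2 - n : ℝ))]
    exact mul_le_mul_of_nonneg_left h2 (abs_nonneg β)
  rw [abs_le] at h3 h4 ⊢
  constructor <;> linarith [h3.1, h3.2, h4.1, h4.2]

theorem der (e : Asy u a β) (i : Fin n) :
    (fun x => pd i u x + (n - 2) * β * x i * ‖x‖ ^ (-n : ℝ)) =O[cocompact (E n)]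
      fun x => ‖x‖ ^ (-n : ℝ) := by
  obtain ⟨C, R, e⟩ := e
  exact of_far (fun x hx => (e x hx).2 i) fun x => by positivity

/-- the expansion of the flux -/
theorem est (hn : 3 ≤ n) (hU : Asy U a β) (hv : Asy (fun x => h x * U x) a βh) {c : ℝ}
    (c0 : 0 < c) (U0 : ∀ x, c ≤ U x ∧ U x ≤ 2) (h0 : ∀ x, 0 ≤ h x ∧ h x ≤ 1) :
    ∃ C R : ℝ, ∀ x : E n, R ≤ ‖x‖ → ∀ i,
      |h x * (U x * pd i (fun y => h y * U y) x - h x * U x * pd i U x) -
        (n - 2) * a * (β - βh) * x i * ‖x‖ ^ (-n : ℝ)| ≤ C * ‖x‖ ^ (-n : ℝ) := by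
  have b1 : U =O[cocompact (E n)] fun _ => (1 : ℝ) := of_bd (C := 2) fun x =>
    abs_le.2 ⟨by linarith [(U0 x).1], (U0 x).2⟩
  have b2 : h =O[cocompact (E n)] fun _ => (1 : ℝ) := of_bd (C := 1) fun x =>
    abs_le.2 ⟨by linarith [(h0 x).1], (h0 x).2⟩
  have b3 : (fun x => (U x)⁻¹) =O[cocompact (E n)] fun _ => (1 : ℝ) := of_bd (C := c⁻¹) fun x => by
    rw [abs_of_pos (inv_pos.2 (c0.trans_le (U0 x).1))]
    exact inv_anti₀ c0 (U0 x).1
  have b4 : (fun x => h x * U x) =O[cocompact (E n)] fun _ => (1 : ℝ) := by simpa using b2.mul b1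
  have p := val hn hU
  have q := val hn hv
  have s : (fun x => h x - 1) =O[cocompact (E n)] fun x => ‖x‖⁻¹ :=
    ((q.sub p).mul b3).congr (fun x => by
      have := (c0.trans_le (U0 x).1).ne'
      field_simp
      ring) fun x => mul_one _
  have t : (fun x => (h x - 1) * (β * (h x * U x) - βh * U x) + (β * (h x * U x - a) -
      βh * (U x - a))) =O[cocompact (E n)] fun x => ‖x‖⁻¹ :=
    ((s.mul ((b4.const_mul_left β).sub (b1.const_mul_left βh))).congr_right
      fun x => mul_one _).add ((q.const_mul_left β).sub (p.const_mul_left βh))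
  have w : ∀ i, (fun x : E n => h x * (U x * pd i (fun y => h y * U y) x - h x * U x * pd i U x) -
      (n - 2) * a * (β - βh) * x i * ‖x‖ ^ (-n : ℝ)) =O[cocompact (E n)]
        fun x => ‖x‖ ^ (-n : ℝ) := fun i => by
    have x1 : (fun x : E n => x i) =O[cocompact (E n)] fun x => ‖x‖ :=
      of_far (C := 1) (R := 0) (fun x _ => by rw [one_mul]; exact AsyF.abs_coord x i) norm_nonneg
    have x2 : (fun x : E n => ‖x‖ * ‖x‖⁻¹) =O[cocompact (E n)] fun _ => (1 : ℝ) :=
      of_bd (C := 1) fun x => by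
        rw [abs_of_nonneg (by positivity)]
        exact mul_inv_le_one
    have y1 := (b2.mul ((b1.mul (der hv i)).sub (b4.mul (der hU i)))).congr_right
      (g₂ := fun x => ‖x‖ ^ (-n : ℝ)) fun x => by rw [one_mul, one_mul]
    have y2 := ((((x1.mul t).trans x2).mul (isBigO_refl (fun x : E n => ‖x‖ ^ (-n : ℝ))
      _)).const_mul_left (n - 2 : ℝ)).congr_right (g₂ := fun x => ‖x‖ ^ (-n : ℝ))
        fun x => one_mul _
    exact (y1.add y2).congr_left fun x => by ring
  obtain ⟨C, hC⟩ := (isBigO_pi.2 w).bound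
  obtain ⟨R, hR⟩ := to_far hC
  refine ⟨C, R, fun x hx i => ?_⟩
  have := (norm_le_pi_norm _ i).trans (hR x hx)
  rwa [Real.norm_eq_abs, Real.norm_of_nonneg (by positivity)] at this

/-- the lemma of Fatou for the cut-off functions -/
theorem fatou {D e : E n → ℝ} {c : ℝ} (hD : Continuous D) (h0 : ∀ x, 0 ≤ D x)
    (he : ∀ x, e x ≤ D x) (ht : Tendsto (fun r => ∫ x, cut r x * D x) atTop (𝓝 c)) :
    ∫⁻ x, ENNReal.ofReal (e x) ≤ ENNReal.ofReal c := by
  have h1 := lintegral_liminf_le (μ := volume) (u := atTop)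
    (f := fun (r : ℝ) x => ENNReal.ofReal (cut r x * D x))
    fun r => ((sm_cut r).cont.mul hD).measurable.ennreal_ofReal
  have h2 : Tendsto (fun r => ∫⁻ x, ENNReal.ofReal (cut r x * D x)) atTop (𝓝 (.ofReal c)) :=
    (ENNReal.tendsto_ofReal ht).congr' ((eventually_gt_atTop 0).mono fun r hr =>
      ofReal_integral_eq_lintegral_ofReal (integrable_of_out ((sm_cut r).cont.mul hD)
        fun y hy => by rw [cut_zero hr hy, zero_mul])
        (.of_forall fun x => mul_nonneg (cut_nonneg r x) (h0 x)))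
  rw [h2.liminf_eq] at h1
  refine le_trans (lintegral_mono fun x => ?_) h1
  have h3 := (ENNReal.tendsto_ofReal ((cut_tendsto x).mul_const (D x))).liminf_eq
  rw [one_mul] at h3
  exact (ENNReal.ofReal_le_ofReal (he x)).trans h3.ge

end SchX

open SchX in
theorem sch_of (hR : RES) (hG : REG) (hW : WMB) (_hP : WMP) (hC : CHAIN) (hD : GRAD) (hN : NEWT)
    (hA : ASY) (hF : FLUX) (hT : STWT) : SCH := by
  intro n B U a β R s' V hB hS hV V0 ⟨R', V1⟩
  have hn := hB.dim
  have hg := hB.met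
  have U0 := hS.pos hB
  obtain ⟨φ, φ1, φ2, φ3, φ4, φ5⟩ := barrier hB hS R'
  obtain ⟨h, h1, h2, h3, h4, h5⟩ := exist hR hW hD hn hg hB.flat (hT n B U a β R s' hB hS) hV V0 V1
    φ1 φ2 φ3 φ4 φ5
  have sh : Smooth h := hG n B.g U h (fun q => V q.1 * q.2) hg hS.sm U0
    ((ContDiff.comp hV contDiff_fst).mul contDiff_snd) h1 h2 h4
  have t1 : Tendsto h (cocompact (E n)) (𝓝 1) :=
    tendsto_of_tendsto_of_tendsto_of_le_of_le (by simpa using φ5.const_sub 1) tendsto_const_nhds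
      (fun x => (h3 x).2.2) fun x => (h3 x).2.1
  have p0 : ∀ x, 0 < h x := fun x => by
    obtain ⟨K, K0, hK⟩ := bdd_of_const hV (R := R') (c := 0) fun y hy => V1 y hy.le
    obtain ⟨R₁, h6⟩ := to_far (t1.eventually (eventually_gt_nhds (by norm_num : (1 / 2 : ℝ) < 1)))
    have := nontriv (n := n) (by omega)
    obtain ⟨x₀, h7⟩ := exists_norm_eq (E n) (show 0 ≤ |R₁| + 1 by positivity)
    obtain ⟨c, c0, h8⟩ := hC n B.g U K 1 univ {x} x₀ hg hS.sm U0 K0.le isOpen_univ
      isPreconnected_univ isCompact_singleton (subset_univ _) one_pos (subset_univ _)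
    have := h8 (fun y => 2 * h y) (fun y _ => ⟨contDiffAt_const.mul h1.contDiffAt,
      by linarith [(h3 y).1], by
        rw [wl_const_mul, h4]
        linarith [mul_le_mul_of_nonneg_right ((le_abs_self _).trans (hK y).1) (h3 y).1]⟩)
      (fun y hy => by
        have a1 := norm_sub_norm_le x₀ y
        rw [mem_ball, dist_comm, dist_eq_norm] at hy
        linarith [h6 y (by linarith [le_abs_self R₁])]) x rfl
    linarith
  have sv : Smooth fun x => h x * U x := ContDiff.mul sh hS.sm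
  have hu : ∀ x, 0 ≤ h x * U x ∧ h x * U x ≤ U x := fun x =>
    ⟨mul_nonneg (p0 x).le (U0 x).le, mul_le_of_le_one_left (U0 x).le (h3 x).2.1⟩
  obtain ⟨C, hN⟩ := hN n hn
  obtain ⟨βh, as, -⟩ := hN (fun x => h x * U x) a (max R R') 2 (2 * B.δ)
    (le_max_of_le_left (hB.one.trans hS.Rρ)) sv (fun x hx => by
      have r1 := (le_max_left _ _).trans hx
      have r2 := hS.Rρ.trans r1
      have u2 := hS.le_two hB x
      refine ⟨abs_le.2 ⟨by linarith [(hu x).1, hS.a1], by linarith [(hu x).2, hS.a0]⟩, ?_⟩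
      rw [← hB.flat.lap_eq' (by omega) hg sv r2, funext fun y => mul_comm (h y) (U y),
        hg.lap_mul_wl (hS.sm.c2 x) h1.contDiffAt (U0 x).ne', h4,
        V1 x ((le_max_right _ _).trans hx), zero_mul, zero_div, add_zero, hS.eqn x r1,
        mul_left_comm, abs_mul, abs_of_nonpos (hB.Qf x r2).2, abs_of_nonneg (hu x).1]
      have := mul_le_mul (neg_le.1 (hB.Qf x r2).1) ((hu x).2.trans u2) (hu x).1
        (mul_nonneg hB.δ0.le (by positivity))
      linarith)
    (by simpa using t1.mul (hA n U U a a β β hn hS.sm hS.sm hS.asy).1.1)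
  have le : βh ≤ β := by
    have a1 := (hA n U _ a a β βh hn hS.sm sv hS.asy).2.2.1 1 (-1) as
    have a2 : Smooth fun x => 1 * U x + -1 * (h x * U x) :=
      ContDiff.add (ContDiff.mul contDiff_const hS.sm) (ContDiff.mul contDiff_const sv)
    have := (hA n _ U _ a _ β hn a2 hS.sm a1).2.2.2.2 ⟨0, fun x _ => by linarith [(hu x).2]⟩
    linarith
  refine ⟨h, βh, sh, fun x => ⟨p0 x, (h3 x).2.1⟩, h4, as, le, h5, ?_⟩
  have sY : ∀ i, Smooth fun y => U y ^ 2 * gr B.g h i y := fun i =>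
    ContDiff.mul (ContDiff.pow hS.sm 2) (hg.sm_gr sh i)
  have sX : ∀ i, Smooth fun y => dens B.g y * (h y * (U y ^ 2 * gr B.g h i y)) := fun i =>
    ContDiff.mul hg.sm_dens (ContDiff.mul sh (sY i))
  have dX : ∀ x, ∑ i, pd i (fun y => dens B.g y * (h y * (U y ^ 2 * gr B.g h i y))) x =
      V x * h x ^ 2 * dens B.g x + U x ^ 2 * ip B.g h h x * dens B.g x := fun x => by
    have a1 := hg.dv_smul (sh.diff x) fun i => (sY i).diff x
    rw [show dv B.g (fun i y => U y ^ 2 * gr B.g h i y) x = _ from h4 x, dv,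
      div_eq_iff (hg.dens_pos x).ne'] at a1
    rw [a1, ip_eq_gr]
    simp only [mul_left_comm (pd _ h x), ← Finset.mul_sum]
    ring
  obtain ⟨C', R₁, h6⟩ := est hn hS.asy as (half_pos hS.a0)
    (fun x => ⟨hS.half hB x, hS.le_two hB x⟩) fun x => ⟨(p0 x).le, (h3 x).2.1⟩
  have fl := hF n _ ((n - 2) * a * (β - βh)) hn sX ⟨C', max R₁ B.ρ, fun x hx i => by
    have r1 := (le_max_right _ _).trans hx
    refine le_of_eq_of_le ?_ (h6 x ((le_max_left _ _).trans hx) i)
    rw [hB.flat.dens_eq r1, gr_of_eq (hB.flat x r1), gr_eu, pd_mul (sh.diff x) (hS.sm.diff x)]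
    congr 1
    ring⟩
  have e0 : ∀ x, 0 ≤ V x * h x ^ 2 * dens B.g x := fun x =>
    mul_nonneg (mul_nonneg (V0 x) (sq_nonneg _)) (dens_nonneg _ _)
  rw [show (n - 2) * omega n * a * (β - βh) = (n - 2) * a * (β - βh) * omega n by ring]
  exact fatou (continuous_finsetSum _ fun i _ => ((sX i).pd i).cont) (fun x => by
    rw [dX]
    exact add_nonneg (e0 x) (mul_nonneg (mul_nonneg (sq_nonneg _) (hg.ip_nonneg _ _))
      (dens_nonneg _ _))) (fun x => by rw [dX]; exact le_add_of_nonneg_left (e0 x)) fl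

end Vale.Agent.P366Z
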