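import Vale.Agent.P366Z.Top
import Vale.Agent.P366Z.Flow
import Vale.Agent.P366Z.One
import Vale.Agent.P366Z.Sp.All
import Vale.Agent.P366Z.Res
import Vale.Agent.P366Z.Chain
import Vale.Agent.P366Z.Grad
import Vale.Agent.P366Z.Grow
import Vale.Agent.P366Z.MvH
import Vale.Agent.P366Z.Mv
import Vale.Agent.P366Z.Newt
import Vale.Agent.P366Z.Boch
import Vale.Agent.P366Z.Up
import Vale.Agent.P366Z.Low
import Vale.Agent.P366Z.Exp
import Vale.Agent.P366Z.B1
import Vale.Agent.P366Z.B2
import Vale.Agent.P366Z.Col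
import Vale.Agent.P366Z.Conf
import Vale.Agent.P366Z.Sch
import Vale.Agent.P366Z.Hb
import Vale.Agent.P366Z.Mc
import Vale.Agent.P366Z.Upd
import Vale.Agent.P366Z.Area
import Vale.Agent.P366Z.E4
import Vale.Agent.P366Z.Link

/-!
# P366Z: assembly of the blocks
-/

namespace Vale.Agent.P366Z

namespace All

theorem res : RES := res_of linv
theorem chain : CHAIN := chain_of wmp
theorem gw : GW := gw_of grad stwt
theorem exp : EXP := exp_of wmp
theorem b1 : B1 := b1_of boch ptm gw stwt
theorem b2 : B2 := b2_of boch ptm b1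
theorem sch : SCH := sch_of res reg wmb wmp chain grad newt asy flux stwt
theorem mcT : MC := mc_of b1 b2 exp
theorem harn : HARN := harn_of mv flux

theorem one (hE : EX) (hD : DENS) : ONE :=
  one_of hE up low exp hD (col_of hD exp low up) (conf_of hD exp low up) sch
    (hb_of b1 hD grow grad ptm wmp low stwt) mcT spinex asy

theorem flow (hE : EX) (hD : DENS) (hS : STAB) : FLOW :=
  flow_of (one hE hD) fc (upd_of asy) (hlow_of wmp asy) nest area ramp (e4_of mv) hS newt harn asy

theorem rpi_of' (hE : EX) (hD : DENS) (hS : STAB) (h0 : STEP0) : RPI :=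
  rpi_of h0 link (flow hE hD hS)

end All

end Vale.Agent.P366Z
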