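import Vale.Agent.P366Z.ColA
import Vale.Agent.P366Z.One0

/-!
# P366Z: the layer avoids the collar
-/

open MeasureTheory Metric Filter Topology Set
open scoped ContDiff ENNReal
open Vale.Agent.P366.Stmt

noncomputable section

namespace Vale.Agent.P366Z

namespace ColB

open ColA

variable {n : ℕ} {B : Bg n} {L : ℝ} {m p q U ψ w : E n → ℝ} {a β R s' a₁ δ κ ε ι : ℝ}

theorem rat (hB : B.Ok) (hS : St B U a β R s') :
    ∃ C lam, 0 < lam ∧ ∀ s, Rat B.g U C lam s := by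
  obtain ⟨Λ, hΛ⟩ := hB.met.ell hB.flat
  have l0 : 0 < Λ := by linarith [hΛ.one]
  have b0 : 0 ≤ 2 * bb n := by linarith [bb_pos hB.dim]
  have a0 : 0 < a / 2 := half_pos hS.a0
  have u0 : 0 < (a / 2) ^ (2 * bb n) / Λ := div_pos (Real.rpow_pos_of_pos a0 _) l0
  refine ⟨2 ^ (2 * bb n) * Λ / ((a / 2) ^ (2 * bb n) / Λ), _, Real.sqrt_pos.2 u0,
    fun _ x _ ξ => ?_⟩
  have e : ∑ i, ∑ j, cf U B.g x i j * ξ i * ξ j =
      U x ^ (2 * bb n) * ∑ i, ∑ j, B.g x i j * ξ i * ξ j := by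
    simp only [cf, Finset.mul_sum, mul_assoc]
  rw [Real.sq_sqrt u0.le, e, div_mul_cancel₀ _ u0.ne', mul_assoc, div_mul_eq_mul_div, mul_div_assoc]
  exact ⟨mul_le_mul (Real.rpow_le_rpow a0.le (hS.half hB x) b0)
    ((div_le_iff₀' l0).2 (hΛ.g_lo x ξ)) (by positivity) (Real.rpow_nonneg (hS.pos hB x).le _),
    mul_le_mul (Real.rpow_le_rpow (hS.pos hB x).le (hS.le_two hB x) b0) (hΛ.g_hi x ξ)
      (hB.met.g_nonneg x ξ) (by positivity)⟩

theorem unif (hB : B.Ok) {r : ℝ} (hr : 0 < r) :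
    ∃ t > (0 : ℝ), ∀ x, B.F x ≤ B.s → ∀ y ∈ ball x t, B.F y ≤ B.F x + r := by
  obtain ⟨t, ht, h⟩ := Metric.uniformContinuousOn_iff.1
    ((isCompact_closedBall (0 : E n) (B.ρ + 1)).uniformContinuousOn_of_continuous
      hB.smF.cont.continuousOn) r hr
  refine ⟨min t 1, lt_min ht one_pos, fun x hx y hy => ?_⟩
  have h1 := in_ball hB hx
  have h2 : dist y x < min t 1 := hy
  have h3 : ‖y‖ ≤ ‖x‖ + dist y x := by rw [dist_eq_norm]; exact norm_le_insert' y x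
  have h4 := h y (mem_closedBall_zero_iff.2 (by linarith [min_le_right t 1])) x
    (mem_closedBall_zero_iff.2 (by linarith)) (h2.trans_le (min_le_left _ _))
  rw [Real.dist_eq] at h4
  linarith [le_abs_self (B.F y - B.F x)]

theorem ex_le {x : E n} (h0 : 0 ≤ ψ x) : ex B a₁ δ ψ x ≤ ψ x :=
  sub_le_self _ (le_min h0 (rp_mem _ _ _).1)

theorem pen (hB : B.Ok) (hP : Pen B L m p q) (hS : St B U a β R s') (hκ : 0 ≤ κ) (hε : 0 < ε)
    (h0 : 0 < ι) (h1 : ι ≤ 1 / 10) (hw : ∀ x, |w x| < 1)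
    (hi : Integrable fun x => ex B a₁ δ (tru ι w) x * (p x * dens B.g x)) {e : ℝ} (he : 0 ≤ e)
    (h : en B m p q U κ ε w ≤ ENNReal.ofReal e) :
    ∫ x, ex B a₁ δ (tru ι w) x * (p x * dens B.g x) ≤
      ε * (e / ((a / 2) ^ (n * bb n) * ι ^ 2)) := by
  have a0 : 0 < a / 2 := half_pos hS.a0
  have u0 : 0 < (a / 2) ^ (n * bb n) * ι ^ 2 := mul_pos (Real.rpow_pos_of_pos a0 _) (pow_pos h0 2)
  have k0 : ∀ x, 0 ≤ ex B a₁ δ (tru ι w) x * (p x * dens B.g x) := fun x =>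
    mul_nonneg (ex_nonneg x) (mul_nonneg (hP.p04 x).1 (dens_nonneg _ _))
  rw [← mul_div_assoc, le_div_iff₀' u0, ← div_le_iff₀' hε, mul_comm, mul_div_assoc,
    ← integral_mul_const, ← ENNReal.ofReal_le_ofReal_iff he,
    ofReal_integral_eq_lintegral_ofReal (hi.mul_const _)
      (Eventually.of_forall fun x => mul_nonneg (k0 x) (div_pos u0 hε).le)]
  refine le_trans (lintegral_mono fun x => ENNReal.ofReal_le_ofReal ?_) h
  have hx := abs_lt.1 (hw x)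
  have t1 : 0 ≤ ε * U x ^ 2 * ip B.g w w x / 2 := by
    have := hB.met.ip_nonneg w x
    positivity
  have t2 : 0 ≤ κ * m x * Ph (w x) := by
    have h2 := Ph_mono le_rfl hx.1.le hx.2.le
    have h3 : Ph (-1) = 0 := by norm_num [Ph]
    exact mul_nonneg (mul_nonneg hκ (hP.m01 x).1) (h3 ▸ h2)
  have t3 : ex B a₁ δ (tru ι w) x * p x * ι ^ 2 ≤
      Wp (w x) + p x * (1 + w x) ^ 2 + q x * (1 - w x) ^ 2 := by
    have j1 : 0 ≤ Wp (w x) := by unfold Wp; positivity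
    have j2 := mul_nonneg (hP.q04 x).1 (sq_nonneg (1 - w x))
    have j3 := ex_le (B := B) (a₁ := a₁) (δ := δ) (tru_mem ι w x).1
    have j4 := (hP.p04 x).1
    rcases le_or_gt (w x) (-1 + ι) with k | k
    · rw [tru_zero h0 h1 (hw x) k] at j3
      rw [le_antisymm j3 (ex_nonneg x), zero_mul, zero_mul]
      positivity
    · have j5 : ι ^ 2 ≤ (1 + w x) ^ 2 := pow_le_pow_left₀ h0.le (by linarith) 2
      have j6 := mul_le_mul (mul_le_of_le_one_left j4 (j3.trans (tru_mem ι w x).2)) j5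
        (sq_nonneg ι) j4
      linarith
  have t4 := mul_le_mul (Real.rpow_le_rpow a0.le (hS.half hB x)
    (mul_nonneg (Nat.cast_nonneg n) (bb_pos hB.dim).le)) t3
    (mul_nonneg (mul_nonneg (ex_nonneg x) (hP.p04 x).1) (sq_nonneg ι))
    (Real.rpow_nonneg (hS.pos hB x).le _)
  calc _ = (a / 2) ^ (n * bb n) * (ex B a₁ δ (tru ι w) x * p x * ι ^ 2) / ε * dens B.g x := by ring
    _ ≤ _ := mul_le_mul_of_nonneg_right
      (by linarith [div_le_div_of_nonneg_right t4 hε.le]) (dens_nonneg _ _)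

theorem tru_low (h0 : 0 < ι) (h1 : ι ≤ 1 / 20) {x : E n} (hw : |w x| < 1)
    (h : -(9 / 10) ≤ w x) : 1 / 200 ≤ tru ι w x := by
  have g1 := Ph_gap_pos h0 (by linarith)
  have g2 : Ph (1 - ι) - Ph (-1 + ι) ≤ 4 / 3 := by
    rw [Ph_gap]
    nlinarith [sq_nonneg ι]
  have g3 := Ph_mono (by norm_num) h (abs_lt.1 hw).2.le
  have g4 := Ph_mono (a := -1 + ι) (b := -(19 / 20)) (by linarith) (by linarith) (by norm_num)
  have g5 : Ph (-(9 / 10)) - Ph (-(19 / 20)) = 173 / 24000 := by norm_num [Ph]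
  refine le_max_of_le_right (le_min (by norm_num) ((le_div_iff₀ (by linarith)).2 ?_))
  linarith

theorem vol_low {f : E n → ℝ} (hf : Integrable f) (h0 : ∀ x, 0 ≤ f x) {S : Set (E n)}
    (hS : MeasurableSet S) {k v : ℝ} (hk : 0 ≤ k) (h : ∀ x ∈ S, k ≤ f x)
    (hv : ENNReal.ofReal v ≤ volume S) : k * v ≤ ∫ x, f x := by
  rw [← ENNReal.ofReal_le_ofReal_iff (integral_nonneg h0), ENNReal.ofReal_mul hk,
    ofReal_integral_eq_lintegral_ofReal hf (Eventually.of_forall h0)]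
  calc _ ≤ ENNReal.ofReal k * volume S := mul_le_mul_right hv _
    _ = ∫⁻ _ in S, ENNReal.ofReal k := (setLIntegral_const _ _).symm
    _ ≤ ∫⁻ x in S, ENNReal.ofReal (f x) :=
      setLIntegral_mono' hS fun x hx => ENNReal.ofReal_le_ofReal (h x hx)
    _ ≤ _ := setLIntegral_le_lintegral _ _

theorem small (hLOW : LOW) (hUP : UP) (hB : B.Ok) (hP : Pen B L m p q) (hS : St B U a β R s')
    (hκ : κ ∈ Icc (0 : ℝ) 1) (hδ : 0 < δ) (h1 : B.s / 4 ≤ a₁) (h2 : a₁ + 2 * δ ≤ s') {t₁ ν : ℝ}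
    (ht : 0 < t₁) (hν : 0 < ν) : ∀ᶠ ε in 𝓝[>] (0 : ℝ), ∀ w, Mn B m p q U κ ε w →
      (∀ x, L ≤ ‖x‖ → t₁ ≤ dd ε w x) → ∀ S : Set (E n), MeasurableSet S →
      (∀ x ∈ S, B.F x ≤ a₁ ∧ -(9 / 10) ≤ w x) → ¬ ENNReal.ofReal ν ≤ volume S := by
  obtain ⟨Λ, hΛ⟩ := hB.met.ell hB.flat
  have l0 : 0 < Λ := by linarith [hΛ.one]
  have h3 : a₁ + δ ≤ B.s := by linarith [hS.s2]
  have U0 : ∀ x, 0 ≤ U x := fun x => (hS.pos hB x).le
  obtain ⟨K, K0, hK⟩ := cal hB hP hS hδ h1 h2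
  obtain ⟨η, hη, eη⟩ : ∃ η, 0 < η ∧ B.h * (1 / 200 / Λ * ν) = 5 * η :=
    ⟨B.h * (1 / 200 / Λ * ν) / 5, by have := hB.h0; positivity, by ring⟩
  obtain ⟨ψ₀, c0, hn⟩ := exists_near hP (ramp_cls hB hP hδ h1 h3) U0 hκ.1 hη
  have J0 := pp_nonneg hP c0 U0 hκ.1
  have hU := hUP n B L m p q U a β R s' hB hP hS κ hκ ψ₀ c0 η hη
  generalize pp B m U κ ψ₀ = J at hn J0 hU
  obtain ⟨ι, i0, i1, i2⟩ : ∃ ι : ℝ, 0 < ι ∧ ι ≤ 1 / 20 ∧ ι * J ≤ η := by
    refine ⟨min (1 / 20) (η / (J + 1)), by positivity, min_le_left _ _, ?_⟩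
    have := (le_div_iff₀ (by linarith)).1 (min_le_right (1 / 20) (η / (J + 1)))
    have h5 : 0 < min (1 / 20) (η / (J + 1)) := by positivity
    linarith
  obtain ⟨C, hC⟩ := hLOW n B L m p q U a β R s' hB hP hS ι ⟨i0, by linarith⟩
  filter_upwards [hU, self_mem_nhdsWithin, ev_small (Real.log (2 / ι) / 2) ht,
    ev_small (K * ((4 / 3 * J + η) / ((a / 2) ^ (n * bb n) * ι ^ 2))) hη]
    with ε k1 (k2 : 0 < ε) k3 k4 w hw ho S hSm hS' hv
  have o1 : ∀ x, L ≤ ‖x‖ → 1 - ι ≤ w x := fun x hx => le_of_not_gt fun h => by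
    have := dd_le_of k2 i0 (hw.lt x) h.le
    linarith [ho x hx]
  obtain ⟨l1, l2, -⟩ := hC κ ε w hκ.1 k2 hw ⟨L, o1⟩
  obtain ⟨c1, c2⟩ := hK _ l1 (tru_mem ι w) fun x hx => tru_one i0 (by linarith) (hw.lt x) (o1 x hx)
  have cd := hB.met.sm_dens.cont
  have hi := fun f hf => ex_int hB hδ h3 l1.cont (fun x => (tru_mem ι w x).2) (f := f) hf
  have e0 : 0 ≤ 4 / 3 * J + η := by positivity
  have p1 := pen hB hP hS hκ.1 k2 i0 (by linarith) hw.lt (hi _ (hP.smp.cont.fun_mul cd)) e0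
    (k1 w hw)
  have p2 := (ENNReal.ofReal_le_ofReal_iff e0).1 (l2.trans (k1 w hw))
  have p3 := hn _ c1
  have p4 : ∫ x, m x * min (tru ι w x) (rp a₁ δ (B.F x)) * dens B.g x ≤
      ∫ x, m x * tru ι w x * dens B.g x :=
    integral_mono (Cls.int_vol hB hP c1.lip.cont) (Cls.int_vol hB hP l1.cont) fun x =>
      mul_le_mul_of_nonneg_right (mul_le_mul_of_nonneg_left (min_le_left _ _) (hP.m01 x).1)
        (dens_nonneg _ _)
  have p5 := vol_low (hi _ cd) (fun x => mul_nonneg (ex_nonneg x) (dens_nonneg _ _)) hSm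
    (k := 1 / 200 / Λ) (by positivity) (fun x hx => by
      rw [ex, rp_zero hδ (hS' x hx).1, min_eq_right (tru_mem ι w x).1, sub_zero, div_eq_mul_one_div]
      exact mul_le_mul (tru_low i0 i1 (hw.lt x) (hS' x hx).2)
        ((div_le_iff₀' l0).2 (hΛ.dens_lo x)) (by positivity) (tru_mem ι w x).1) hv
  have p6 : pp B m U κ (tru ι w) ≤ J + 2 * η := by
    have g1 := Ph_gap_pos i0 (by linarith)
    have g2 : (4 / 3 - (Ph (1 - ι) - Ph (-1 + ι))) * J ≤ η := by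
      refine le_trans (mul_le_mul_of_nonneg_right ?_ J0) i2
      rw [Ph_gap]
      nlinarith [pow_pos i0 3]
    by_contra g3
    nlinarith
  have p7 := mul_le_mul_of_nonneg_left p4 hκ.1
  have p8 := mul_le_mul_of_nonneg_left p1 K0
  have p9 := mul_le_mul_of_nonneg_left p5 hB.h0.le
  unfold pp at p3 p6
  linarith

end ColB

open ColA ColB in
theorem col_of (hD : DENS) (hE : EXP) (hLOW : LOW) (hUP : UP) : COL := by
  intro n B L m p q U a β R s' hB hP hS κ hκ ρ' hρ t₁ ht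
  obtain ⟨C, lam, l0, hR⟩ := rat hB hS
  obtain ⟨c, c0, hD⟩ := hD n C
  obtain ⟨c', c1, hE⟩ := hE n C
  have r0 := hρ.1
  have r1 := hρ.2
  have s1 := hS.s1
  have s2 := hS.s2
  obtain ⟨t, t0, hu⟩ := unif hB (r := ρ' / 4) (by linarith)
  have q0 : ∀ y, B.F y ≤ B.s → q y = 0 := fun y hy =>
    hP.q0 y (by linarith [in_ball hB hy, hP.big, hB.one])
  refine ⟨c' * lam * t / 2, by positivity, ?_⟩
  filter_upwards [hD B L m p q U a β R s' hB hP hS κ hκ t t0,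
    hE B L m p q U a β R s' hB hP hS κ hκ t t0,
    small hLOW hUP hB hP hS hκ (a₁ := s' - ρ' / 2) (δ := ρ' / 4) (by linarith) (by linarith)
      (by linarith) ht (ν := c * t ^ n) (by positivity)] with ε k1 k2 k3 w hw ho x hx
  have n1 : ¬ (-1 : ℝ) = 1 := by norm_num
  have h1 : ∀ y, B.F y ≤ s' - 3 * ρ' / 4 → w y ≤ -(9 / 10) := fun y hy => le_of_not_gt fun h => by
    refine k3 w hw ho _ (measurableSet_ball.inter (measurableSet_le
      (hw.sm.cont.measurable.const_mul _) measurable_const)) (fun z hz => ⟨?_, ?_⟩)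
      (k1 w hw (-1) lam t y (Or.inr rfl) l0 le_rfl (hR _) (fun z hz => ?_) (by linarith))
    · linarith [hu y (by linarith) z hz.1]
    · have : -1 * w z ≤ 9 / 10 := hz.2
      linarith
    · rw [if_neg n1]
      exact q0 z (by linarith [hu y (by linarith) z hz])
  have h2 := k2 w hw (-1) lam t x (Or.inr rfl) l0 le_rfl (hR _) fun z hz => by
    have := hu x (by linarith) z hz
    rw [if_neg n1]
    exact ⟨q0 z (by linarith), Or.inl (h1 z (by linarith))⟩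
  have : 0 < c' * lam * t := by positivity
  linarith

end Vale.Agent.P366Z
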