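import Vale.Agent.P366Z.Int

/-!
# P366Z: consequences for initial data
-/

open MeasureTheory Metric Filter Topology Set
open scoped ContDiff ENNReal
open Vale.Agent.P366.Stmt

noncomputable section

namespace Vale.Agent.P366Z

variable {n : ℕ}

theorem cor_energy (h : RPI) (hn : 3 ≤ n) (D : Exterior n) (hAF : D.IsAF) (hDEC : D.DEC)
    (hT : D.Trapped) {m : ℝ} (hm : D.IsEnergy m)
    (h1 : ∀ x, 0 ≤ D.F x → tr D.g D.K x ^ 2 ≤ normSq D.g D.K x)
    (h2 : ∀ x, D.F x = 0 → 0 ≤ trS D.g D.K D.F x) :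
    D.Amin ≠ ⊤ ∧ (D.Amin.toReal / omega n) ^ (((n : ℝ) - 2) / (n - 1)) / 2 ≤ m := by
  refine h n D m hn hAF hm (fun x hx => ?_) fun x hx => ?_
  · have h3 := (Real.sqrt_nonneg _).trans (hDEC x hx)
    unfold mu at h3
    linarith [h1 x hx]
  · have h3 := hT x hx
    unfold thetaPlus at h3
    unfold mc
    linarith [h2 x hx]

theorem mom_zero (D : Exterior n) (hK : ∀ x, 0 ≤ D.F x → D.K x = 0) {P : Fin n → ℝ}
    (hP : D.IsMomentum P) : P = 0 := by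
  funext i
  obtain ⟨R, hR⟩ := D.dom.2.2.2
  refine tendsto_nhds_unique (hP i) (tendsto_const_nhds.congr' ?_)
  filter_upwards [eventually_gt_atTop (max R 0)] with r hr
  have h1 : ∀ θ : sphere (0 : E n) 1, ∑ j, momT D.g D.K (r • (θ : E n)) i j *
      ((r • (θ : E n)) j / len (r • (θ : E n))) = 0 := fun θ => by
    have h2 : D.K (r • (θ : E n)) = 0 := hK _ (hR _ (by
      unfold len
      rw [norm_smul, mem_sphere_zero_iff_norm.1 θ.2, mul_one,
        Real.norm_of_nonneg ((le_max_right _ _).trans hr.le)]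
      exact (le_max_left _ _).trans_lt hr)).le
    simp [momT, tr, h2]
  simp only [flx, sphInt, sph, h1]
  simp

theorem cor_main (h : RPI) (hn : 3 ≤ n) (D : Exterior n) (hAF : D.IsAF) (hDEC : D.DEC)
    (hT : D.Trapped) (m : ℝ) (P : Fin n → ℝ) (hm : D.IsEnergy m) (hP : D.IsMomentum P) :
    ((∀ x, 0 ≤ D.F x → D.K x = 0) → D.Amin ≠ ⊤ ∧ P = 0 ∧ √(∑ i, P i ^ 2) ≤ m ∧
      (D.Amin.toReal / omega n) ^ (((n : ℝ) - 2) / (n - 1)) / 2 ≤ √(m ^ 2 - ∑ i, P i ^ 2)) ∧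
    ((∀ x, 0 ≤ D.F x → tr D.g D.K x ^ 2 ≤ normSq D.g D.K x) →
      (∀ x, D.F x = 0 → 0 ≤ trS D.g D.K D.F x) →
      D.Amin ≠ ⊤ ∧ (D.Amin.toReal / omega n) ^ (((n : ℝ) - 2) / (n - 1)) / 2 ≤ m) := by
  refine ⟨fun hK => ?_, cor_energy h hn D hAF hDEC hT hm⟩
  obtain ⟨h1, h2⟩ := cor_energy h hn D hAF hDEC hT hm
    (fun x hx => by simp [tr, normSq, hK x hx]) fun x hx => by simp [trS, tr, hK x hx.ge]
  have h3 := mom_zero D hK hP
  have hω := omega_pos (n := n) (by omega)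
  have h4 : 0 ≤ m := le_trans (by positivity) h2
  subst h3
  refine ⟨h1, rfl, by simpa using h4, ?_⟩
  simpa [Real.sqrt_sq h4] using h2

end Vale.Agent.P366Z
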