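import Vale.Agent.P366.Stmt

/-!
# P366Z: definitions for the Riemannian Penrose inequality in all dimensions
-/

open MeasureTheory Metric Filter Topology Set
open scoped ContDiff ENNReal
open Vale.Agent.P366.Stmt

noncomputable section

namespace Vale.Agent.P366Z

variable {n : ℕ}

/-- `b = 2 / (n - 2)` -/
def bb (n : ℕ) : ℝ := 2 / ((n : ℝ) - 2)

/-- `γ = (n - 1) / (n - 2)` -/
def gam (n : ℕ) : ℝ := ((n : ℝ) - 1) / ((n : ℝ) - 2)

/-- a smooth Riemannian metric on the whole space -/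
structure Met (g : Field n) : Prop where
  sm : ∀ i j, Smooth fun x => g x i j
  sy : ∀ x i j, g x i j = g x j i
  pos : ∀ x, (mat g x).PosDef

/-- the Euclidean metric -/
def eu (n : ℕ) : Field n := fun _ i j => if i = j then 1 else 0

/-- `g` is Euclidean outside the ball of radius `ρ` -/
def Flat (g : Field n) (ρ : ℝ) : Prop := ∀ x : E n, ρ ≤ ‖x‖ → g x = eu n x

/-- the volume density -/
def dens (g : Field n) (x : E n) : ℝ := √(mat g x).det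

/-- the inner product of two gradients -/
def ip (g : Field n) (u v : E n → ℝ) (x : E n) : ℝ :=
  ∑ i, ∑ j, up g i j x * pd i u x * pd j v x

/-- the length of the gradient -/
def gn (g : Field n) (u : E n → ℝ) (x : E n) : ℝ := √(ip g u u x)

/-- the gradient -/
def gr (g : Field n) (u : E n → ℝ) (i : Fin n) (x : E n) : ℝ := ∑ j, up g i j x * pd j u x

/-- the divergence of a vector field -/
def dv (g : Field n) (X : Fin n → E n → ℝ) (x : E n) : ℝ :=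
  (∑ i, pd i (fun y => dens g y * X i y) x) / dens g x

/-- the Laplacian -/
def lap (g : Field n) (u : E n → ℝ) : E n → ℝ := dv g (gr g u)

/-- the weighted Laplacian `div (U² ∇ u)` -/
def wl (g : Field n) (U u : E n → ℝ) : E n → ℝ := dv g fun i x => U x ^ 2 * gr g u i x

/-- the conformal metric `U ^ (4 / (n - 2)) g` -/
def cf (U : E n → ℝ) (g : Field n) : Field n := fun x i j => U x ^ (2 * bb n) * g x i j

/-- the divergence of a symmetric tensor -/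
def dvT (g T : Field n) (j : Fin n) (x : E n) : ℝ :=
  ∑ i, ∑ k, up g i k x * (pd k (fun y => T y i j) x -
    ∑ l, (chr g l k i x * T x l j + chr g l k j x * T x i l))

/-- the conformal Laplacian -/
def cl (g : Field n) (v : E n → ℝ) (x : E n) : ℝ := -(4 * gam n) * lap g v x + scal g x * v x

/-- the cut-off function: one on the ball of radius `r`, zero outside the ball of radius `2 r` -/
def cut (r : ℝ) (x : E n) : ℝ := Real.smoothTransition (2 - ‖x‖ ^ 2 / r ^ 2)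

/-- the expansion `v = a + β r ^ (2 - n) + O (r ^ (1 - n))`, with one derivative -/
def Asy (v : E n → ℝ) (a β : ℝ) : Prop := ∃ C R : ℝ, ∀ x : E n, R ≤ ‖x‖ →
  |v x - a - β * ‖x‖ ^ (2 - n : ℝ)| ≤ C * ‖x‖ ^ (1 - n : ℝ) ∧
    ∀ i, |pd i v x + (n - 2) * β * x i * ‖x‖ ^ (-n : ℝ)| ≤ C * ‖x‖ ^ (-n : ℝ)

/-- exponential decay -/
def Dec {V : Type} [Norm V] (f : E n → V) : Prop :=
  ∃ c > (0 : ℝ), ∃ C : ℝ, ∀ x, ‖f x‖ ≤ C * Real.exp (-c * ‖x‖)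

/-- bounded by `A` and Lipschitz with constant `A` -/
def BL {V : Type} [NormedAddCommGroup V] (A : ℝ) (f : E n → V) : Prop :=
  (∀ x, ‖f x‖ ≤ A) ∧ ∀ x y, ‖f x - f y‖ ≤ A * ‖x - y‖

/-- the second derivative is bounded by `K` and `1 / 2`-Hölder with constant `K` on `s` -/
def H2 {V : Type} [NormedAddCommGroup V] [NormedSpace ℝ V] (K : ℝ) (u : E n → V)
    (s : Set (E n)) : Prop :=
  (∀ x ∈ s, ‖fderiv ℝ (fderiv ℝ u) x‖ ≤ K) ∧ ∀ x ∈ s, ∀ y ∈ s,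
    ‖fderiv ℝ (fderiv ℝ u) x - fderiv ℝ (fderiv ℝ u) y‖ ≤ K * ‖x - y‖ ^ (1 / 2 : ℝ)

/-- Lipschitz functions -/
def Lip (u : E n → ℝ) : Prop := ∃ K, LipschitzWith K u

/-- admissible weights -/
structure Wt (g : Field n) (U : E n → ℝ) : Prop where
  sm : Smooth U
  bd : ∃ c > (0 : ℝ), ∃ C : ℝ, ∀ x, c ≤ U x ∧ U x ≤ C ∧ ‖fderiv ℝ U x‖ ≤ C ∧
    |lap g U x / U x| ≤ C ∧ ‖fderiv ℝ (fun y => lap g U y / U y) x‖ ≤ C

/-! ### spinors -/

/-- a Clifford module -/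
structure Cl (n N : ℕ) where
  e : Fin n → E N →L[ℝ] E N
  skew : ∀ i u v, inner ℝ (e i u) v = -inner ℝ u (e i v)
  rel : ∀ i j u, e i (e j u) + e j (e i u) = if i = j then (-2 : ℝ) • u else 0

/-- the defect of `y` to be parallel for the conformally flat metric of `v` -/
def Cl.df {N : ℕ} (c : Cl n N) (v : E n → ℝ) (y : E n → E N) (i : Fin n) (x : E n) : E N :=
  fderiv ℝ y x (EuclideanSpace.single i 1) - (((n : ℝ) - 2) * v x)⁻¹ •
    (((n : ℝ) * pd i v x) • y x + c.e i (∑ j, pd j v x • c.e j (y x)))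

/-- there is an almost parallel spinor outside the ball of radius `R` -/
def Par (v : E n → ℝ) (R e : ℝ) : Prop := ∃ (N : ℕ) (c : Cl n N) (y : E n → E N) (y₀ : E N),
  ContDiff ℝ ∞ y ∧ ‖y₀‖ = 1 ∧ (∃ R' : ℝ, ∀ x, R' ≤ ‖x‖ → y x = y₀) ∧
    ∫⁻ x in {x : E n | R ≤ ‖x‖}, ENNReal.ofReal (v x ^ (-bb n) * ∑ i, ‖c.df v y i x‖ ^ 2) ≤
      ENNReal.ofReal e

/-- the quantity `M` -/
def mq (g T : Field n) (x : E n) : ℝ := tr g T x ^ 2 / ((n : ℝ) - 1) - normSq g T x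

/-- the coefficient `c` of the sheet with the factor `v`; `v'` is the factor of the other sheet -/
def cq (g T : Field n) (v v' : E n → ℝ) (x : E n) : ℝ :=
  v x ^ (-bb n - 1) * cl g v x / 4 + mq g T x * v' x ^ bb n

/-- the covector `W` -/
def wq (g T : Field n) (v v' : E n → ℝ) (j : Fin n) (x : E n) : ℝ :=
  -dvT g T j x + ∑ k, ((n : ℝ) * T x j k - tr g T x * g x j k) *
    gr g (fun y => -(bb n / 2) * Real.log (v y * v' y)) k x

/-! ### the background and the states of the flow -/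

/-- the background -/
structure Bg (n : ℕ) where
  g : Field n
  F : E n → ℝ
  U : E n → ℝ
  Q : E n → ℝ
  ρ : ℝ
  s : ℝ
  h : ℝ
  δ : ℝ

/-- the properties of the background -/
structure Bg.Ok (B : Bg n) : Prop where
  dim : 3 ≤ n
  met : Met B.g
  flat : Flat B.g B.ρ
  one : 1 ≤ B.ρ
  smF : Smooth B.F
  smU : Smooth B.U
  s0 : 0 < B.s
  h0 : 0 < B.h
  δ0 : 0 < B.δ
  far : ∀ x, B.ρ ≤ ‖x‖ → B.s < B.F x
  deep : ∃ x, B.F x ≤ -B.s
  Ub : ∀ x, 1 / 2 ≤ B.U x ∧ B.U x ≤ 2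
  eqn : ∀ x, lap B.g B.U x = B.Q x * B.U x
  slack : ∀ x, 0 ≤ B.F x → 4 * gam n * B.Q x < scal B.g x
  Qf : ∀ x, B.ρ ≤ ‖x‖ → -(B.δ * ‖x‖ ^ (-(n + 2) : ℝ)) ≤ B.Q x ∧ B.Q x ≤ 0
  Qd : ∃ C, ∀ x, ‖fderiv ℝ B.Q x‖ ≤ C
  cal : ∀ x, |B.F x| ≤ B.s → gn B.g B.F x ≠ 0 ∧
    dv B.g (fun i y => B.U y ^ (2 * gam n) * gr B.g B.F i y / gn B.g B.F y) x ≤ -B.h

/-- a state of the flow: the factor `U` tends to `a`, has the coefficient `β`, solves the equation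
outside the ball of radius `R` and is unchanged on `{F ≤ s'}` -/
structure St (B : Bg n) (U : E n → ℝ) (a β R s' : ℝ) : Prop where
  sm : Smooth U
  a0 : 0 < a
  a1 : a ≤ 1
  lo : ∀ x, a * B.U x ≤ U x
  hi : ∀ x, U x ≤ B.U x
  sup : ∀ x, lap B.g U x ≤ B.Q x * U x
  eqn : ∀ x, R ≤ ‖x‖ → lap B.g U x = B.Q x * U x
  asy : Asy U a β
  Rρ : B.ρ ≤ R
  col : ∀ x, B.F x ≤ s' → U x = B.U x
  s1 : B.s / 2 ≤ s'
  s2 : s' ≤ B.s

/-- the class of the competitors -/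
structure Cls (B : Bg n) (L : ℝ) (ψ : E n → ℝ) : Prop where
  lip : Lip ψ
  mem : ∀ x, 0 ≤ ψ x ∧ ψ x ≤ 1
  zero : ∀ x, B.F x ≤ B.s / 4 → ψ x = 0
  one : ∀ x, L ≤ ‖x‖ → ψ x = 1

/-- the perimeter functional -/
def per (B : Bg n) (U ψ : E n → ℝ) : ℝ := ∫ x, U x ^ (2 * gam n) * gn B.g ψ x * dens B.g x

/-- the perimeter with the volume term -/
def pp (B : Bg n) (m U : E n → ℝ) (κ : ℝ) (ψ : E n → ℝ) : ℝ :=
  per B U ψ + κ * ∫ x, m x * ψ x * dens B.g x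

/-- `ψ` minimises `pp` up to `η` -/
def Near (B : Bg n) (L : ℝ) (m U : E n → ℝ) (κ η : ℝ) (ψ : E n → ℝ) : Prop :=
  Cls B L ψ ∧ ∀ ψ', Cls B L ψ' → pp B m U κ ψ ≤ pp B m U κ ψ' + η

/-- the weight of the volume term and the two penalties -/
structure Pen (B : Bg n) (L : ℝ) (m p q : E n → ℝ) : Prop where
  big : 2 * B.ρ ≤ L
  smm : Smooth m
  smp : Smooth p
  smq : Smooth q
  m01 : ∀ x, 0 ≤ m x ∧ m x ≤ 1
  p04 : ∀ x, 0 ≤ p x ∧ p x ≤ 4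
  q04 : ∀ x, 0 ≤ q x ∧ q x ≤ 4
  m1 : ∀ x, ‖x‖ ≤ L → m x = 1
  m0 : ∀ x, L + 1 ≤ ‖x‖ → m x = 0
  p0 : ∀ x, -(B.s / 2) ≤ B.F x → p x = 0
  p4 : ∀ x, B.F x ≤ -(3 * B.s / 4) → p x = 4
  q0 : ∀ x, ‖x‖ ≤ L + 1 → q x = 0
  q4 : ∀ x, L + 2 ≤ ‖x‖ → q x = 4

/-! ### the Allen-Cahn functional -/

/-- the double well -/
def Wp (w : ℝ) : ℝ := (1 - w ^ 2) ^ 2 / 2

/-- the primitive of `1 - w²` that vanishes at `-1` -/
def Ph (w : ℝ) : ℝ := w - w ^ 3 / 3 + 2 / 3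

/-- the approximate signed distance `ε artanh w` -/
def dd (ε : ℝ) (w : E n → ℝ) (x : E n) : ℝ := ε / 2 * Real.log ((1 + w x) / (1 - w x))

/-- the truncation of `Ph ∘ w` -/
def tru (ι : ℝ) (w : E n → ℝ) (x : E n) : ℝ :=
  max 0 (min 1 ((Ph (w x) - Ph (-1 + ι)) / (Ph (1 - ι) - Ph (-1 + ι))))

/-- the energy -/
def en (B : Bg n) (m p q U : E n → ℝ) (κ ε : ℝ) (w : E n → ℝ) : ℝ≥0∞ :=
  ∫⁻ x, ENNReal.ofReal ((ε * U x ^ 2 * ip B.g w w x / 2 + U x ^ (n * bb n) *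
    (Wp (w x) + p x * (1 + w x) ^ 2 + q x * (1 - w x) ^ 2) / ε + κ * m x * Ph (w x)) * dens B.g x)

/-- a smooth minimiser of the energy -/
structure Mn (B : Bg n) (m p q U : E n → ℝ) (κ ε : ℝ) (w : E n → ℝ) : Prop where
  sm : Smooth w
  lip : Lip w
  lt : ∀ x, |w x| < 1
  fin : en B m p q U κ ε w < ⊤
  min : ∀ w', Lip w' → (∀ x, |w' x| ≤ 1) → en B m p q U κ ε w ≤ en B m p q U κ ε w'
  eqn : ∀ x, ε * wl B.g U w x = U x ^ (n * bb n) * (-2 * w x * (1 - w x ^ 2) +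
    2 * p x * (1 + w x) - 2 * q x * (1 - w x)) / ε + κ * m x * (1 - w x ^ 2)

/-- `A` has density at least `c` in the balls about `x` with radii in `[t₀, t₁]` -/
def Fat (A : Set (E n)) (c : ℝ) (x : E n) (t₀ t₁ : ℝ) : Prop :=
  ∀ t, t₀ ≤ t → t ≤ t₁ → ENNReal.ofReal (c * t ^ n) ≤ volume (ball x t ∩ A)

/-- the output of one step: the near minimiser `ψ`, the potential `h` with the coefficient `βh`
of `h U`, and the radius `R₁` of the supports -/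
structure Out (B : Bg n) (L : ℝ) (m U : E n → ℝ) (a β s' κ δ₀ η' ρ' η C : ℝ) (ψ h : E n → ℝ)
    (βh R₁ : ℝ) : Prop where
  near : Near B L m U κ η ψ
  thin : volume {x | 0 < ψ x ∧ ψ x < 1} ≤ ENNReal.ofReal η
  sm : Smooth h
  h01 : ∀ x, 0 < h x ∧ h x ≤ 1
  sub : ∀ x, 0 ≤ wl B.g U h x
  harm : ∀ x, R₁ ≤ ‖x‖ → wl B.g U h x = 0
  asy : Asy (fun x => h x * U x) a βh
  small : ∀ x, ψ x < 1 ∨ B.F x ≤ s' - ρ' → h x ≤ η'
  Rρ : B.ρ ≤ R₁
  mass : 0 ≤ β + (1 - δ₀) * βh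
  le : βh ≤ β
  ener : ∫⁻ x, ENNReal.ofReal (U x ^ 2 * ip B.g h h x * dens B.g x) ≤
    ENNReal.ofReal ((n - 2) * omega n * a * (β - βh))
  par : ∀ e > 0, Par (fun x => U x * (1 + (1 - δ₀) * h x) / 2) R₁
    (C * (β + (1 - δ₀) * βh) * a ^ (-bb n - 1) + e)

/-- the convex truncation -/
structure Fc (η' η'' : ℝ) (f : ℝ → ℝ) : Prop where
  sm : ContDiff ℝ ∞ f
  le : η' ≤ η'' ∧ η'' ≤ 2 * η'
  d1 : ∀ t, 0 ≤ deriv f t ∧ deriv f t ≤ 1
  d2 : ∀ t, 0 ≤ deriv (deriv f) t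
  zero : ∀ t ≤ η', f t = 0
  lin : ∀ t ≥ 2 * η', f t = t - η''

end Vale.Agent.P366Z
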