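import Vale.Agent.P366Z.DensC
import Vale.Agent.P366Z.DensR

/-!
# P366Z: the density estimate
-/

open MeasureTheory Metric Filter Topology Set
open scoped ContDiff ENNReal NNReal
open Vale.Agent.P366.Stmt

noncomputable section

namespace Vale.Agent.P366Z

namespace DensH

variable {n : ℕ} {B : Bg n} {L a β R s' κ ε σ lam C t h r k τ : ℝ} {m p q U w η : E n → ℝ}
  {x y : E n}

/-- the energy density -/
def ed (B : Bg n) (m p q U : E n → ℝ) (κ ε : ℝ) (w : E n → ℝ) (x : E n) : ℝ :=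
  (ε * U x ^ 2 * ip B.g w w x / 2 + U x ^ (n * bb n) *
    (Wp (w x) + p x * (1 + w x) ^ 2 + q x * (1 - w x) ^ 2) / ε + κ * m x * Ph (w x)) * dens B.g x

theorem ed_eq (hB : B.Ok) (hU : 0 < U y) (hε : 0 < ε) (w : E n → ℝ) :
    ed B m p q U κ ε w y = dens (cf U B.g) y / ε * (ε ^ 2 * ip (cf U B.g) w w y / 2 + Wp (w y) +
      (p y * (1 + w y) ^ 2 + q y * (1 - w y) ^ 2)) + κ * m y * dens B.g y * Ph (w y) := by
  have e : U y ^ 2 = U y ^ (n * bb n) * U y ^ (-(2 * bb n)) := by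
    rw [← Real.rpow_add hU, n_bb hB.dim, add_neg_cancel_right, Real.rpow_two]
  rw [ed, dens_cf hU, hB.met.ip_cf hU, e]
  field_simp
  ring

theorem ed_nonneg (hB : B.Ok) (hP : Pen B L m p q) (hU : 0 < U y) (hε : 0 < ε) (hκ : 0 ≤ κ)
    (hw : |w y| ≤ 1) : 0 ≤ ed B m p q U κ ε w y := by
  have h1 := hB.met.ip_nonneg w y
  have h2 := Wp_nonneg (w y)
  have h3 := (hP.p04 y).1
  have h4 := (hP.q04 y).1
  have h5 := (hP.m01 y).1
  have h6 : 0 ≤ Ph (w y) := by
    have e : Ph (w y) = (1 + w y) ^ 2 * (2 - w y) / 3 := by unfold Ph; ring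
    have : 0 ≤ 2 - w y := by linarith [(abs_le.1 hw).2]
    rw [e]; positivity
  have h7 := dens_nonneg B.g y
  unfold ed
  positivity

/-- the competitor -/
def cp (σ : ℝ) (w η : E n → ℝ) (y : E n) : ℝ := w y + (σ - w y) * η y ^ 2

theorem cp_ip {g : Field n} (hg : Met g) (hw : DifferentiableAt ℝ w y)
    (hη : DifferentiableAt ℝ η y) : ip g (cp σ w η) (cp σ w η) y = (1 - η y ^ 2) ^ 2 * ip g w w y +
      4 * (1 - η y ^ 2) * (σ - w y) * η y * ip g w η y +
        4 * (σ - w y) ^ 2 * η y ^ 2 * ip g η η y := by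
  have e : ∀ i, pd i (cp σ w η) y =
      (1 - η y ^ 2) * pd i w y + 2 * (σ - w y) * η y * pd i η y := fun i => by
    have h1 := pd_add hw ((hw.const_sub σ).fun_mul (hη.fun_pow 2)) i
    rw [pd_mul (hw.const_sub σ) (hη.fun_pow 2), pd_pow hη, pd_const_sub] at h1
    refine h1.trans ?_
    push_cast
    ring
  rw [ip_of_pd_add e, ip_of_pd_add' e, ip_of_pd_add' e, hg.ip_sy η w]
  ring

theorem cp_le (hσ : σ = 1 ∨ σ = -1) (hw : |w y| < 1) (h0 : 0 ≤ η y) (h1 : η y ≤ 1) :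
    |cp σ w η y| ≤ 1 := by
  obtain ⟨h2, h3⟩ := abs_lt.1 hw
  have z0 : 0 ≤ η y ^ 2 := sq_nonneg _
  have z1 : η y ^ 2 ≤ 1 := pow_le_one₀ h0 h1
  unfold cp
  rcases hσ with rfl | rfl <;> exact abs_le.2 ⟨by nlinarith, by nlinarith⟩

theorem cp_low (hP : Pen B L m p q) (hσ : σ = 1 ∨ σ = -1) (hw : |w y| < 1) (h0 : 0 ≤ η y)
    (h1 : η y ≤ 1) (hκ : 0 ≤ κ) {X : ℝ} (hX : 0 ≤ X)
    (e : if σ = 1 then p y = 0 ∧ κ * dens B.g y ≤ X else q y = 0) :
    p y * (1 + cp σ w η y) ^ 2 + q y * (1 - cp σ w η y) ^ 2 ≤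
      p y * (1 + w y) ^ 2 + q y * (1 - w y) ^ 2 ∧
    κ * m y * dens B.g y * Ph (cp σ w η y) ≤
      κ * m y * dens B.g y * Ph (w y) + X * (2 * η y ^ 2 * (1 - σ * w y) ^ 2) := by
  obtain ⟨h2, h3⟩ := abs_lt.1 hw
  have z0 : 0 ≤ η y ^ 2 := sq_nonneg _
  have z1 : η y ^ 2 ≤ 1 := pow_le_one₀ h0 h1
  have d0 : 0 ≤ κ * dens B.g y := mul_nonneg hκ (dens_nonneg _ _)
  have d1 : 0 ≤ κ * m y * dens B.g y := mul_nonneg (mul_nonneg hκ (hP.m01 y).1) (dens_nonneg _ _)
  unfold cp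
  generalize η y ^ 2 = z at z0 z1
  have z2 : (1 - z) ^ 2 ≤ 1 := by nlinarith
  rcases hσ with rfl | rfl
  · rw [if_pos rfl] at e
    have u0 : 0 < 1 - w y := by linarith
    refine ⟨?_, ?_⟩
    · rw [e.1, show 1 - (w y + (1 - w y) * z) = (1 - z) * (1 - w y) by ring, mul_pow]
      linarith [mul_le_mul_of_nonneg_left (mul_le_of_le_one_left (sq_nonneg (1 - w y)) z2)
        (hP.q04 y).1]
    · have h4 : Ph (w y + (1 - w y) * z) ≤ Ph (w y) + 2 * z * (1 - 1 * w y) ^ 2 := by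
        have e2 : Ph (w y) + 2 * z * (1 - 1 * w y) ^ 2 - Ph (w y + (1 - w y) * z) =
            z ^ 2 * (1 - w y) ^ 2 + (1 - w y) ^ 3 * (z * ((1 - z) ^ 2 + (1 - z) + 1)) / 3 := by
          unfold Ph; ring
        have : 0 ≤ 1 - z := by linarith
        rw [← sub_nonneg, e2]; positivity
      have h5 : κ * m y * dens B.g y ≤ X := by
        nlinarith [mul_le_mul_of_nonneg_left (hP.m01 y).2 d0, e.2]
      have h6 := mul_le_mul_of_nonneg_left h4 d1
      have h7 := mul_le_mul_of_nonneg_right h5 (show 0 ≤ 2 * z * (1 - 1 * w y) ^ 2 by positivity)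
      linarith
  · rw [if_neg (by norm_num)] at e
    refine ⟨?_, ?_⟩
    · rw [e, show 1 + (w y + (-1 - w y) * z) = (1 - z) * (1 + w y) by ring, mul_pow]
      linarith [mul_le_mul_of_nonneg_left (mul_le_of_le_one_left (sq_nonneg (1 + w y)) z2)
        (hP.p04 y).1]
    · have h4 : Ph (w y + (-1 - w y) * z) ≤ Ph (w y) := by
        have e2 : Ph (w y) - Ph (w y + (-1 - w y) * z) = (1 + w y) ^ 2 * z *
            ((2 - z) - (1 + w y) * ((1 - z) ^ 2 + (1 - z) + 1) / 3) := by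
          unfold Ph; ring
        have h5 : (1 + w y) * ((1 - z) ^ 2 + (1 - z) + 1) ≤ 2 * ((1 - z) ^ 2 + (1 - z) + 1) :=
          mul_le_mul_of_nonneg_right (by linarith) (by nlinarith)
        rw [← sub_nonneg, e2]
        exact mul_nonneg (by positivity) (by nlinarith)
      have h6 := mul_le_mul_of_nonneg_left h4 d1
      have h7 : 0 ≤ X * (2 * z * (1 - -1 * w y) ^ 2) := by positivity
      linarith

theorem cp_Wp (hσ : σ = 1 ∨ σ = -1) : Wp (w y) = Wp (1 - (1 - σ * w y)) ∧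
    Wp (cp σ w η y) = Wp (1 - (1 - σ * w y) * (1 - η y ^ 2)) ∧ σ - w y = σ * (1 - σ * w y) := by
  unfold Wp cp
  rcases hσ with rfl | rfl <;> exact ⟨by ring, by ring, by ring⟩

theorem fderiv_u (hσ : σ = 1 ∨ σ = -1) (hw : DifferentiableAt ℝ w y) :
    ‖fderiv ℝ (fun z => 1 - σ * w z) y‖ = ‖fderiv ℝ w y‖ := by
  rw [((hw.hasFDerivAt.const_mul σ).const_sub 1).fderiv, norm_neg, norm_smul]
  rcases hσ with rfl | rfl <;> simp

theorem gain_le {C a P η : ℝ} (hC : 1 ≤ C) (P0 : 0 ≤ P) (h1 : a ^ 2 ≤ 16 * (C * P))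
    (hη : 1 / 4 ≤ η) : (a + 1) / (25600 * C) ≤ η ^ 2 * (P / 4 + 1 / 800) := by
  have t1 := pow_le_pow_left₀ (by norm_num) hη 2
  refine le_trans ?_ (mul_le_mul_of_nonneg_right t1 (by positivity))
  rw [div_le_iff₀ (by positivity)]
  have t3 : 0 ≤ C * P := by positivity
  nlinarith [sq_nonneg (a - 1)]

theorem pt1 {g : Field n} (hg : Met g) (dw : DifferentiableAt ℝ w y) (hw : |w y| < 1)
    (hσ : σ = 1 ∨ σ = -1) (hl : 0 < lam) (h0 : 0 < h) (eε : ε = h * lam / 4) (τ0 : 0 ≤ τ)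
    (τ1 : τ ≤ 1 / 4) (k0 : 0 ≤ k) (k1 : k ≤ 1 / 8) (hd : DifferentiableAt ℝ (et x h r τ) y)
    (t1 : lam ^ 2 * ip g (et x h r τ) (et x h r τ) y ≤ ‖fderiv ℝ (et x h r τ) y‖ ^ 2) :
    ε ^ 2 * ip g (cp σ w (et x h r τ)) (cp σ w (et x h r τ)) y / 2 +
      Wp (cp σ w (et x h r τ) y) + 2 * k * et x h r τ y ^ 2 * (1 - σ * w y) ^ 2 +
      (if 1 / 20 ≤ 1 - σ * w y ∧ 1 - σ * w y ≤ 1 / 10 then
        et x h r τ y ^ 2 * (ε ^ 2 * ip g w w y / 4 + 1 / 800) else 0) ≤
    ε ^ 2 * ip g w w y / 2 + Wp (w y) + 32 * ((if 1 / 20 ≤ 1 - σ * w y then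
      (ball x r)ᶜ.indicator (wt x h r) y + k * wt x h r y else 0) + τ ^ 2) := by
  obtain ⟨w1, w2⟩ := abs_lt.1 hw
  have η0 : 0 ≤ et x h r τ y := le_max_right _ _
  have η1 : et x h r τ y ≤ e0 x h r y := max_le (by linarith) (e0_pos x h r y).le
  have η2 : e0 x h r y ≤ et x h r τ y + τ := by
    linarith [show e0 x h r y - τ ≤ et x h r τ y from le_max_left _ _]
  have η3 := e0_le_one h0 x r y
  obtain ⟨c3, c4, c5⟩ := cp_Wp (w := w) (η := et x h r τ) (y := y) hσ
  have P0 : 0 ≤ ε ^ 2 * ip g w w y := mul_nonneg (sq_nonneg _) (hg.ip_nonneg w y)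
  have g1 := alg_g (u := 1 - σ * w y) (s := σ) η0 (η1.trans η3) (hg.ip_nonneg w y)
    (hg.ip_nonneg (et x h r τ) y) (hg.ip_cs w (et x h r τ) y)
    (by rcases hσ with rfl | rfl <;> norm_num)
  have g2 : ε ^ 2 * ip g (cp σ w (et x h r τ)) (cp σ w (et x h r τ)) y ≤
      ε ^ 2 * ip g w w y - et x h r τ y ^ 2 * (ε ^ 2 * ip g w w y) / 2 +
        12 * (1 - σ * w y) ^ 2 * (ε ^ 2 * ip g (et x h r τ) (et x h r τ) y) := by
    have c6 : (σ - w y) ^ 2 = (1 - σ * w y) ^ 2 := by rcases hσ with rfl | rfl <;> ring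
    rw [cp_ip hg dw hd, c6, c5]
    exact (mul_le_mul_of_nonneg_left g1 (sq_nonneg ε)).trans (le_of_eq (by ring))
  have g3 := alg (b := (ball x r)ᶜ.indicator (wt x h r) y)
    (show 0 < 1 - σ * w y by rcases hσ with rfl | rfl <;> linarith)
    (by rcases hσ with rfl | rfl <;> linarith) η0 η1 η2 η3 P0 g2 k0 k1 (by
      have t0 := hg.ip_nonneg (et x h r τ) y
      by_cases hr : y ∈ ball x r
      · refine Or.inl ⟨indicator_of_notMem (not_not.2 hr) _, ?_, ?_⟩
        · rw [et_in h0 hr, norm_zero] at t1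
          have : ip g (et x h r τ) (et x h r τ) y = 0 :=
            le_antisymm (by nlinarith [pow_pos hl 2]) t0
          rw [this, mul_zero]
        · unfold et
          rw [e0_in hr, max_eq_left (by linarith)]
      · refine Or.inr ⟨by rw [indicator_of_mem (mem_compl hr), e0_sq], ?_⟩
        have t2 := pow_le_pow_left₀ (by positivity) (et_fderiv (x := x) (y := y) (r := r)
          (τ := τ) h0) 2
        have t3 := mul_le_mul_of_nonneg_left t1 (sq_nonneg h)
        rw [eε]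
        linarith)
  rwa [← c3, ← c4, e0_sq] at g3

theorem ind_eq {u : E n → ℝ} (hy : y ∈ ball x t) : (if 1 / 20 ≤ u y then
    (ball x r)ᶜ.indicator (wt x h r) y + k * wt x h r y else 0) =
    (As u x t \ ball x r).indicator (wt x h r) y + k * (As u x t).indicator (wt x h r) y := by
  by_cases hs : 1 / 20 ≤ u y
  · have h1 : y ∈ As u x t := ⟨hy, hs⟩
    rw [if_pos hs, indicator_of_mem h1, Set.sdiff_eq, ← indicator_indicator, indicator_of_mem h1]
  · have h1 : y ∉ As u x t := fun h => hs h.2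
    rw [if_neg hs, indicator_of_notMem h1, indicator_of_notMem fun h => h1 h.1]
    simp

/-- the pointwise inequality in the ball -/
theorem pt (hB : B.Ok) (hP : Pen B L m p q) (hS : St B U a β R s') (hε : 0 < ε) (hκ : 0 ≤ κ)
    (hM : Mn B m p q U κ ε w) (hσ : σ = 1 ∨ σ = -1) (hl : 0 < lam) (hh : h = 4 * ε / lam)
    (hR : Rat B.g U C lam (ball x t)) (hy : y ∈ ball x t) (τ0 : 0 ≤ τ) (τ1 : τ ≤ 1 / 4)
    (k0 : 0 ≤ k) (k1 : k ≤ 1 / 8) (hd : DifferentiableAt ℝ (et x h r τ) y)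
    (e : if σ = 1 then p y = 0 ∧ κ * dens B.g y ≤ lam ^ n / ε * k else q y = 0) :
    ed B m p q U κ ε (cp σ w (et x h r τ)) y + (Ss (fun z => 1 - σ * w z) x (r + h)).indicator
      (fun y => lam ^ n / ε / (25600 * C) * (h * ‖fderiv ℝ (fun z => 1 - σ * w z) y‖ + 1)) y ≤
    ed B m p q U κ ε w y + C ^ n * lam ^ n / ε * 32 *
      ((As (fun z => 1 - σ * w z) x t \ ball x r).indicator (wt x h r) y +
        k * (As (fun z => 1 - σ * w z) x t).indicator (wt x h r) y + τ ^ 2) := by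
  have h0 : 0 < h := by rw [hh]; positivity
  have hU := hS.pos hB
  have hg : Met (cf U B.g) := hB.met.cf hS.sm hU
  obtain ⟨C1, r1, r2, r3⟩ := rat_bd (by linarith [hB.dim]) hg hl hR hy
  have dw := hM.sm.diff y
  have ω0 : 0 < dens (cf U B.g) y / ε := div_pos (hg.dens_pos y) hε
  have ω1 : lam ^ n / ε ≤ dens (cf U B.g) y / ε := div_le_div_of_nonneg_right r2 hε.le
  have ω2 : dens (cf U B.g) y / ε ≤ C ^ n * lam ^ n / ε := div_le_div_of_nonneg_right r3 hε.le
  obtain ⟨c1, c2⟩ := cp_low (η := et x h r τ) hP hσ (hM.lt y) (le_max_right _ _)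
    (max_le (by linarith [e0_le_one h0 x r y]) zero_le_one) hκ (by positivity) e
  have eε : ε = h * lam / 4 := by rw [hh]; field_simp
  have g3 := pt1 hg dw (hM.lt y) hσ hl h0 eε τ0 τ1 k0 k1 hd (r1 _ hd).1
  rw [ind_eq (u := fun z => 1 - σ * w z) hy] at g3
  have g4 := mul_le_mul_of_nonneg_left g3 ω0.le
  have g5 := mul_le_mul_of_nonneg_left c1 ω0.le
  have g6 := mul_le_mul_of_nonneg_right ω1
    (show 0 ≤ k * (2 * et x h r τ y ^ 2 * (1 - σ * w y) ^ 2) by positivity)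
  have P0 : 0 ≤ ε ^ 2 * ip (cf U B.g) w w y := mul_nonneg (sq_nonneg _) (hg.ip_nonneg w y)
  have g7 : (Ss (fun z => 1 - σ * w z) x (r + h)).indicator (fun y => lam ^ n / ε / (25600 * C) *
      (h * ‖fderiv ℝ (fun z => 1 - σ * w z) y‖ + 1)) y ≤ dens (cf U B.g) y / ε *
      (if 1 / 20 ≤ 1 - σ * w y ∧ 1 - σ * w y ≤ 1 / 10 then
        et x h r τ y ^ 2 * (ε ^ 2 * ip (cf U B.g) w w y / 4 + 1 / 800) else 0) := by
    by_cases hs : y ∈ Ss (fun z => 1 - σ * w z) x (r + h)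
    · have hs2 : 1 / 20 ≤ 1 - σ * w y ∧ 1 - σ * w y ≤ 1 / 10 := hs.2
      rw [indicator_of_mem hs, if_pos hs2, fderiv_u hσ dw, div_mul_eq_mul_div, mul_div_assoc]
      refine mul_le_mul ω1 (gain_le C1 P0 ?_ (et_ge h0 τ1 hs.1)) (by positivity) ω0.le
      rw [mul_pow]
      exact (mul_le_mul_of_nonneg_left (r1 _ dw).2 (sq_nonneg h)).trans
        (le_of_eq (by rw [eε]; ring))
    · rw [indicator_of_notMem hs]
      refine mul_nonneg ω0.le ?_
      split_ifs
      · positivity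
      · exact le_rfl
  have g9 := mul_le_mul_of_nonneg_right ω2 (show 0 ≤ 32 *
      ((As (fun z => 1 - σ * w z) x t \ ball x r).indicator (wt x h r) y +
        k * (As (fun z => 1 - σ * w z) x t).indicator (wt x h r) y + τ ^ 2) by
    have := indicator_nonneg (s := As (fun z => 1 - σ * w z) x t \ ball x r)
      (fun z _ => (wt_pos x h r z).le) y
    have := indicator_nonneg (s := As (fun z => 1 - σ * w z) x t)
      (fun z _ => (wt_pos x h r z).le) y
    positivity)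
  rw [ed_eq hB (hU y) hε, ed_eq hB (hU y) hε]
  linarith

theorem ener (hB : B.Ok) (hP : Pen B L m p q) (hS : St B U a β R s') (hε : 0 < ε) (hκ : 0 ≤ κ)
    (hM : Mn B m p q U κ ε w) (hσ : σ = 1 ∨ σ = -1) (hl : 0 < lam) (hh : h = 4 * ε / lam)
    (hR : Rat B.g U C lam (ball x t)) (hC : 1 ≤ C) (ht : 24 * h ≤ t) (hr : r ≤ t / 2)
    (k0 : 0 ≤ k) (k1 : k ≤ 1 / 8)
    (e : ∀ y ∈ ball x t, if σ = 1 then p y = 0 ∧ κ * dens B.g y ≤ lam ^ n / ε * k else q y = 0) :
    Ji (fun z => 1 - σ * w z) x h r ≤ ENNReal.ofReal (25600 * 32 * C ^ (n + 1) *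
      (Ni (fun z => 1 - σ * w z) x t h r + k * Mi (fun z => 1 - σ * w z) x t h r +
        Real.exp (-t / (4 * h)) * (volume (ball x t)).toReal)) := by
  have h0 : 0 < h := by rw [hh]; positivity
  have hU := hS.pos hB
  obtain ⟨τ, hτ⟩ : ∃ τ, τ = Real.exp (-t / (8 * h)) := ⟨_, rfl⟩
  have τ0 : 0 ≤ τ := by rw [hτ]; positivity
  have τ1 : τ ≤ 1 / 4 := by
    rw [hτ, neg_div, Real.exp_neg, inv_le_comm₀ (by positivity) (by norm_num)]
    have : 3 ≤ t / (8 * h) := by rw [le_div_iff₀ (by positivity)]; linarith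
    linarith [Real.add_one_le_exp (t / (8 * h))]
  have τ2 : τ ^ 2 = Real.exp (-t / (4 * h)) := by
    rw [hτ, sq, ← Real.exp_add]; congr 1; ring
  have η0 : ∀ y, 0 ≤ et x h r τ y := fun y => le_max_right _ _
  have η1 : ∀ y, et x h r τ y ≤ 1 := fun y =>
    max_le (by linarith [e0_le_one h0 x r y]) zero_le_one
  have hη : Lip (et x h r τ) := lip_et h0
  have w1 : ∀ y, |cp σ w (et x h r τ) y| ≤ 1 := fun y => cp_le hσ (hM.lt y) (η0 y) (η1 y)
  have w2 : Lip (cp σ w (et x h r τ)) := by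
    have h1 : ∀ y, |et x h r τ y| ≤ 1 := fun y => by rw [abs_of_nonneg (η0 y)]; exact η1 y
    have h2 := hη.mul hη h1 h1
    simp only [← sq] at h2
    refine hM.lip.add (((lip_const σ).sub hM.lip).mul h2 (A := |σ| + 1) (B := 1) (fun y => ?_)
      fun y => ?_)
    · exact (abs_sub _ _).trans (by linarith [hM.lt y])
    · rw [abs_of_nonneg (sq_nonneg _)]; exact pow_le_one₀ (η0 y) (η1 y)
  have hu : Continuous fun z => 1 - σ * w z := continuous_const.sub (continuous_const.mul hM.sm.cont)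
  have key := fun y hy hd => pt hB hP hS hε hκ hM hσ hl hh hR (y := y) (r := r) hy τ0 τ1 k0 k1 hd
    (e y hy)
  generalize (fun z => 1 - σ * w z) = u at hu key ⊢
  obtain ⟨A, hA⟩ : ∃ A, A = lam ^ n / ε / (25600 * C) := ⟨_, rfl⟩
  obtain ⟨D, hD⟩ : ∃ D, D = C ^ n * lam ^ n / ε * 32 := ⟨_, rfl⟩
  have A0 : 0 < A := by rw [hA]; positivity
  have D0 : 0 < D := by rw [hD]; positivity
  rw [← hA, ← hD] at key
  obtain ⟨l, hl'⟩ : ∃ l : E n → ℝ, l = fun y => D * ((As u x t \ ball x r).indicator (wt x h r) y +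
    k * (As u x t).indicator (wt x h r) y + (ball x t).indicator (fun _ => τ ^ 2) y) := ⟨_, rfl⟩
  have m1 := meas_As hu x t
  have m2 := m1.diff (measurableSet_ball (x := x) (ε := r))
  have i1 := (integrable_indicator_iff m1).2 (wt_int (As_sub u x t) h r)
  have i2 := (integrable_indicator_iff m2).2 (wt_int (sdiff_subset.trans (As_sub u x t)) h r)
  have i3 : Integrable ((ball x t).indicator fun _ => τ ^ 2) :=
    (integrable_indicator_iff measurableSet_ball).2 (integrableOn_const measure_ball_lt_top.ne)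
  have l0 : ∀ y, 0 ≤ l y := fun y => by
    have := indicator_nonneg (s := As u x t \ ball x r) (fun z _ => (wt_pos x h r z).le) y
    have := indicator_nonneg (s := As u x t) (fun z _ => (wt_pos x h r z).le) y
    have := indicator_nonneg (s := ball x t) (fun z _ => sq_nonneg τ) y
    rw [hl']; positivity
  have l1 : Integrable l := by
    rw [hl']; exact ((i2.add (i1.const_mul k)).add i3).const_mul D
  have l2 : ∫ y, l y = D * (Ni u x t h r + k * Mi u x t h r + τ ^ 2 * (volume (ball x t)).toReal) := by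
    simp only [hl']
    rw [integral_const_mul, integral_add (i2.fun_add (i1.const_mul k)) i3,
      integral_add i2 (i1.const_mul k), integral_const_mul, integral_indicator m1,
      integral_indicator m2, integral_indicator measurableSet_ball, setIntegral_const,
      smul_eq_mul, mul_comm _ (τ ^ 2)]
    rfl
  have h1 : ∀ᵐ y, ENNReal.ofReal (ed B m p q U κ ε (cp σ w (et x h r τ)) y) +
      (Ss u x (r + h)).indicator (fun y => ENNReal.ofReal A *
        ENNReal.ofReal (h * ‖fderiv ℝ u y‖ + 1)) y ≤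
      ENNReal.ofReal (ed B m p q U κ ε w y) + ENNReal.ofReal (l y) := by
    filter_upwards [hη.ae_diff] with y hd
    by_cases hy : y ∈ ball x t
    · have h2 := key y hy hd
      refine le_trans ?_ ((ENNReal.ofReal_le_ofReal (h2.trans (le_of_eq ?_))).trans
        ENNReal.ofReal_add_le)
      · rw [ENNReal.ofReal_add (ed_nonneg hB hP (hU y) hε hκ (w1 y))
          (indicator_nonneg (fun _ _ => by positivity) y)]
        refine add_le_add le_rfl ?_
        by_cases hs : y ∈ Ss u x (r + h)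
        · rw [indicator_of_mem hs, indicator_of_mem hs, ENNReal.ofReal_mul A0.le]
        · rw [indicator_of_notMem hs]; exact zero_le
      · simp only [hl', indicator_of_mem hy]
    · have h2 : et x h r τ y = 0 := by rw [hτ]; exact et_out h0 hr (by linarith) hy
      have h3 : cp σ w (et x h r τ) y = w y := by simp [cp, h2]
      have h4 : ed B m p q U κ ε (cp σ w (et x h r τ)) y = ed B m p q U κ ε w y := by
        unfold ed
        rw [cp_ip hB.met (hM.sm.diff y) hd, h3, h2]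
        ring
      rw [h4, indicator_of_notMem fun hs => hy (ball_subset_ball (by linarith) hs.1)]
      exact add_le_add le_rfl zero_le
  have h2 := (le_lintegral_add _ _).trans (lintegral_mono_ae h1)
  rw [lintegral_add_right' _ l1.aemeasurable.ennreal_ofReal, lintegral_indicator (meas_Ss hu x _),
    lintegral_const_mul' _ _ ENNReal.ofReal_ne_top,
    ← ofReal_integral_eq_lintegral_ofReal l1 (Eventually.of_forall l0), l2] at h2
  have h3 := (ENNReal.add_le_add_iff_left hM.fin.ne).1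
    ((add_le_add (hM.min _ w2 w1) le_rfl).trans h2)
  have h4 := mul_le_mul_right h3 (ENNReal.ofReal A⁻¹)
  rw [← mul_assoc, ← ENNReal.ofReal_mul (by positivity), inv_mul_cancel₀ A0.ne',
    ENNReal.ofReal_one, one_mul, ← ENNReal.ofReal_mul (by positivity), τ2, ← mul_assoc] at h4
  refine h4.trans (le_of_eq ?_)
  congr 2
  rw [hA, hD]
  field_simp
  ring

end DensH

open DensH in
theorem dens_of (hG : GW) (_ : STWT) : DENS := by
  intro n C
  by_cases hn : 3 ≤ n ∧ 1 ≤ C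
  swap
  · refine ⟨1, one_pos, fun B L m p q U a β R s' hB hP hS κ _ t₀ ht₀ =>
      Eventually.of_forall fun ε w _ σ lam t x _ hl ht hR => ?_⟩
    exact absurd ⟨hB.dim, (rat_bd (by linarith [hB.dim]) (hB.met.cf hS.sm (hS.pos hB)) hl hR
      (mem_ball_self (by linarith))).1⟩ hn
  obtain ⟨hn, hC⟩ := hn
  obtain ⟨k, rfl⟩ : ∃ k, n = k + 1 := ⟨n - 1, by omega⟩
  obtain ⟨c, c0, c1, hc⟩ := core k (by omega) (C₁ := 25600 * 32 * C ^ (k + 1 + 1))
    (by linarith [one_le_pow₀ (n := k + 1 + 1) hC])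
  refine ⟨c, c0, fun B L m p q U a β R s' hB hP hS κ hκ t₀ ht₀ => ?_⟩
  obtain ⟨G, hG⟩ := hG _ B L m p q U a β R s' hB hP hS
  obtain ⟨l₀, l0, hl₀⟩ := lam_low hB hS C
  obtain ⟨X₀, X0, hX⟩ := hc (l₀ / (80 * (|G| + 1))) (by positivity)
  have ev : ∀ᶠ ε in 𝓝[>] (0 : ℝ), ε < min 1 (t₀ * l₀ / (4 * (X₀ + 24))) :=
    nhdsWithin_le_nhds (gt_mem_nhds (by positivity))
  filter_upwards [ev, self_mem_nhdsWithin] with ε ε1 ε0 w hM σ lam t x hσ hl ht hR e hx
  have hε : 0 < ε := ε0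
  have t0 : 0 < t := by linarith
  have l1 := hl₀ lam _ x hl hR (mem_ball_self t0)
  obtain ⟨h, hh⟩ : ∃ h, h = 4 * ε / lam := ⟨_, rfl⟩
  have h0 : 0 < h := by rw [hh]; positivity
  have eε : h * lam = 4 * ε := by rw [hh]; field_simp
  have t1 : (X₀ + 24) * h ≤ t := by
    have h1 := (lt_div_iff₀ (by positivity)).1 (ε1.trans_le (min_le_right _ _))
    have h2 := mul_le_mul ht l1 l0.le t0.le
    refine le_of_mul_le_mul_right ?_ hl
    rw [mul_assoc, eε]
    linarith
  have h1 := hX (fun z => 1 - σ * w z) x t h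
    (contDiff_const.sub (contDiff_const.mul (ContDiff.of_le hM.sm (by norm_cast)))) h0
    (by nlinarith) (fun y hy => ?_) fun r _ hr => ?_
  · refine h1.trans (measure_mono (inter_subset_inter_right _ fun y hy => ?_))
    have : 1 / 10 ≤ 1 - σ * w y := hy
    change σ * w y ≤ 9 / 10
    linarith
  · have h2 : ∀ z, ‖fderiv ℝ w z‖ ≤ (|G| + 1) / ε := fun z => by
      rw [le_div_iff₀' hε]
      linarith [hG ε ⟨hε, (ε1.trans_le (min_le_left _ _)).le⟩ κ hκ w hM z, le_abs_self G]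
    have h3 := convex_univ.norm_image_sub_le_of_norm_fderiv_le (fun z _ => hM.sm.diff z)
      (fun z _ => h2 z) (mem_univ x) (mem_univ y)
    rw [mem_ball, dist_eq_norm] at hy
    have h4 : (|G| + 1) / ε * ‖y - x‖ ≤ 1 / 20 := by
      refine (mul_le_mul_of_nonneg_left hy.le (by positivity)).trans ?_
      have h5 : (|G| + 1) / ε * (l₀ / (80 * (|G| + 1)) * h) = h * l₀ / (80 * ε) := by field_simp
      rw [h5, div_le_iff₀ (by positivity)]
      linarith [mul_le_mul_of_nonneg_left l1 h0.le]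
    obtain ⟨h5, h6⟩ := abs_le.1 (h3.trans h4)
    change 1 / 20 ≤ 1 - σ * w y
    rcases hσ with rfl | rfl <;> linarith
  · refine ener hB hP hS hε hκ.1 hM hσ hl hh hR hC (by nlinarith) hr (by positivity) ?_
      fun y hy => ?_
    · rw [div_le_iff₀ t0]
      nlinarith [mul_le_mul_of_nonneg_right c1 h0.le]
    · have h2 := e y hy
      split_ifs at h2 ⊢
      · refine ⟨h2.1, ?_⟩
        have h3 := h2.2
        rw [Nat.cast_add_one, add_sub_cancel_right, Real.rpow_natCast, ← le_div_iff₀ t0] at h3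
        refine h3.trans ?_
        have h4 : lam ^ (k + 1) / ε * (c * h / t) = 4 * (c * lam ^ k / t) := by
          rw [hh]; field_simp; ring
        have h5 : 0 ≤ c * lam ^ k / t := by positivity
        linarith
      · exact h2

end Vale.Agent.P366Z
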