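import Vale.Agent.P366Z.Int

/-!
# P366Z: the density estimate, the recursion
-/

noncomputable section

namespace Vale.Agent.P366Z.DensH

/-- one step of the recursion -/
def Stp (m : ℕ) (C V κ τ K a a' : ℝ) : Prop := ∃ D W : ℝ, 0 ≤ D ∧ 0 ≤ W ∧ W ≤ V ∧
  a + D / 2 ≤ a' ∧ a' ≤ W + C * (D + κ * a' / K + τ) ∧
    W ^ m ≤ (C * (D + κ * a' / K + τ)) ^ (m + 1) ∧ 0 ≤ κ * a' / K + τ

theorem Stp.le {m : ℕ} {C V κ τ K a a' : ℝ} (h : Stp m C V κ τ K a a') : a ≤ a' := by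
  obtain ⟨D, W, h1, -, -, h2, -⟩ := h
  linarith

theorem Stp.gain {m : ℕ} {C V κ τ K a a' s d : ℝ} (h : Stp m C V κ τ K a a') (hC : 0 < C)
    (hs : 0 < s) (h1 : 2 * s ^ (m + 1) ≤ a') (h2 : d ≤ s ^ (m + 1)) (h3 : d ≤ s ^ m)
    (h4 : κ * a' / K + τ ≤ d / (2 * C)) : a + d / (4 * C) ≤ a' := by
  obtain ⟨D, W, k1, k2, -, k3, k4, k5, k6⟩ := h
  have k7 : d ≤ C * (D + κ * a' / K + τ) := by
    by_contra k8
    have k9 := not_le.1 k8
    have k10 : W ^ m < (s ^ (m + 1)) ^ m := by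
      refine k5.trans_lt ?_
      rw [← pow_mul, mul_comm (m + 1) m, pow_mul]
      exact pow_lt_pow_left₀ (k9.trans_le h3) (mul_nonneg hC.le (by linarith)) (by omega)
    have := lt_of_pow_lt_pow_left₀ m (by positivity) k10
    linarith
  have k8 : C * (κ * a' / K + τ) ≤ d / 2 := by
    refine (mul_le_mul_of_nonneg_left h4 hC.le).trans (le_of_eq ?_)
    field_simp
  have k9 : d / (4 * C) ≤ D / 2 := by
    rw [div_le_iff₀ (by positivity)]
    nlinarith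
  linarith

theorem Stp.gain' {m : ℕ} {C V κ τ K a a' d : ℝ} (h : Stp m C V κ τ K a a') (hC : 0 < C)
    (h1 : V + d ≤ a') (h4 : κ * a' / K + τ ≤ d / (2 * C)) : a + d / (4 * C) ≤ a' := by
  obtain ⟨D, W, k1, k2, k7, k3, k4, -, k6⟩ := h
  have k8 : C * (κ * a' / K + τ) ≤ d / 2 := by
    refine (mul_le_mul_of_nonneg_left h4 hC.le).trans (le_of_eq ?_)
    field_simp
  have k9 : d / (4 * C) ≤ D / 2 := by
    rw [div_le_iff₀ (by positivity)]
    nlinarith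
  linarith

theorem lin_growth {a : ℕ → ℝ} {k₀ : ℕ} {d T : ℝ} (j : ℕ)
    (h : ∀ i < j, a (k₀ + i) ≤ a (k₀ + i + 1) ∧
      (a (k₀ + i + 1) < T → a (k₀ + i) + d ≤ a (k₀ + i + 1))) :
    min T (a k₀ + j * d) ≤ a (k₀ + j) := by
  induction j with
  | zero => simp
  | succ j ih =>
    have h1 := ih fun i hi => h i (by omega)
    obtain ⟨h2, h3⟩ := h j (by omega)
    rw [← add_assoc]
    by_cases h4 : a (k₀ + j + 1) < T
    · have h5 := h3 h4
      rcases min_le_iff.1 h1 with h6 | h6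
      · linarith
      · refine min_le_of_right_le ?_
        push_cast; linarith
    · exact min_le_of_left_le (not_lt.1 h4)

theorem pow_step (m : ℕ) {s θ : ℝ} (hs : 1 ≤ s) (h0 : 0 ≤ θ) (h1 : θ ≤ 1) :
    (s + θ) ^ (m + 1) ≤ s ^ (m + 1) + θ * (m + 1) * (2 ^ m * s ^ m) := by
  have h2 := abs_pow_sub_pow_le (s + θ) s (m + 1)
  rw [add_sub_cancel_left, abs_of_nonneg h0, abs_of_nonneg (by linarith : 0 ≤ s + θ),
    abs_of_nonneg (by linarith : 0 ≤ s), max_eq_left (by linarith), Nat.add_sub_cancel] at h2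
  have h3 : (s + θ) ^ m ≤ 2 ^ m * s ^ m := by
    rw [← mul_pow]; exact pow_le_pow_left₀ (by linarith) (by linarith) m
  have h4 := mul_le_mul_of_nonneg_left h3 (show 0 ≤ θ * (m + 1) by positivity)
  push_cast at h2
  linarith [le_abs_self ((s + θ) ^ (m + 1) - s ^ (m + 1))]

theorem half_add (x : ℝ) {C : ℝ} (hC : 0 < C) : x / (2 * C) = x / (4 * C) + x / (4 * C) := by
  field_simp; ring

variable {m K : ℕ} {C V κ τ : ℝ} {a : ℕ → ℝ}

theorem mono (hS : ∀ k < K, Stp m C V κ τ K (a k) (a (k + 1))) (i j : ℕ) (hj : i + j ≤ K) :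
    a i ≤ a (i + j) := by
  induction j with
  | zero => simp
  | succ j ih => exact (ih (by omega)).trans (hS (i + j) (by omega)).le

theorem phase1 (hS : ∀ k < K, Stp m C V κ τ K (a k) (a (k + 1))) (hC0 : 0 < C) {s₀ : ℝ}
    (s0 : 0 < s₀) (s1 : s₀ ≤ 1) (ha : 2 * s₀ ^ (m + 1) ≤ a 0) {k₁ : ℕ} (hk : k₁ ≤ K)
    (k1 : 8 * C < k₁ * s₀ ^ (m + 1)) (κ0 : 0 ≤ κ) (κ1 : κ ≤ 1)
    (hτ : τ ≤ s₀ ^ (m + 1) / (4 * C)) : 2 ≤ a k₁ := by
  have d1 : s₀ ^ (m + 1) ≤ s₀ ^ m := pow_le_pow_of_le_one s0.le s1 (by omega)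
  have d0 : 0 < s₀ ^ (m + 1) := by positivity
  have K1 : (k₁ : ℝ) ≤ K := by exact_mod_cast hk
  have h1 := lin_growth (a := a) (k₀ := 0) (d := s₀ ^ (m + 1) / (4 * C)) (T := 2) k₁ fun i hi => by
    rw [zero_add]
    have K0 : (0 : ℝ) < K := by exact_mod_cast (by omega : 0 < K)
    refine ⟨(hS i (by omega)).le, fun h2 => (hS i (by omega)).gain hC0 s0 ?_ le_rfl d1 ?_⟩
    · have := mono hS 0 (i + 1) (by omega)
      rw [zero_add] at this
      linarith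
    · have h3 : κ * a (i + 1) / K ≤ s₀ ^ (m + 1) / (4 * C) := by
        rw [div_le_div_iff₀ K0 (by positivity)]
        have h4 : κ * a (i + 1) ≤ 2 := by nlinarith
        have h5 := mul_le_mul_of_nonneg_right h4 (show 0 ≤ 4 * C by positivity)
        have h6 := mul_le_mul_of_nonneg_right K1 d0.le
        linarith
      linarith [half_add (s₀ ^ (m + 1)) hC0]
  rw [zero_add] at h1
  refine le_trans (le_min le_rfl ?_) h1
  have h2 : 2 ≤ k₁ * (s₀ ^ (m + 1) / (4 * C)) := by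
    rw [← mul_div_assoc, le_div_iff₀ (by positivity)]; linarith
  linarith

theorem phase2 (hS : ∀ k < K, Stp m C V κ τ K (a k) (a (k + 1))) (hC0 : 0 < C) {θ : ℝ}
    (θ0 : 0 < θ) (θ1 : θ ≤ 1) (hθ : θ * (8 * C * (m + 1) * 2 ^ m) = 1) {k₁ : ℕ} (k2 : 1 ≤ k₁)
    (ph1 : 2 ≤ a k₁) (κ0 : 0 ≤ κ) (κ3 : κ ≤ 1 / (C * 2 ^ (m + 4))) (τ1 : τ ≤ 1 / (4 * C))
    (j : ℕ) (hj : k₁ + j ≤ K) : 2 * (1 + θ * j) ^ (m + 1) ≤ a (k₁ + j) := by
  induction j with
  | zero => simpa using ph1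
  | succ j ih =>
    have h1 := ih (by omega)
    have h2 := hS (k₁ + j) (by omega)
    have j0 : (0 : ℝ) ≤ j := Nat.cast_nonneg j
    have s2 : 1 ≤ 1 + θ * j := by nlinarith
    have s3 : 1 + θ * j ≤ K := by
      have : (1 : ℝ) + j ≤ K := by exact_mod_cast (by omega : 1 + j ≤ K)
      nlinarith
    have e : 1 + θ * ((j + 1 : ℕ) : ℝ) = 1 + θ * j + θ := by push_cast; ring
    rw [e, ← add_assoc]
    generalize 1 + θ * j = s at h1 s2 s3
    by_contra h3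
    have h4 := not_le.1 h3
    have s4 : (1 : ℝ) ≤ s ^ m := one_le_pow₀ s2
    have s0 : 0 < s := by linarith
    have h5 : (s + θ) ^ (m + 1) ≤ 2 ^ (m + 1) * s ^ (m + 1) := by
      rw [← mul_pow]; exact pow_le_pow_left₀ (by linarith) (by linarith) _
    have h7 : κ * a (k₁ + j + 1) / K ≤ s ^ m / (4 * C) := by
      rw [div_le_div_iff₀ (by linarith) (by positivity)]
      have h8 : κ * a (k₁ + j + 1) ≤ 1 / (C * 2 ^ (m + 4)) * (2 * (2 ^ (m + 1) * s ^ (m + 1))) :=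
        (mul_le_mul_of_nonneg_left (by linarith) κ0).trans
          (mul_le_mul_of_nonneg_right κ3 (by positivity))
      have h9 : 1 / (C * 2 ^ (m + 4)) * (2 * (2 ^ (m + 1) * s ^ (m + 1))) * (4 * C) =
          s ^ m * s := by field_simp; ring
      have h10 := mul_le_mul_of_nonneg_right h8 (show 0 ≤ 4 * C by positivity)
      rw [h9] at h10
      exact h10.trans (mul_le_mul_of_nonneg_left s3 (by positivity))
    have h8 : 1 / (4 * C) ≤ s ^ m / (4 * C) := div_le_div_of_nonneg_right s4 (by positivity)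
    have h6 := h2.gain hC0 (s := s) (d := s ^ m) s0 (h1.trans h2.le)
      (pow_le_pow_right₀ s2 (by omega)) le_rfl (by linarith [half_add (s ^ m) hC0])
    have h9 := pow_step m s2 θ0.le θ1
    have h10 : 2 * (θ * (m + 1) * (2 ^ m * s ^ m)) = s ^ m / (4 * C) := by
      rw [eq_div_iff (by positivity)]
      linear_combination s ^ m * hθ
    linarith

theorem phase3 (hS : ∀ k < K, Stp m C V κ τ K (a k) (a (k + 1))) (hC0 : 0 < C) {Ω γ P : ℝ}
    (hΩ : 0 < Ω) (γ0 : 0 < γ) (P1 : K ≤ P) {k l : ℕ} (hl : k + l = K) (l1 : K ≤ 2 * l)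
    (g1 : 8 * C * Ω + 1 < K * γ) (hΩ' : ∀ k ≤ K, a k ≤ Ω * P) (h1 : 2 * (γ * P) ≤ a k)
    (κ0 : 0 ≤ κ) (κ1 : κ ≤ 1) (τ1 : τ ≤ 1 / (4 * C)) : γ * P ≤ V := by
  by_contra hV
  have hV' := not_le.1 hV
  have g0 : 0 < C * Ω := mul_pos hC0 hΩ
  have K0 : (0 : ℝ) < K := by
    by_contra h0
    have := mul_nonpos_of_nonpos_of_nonneg (not_lt.1 h0) γ0.le
    linarith
  have P0 : 0 < P := by linarith
  have l2 : (K : ℝ) ≤ 2 * l := by exact_mod_cast l1
  have h2 := lin_growth (a := a) (k₀ := k) (d := γ * P / (4 * C)) (T := Ω * P + 1) l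
    fun i hi => by
      refine ⟨(hS _ (by omega)).le, fun _ => (hS _ (by omega)).gain' hC0 ?_ ?_⟩
      · have := mono hS k (i + 1) (by omega)
        rw [← add_assoc] at this
        linarith
      · have h3 : κ * a (k + i + 1) / K ≤ γ * P / (4 * C) := by
          rw [div_le_div_iff₀ K0 (by positivity)]
          have h4 : κ * a (k + i + 1) ≤ Ω * P :=
            (mul_le_mul_of_nonneg_left (hΩ' _ (by omega)) κ0).trans
              (mul_le_of_le_one_left (by positivity) κ1)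
          have h5 := mul_le_mul_of_nonneg_right h4 (show 0 ≤ 4 * C by positivity)
          have h6 : Ω * (4 * C) ≤ γ * K := by linarith
          have h7 := mul_le_mul_of_nonneg_right h6 P0.le
          linarith
        have h4 : 1 / (4 * C) ≤ γ * P / (4 * C) := by
          refine div_le_div_of_nonneg_right ?_ (by positivity)
          have := mul_le_mul_of_nonneg_right P1 γ0.le
          linarith
        linarith [half_add (γ * P) hC0]
  rw [hl] at h2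
  have h3 := hΩ' K le_rfl
  rcases min_le_iff.1 h2 with h4 | h4
  · linarith
  · have h5 : Ω * P < l * (γ * P / (4 * C)) := by
      rw [← mul_div_assoc, lt_div_iff₀ (by positivity)]
      have h6 : Ω * (4 * C) < l * γ := by
        have := mul_le_mul_of_nonneg_right l2 γ0.le
        linarith
      have h7 := mul_lt_mul_of_pos_right h6 P0
      linarith
    linarith [mul_pos γ0 P0]

theorem seq_lem (m : ℕ) {C Ω : ℝ} (hC : 1 ≤ C) (hΩ : 0 < Ω) : ∃ c > (0 : ℝ), c ≤ 1 ∧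
    ∀ β > (0 : ℝ), ∃ K₀ : ℕ, ∃ τ₀ > (0 : ℝ), ∀ (K : ℕ) (a : ℕ → ℝ) (V κ τ : ℝ), K₀ ≤ K →
      0 ≤ κ → κ ≤ c → τ ≤ τ₀ → β ≤ a 0 → (∀ k ≤ K, a k ≤ Ω * K ^ (m + 1)) →
      (∀ k < K, Stp m C V κ τ K (a k) (a (k + 1))) → c * K ^ (m + 1) ≤ V := by
  have hC0 : 0 < C := by linarith
  have p2 : (1 : ℝ) ≤ 2 ^ m := one_le_pow₀ (by norm_num)
  have pm : (1 : ℝ) ≤ m + 1 := by linarith [(Nat.cast_nonneg m : (0 : ℝ) ≤ m)]
  obtain ⟨θ, θ0, θ1, hθ⟩ : ∃ θ : ℝ, 0 < θ ∧ θ ≤ 1 ∧ θ * (8 * C * (m + 1) * 2 ^ m) = 1 := by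
    refine ⟨1 / (8 * C * (m + 1) * 2 ^ m), by positivity, ?_, by field_simp⟩
    rw [div_le_one (by positivity)]
    have := one_le_mul_of_one_le_of_one_le pm p2
    nlinarith
  have γ0 : 0 < (θ / 4) ^ (m + 1) := by positivity
  have γ1 : (θ / 4) ^ (m + 1) ≤ 1 := pow_le_one₀ (by positivity) (by linarith)
  refine ⟨min ((θ / 4) ^ (m + 1)) (1 / (C * 2 ^ (m + 4))), by positivity, min_le_of_left_le γ1,
    fun β hβ => ?_⟩
  obtain ⟨s₀, s0, s1, s2⟩ : ∃ s₀ : ℝ, 0 < s₀ ∧ s₀ ≤ 1 ∧ s₀ ≤ β / 2 :=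
    ⟨min 1 (β / 2), by positivity, min_le_left _ _, min_le_right _ _⟩
  have d0 : 0 < s₀ ^ (m + 1) := by positivity
  have d2 : s₀ ^ (m + 1) ≤ 1 := pow_le_one₀ s0.le s1
  have d3 : s₀ ^ (m + 1) ≤ s₀ := pow_le_of_le_one s0.le s1 (by omega)
  obtain ⟨k₁, hk₁⟩ := exists_nat_gt (8 * C / s₀ ^ (m + 1))
  obtain ⟨k₃, hk₃⟩ := exists_nat_gt ((8 * C * Ω + 1) / (θ / 4) ^ (m + 1))
  have k2 : 1 ≤ k₁ := by exact_mod_cast (show (0 : ℝ) < k₁ from lt_trans (by positivity) hk₁)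
  refine ⟨4 * k₁ + 4 + k₃, s₀ ^ (m + 1) / (4 * C), by positivity,
    fun K a V κ τ hK κ0 κ1 hτ ha0 hΩ' hS => ?_⟩
  have κ2 : κ ≤ 1 := κ1.trans (min_le_of_left_le γ1)
  have K3 : (k₃ : ℝ) ≤ K := by exact_mod_cast (by omega : k₃ ≤ K)
  have K0 : (1 : ℝ) ≤ K := by exact_mod_cast (by omega : 1 ≤ K)
  have τ1 : τ ≤ 1 / (4 * C) := hτ.trans (div_le_div_of_nonneg_right d2 (by positivity))
  have ph1 := phase1 hS hC0 s0 s1 (by linarith) (by omega : k₁ ≤ K) ((div_lt_iff₀ d0).1 hk₁)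
    κ0 κ2 hτ
  obtain ⟨j, hj⟩ : ∃ j, k₁ + j = K / 2 := ⟨K / 2 - k₁, by omega⟩
  obtain ⟨l, hl⟩ : ∃ l, k₁ + j + l = K := ⟨K - K / 2, by omega⟩
  have ph2 := phase2 hS hC0 θ0 θ1 hθ k2 ph1 κ0 (κ1.trans (min_le_right _ _)) τ1 j (by omega)
  have j1 : (K : ℝ) ≤ 4 * j := by exact_mod_cast (by omega : K ≤ 4 * j)
  refine (mul_le_mul_of_nonneg_right (min_le_left _ _) (by positivity)).trans
    (phase3 hS hC0 hΩ γ0 (le_self_pow₀ K0 (by omega)) hl (by omega) ?_ hΩ' (le_trans ?_ ph2)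
      κ0 κ2 τ1)
  · exact ((div_lt_iff₀ γ0).1 hk₃).trans_le (mul_le_mul_of_nonneg_right K3 γ0.le)
  · rw [← mul_pow]
    refine mul_le_mul_of_nonneg_left (pow_le_pow_left₀ (by positivity) ?_ _) (by norm_num)
    have := mul_le_mul_of_nonneg_left j1 θ0.le
    linarith

end Vale.Agent.P366Z.DensH
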