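import Vale.Agent.P366Z.Sk
import Vale.Agent.P366Z.Int

/-!
# P366Z, row EX: the quadratic majorant of the energy
-/

open MeasureTheory Metric Filter Topology Set
open scoped ContDiff ENNReal NNReal
open Vale.Agent.P366.Stmt

noncomputable section

namespace Vale.Agent.P366Z.ExA

variable {n : ℕ}

/-- the potential -/
def G0 (α p q μ t : ℝ) : ℝ := α * (Wp t + p * (1 + t) ^ 2 + q * (1 - t) ^ 2) + μ * Ph t

/-- the derivative of the potential -/
def f0 (α p q μ t : ℝ) : ℝ :=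
  α * (-2 * t * (1 - t ^ 2) + 2 * p * (1 + t) - 2 * q * (1 - t)) + μ * (1 - t ^ 2)

/-- the bounds of the coefficients -/
structure Co (α p q μ L : ℝ) : Prop where
  α0 : 0 ≤ α
  p0 : 0 ≤ p ∧ p ≤ 4
  q0 : 0 ≤ q ∧ q ≤ 4
  μ0 : 0 ≤ μ
  big : 20 * α + 2 * μ ≤ L

variable {α p q μ L s t : ℝ}

theorem Co.L0 (h : Co α p q μ L) : 0 ≤ L := by linarith [h.α0, h.μ0, h.big]

theorem Co.nonneg (h : Co α p q μ L) (ht : |t| ≤ 1) : 0 ≤ G0 α p q μ t := by
  obtain ⟨t1, t2⟩ := abs_le.1 ht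
  have h1 : 0 ≤ Ph t := by
    have : Ph t = (1 + t) ^ 2 * (2 - t) / 3 := by unfold Ph; ring
    rw [this]; exact div_nonneg (mul_nonneg (sq_nonneg _) (by linarith)) (by norm_num)
  have h2 : 0 ≤ Wp t := by unfold Wp; positivity
  have := h.α0; have := h.p0.1; have := h.q0.1; have := h.μ0
  unfold G0; positivity

theorem Co.rem (h : Co α p q μ L) (hs : |s| ≤ 1) (ht : |t| ≤ 1) :
    |G0 α p q μ t - G0 α p q μ s - f0 α p q μ s * (t - s)| ≤ L / 2 * (t - s) ^ 2 := by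
  obtain ⟨t1, t2⟩ := abs_le.1 ht
  obtain ⟨s1, s2⟩ := abs_le.1 hs
  have e : G0 α p q μ t - G0 α p q μ s - f0 α p q μ s * (t - s) =
      (α * (-1 + (t ^ 2 + 2 * t * s + 3 * s ^ 2) / 2 + p + q) - μ * ((t + 2 * s) / 3)) *
        (t - s) ^ 2 := by
    unfold G0 f0 Wp Ph; ring
  rw [e, abs_mul, abs_of_nonneg (sq_nonneg (t - s))]
  refine mul_le_mul_of_nonneg_right ?_ (sq_nonneg _)
  have a1 : t ^ 2 + 2 * t * s + 3 * s ^ 2 ≤ 6 := by nlinarith
  have a2 : 0 ≤ t ^ 2 + 2 * t * s + 3 * s ^ 2 := by nlinarith [sq_nonneg (t + s), sq_nonneg s]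
  have b1 : α * (-1 + (t ^ 2 + 2 * t * s + 3 * s ^ 2) / 2 + p + q) ≤ α * 10 :=
    mul_le_mul_of_nonneg_left (by linarith [h.p0.2, h.q0.2]) h.α0
  have b2 : α * (-10) ≤ α * (-1 + (t ^ 2 + 2 * t * s + 3 * s ^ 2) / 2 + p + q) :=
    mul_le_mul_of_nonneg_left (by linarith [h.p0.1, h.q0.1]) h.α0
  have b3 : μ * ((t + 2 * s) / 3) ≤ μ * 1 := mul_le_mul_of_nonneg_left (by linarith) h.μ0
  have b4 : μ * (-1) ≤ μ * ((t + 2 * s) / 3) := mul_le_mul_of_nonneg_left (by linarith) h.μ0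
  rw [abs_le]; constructor <;> linarith [h.big]

theorem Co.phi (h : Co α p q μ L) (hs : |s| ≤ 1) : |L * s - f0 α p q μ s| ≤ L := by
  obtain ⟨s1, s2⟩ := abs_le.1 hs
  have h1 : 0 ≤ 1 - s := by linarith
  have h2 : 0 ≤ 1 + s := by linarith
  have a1 : -(12 * (1 - s)) ≤ -2 * s * (1 - s ^ 2) + 2 * p * (1 + s) - 2 * q * (1 - s) := by
    have := mul_nonneg h.p0.1 h2
    have := mul_nonneg (sub_nonneg.2 h.q0.2) h1
    have := mul_nonneg h1 (show 0 ≤ 2 - s * (1 + s) by nlinarith)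
    nlinarith
  have a2 : -2 * s * (1 - s ^ 2) + 2 * p * (1 + s) - 2 * q * (1 - s) ≤ 12 * (1 + s) := by
    have := mul_nonneg h.q0.1 h1
    have := mul_nonneg (sub_nonneg.2 h.p0.2) h2
    have := mul_nonneg h2 (show 0 ≤ 2 + s * (1 - s) by nlinarith)
    nlinarith
  have b1 := mul_le_mul_of_nonneg_left a1 h.α0
  have b2 := mul_le_mul_of_nonneg_left a2 h.α0
  have c1 := mul_nonneg h.μ0 (mul_nonneg h1 h2)
  have c2 := mul_nonneg h.μ0 (mul_nonneg h2 h2)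
  have d1 := mul_le_mul_of_nonneg_right h.big h1
  have d2 := mul_le_mul_of_nonneg_right h.big h2
  have e1 := mul_nonneg h.α0 h1
  have e2 := mul_nonneg h.α0 h2
  have e3 := mul_nonneg h.μ0 h1
  unfold f0
  rw [abs_le]; constructor <;> nlinarith

theorem pow_split {θ A : ℝ} (h0 : 0 ≤ θ) (hA : 0 < A) (m : ℕ) :
    θ ^ m ≤ A * θ ^ (m + 1) + (A ^ m)⁻¹ := by
  rcases le_total 1 (A * θ) with h | h
  · have : θ ^ m * 1 ≤ θ ^ m * (A * θ) := mul_le_mul_of_nonneg_left h (by positivity)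
    have h2 : 0 ≤ (A ^ m)⁻¹ := by positivity
    rw [pow_succ]; nlinarith
  · have h1 : θ ≤ A⁻¹ := by rw [inv_eq_one_div, le_div_iff₀ hA]; linarith
    have h2 : θ ^ m ≤ (A ^ m)⁻¹ := by rw [← inv_pow]; exact pow_le_pow_left₀ h0 h1 m
    have h3 : 0 ≤ A * θ ^ (m + 1) := by positivity
    linarith

/-- the pointwise inequality -/
theorem pt {u l v w z a b c d ψ ψ' δ τ η W K : ℝ} (h : Co α p q μ (u * l)) (hu : 0 ≤ u)
    (hl : 1 ≤ l) (hv : |v| ≤ 1) (hw : |w| ≤ 1) (hz : |z| ≤ 1) (hη : ψ * |v - w| ≤ η)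
    (ha : 0 ≤ a) (haK : a ≤ K) (hb : a + 2 * c ≤ b) (hψ : 0 ≤ ψ) (hδ : 0 ≤ δ) (hδ1 : δ ≤ 1)
    (hτ : 0 ≤ τ) (hd : |ψ' * d| ≤ (δ * ψ + τ) * √a)
    (hW : W = u * l * (z - w) + f0 α p q μ w) :
    ψ * (1 - δ) * (u * a / 2 + G0 α p q μ z + u * (w - z) ^ 2 / 2) +
      (ψ * (v - z) * W + u * ((v - z) * (ψ' * d) + ψ * c)) ≤
      ψ * (u * b / 2 + G0 α p q μ v) + (4 * (u * l) * η + u * τ * (2 + K)) := by
  have r1 := (abs_le.1 (h.rem hw hz)).2
  have r2 := (abs_le.1 (h.rem hw hv)).1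
  have g0 := h.nonneg hz
  have L0 := h.L0
  obtain ⟨v1, v2⟩ := abs_le.1 hv
  obtain ⟨w1, w2⟩ := abs_le.1 hw
  obtain ⟨z1, z2⟩ := abs_le.1 hz
  have hs := Real.sq_sqrt ha
  have e1 : (v - z) * (ψ' * d) ≤ (δ * ψ + τ) * (((v - z) ^ 2 + a) / 2) := by
    have h1 : (v - z) * (ψ' * d) ≤ |v - z| * ((δ * ψ + τ) * √a) :=
      (le_abs_self _).trans (by
        rw [abs_mul]; exact mul_le_mul_of_nonneg_left hd (abs_nonneg _))
    have h2 : |v - z| * √a ≤ ((v - z) ^ 2 + a) / 2 := by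
      nlinarith [sq_nonneg (|v - z| - √a), sq_abs (v - z)]
    have h3 := mul_le_mul_of_nonneg_left h2 (show 0 ≤ δ * ψ + τ by positivity)
    linarith
  have e2 : τ * (((v - z) ^ 2 + a) / 2) ≤ τ * (2 + K) :=
    mul_le_mul_of_nonneg_left (by nlinarith) hτ
  have e3 : ψ * (v - w) ^ 2 ≤ 2 * η := by
    have h1 : (v - w) ^ 2 ≤ 2 * |v - w| := by
      rw [← sq_abs]; have : |v - w| ≤ 2 := abs_le.2 ⟨by linarith, by linarith⟩
      nlinarith [abs_nonneg (v - w)]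
    have := mul_le_mul_of_nonneg_left h1 hψ
    linarith
  have e4 : ψ * (w - z) ^ 2 ≤ ψ * (v - z) ^ 2 + 4 * η := by
    have h1 : (w - z) ^ 2 - (v - z) ^ 2 ≤ 4 * |v - w| := by
      have h2 : (w - z) ^ 2 - (v - z) ^ 2 = -((v - w) * (v + w - 2 * z)) := by ring
      have h3 : |v + w - 2 * z| ≤ 4 := abs_le.2 ⟨by linarith, by linarith⟩
      rw [h2]
      refine (neg_le_abs _).trans ?_
      rw [abs_mul, mul_comm]
      exact mul_le_mul_of_nonneg_right h3 (abs_nonneg _)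
    have := mul_le_mul_of_nonneg_left h1 hψ
    linarith
  have η0 : 0 ≤ η := le_trans (by positivity) hη
  have e5 : (v - z) * (ψ' * d) ≤ δ * ψ * (((v - z) ^ 2 + a) / 2) + τ * (2 + K) := by
    linarith
  have f1 := mul_le_mul_of_nonneg_left e5 hu
  have f2 := mul_le_mul_of_nonneg_left r1 hψ
  have f3 := mul_le_mul_of_nonneg_left r2 hψ
  have f4 := mul_le_mul_of_nonneg_left e3 L0
  have f5 := mul_le_mul_of_nonneg_left e4 (mul_nonneg hu (sub_nonneg.2 hδ1))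
  have f6 := mul_le_mul_of_nonneg_left hb (mul_nonneg hψ hu)
  have f7 := mul_nonneg (mul_nonneg hψ hδ) g0
  have f8 := mul_nonneg (mul_nonneg (mul_nonneg hψ hu) (sub_nonneg.2 hl)) (sq_nonneg (v - z))
  have f9 := mul_nonneg (mul_nonneg hu hδ) η0
  have f10 := mul_nonneg (mul_nonneg hu (sub_nonneg.2 hl)) η0
  subst hW
  generalize G0 α p q μ z = Gz at *
  generalize G0 α p q μ v = Gv at *
  generalize G0 α p q μ w = Gw at *
  generalize f0 α p q μ w = fw at *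
  generalize ψ' * d = d' at *
  linarith only [f1, f2, f3, f4, f5, f6, f7, f8, f9, f10]

theorem lint_le {A D B : E n → ℝ} {c R : ℝ} (hA : Integrable A) (h0 : ∀ x, 0 ≤ A x)
    (hD : Integrable D) (hD0 : ∫ x, D x = 0)
    (h : ∀ᵐ x, A x + D x ≤ B x + (ball (0 : E n) R).indicator (fun _ => c) x) :
    ∫⁻ x, ENNReal.ofReal (A x) ≤
      (∫⁻ x, ENNReal.ofReal (B x)) + ENNReal.ofReal c * volume (ball (0 : E n) R) := by
  have h1 : ∫⁻ x, ENNReal.ofReal (A x) = ENNReal.ofReal (∫ x, (A x + D x)) := by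
    rw [integral_add hA hD, hD0, add_zero,
      ofReal_integral_eq_lintegral_ofReal hA (Eventually.of_forall h0)]
  have h2 : ENNReal.ofReal (∫ x, (A x + D x)) ≤ ∫⁻ x, ENNReal.ofReal (A x + D x) := by
    rw [integral_eq_lintegral_pos_part_sub_lintegral_neg_part (f := fun x => A x + D x)
      (hA.add hD)]
    refine (ENNReal.ofReal_le_ofReal (sub_le_self _ ENNReal.toReal_nonneg)).trans ?_
    exact ENNReal.ofReal_toReal_le
  rw [h1]
  refine h2.trans ?_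
  rw [← lintegral_indicator_const measurableSet_ball]
  have h3 : Measurable ((ball (0 : E n) R).indicator fun _ => ENNReal.ofReal c) :=
    measurable_const.indicator measurableSet_ball
  rw [← lintegral_add_right _ h3]
  refine lintegral_mono_ae (h.mono fun x hx => (ENNReal.ofReal_le_ofReal hx).trans ?_)
  refine ENNReal.ofReal_add_le.trans (add_le_add le_rfl ?_)
  by_cases e : x ∈ ball (0 : E n) R <;> simp [e]

end Vale.Agent.P366Z.ExA
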