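import Vale.Agent.P366Z.Ex1

/-!
# P366Z, row EX: one step of the iteration lowers the energy
-/

open MeasureTheory Metric Filter Topology Set
open scoped ContDiff ENNReal NNReal
open Vale.Agent.P366.Stmt

noncomputable section

namespace Vale.Agent.P366Z.ExA

variable {n : ℕ}

/-- the data -/
structure Dt (g : Field n) (U α p q μ : E n → ℝ) (ρ ε l C Λ : ℝ) : Prop where
  n0 : 0 < n
  met : Met g
  flat : Flat g ρ
  ell : Ell g Λ
  smU : Smooth U
  ε0 : 0 < ε
  l1 : 1 ≤ l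
  uC : ∀ x, ε * U x ^ 2 ≤ C
  co : ∀ x, Co (α x) (p x) (q x) (μ x) (ε * U x ^ 2 * l)
  cα : Continuous α
  cp : Continuous p
  cq : Continuous q
  cμ : Continuous μ

/-- the density of the energy -/
def ed (g : Field n) (U α p q μ : E n → ℝ) (ε : ℝ) (w : E n → ℝ) (x : E n) : ℝ :=
  ε * U x ^ 2 * ip g w w x / 2 + G0 (α x) (p x) (q x) (μ x) (w x)

variable {g : Field n} {U α p q μ z w v ψ : E n → ℝ} {ρ ε l C Λ : ℝ}

theorem Dt.ed_nonneg (h : Dt g U α p q μ ρ ε l C Λ) {x : E n} (w1 : |w x| ≤ 1) :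
    0 ≤ ed g U α p q μ ε w x := by
  have := h.ε0
  have := h.met.ip_nonneg w x
  have := (h.co x).nonneg w1
  unfold ed; positivity

theorem Dt.cont_ed (h : Dt g U α p q μ ρ ε l C Λ) (hz : ContDiff ℝ 2 z) :
    Continuous (ed g U α p q μ ε z) := by
  have h1 := h.met.cont_ip (hz.of_le one_le_two) (hz.of_le one_le_two)
  have := h.cα; have := h.cp; have := h.cq; have := h.cμ; have := h.smU.cont
  have := hz.continuous
  unfold ed G0 Wp Ph
  fun_prop

theorem Dt.maj1 (h : Dt g U α p q μ ρ ε l C Λ) (hz : ContDiff ℝ 2 z) (zL : Lip z)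
    (z1 : ∀ x, |z x| ≤ 1) {K R δ τ : ℝ} (zK : ∀ x, ip g z z x ≤ K) (hw : Continuous w)
    (w1 : ∀ x, |w x| ≤ 1) (eq : ∀ x, ε * wl g U z x =
      ε * U x ^ 2 * l * (z x - w x) + f0 (α x) (p x) (q x) (μ x) (w x))
    (hv : Lip v) (v1 : ∀ x, |v x| ≤ 1) (hψ : Smooth ψ) (ψ0 : ∀ x, 0 ≤ ψ x ∧ ψ x ≤ 1) (hR : 0 < R)
    (ψR : ∀ x, R ≤ ‖x‖ → ψ x = 0) (hδ : 0 ≤ δ) (hδ1 : δ ≤ 1) (hτ : 0 ≤ τ)
    (hd : ∀ x, gn g ψ x ≤ δ * ψ x + τ) (hvw : ∀ x, ‖x‖ < 2 * R → |v x - w x| ≤ τ) :
    ∫⁻ x, ENNReal.ofReal (ψ x * (1 - δ) *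
      (ed g U α p q μ ε z x + ε * U x ^ 2 * (w x - z x) ^ 2 / 2) * dens g x) ≤
    (∫⁻ x, ENNReal.ofReal (ed g U α p q μ ε v x * dens g x)) +
      ENNReal.ofReal (C * (4 * l + 2 + K) * τ * Λ) * volume (ball (0 : E n) (2 * R)) := by
  have hg := h.met
  have ε0 := h.ε0
  have cU := h.smU.cont
  have cz := hz.continuous
  have cd := hg.sm_dens.cont
  have U1 : ContDiff ℝ 1 U := ContDiff.of_le h.smU (by norm_cast)
  have φL : Lip fun x => ψ x * (v x - z x) :=
    (lip_of_const hψ (R := R) fun y hy => ψR y hy.le).mul (hv.sub zL) (A := 1) (B := 2)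
      (fun x => by rw [abs_of_nonneg (ψ0 x).1]; exact (ψ0 x).2) fun x =>
        (abs_sub _ _).trans (by linarith [v1 x, z1 x])
  have φR : ∀ x, R ≤ ‖x‖ → ψ x * (v x - z x) = 0 := fun x hx => by rw [ψR x hx, zero_mul]
  have i1 : Integrable fun x => ψ x * (v x - z x) * wl g U z x * dens g x :=
    integrable_of_out ((φL.cont.mul (hg.cont_wl U1 hz)).mul cd) (R := R) fun y hy => by
      rw [φR y hy, zero_mul, zero_mul]
  have i2 : Integrable fun x => U x ^ 2 * ip g (fun x => ψ x * (v x - z x)) z x * dens g x := by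
    refine (integrable_finsetSum Finset.univ fun i _ => φL.integrable_pd φR
      (f := fun x => U x ^ 2 * gr g z i x * dens g x)
      (((cU.pow 2).mul (hg.contDiff_gr hz i).continuous).mul cd) i).congr
      (Eventually.of_forall fun x => ?_)
    simp only [ip_eq_gr, Finset.mul_sum, Finset.sum_mul]
    exact Finset.sum_congr rfl fun i _ => by ring
  refine lint_le (D := fun x => ε * (ψ x * (v x - z x) * wl g U z x * dens g x +
    U x ^ 2 * ip g (fun x => ψ x * (v x - z x)) z x * dens g x)) ?_ (fun x => ?_)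
    ((i1.add i2).const_mul ε) ?_ ?_
  · have := h.cont_ed hz
    have := hψ.cont
    exact integrable_of_out (by fun_prop) (R := R) fun y hy => by simp [ψR y hy]
  · have := h.ed_nonneg (z1 x)
    have := (ψ0 x).1
    have := dens_nonneg g x
    have := sub_nonneg.2 hδ1
    positivity
  · rw [integral_const_mul, integral_add i1 i2, hg.ibp_wl φL (supp_of_out φR) U1 hz]
    simp
  filter_upwards [hv.ae_diff] with x dv
  have dz : DifferentiableAt ℝ z x := hz.differentiable (by norm_num) x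
  have d0 := dens_nonneg g x
  have e0 := h.ed_nonneg (v1 x)
  by_cases hx : x ∈ ball (0 : E n) (2 * R)
  swap
  · have h1 : R < ‖x‖ := by
      have : 2 * R ≤ ‖x‖ := by simpa using hx
      linarith
    have h2 : ip g (fun x => ψ x * (v x - z x)) z x = 0 := by
      unfold ip; simp [pd_zero_of_out φR h1]
    rw [indicator_of_notMem hx, h2, ψR x h1.le]
    have := mul_nonneg e0 d0
    simpa using this
  rw [indicator_of_mem hx, ip_mul_left (hψ.diff x) (dv.fun_sub dz)]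
  have s1 : ∀ i, pd i (fun y => v y - z y) x = 1 * pd i v x + -1 * pd i z x := fun i => by
    rw [pd_sub dv dz]; ring
  have hb : ip g z z x + 2 * ip g (fun y => v y - z y) z x ≤ ip g v v x := by
    have h1 := hg.ip_nonneg (fun y => v y - z y) x
    rw [ip_of_pd_add s1, ip_of_pd_add' s1, ip_of_pd_add' s1, hg.ip_sy z v] at h1
    rw [ip_of_pd_add s1]
    linarith
  have u0 : 0 ≤ ε * U x ^ 2 := by positivity
  have K0 : 0 ≤ K := (hg.ip_nonneg z x).trans (zK x)
  have k := pt (ψ' := 1) (d := ip g ψ z x) (η := τ) (h.co x) u0 h.l1 (v1 x) (w1 x) (z1 x)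
    ((mul_le_of_le_one_left (abs_nonneg _) (ψ0 x).2).trans (hvw x (by simpa using hx)))
    (hg.ip_nonneg z x) (zK x) hb (ψ0 x).1 hδ hδ1 hτ (by
      rw [one_mul]
      exact (hg.abs_ip_le ψ z x).trans (mul_le_mul_of_nonneg_right (hd x) (gn_nonneg _ _ _)))
    (eq x)
  have k1 := mul_le_mul_of_nonneg_right k d0
  have k2 := mul_le_of_le_one_left (mul_nonneg e0 d0) (ψ0 x).2
  have l0 : 0 ≤ 4 * l + 2 + K := by linarith [h.l1]
  have k3 : ε * U x ^ 2 * ((4 * l + 2 + K) * τ) * dens g x ≤ C * ((4 * l + 2 + K) * τ) * Λ :=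
    mul_le_mul (mul_le_mul_of_nonneg_right (h.uC x) (by positivity)) (h.ell.dens_hi x) d0
      (mul_nonneg (u0.trans (h.uC x)) (by positivity))
  unfold ed at *
  linarith

/-- the step lowers the energy -/
theorem Dt.maj (h : Dt g U α p q μ ρ ε l C Λ) (hz : ContDiff ℝ 2 z) (zL : Lip z)
    (z1 : ∀ x, |z x| ≤ 1) (hw : Continuous w) (w1 : ∀ x, |w x| ≤ 1) (eq : ∀ x, ε * wl g U z x =
      ε * U x ^ 2 * l * (z x - w x) + f0 (α x) (p x) (q x) (μ x) (w x)) {I : ℝ≥0∞}
    (hI : ∀ R : ℝ, ∀ η > (0 : ℝ), ∃ v, Lip v ∧ (∀ x, |v x| ≤ 1) ∧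
      (∀ x, ‖x‖ < R → |v x - w x| ≤ η) ∧
      ∫⁻ x, ENNReal.ofReal (ed g U α p q μ ε v x * dens g x) ≤ I + ENNReal.ofReal η) :
    ∫⁻ x, ENNReal.ofReal
      ((ed g U α p q μ ε z x + ε * U x ^ 2 * (w x - z x) ^ 2 / 2) * dens g x) ≤ I := by
  have hg := h.met
  obtain ⟨K, K0, hK⟩ := zL.gn_bd hg h.flat
  have zK : ∀ x, ip g z z x ≤ K ^ 2 := fun x => by
    rw [← hg.gn_sq]; exact pow_le_pow_left₀ (gn_nonneg _ _ _) (hK x) 2
  obtain ⟨C₁, C0, hC⟩ := fderiv_cut n
  have Λ0 : 0 < Λ := one_pos.trans_le h.ell.one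
  have c0 : 0 ≤ C := le_trans (by have := h.ε0; positivity) (h.uC 0)
  have l0 : 0 ≤ l := zero_le_one.trans h.l1
  have ω0 := omega_pos h.n0
  obtain ⟨D, hD⟩ : ∃ D : ℝ, D = (2 * n + 1 : ℕ) * (Λ * C₁) := ⟨_, rfl⟩
  have D0 : 0 < D := by rw [hD]; positivity
  obtain ⟨c, hc⟩ : ∃ c, c = C * (4 * l + 2 + K ^ 2) := ⟨_, rfl⟩
  have c1 : 0 ≤ c := by rw [hc]; positivity
  have key : ∀ᶠ A : ℝ in atTop, ∫⁻ x, ENNReal.ofReal (cut (A ^ 2) x ^ (2 * n + 1) * (1 - D / A) *
      (ed g U α p q μ ε z x + ε * U x ^ 2 * (w x - z x) ^ 2 / 2) * dens g x) ≤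
      I + ENNReal.ofReal ((D + c * D * Λ * (omega n / n * 4 ^ n)) / A ^ 2) := by
    filter_upwards [eventually_ge_atTop 1, eventually_ge_atTop D] with A A1 AD
    have A0 : 0 < A := one_pos.trans_le A1
    have τ0 : 0 < D / A ^ 2 * (A ^ (2 * n))⁻¹ := by positivity
    obtain ⟨v, hv, v1, hvw, hE⟩ := hI (2 * (2 * A ^ 2)) _ τ0
    refine (h.maj1 hz zL z1 zK hw w1 eq hv v1 (ψ := fun x => cut (A ^ 2) x ^ (2 * n + 1))
      (ContDiff.pow (sm_cut _) _) (fun x => ⟨pow_nonneg (cut_nonneg _ _) _,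
        pow_le_one₀ (cut_nonneg _ _) (cut_le_one _ _)⟩) (by positivity)
      (fun x hx => by rw [cut_zero (by positivity) hx]; simp) (by positivity)
      ((div_le_one A0).2 AD) τ0.le (fun x => ?_) hvw).trans ?_
    · have θ0 := cut_nonneg (A ^ 2) x
      rw [gn_of_pd (pd_pow ((sm_cut _).diff x) _), abs_of_nonneg (by positivity),
        Nat.add_sub_cancel]
      have h1 := (h.ell.gn_le ((sm_cut (A ^ 2)).diff x)).trans
        (mul_le_mul_of_nonneg_left (hC (A ^ 2) (by positivity) x) Λ0.le)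
      have h2 := mul_le_mul (pow_split θ0 A0 (2 * n)) h1 (gn_nonneg _ _ _) (by positivity)
      rw [mul_assoc]
      refine (mul_le_mul_of_nonneg_left h2 (by positivity)).trans (le_of_eq ?_)
      rw [hD]; field_simp
    · refine (add_le_add hE le_rfl).trans ?_
      rw [add_assoc, volume_ball h.n0 _ (by positivity), ← hc,
        ← ENNReal.ofReal_mul (by positivity), ← ENNReal.ofReal_add τ0.le (by positivity)]
      refine add_le_add le_rfl (ENNReal.ofReal_le_ofReal ?_)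
      rw [add_div]
      refine add_le_add (mul_le_of_le_one_right (by positivity)
        (inv_le_one_of_one_le₀ (one_le_pow₀ A1))) (le_of_eq ?_)
      rw [show 2 * (2 * A ^ 2) = 4 * A ^ 2 by ring, mul_pow, pow_mul]
      field_simp
  have t1 : Tendsto (fun A : ℝ => I + ENNReal.ofReal
      ((D + c * D * Λ * (omega n / n * 4 ^ n)) / A ^ 2)) atTop (𝓝 I) := by
    have := (ENNReal.tendsto_ofReal (tendsto_const_nhds (x := D + c * D * Λ *
      (omega n / n * 4 ^ n)).div_atTop (tendsto_pow_atTop (α := ℝ) two_ne_zero))).const_add I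
    simpa using this
  have m1 : ∀ A : ℝ, Measurable fun x => ENNReal.ofReal (cut (A ^ 2) x ^ (2 * n + 1) *
      (1 - D / A) * (ed g U α p q μ ε z x + ε * U x ^ 2 * (w x - z x) ^ 2 / 2) * dens g x) :=
    fun A => by
      have := h.cont_ed hz
      have := (sm_cut (n := n) (A ^ 2)).cont
      have := h.smU.cont
      have := hz.continuous
      have := hg.sm_dens.cont
      exact (Continuous.measurable (by fun_prop)).ennreal_ofReal
  refine le_trans ?_ ((lintegral_liminf_le (u := atTop) m1).trans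
    ((liminf_le_liminf key).trans t1.liminf_eq.le))
  refine lintegral_mono fun x => (Tendsto.liminf_eq (ENNReal.tendsto_ofReal ?_)).ge
  have t2 := ((cut_tendsto x).comp (tendsto_pow_atTop (α := ℝ) two_ne_zero)).pow (2 * n + 1)
  have t3 := (tendsto_const_nhds (x := D).div_atTop tendsto_id).const_sub 1
  simpa using ((t2.mul t3).mul_const
    (ed g U α p q μ ε z x + ε * U x ^ 2 * (w x - z x) ^ 2 / 2)).mul_const (dens g x)

end Vale.Agent.P366Z.ExA
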