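import Vale.Agent.P366Z.Sk
import Vale.Agent.P366Z.Int

/-!
# P366Z, row EX: a solution with values in `[-1, 1]` has values in `(-1, 1)`
-/

open MeasureTheory Metric Filter Topology Set
open scoped ContDiff ENNReal NNReal
open Vale.Agent.P366.Stmt

noncomputable section

namespace Vale.Agent.P366Z.ExS

variable {n : ℕ}

/-- the strong minimum principle on the whole space -/
theorem smp (hC : CHAIN) {g : Field n} {U u : E n → ℝ} {c : ℝ} (hg : Met g) (hU : Smooth U)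
    (h0 : ∀ x, 0 < U x) (hc : 0 ≤ c) (hu : ContDiff ℝ 2 u) (u0 : ∀ x, 0 ≤ u x)
    (hs : ∀ x, wl g U u x ≤ c * u x) {x₀ : E n} (hx : 0 < u x₀) (x : E n) : 0 < u x := by
  have h1 : ∀ᶠ y in 𝓝 x₀, u x₀ / 2 < u y :=
    hu.continuous.continuousAt.eventually (lt_mem_nhds (by linarith))
  obtain ⟨r, hr, h2⟩ := Metric.eventually_nhds_iff_ball.1 h1
  obtain ⟨c', c0, h3⟩ := hC n g U c r univ {x} x₀ hg hU h0 hc isOpen_univ isPreconnected_univ
    isCompact_singleton (subset_univ _) hr (subset_univ _)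
  have t0 : 0 < 2 / u x₀ := by positivity
  have h4 := h3 (fun y => 2 / u x₀ * u y) (fun y _ => ⟨contDiffAt_const.mul hu.contDiffAt,
    mul_nonneg t0.le (u0 y), by
      rw [wl_const_mul]
      have := mul_le_mul_of_nonneg_left (hs y) t0.le
      linarith⟩) (fun y hy => by
      have := h2 y hy
      rw [div_mul_eq_mul_div, le_div_iff₀ hx]; linarith) x rfl
  exact (mul_pos_iff_of_pos_left t0).1 (lt_of_lt_of_le c0 h4)

theorem up_bd {A K ε κ m p q w W : ℝ} (hε : 0 < ε) (hκ : 0 ≤ κ) (A0 : 0 ≤ A) (hA : A ≤ K)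
    (m0 : 0 ≤ m) (p0 : 0 ≤ p) (q4 : q ≤ 4) (hw : |w| ≤ 1)
    (e : ε * W = A * (-2 * w * (1 - w ^ 2) + 2 * p * (1 + w) - 2 * q * (1 - w)) / ε +
      κ * m * (1 - w ^ 2)) : -W ≤ 12 * K / ε ^ 2 * (1 - w) := by
  obtain ⟨w1, w2⟩ := abs_le.1 hw
  have a1 : 0 ≤ 1 - w := by linarith
  have a2 : 0 ≤ 1 + w := by linarith
  have b1 : -(12 * (1 - w)) ≤ -2 * w * (1 - w ^ 2) + 2 * p * (1 + w) - 2 * q * (1 - w) := by
    have := mul_nonneg p0 a2
    have := mul_nonneg (sub_nonneg.2 q4) a1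
    have := mul_nonneg a1 (show 0 ≤ 2 - w * (1 + w) by nlinarith)
    nlinarith
  have b2 := mul_le_mul_of_nonneg_left b1 A0
  have b3 := mul_le_mul_of_nonneg_right hA a1
  have b4 : 0 ≤ κ * m * (1 - w ^ 2) := mul_nonneg (mul_nonneg hκ m0) (by nlinarith)
  have b5 : ε * (ε * W) = A * (-2 * w * (1 - w ^ 2) + 2 * p * (1 + w) - 2 * q * (1 - w)) +
      ε * (κ * m * (1 - w ^ 2)) := by rw [e]; field_simp
  have b6 := mul_nonneg hε.le b4
  rw [div_mul_eq_mul_div, le_div_iff₀ (by positivity)]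
  nlinarith

theorem lo_bd {A K ε κ m p q w W : ℝ} (hε : 0 < ε) (hκ : 0 ≤ κ) (A0 : 0 ≤ A) (hA : A ≤ K)
    (m1 : m ≤ 1) (p4 : p ≤ 4) (q0 : 0 ≤ q) (hw : |w| ≤ 1)
    (e : ε * W = A * (-2 * w * (1 - w ^ 2) + 2 * p * (1 + w) - 2 * q * (1 - w)) / ε +
      κ * m * (1 - w ^ 2)) : W ≤ (12 * K + 2 * ε * κ) / ε ^ 2 * (1 + w) := by
  obtain ⟨w1, w2⟩ := abs_le.1 hw
  have a1 : 0 ≤ 1 - w := by linarith
  have a2 : 0 ≤ 1 + w := by linarith
  have b1 : -2 * w * (1 - w ^ 2) + 2 * p * (1 + w) - 2 * q * (1 - w) ≤ 12 * (1 + w) := by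
    have := mul_nonneg q0 a1
    have := mul_nonneg (sub_nonneg.2 p4) a2
    have := mul_nonneg a2 (show 0 ≤ 2 + w * (1 - w) by nlinarith)
    nlinarith
  have b2 := mul_le_mul_of_nonneg_left b1 A0
  have b3 := mul_le_mul_of_nonneg_right hA a2
  have b4 : κ * m * (1 - w ^ 2) ≤ κ * (2 * (1 + w)) := by
    have c1 : m * (1 - w ^ 2) ≤ 1 * (1 - w ^ 2) := mul_le_mul_of_nonneg_right m1 (by nlinarith)
    have c2 : 1 - w ^ 2 ≤ 2 * (1 + w) := by nlinarith
    rw [mul_assoc]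
    exact mul_le_mul_of_nonneg_left (by linarith) hκ
  have b5 : ε * (ε * W) = A * (-2 * w * (1 - w ^ 2) + 2 * p * (1 + w) - 2 * q * (1 - w)) +
      ε * (κ * m * (1 - w ^ 2)) := by rw [e]; field_simp
  have b6 := mul_le_mul_of_nonneg_left b4 hε.le
  rw [div_mul_eq_mul_div, le_div_iff₀ (by positivity)]
  nlinarith

/-- a `C²` solution of the equation with values in `[-1, 1]` has values in `(-1, 1)` -/
theorem strict (hC : CHAIN) {B : Bg n} {L : ℝ} {m p q U w : E n → ℝ} {a β R s' κ ε : ℝ}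
    (hB : B.Ok) (hP : Pen B L m p q) (hS : St B U a β R s') (hκ : 0 ≤ κ) (hε : 0 < ε)
    (hw : ContDiff ℝ 2 w) (h1 : ∀ x, |w x| ≤ 1)
    (e : ∀ x, ε * wl B.g U w x = U x ^ (n * bb n) * (-2 * w x * (1 - w x ^ 2) +
      2 * p x * (1 + w x) - 2 * q x * (1 - w x)) / ε + κ * m x * (1 - w x ^ 2)) (x : E n) :
    |w x| < 1 := by
  have U0 := hS.pos hB
  have A0 : ∀ y, 0 < U y ^ (n * bb n) := fun y => Real.rpow_pos_of_pos (U0 y) _
  have hb : 0 ≤ n * bb n := mul_nonneg (Nat.cast_nonneg n) (bb_pos hB.dim).le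
  have hA : ∀ y, U y ^ (n * bb n) ≤ (2 : ℝ) ^ (n * bb n) := fun y =>
    Real.rpow_le_rpow (U0 y).le (hS.le_two hB y) hb
  have K0 : 0 < (2 : ℝ) ^ (n * bb n) := Real.rpow_pos_of_pos two_pos _
  rw [abs_lt]
  constructor
  · by_cases h : ∃ y, 0 < 1 + w y
    · obtain ⟨y, hy⟩ := h
      have := smp hC (u := fun z => 1 + w z) (c := (12 * 2 ^ (n * bb n) + 2 * ε * κ) / ε ^ 2)
        hB.met hS.sm U0 (by positivity) (contDiff_const.add hw)
        (fun z => by linarith [(abs_le.1 (h1 z)).1]) (fun z => by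
          have e1 : wl B.g U (fun z => 1 + w z) z = wl B.g U w z := by
            simpa only [add_comm] using wl_add_const (g := B.g) (U := U) (v := w) (x := z) 1
          rw [e1]
          exact lo_bd hε hκ (A0 z).le (hA z) (hP.m01 z).2 (hP.p04 z).2 (hP.q04 z).1 (h1 z) (e z))
        hy x
      linarith
    · have h2 : w = fun _ => -1 := funext fun y => by
        have := not_lt.1 (fun h' => h ⟨y, h'⟩)
        linarith [(abs_le.1 (h1 y)).1]
      have := nontriv (n := n) (by linarith [hB.dim])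
      obtain ⟨y, hy⟩ := NormedSpace.exists_lt_norm ℝ (E n) (L + 2)
      have e1 := e y
      rw [hP.q4 y hy.le, h2, wl_const] at e1
      have e2 : U y ^ (n * bb n) * 16 / ε = 0 := by
        have : U y ^ (n * bb n) * 16 / ε = -(U y ^ (n * bb n) * (-2 * (-1) * (1 - (-1) ^ 2) +
          2 * p y * (1 + (-1)) - 2 * 4 * (1 - (-1))) / ε + κ * m y * (1 - (-1) ^ 2)) := by ring
        rw [this, ← e1]; ring
      have := A0 y
      have : 0 < U y ^ (n * bb n) * 16 / ε := by positivity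
      linarith
  · by_cases h : ∃ y, 0 < 1 - w y
    · obtain ⟨y, hy⟩ := h
      have := smp hC (u := fun z => 1 - w z) (c := 12 * 2 ^ (n * bb n) / ε ^ 2)
        hB.met hS.sm U0 (by positivity) (contDiff_const.sub hw)
        (fun z => by linarith [(abs_le.1 (h1 z)).2]) (fun z => by
          rw [wl_const_sub]
          exact up_bd hε hκ (A0 z).le (hA z) (hP.m01 z).1 (hP.p04 z).1 (hP.q04 z).2 (h1 z) (e z))
        hy x
      linarith
    · have h2 : w = fun _ => 1 := funext fun y => by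
        have := not_lt.1 (fun h' => h ⟨y, h'⟩)
        linarith [(abs_le.1 (h1 y)).2]
      obtain ⟨y, hy⟩ := hB.deep
      have e1 := e y
      rw [hP.p4 y (by linarith [hB.s0]), h2, wl_const] at e1
      have e2 : U y ^ (n * bb n) * 16 / ε = 0 := by
        have : U y ^ (n * bb n) * 16 / ε = U y ^ (n * bb n) * (-2 * 1 * (1 - 1 ^ 2) +
          2 * 4 * (1 + 1) - 2 * q y * (1 - 1)) / ε + κ * m y * (1 - 1 ^ 2) := by ring
        rw [this, ← e1]; ring
      have := A0 y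
      have : 0 < U y ^ (n * bb n) * 16 / ε := by positivity
      linarith

end Vale.Agent.P366Z.ExS
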