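import Vale.Agent.P272.K.LIN.Patch1

/-!
# P366Z, row LINA: approximate resolvents on the whole space
-/

open scoped Topology ContDiff
open Filter Set Metric
open Vale.Agent.P272.K Vale.Agent.P272.K.LIN

set_option maxSynthPendingDepth 3

noncomputable section

namespace Vale.Agent.P366Z.LinaH

variable {E V W U : Type} [NormedAddCommGroup E] [NormedSpace ℝ E] [NormedAddCommGroup V]
  [NormedSpace ℝ V] [NormedAddCommGroup W] [NormedSpace ℝ W] [NormedAddCommGroup U]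
  [NormedSpace ℝ U] {α : ℝ}

/-- bounded Hölder functions -/
def Hb (α : ℝ) (c : E → V) : Prop := ∃ M, 0 ≤ M ∧ HB α c M M

theorem Hb.of {c : E → V} {A B : ℝ} (hB : 0 ≤ B) (h : HB α c A B) : Hb α c :=
  ⟨A + B, add_nonneg h.sup_nonneg hB, h.mono' (by linarith) (by linarith [h.sup_nonneg])⟩

omit [NormedSpace ℝ E] [NormedSpace ℝ V] in
theorem Hb.const (v : V) : Hb α fun _ : E => v :=
  ⟨‖v‖, norm_nonneg _, fun _ => le_rfl, fun x y => by
    rw [sub_self, norm_zero]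
    positivity⟩

omit [NormedSpace ℝ E] [NormedSpace ℝ V] in
theorem Hb.add {f g : E → V} (hf : Hb α f) (hg : Hb α g) : Hb α fun x => f x + g x :=
  let ⟨M, h1, h2⟩ := hf
  let ⟨M', h3, h4⟩ := hg
  ⟨M + M', add_nonneg h1 h3, P272.K.V.HB.add h2 h4⟩

theorem Hb.app {c : E → V →L[ℝ] W} {g : E → V} (hc : Hb α c) (hg : Hb α g) :
    Hb α fun x => c x (g x) :=
  let ⟨_, h1, h2⟩ := hc
  let ⟨_, h3, h4⟩ := hg
  Hb.of (by positivity) (hb_apply h1 h1 h2 h4)

theorem Hb.clm {g : E → V} (hg : Hb α g) (L : V →L[ℝ] W) : Hb α fun x => L (g x) :=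
  (Hb.const L).app hg

theorem Hb.comp {c : E → V →L[ℝ] W} {c' : E → U →L[ℝ] V} (hc : Hb α c) (hc' : Hb α c') :
    Hb α fun x => (c x).comp (c' x) :=
  (hc.clm (ContinuousLinearMap.compL ℝ U V W)).app hc'

theorem Hb.smul {s : E → ℝ} {g : E → V} (hs : Hb α s) (hg : Hb α g) : Hb α fun x => s x • g x :=
  (hs.clm (ContinuousLinearMap.lsmul ℝ ℝ : ℝ →L[ℝ] V →L[ℝ] V)).app hg

omit [NormedSpace ℝ E] [NormedSpace ℝ V] in
theorem Hb.sum {ι : Type} (s : Finset ι) {f : ι → E → V} (h : ∀ i, Hb α (f i)) :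
    Hb α fun x => ∑ i ∈ s, f i x := by
  classical
  induction s using Finset.induction_on with
  | empty => simpa using Hb.const (0 : V)
  | insert a s ha ih => simpa only [Finset.sum_insert ha] using (h a).add ih

theorem Hb.of_K (h0 : 0 < α) (h1 : α ≤ 1) {c : E → V} (hc : ContDiff ℝ 1 c) {K : Set E}
    (hK : IsCompact K) (v : V) (h : ∀ y, y ∉ K → c y = v) : Hb α c := by
  obtain ⟨A, B, -, hB, hh⟩ := hb_of_K h0 h1 (hc.sub (contDiff_const (c := v))) hK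
    fun y hy => sub_eq_zero.2 (h y hy)
  simpa using (Hb.of hB hh).add (Hb.const v)

theorem hb_app {c : E → V →L[ℝ] W} {g : E → V} {M P Q : ℝ} (hM : 0 ≤ M) (hc : HB α c M M)
    (hg : HB α g P Q) (h : P ≤ Q) : HB α (fun x => c x (g x)) (2 * M * P) (2 * M * Q) := by
  have h1 := mul_nonneg hM hg.sup_nonneg
  have h2 := mul_le_mul_of_nonneg_left h hM
  exact (hb_apply hM hM hc hg).mono' (by linarith) (by linarith)

/-- admissible cut-off functions -/
structure Cu (α : ℝ) (β : E → ℝ) : Prop where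
  sm : ContDiff ℝ ∞ β
  h0 : Hb α β
  h1 : Hb α (com1 β)
  h2 : Hb α (com2 β)

theorem cu_of [FiniteDimensional ℝ E] (h0 : 0 < α) (h1 : α ≤ 1) {β : E → ℝ}
    (hβ : ContDiff ℝ ∞ β) {K : Set E} (hK : IsCompact K) (c : ℝ) (h : ∀ y, y ∉ K → β y = c) : Cu α β := by
  have e : (fderiv ℝ fun z => β z - c) = fderiv ℝ β := funext fun y => fderiv_sub_const c
  have hj : ∀ y, y ∉ K → jet (fun z => β z - c) y = 0 := fun y hy =>
    Cov.jet_eq_zero hK.isClosed (fun z hz => sub_eq_zero.2 (h z hz)) hy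
  refine ⟨hβ, Hb.of_K h0 h1 (hβ.of_le one_le_inf) hK c h,
    Hb.of_K h0 h1 (com1_contDiff hβ) hK 0 fun y hy => ?_,
    Hb.of_K h0 h1 (com2_contDiff hβ) hK 0 fun y hy => ?_⟩
  · have := com1_eq_zero (hj y hy)
    unfold com1 at this ⊢
    rwa [e] at this
  · have := com2_eq_zero (hj y hy)
    unfold com2 at this ⊢
    rwa [e] at this

theorem res_mono {l C N C' N' : ℝ} {v : E → ℝ} (hl : 0 < l) (h : ResBd α l C N v)
    (hle : C * N ≤ C' * N') : ResBd α l C' N' v := by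
  have key : ∀ s : ℝ, C * N * l ^ s ≤ C' * N' * l ^ s := fun s =>
    mul_le_mul_of_nonneg_right hle (Real.rpow_pos_of_pos hl s).le
  exact ⟨h.zero.mono' (key _) (key _), h.one.mono' (key _) (key _), h.two.mono' (key _) hle⟩

theorem fd_add {v w : E → ℝ} (hv : ContDiff ℝ 2 v) (hw : ContDiff ℝ 2 w) :
    (fderiv ℝ fun x => v x + w x) = (fun x => fderiv ℝ v x + fderiv ℝ w x) ∧
      (fderiv ℝ (fderiv ℝ fun x => v x + w x)) =
        fun x => fderiv ℝ (fderiv ℝ v) x + fderiv ℝ (fderiv ℝ w) x := by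
  have h1 : (fderiv ℝ fun x => v x + w x) = fun x => fderiv ℝ v x + fderiv ℝ w x :=
    funext fun x => fderiv_fun_add (hv.differentiable (by norm_num) x)
      (hw.differentiable (by norm_num) x)
  refine ⟨h1, ?_⟩
  rw [h1]
  exact funext fun x => fderiv_fun_add
    ((hv.fderiv_right (m := 1) (by norm_num)).differentiable (by norm_num) x)
    ((hw.fderiv_right (m := 1) (by norm_num)).differentiable (by norm_num) x)

theorem res_add {l C C' N : ℝ} {v w : E → ℝ} (hv : ContDiff ℝ 2 v) (hw : ContDiff ℝ 2 w)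
    (h : ResBd α l C N v) (h' : ResBd α l C' N w) :
    ResBd α l (C + C') N fun x => v x + w x := by
  obtain ⟨e1, e2⟩ := fd_add hv hw
  refine ⟨(V.HB.add h.zero h'.zero).mono' (le_of_eq ?_) (le_of_eq ?_), ?_, ?_⟩
  · ring
  · ring
  · rw [e1]
    refine (V.HB.add h.one h'.one).mono' (le_of_eq ?_) (le_of_eq ?_) <;> ring
  · rw [e2]
    refine (V.HB.add h.two h'.two).mono' (le_of_eq ?_) (le_of_eq ?_) <;> ring

theorem fd_mul {β v : E → ℝ} (hβ : ContDiff ℝ ∞ β) (hv : ContDiff ℝ 2 v) (y : E) :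
    fderiv ℝ (fun z => β z * v z) y = β y • fderiv ℝ v y + com2 β y (v y, fderiv ℝ v y) ∧
      fderiv ℝ (fderiv ℝ fun z => β z * v z) y =
        β y • fderiv ℝ (fderiv ℝ v) y + com1 β y (v y, fderiv ℝ v y) := by
  have h := jet_mul (hβ.contDiffAt (x := y).of_le two_le_inf) hv.contDiffAt
  refine ⟨congrArg (fun p : Jet E => p.2.1) h, ?_⟩
  have h3 : fderiv ℝ (fderiv ℝ fun z => β z * v z) y = (JM (jet β y) (jet v y)).2.2 :=
    congrArg (fun p : Jet E => p.2.2) h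
  rw [h3]
  ext u t
  rw [JM_snd_snd]
  simp [com1, jet]
  ring

theorem res_mul (hα : 0 < α) (hα1 : α < 1) {β : E → ℝ} (hβ : Cu α β) : ∃ D : ℝ, 0 ≤ D ∧
    ∀ (l C N : ℝ) (v : E → ℝ), 1 ≤ l → 0 ≤ C * N → ContDiff ℝ 2 v → ResBd α l C N v →
      ResBd α l (D * C) N fun z => β z * v z := by
  obtain ⟨M₀, p0, c0⟩ := hβ.h0.smul (Hb.const (ContinuousLinearMap.id ℝ ℝ))
  obtain ⟨M₁, p1, c1⟩ := (hβ.h0.smul (Hb.const (ContinuousLinearMap.snd ℝ ℝ (E →L[ℝ] ℝ)))).add hβ.h2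
  obtain ⟨M₂, p2, c2⟩ := (hβ.h0.smul (Hb.const (ContinuousLinearMap.fst ℝ (E →L[ℝ] E →L[ℝ] ℝ)
    (ℝ × (E →L[ℝ] ℝ))))).add (hβ.h1.comp (Hb.const (ContinuousLinearMap.snd ℝ _ _)))
  refine ⟨2 * (M₀ + M₁ + M₂), by positivity, fun l C N v hl hCN hv h => ?_⟩
  have key : ∀ s t : ℝ, s ≤ t → C * N * l ^ s ≤ C * N * l ^ t := fun s t hs =>
    mul_le_mul_of_nonneg_left (Real.rpow_le_rpow_of_exponent_le hl hs) hCN
  have key0 : ∀ s : ℝ, s ≤ 0 → C * N * l ^ s ≤ C * N := fun s hs =>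
    mul_le_of_le_one_right hCN (rpow_le_one' hl hs)
  have fin : ∀ M X : ℝ, M ≤ M₀ + M₁ + M₂ → 0 ≤ X →
      2 * M * (C * N * X) ≤ 2 * (M₀ + M₁ + M₂) * C * N * X := fun M X h1 h2 => by
    have := mul_le_mul_of_nonneg_right h1 (mul_nonneg hCN h2)
    linarith
  have hp : ∀ s : ℝ, 0 ≤ l ^ s := fun s => Real.rpow_nonneg (by linarith) s
  have j1 := h.jet1 hα hl hCN
  refine ⟨?_, ?_, ?_⟩
  · exact (hb_app p0 c0 h.zero (key _ _ (by linarith))).mono' (fin _ _ (by linarith) (hp _))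
      (fin _ _ (by linarith) (hp _))
  · rw [show (fderiv ℝ fun z => β z * v z) = _ from funext fun y => (fd_mul hβ.sm hv y).1]
    exact (hb_app p1 c1 j1 (key _ _ (by linarith))).mono' (fin _ _ (by linarith) (hp _))
      (fin _ _ (by linarith) (hp _))
  · rw [show (fderiv ℝ (fderiv ℝ fun z => β z * v z)) = _ from
      funext fun y => (fd_mul hβ.sm hv y).2]
    have j2 := hb_prod h.two (j1.mono' (key _ _ (by linarith)) (key0 _ (by linarith)))
    refine (hb_app p2 c2 j2 (key0 _ (by linarith))).mono' (fin _ _ (by linarith) (hp _)) ?_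
    simpa using fin M₂ 1 (by linarith) zero_le_one

/-- approximate solvability for right hand sides supported in `S` -/
def Ap (α : ℝ) (a : E → (E →L[ℝ] E →L[ℝ] ℝ) →L[ℝ] ℝ) (S : Set E) : Prop :=
  ∃ C l₀ : ℝ, 0 ≤ C ∧ 1 ≤ l₀ ∧ ∀ l, l₀ ≤ l → ∀ (f : E → ℝ) (N : ℝ), 0 ≤ N →
    HB α f (N * l ^ (-(α / 2))) N → (∀ x, x ∉ S → f x = 0) →
    ∃ v f' : E → ℝ, ContDiff ℝ 2 v ∧ ResBd α l C N v ∧
      HB α f' (C * N * l ^ (-((1 + α) / 2))) (C * N * l ^ (-(1 / 2) : ℝ)) ∧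
      ∀ x, l * v x - a x (fderiv ℝ (fderiv ℝ v) x) = f x - f' x

variable {a : E → (E →L[ℝ] E →L[ℝ] ℝ) →L[ℝ] ℝ}

theorem Ap.mono {S T : Set E} (h : Ap α a T) (hS : S ⊆ T) : Ap α a S :=
  let ⟨C, l₀, h1, h2, h3⟩ := h
  ⟨C, l₀, h1, h2, fun l hl f N hN hf h0 => h3 l hl f N hN hf fun x hx => h0 x fun k => hx (hS k)⟩

theorem piece (hα : 0 < α) (hα1 : α < 1) (ha : Hb α a) {K : Set E} {β : E → ℝ} (hβ : Cu α β)
    (hK : ∀ x, x ∉ K → β x = 0) {C l₀ : ℝ} (hC : 0 ≤ C) (hl₀ : 1 ≤ l₀)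
    (hres : ∀ l, l₀ ≤ l → ∀ (f : E → ℝ) (A B : ℝ), 0 ≤ B → HB α f A B →
      ∃ v : E → ℝ, ContDiff ℝ 2 v ∧
        (∀ x ∈ K, l * v x - a x (fderiv ℝ (fderiv ℝ v) x) = f x) ∧
        ResBd α l C (l ^ (α / 2) * A + B) v) : Ap α a {x | β x = 1} := by
  obtain ⟨D, hD, hm⟩ := res_mul hα hα1 hβ
  obtain ⟨M, hM, hγ⟩ := ha.comp hβ.h1
  refine ⟨(D + 2 * M) * (2 * C), l₀, by positivity, hl₀, fun l hl f N hN hf h0 => ?_⟩
  have hl1 : 1 ≤ l := hl₀.trans hl
  have hl0 : 0 < l := by linarith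
  obtain ⟨v, hv, heq, hb⟩ := hres l hl f _ _ hN hf
  have e : l ^ (α / 2) * (N * l ^ (-(α / 2))) = N := by
    rw [mul_left_comm, ← Real.rpow_add hl0, add_neg_cancel, Real.rpow_zero, mul_one]
  have hb' : ResBd α l (2 * C) N v := res_mono hl0 hb (le_of_eq (by rw [e]; ring))
  have hCN : 0 ≤ 2 * C * N := by positivity
  have fin : ∀ s : ℝ, 2 * M * (2 * C * N * l ^ s) ≤ (D + 2 * M) * (2 * C) * N * l ^ s := fun s => by
    have : 0 ≤ D * (2 * C * N * l ^ s) := by positivity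
    linarith
  refine ⟨fun z => β z * v z, fun y => (a y).comp (com1 β y) (v y, fderiv ℝ v y),
    (hβ.sm.of_le two_le_inf).mul hv, res_mono hl0 (hm l _ _ v hl1 hCN hv hb') ?_,
    (hb_app hM hγ (hb'.jet1 hα hl1 hCN) ?_).mono' (fin _) (fin _), fun x => ?_⟩
  · have : 0 ≤ 2 * M * (2 * C * N) := by positivity
    linarith
  · exact mul_le_mul_of_nonneg_left (Real.rpow_le_rpow_of_exponent_le hl1 (by linarith)) hCN
  · simp only [(fd_mul hβ.sm hv x).2, map_add, map_smul, ContinuousLinearMap.comp_apply,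
      smul_eq_mul]
    have h1 : β x * f x = f x := by
      by_cases h : β x = 1
      · rw [h, one_mul]
      · rw [h0 x h, mul_zero]
    by_cases hx : x ∈ K
    · have h2 := heq x hx
      linear_combination β x * h2 + h1
    · have h2 := hK x hx
      linear_combination (l * v x - a x (fderiv ℝ (fderiv ℝ v) x) - f x) * h2 + h1

theorem Ap.split (hα : 0 < α) {S T : Set E} (hS : Ap α a S) (hT : Ap α a T) {χ : E → ℝ}
    (hχ : Hb α χ) (h0 : ∀ x, x ∉ T → χ x = 0) : Ap α a (S ∪ {x | χ x = 1}) := by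
  obtain ⟨C, l₀, p1, p2, hS⟩ := hS
  obtain ⟨C', l₀', p3, p4, hT⟩ := hT
  obtain ⟨M', q1, c1⟩ := hχ.smul (Hb.const (ContinuousLinearMap.id ℝ ℝ))
  obtain ⟨M, q2, c2⟩ := ((Hb.const (1 : ℝ)).add (hχ.clm (-ContinuousLinearMap.id ℝ ℝ))).smul
    (Hb.const (ContinuousLinearMap.id ℝ ℝ))
  refine ⟨C * (2 * M) + C' * (2 * M'), max l₀ l₀', by positivity, le_max_of_le_left p2,
    fun l hl f N hN hf hz => ?_⟩
  have hl1 : 1 ≤ l := p2.trans ((le_max_left _ _).trans hl)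
  have hl0 : 0 < l := by linarith
  have hq : N * l ^ (-(α / 2)) ≤ N := mul_le_of_le_one_right hN (rpow_le_one' hl1 (by linarith))
  obtain ⟨v, g, a1, a2, a3, a4⟩ := hS l ((le_max_left _ _).trans hl) _ (2 * M * N) (by positivity)
    ((hb_app q2 c2 hf hq).mono' (le_of_eq (by ring)) le_rfl) fun x hx => by
      by_cases h : χ x = 1
      · simp [h]
      · simp [hz x fun k => k.elim hx h]
  obtain ⟨v', g', b1, b2, b3, b4⟩ := hT l ((le_max_right _ _).trans hl) _ (2 * M' * N)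
    (by positivity) ((hb_app q1 c1 hf hq).mono' (le_of_eq (by ring)) le_rfl) fun x hx => by
      simp [h0 x hx]
  refine ⟨fun x => v x + v' x, fun x => g x + g' x, a1.add b1,
    res_add a1 b1 (res_mono hl0 a2 (le_of_eq (by ring))) (res_mono hl0 b2 (le_of_eq (by ring))),
    (V.HB.add a3 b3).mono' (le_of_eq (by ring)) (le_of_eq (by ring)), fun x => ?_⟩
  have e1 := a4 x
  have e2 := b4 x
  simp only [ContinuousLinearMap.smul_apply, ContinuousLinearMap.id_apply,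
    ContinuousLinearMap.neg_apply, smul_eq_mul] at e1 e2
  rw [(fd_add a1 b1).2, map_add]
  linear_combination e1 + e2

theorem ap_univ [FiniteDimensional ℝ E] (hα : 0 < α) (hα1 : α < 1) (ha : ContDiff ℝ 1 a)
    {R : ℝ} (hR : 0 < R) {a₀ : (E →L[ℝ] E →L[ℝ] ℝ) →L[ℝ] ℝ} (h₀ : ∀ x, R ≤ ‖x‖ → a x = a₀)
    (hp₀ : ∀ ξ : E →L[ℝ] ℝ, ξ ≠ 0 → 0 < a₀ (ξ.smulRight ξ))
    (hp : ∀ x, ∀ ξ : E →L[ℝ] ℝ, ξ ≠ 0 → 0 < a x (ξ.smulRight ξ)) : Ap α a univ := by
  classical
  have hab : Hb α a := Hb.of_K hα hα1.le ha (isCompact_closedBall 0 R) a₀ fun y hy =>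
    h₀ y (by simpa using (not_le.1 (mem_closedBall_zero_iff.not.1 hy)).le)
  have hout : Ap α a {x | R + 1 ≤ ‖x‖} := by
    obtain ⟨C, hC, hres⟩ := V.const_resolvent' hα hα1 a₀ hp₀
    let β : ContDiffBump (0 : E) := ⟨R, R + 1, hR, by linarith⟩
    have hz : ∀ y : E, R + 1 ≤ ‖y‖ → 1 - β y = 1 := fun y hy => by
      rw [β.zero_of_le_dist (by rwa [dist_zero_right]), sub_zero]
    refine (piece (K := {x | R ≤ ‖x‖}) hα hα1 hab (cu_of hα hα1.le (contDiff_const.sub β.contDiff)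
      (isCompact_closedBall 0 (R + 1)) 1 fun y hy =>
        hz y (not_le.1 (mem_closedBall_zero_iff.not.1 hy)).le) (fun x hx => ?_) hC le_rfl
      fun l hl f A B hB hf => ?_).mono hz
    · rw [β.one_of_mem_closedBall (mem_closedBall_zero_iff.2 (not_le.1 hx).le), sub_self]
    · obtain ⟨v, h1, h2, h3⟩ := hres l hl f A B hB hf
      exact ⟨v, h1, fun x hx => by rw [h₀ x hx]; exact h2 x, h3⟩
  have hin : ∀ x₀ : E, ∃ r > 0, Ap α a (closedBall x₀ (2 * r)) := fun x₀ => by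
    obtain ⟨M, -, hM⟩ := id hab
    obtain ⟨r, hr, -, C, hC, l₀, hl₀, hres⟩ := V.local_resolvent' hα hα1 isOpen_univ
      (mem_univ x₀) a (fun _ => 0) ⟨M, fun x _ y _ => hM.hol x y⟩
      ⟨0, fun x _ y _ => by simp⟩ (hp x₀)
    let β : ContDiffBump x₀ := ⟨r / 2, r, half_pos hr, half_lt_self hr⟩
    have hz : ∀ y, y ∉ closedBall x₀ r → β y = 0 := fun y hy =>
      β.zero_of_le_dist (not_le.1 (mem_closedBall.not.1 hy)).le
    refine ⟨r / 4, by positivity, (piece (K := closedBall x₀ r) hα hα1 hab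
      (cu_of hα hα1.le β.contDiff (isCompact_closedBall x₀ r) 0 hz) hz hC hl₀
      fun l hl f A B hB hf => ?_).mono fun y hy => β.one_of_mem_closedBall ?_⟩
    · obtain ⟨v, h1, h2, h3⟩ := hres l hl f A B hB hf
      exact ⟨v, h1, fun x hx => by simpa using h2 x hx, h3⟩
    · rwa [show 2 * (r / 4) = r / 2 by ring] at hy
  choose r hr hin using hin
  obtain ⟨t, -, ht⟩ := (isCompact_closedBall (0 : E) (R + 1)).elim_nhds_subcover
    (fun x => closedBall x (r x)) fun x _ => closedBall_mem_nhds x (hr x)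
  have key : ∀ s : Finset E, Ap α a ({x | R + 1 ≤ ‖x‖} ∪ ⋃ x ∈ s, closedBall x (r x)) := by
    intro s
    induction s using Finset.induction_on with
    | empty => simpa using hout
    | insert x₀ s _ ih =>
      have hχ : Hb α (V.cut x₀ (r x₀)) := Hb.of (A := 1) (Real.rpow_pos_of_pos (hr x₀) _).le
        ⟨fun y => by
          rw [Real.norm_of_nonneg (V.cut_nonneg _ _ _)]
          exact V.cut_le_one _ _ _, fun y z => V.cut_hol hα hα1 (hr x₀) y z⟩
      refine (ih.split hα (hin x₀) hχ fun y hy => V.cut_eq_zero (hr x₀) ?_).mono ?_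
      · rwa [mem_closedBall, dist_eq_norm, not_le] at hy
      · rw [Finset.set_biUnion_insert]
        rintro y (hy | hy | hy)
        · exact Or.inl (Or.inl hy)
        · exact Or.inr (V.cut_eq_one (hr x₀) (by rwa [mem_closedBall, dist_eq_norm] at hy))
        · exact Or.inl (Or.inr hy)
  refine (key t).mono fun x _ => ?_
  rcases le_total (R + 1) ‖x‖ with h | h
  · exact Or.inl h
  · exact Or.inr (ht (mem_closedBall_zero_iff.2 h))

end Vale.Agent.P366Z.LinaH
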