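import Vale.Agent.P366Z.Lina1

/-!
# P366Z, row LINA: the resolvent of a system
-/

open scoped Topology ContDiff
open Filter Set Metric
open Vale.Agent.P272.K Vale.Agent.P272.K.LIN

set_option maxSynthPendingDepth 3

noncomputable section

namespace Vale.Agent.P366Z.LinaH

variable {E V W : Type} [NormedAddCommGroup E] [NormedSpace ℝ E] [NormedAddCommGroup V]
  [NormedSpace ℝ V] [NormedAddCommGroup W] [NormedSpace ℝ W] {α : ℝ} {ι : Type} [Fintype ι]

theorem iter_sys {l C q : ℝ} (Φ : E → (ι → Jet E) →L[ℝ] ι → ℝ)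
    (step : ∀ (f : E → ι → ℝ) (N : ℝ), 0 ≤ N → HB α f (N * q) N →
      ∃ (v : ι → E → ℝ) (f' : E → ι → ℝ), (∀ i, ContDiff ℝ 2 (v i) ∧ ResBd α l C N (v i)) ∧
        HB α f' (N / 2 * q) (N / 2) ∧ ∀ x, Φ x (fun i => jet (v i) x) = f x - f' x)
    (f : E → ι → ℝ) (N : ℝ) (hN : 0 ≤ N) (hf : HB α f (N * q) N) :
    ∃ v : ι → E → ℝ, (∀ i, ContDiff ℝ 2 (v i) ∧ ResBd α l (2 * C) N (v i)) ∧
      ∀ x, Φ x (fun i => jet (v i) x) = f x := by
  let S : Type := {p : (E → ι → ℝ) × ℝ // 0 ≤ p.2 ∧ HB α p.1 (p.2 * q) p.2}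
  have step' : ∀ p : S, ∃ (v : ι → E → ℝ) (p' : S),
      (∀ i, ContDiff ℝ 2 (v i) ∧ ResBd α l C p.1.2 (v i)) ∧ p'.1.2 = p.1.2 / 2 ∧
        ∀ x, Φ x (fun i => jet (v i) x) = p.1.1 x - p'.1.1 x := by
    rintro ⟨⟨f, N⟩, hN, hf⟩
    obtain ⟨v, f', h1, h2, h3⟩ := step f N hN hf
    exact ⟨v, ⟨(f', N / 2), div_nonneg hN zero_le_two, h2⟩, h1, rfl, h3⟩
  choose v Q hv hQ hΦ using step'
  let s : ℕ → S := fun k => Q^[k] ⟨(f, N), hN, hf⟩
  have hs0 : s 0 = ⟨(f, N), hN, hf⟩ := rfl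
  have hs1 : ∀ k, s (k + 1) = Q (s k) := fun k => Function.iterate_succ_apply' _ _ _
  have hn : ∀ k, (s k).1.2 = N * (1 / 2) ^ k := fun k => by
    induction k with
    | zero => simp [hs0]
    | succ k ih => rw [hs1, hQ, ih, pow_succ]; ring
  have h := fun i => V.series_c2 (α := α) (l := l) (C := C) (N := N) (fun k => v (s k) i)
    (fun k => (hv (s k) i).1) fun k => hn k ▸ (hv (s k) i).2
  refine ⟨fun i x => ∑' k, v (s k) i x, fun i => ⟨(h i).1, (h i).2.1⟩, fun x => ?_⟩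
  have hF : Summable fun k => (s k).1.1 x := by
    refine Summable.of_norm_bounded ((hasSum_geometric_two.mul_left (N * q)).summable) fun k => ?_
    refine ((s k).2.2.sup x).trans_eq ?_
    rw [hn]
    ring
  have h3 : HasSum (fun k i => jet (v (s k) i) x) fun i => jet (fun x => ∑' k, v (s k) i x) x :=
    Pi.hasSum.2 fun i => (h i).2.2 x
  have h4 := (Φ x).hasSum h3
  have h5 : ∀ k, Φ x (fun i => jet (v (s k) i) x) = (s k).1.1 x - (s (k + 1)).1.1 x := fun k => by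
    rw [hs1]
    exact hΦ (s k) x
  rw [← h4.tsum_eq]
  simp only [h5]
  rw [hF.tsum_sub ((summable_nat_add_iff 1).2 hF), hF.tsum_eq_zero_add]
  simp [hs0]

omit [NormedSpace ℝ E] [NormedSpace ℝ V] in
theorem hb_pi {g : ι → E → V} {A B : ℝ} (hA : 0 ≤ A) (hB : 0 ≤ B) (h : ∀ i, HB α (g i) A B) :
    HB α (fun x i => g i x) A B :=
  ⟨fun x => (pi_norm_le_iff_of_nonneg hA).2 fun i => (h i).sup x, fun x y =>
    (pi_norm_le_iff_of_nonneg (by positivity)).2 fun i => (h i).hol x y⟩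

omit [NormedSpace ℝ E] [NormedSpace ℝ V] in
theorem hb_proj {f : E → ι → V} {A B : ℝ} (h : HB α f A B) (i : ι) : HB α (fun x => f x i) A B :=
  ⟨fun x => (norm_le_pi_norm (f x) i).trans (h.sup x), fun x y =>
    (norm_le_pi_norm (f x - f y) i).trans (h.hol x y)⟩

/-- the first order part of a family of jets -/
def J1 (ι E : Type) [NormedAddCommGroup E] [NormedSpace ℝ E] :
    (ι → Jet E) →L[ℝ] ι → ℝ × (E →L[ℝ] ℝ) :=
  ContinuousLinearMap.pi fun i => ((ContinuousLinearMap.fst ℝ ℝ _).prod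
    ((ContinuousLinearMap.fst ℝ _ _).comp (ContinuousLinearMap.snd ℝ ℝ _))).comp
      (ContinuousLinearMap.proj i)

theorem sys (hα : 0 < α) {a : E → (E →L[ℝ] E →L[ℝ] ℝ) →L[ℝ] ℝ} (ha : Ap α a univ)
    {T : E → (ι → ℝ × (E →L[ℝ] ℝ)) →L[ℝ] ι → ℝ} (hT : Hb α T) :
    ∃ C l₀ : ℝ, 0 ≤ C ∧ 1 ≤ l₀ ∧ ∀ l, l₀ ≤ l → ∀ (f : E → ι → ℝ) (N : ℝ), 0 ≤ N →
      HB α f (N * l ^ (-(α / 2))) N → ∃ v : ι → E → ℝ,
        (∀ i, ContDiff ℝ 2 (v i) ∧ ResBd α l C N (v i)) ∧ ∀ x i,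
          l * v i x - a x (fderiv ℝ (fderiv ℝ (v i)) x) +
            T x (fun j => (v j x, fderiv ℝ (v j) x)) i = f x i := by
  obtain ⟨C, l₀, hC, hl₀, hres⟩ := ha
  obtain ⟨M, hM, hT⟩ := hT.clm (-ContinuousLinearMap.id ℝ _)
  obtain ⟨l₁, hl₁⟩ : ∃ l₁ : ℝ, ∀ l, l₁ ≤ l → (1 + 2 * M) * C * l ^ (-(1 / 2) : ℝ) ≤ 1 / 2 := by
    have ht := (tendsto_rpow_neg_atTop (y := 1 / 2) (by norm_num)).const_mul ((1 + 2 * M) * C)
    rw [mul_zero] at ht
    exact eventually_atTop.1 (ht.eventually (Iic_mem_nhds (by norm_num)))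
  refine ⟨2 * C, max l₀ l₁, by positivity, le_max_of_le_left hl₀, fun l hl f N hN hf => ?_⟩
  have hl1 : 1 ≤ l := hl₀.trans ((le_max_left _ _).trans hl)
  have hl0 : 0 < l := by linarith
  have hs := hl₁ l ((le_max_right _ _).trans hl)
  obtain ⟨v, h1, h2⟩ := iter_sys (α := α) (l := l) (C := C) (q := l ^ (-(α / 2)))
    (fun x => (ContinuousLinearMap.pi fun i => (V.opJet l (a x) 0).comp
      (ContinuousLinearMap.proj i)) + (T x).comp (J1 ι E)) (fun f N hN hf => by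
      choose v g b1 b2 b3 b4 using fun i => hres l ((le_max_left _ _).trans hl) (fun x => f x i) N
        hN (hb_proj hf i) fun x hx => absurd (mem_univ x) hx
      have hCN : 0 ≤ C * N := by positivity
      have e : l ^ (-((1 + α) / 2)) = l ^ (-(1 / 2) : ℝ) * l ^ (-(α / 2)) := by
        rw [← Real.rpow_add hl0]
        congr 1
        ring
      have hj := hb_pi (by positivity) (by positivity) fun i => (b2 i).jet1 hα hl1 hCN
      have hg := hb_pi (by positivity) (by positivity) b3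
      have he := V.HB.add hg (hb_app hM hT hj (mul_le_mul_of_nonneg_left
        (Real.rpow_le_rpow_of_exponent_le hl1 (by linarith)) hCN))
      have hq : 0 ≤ N * l ^ (-(α / 2)) := by positivity
      refine ⟨v, _, fun i => ⟨b1 i, b2 i⟩, he.mono' ?_ ?_, fun x => funext fun i => ?_⟩
      · have := mul_le_mul_of_nonneg_right hs hq
        rw [e]
        linarith
      · have := mul_le_mul_of_nonneg_right hs hN
        linarith
      · have h := b4 i x
        change l * v i x - a x (fderiv ℝ (fderiv ℝ (v i)) x) - 0 +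
          T x (fun j => (v j x, fderiv ℝ (v j) x)) i =
            f x i - (g i x + -T x (fun j => (v j x, fderiv ℝ (v j) x)) i)
        linarith) f N hN hf
  refine ⟨v, h1, fun x i => ?_⟩
  have h : l * v i x - a x (fderiv ℝ (fderiv ℝ (v i)) x) - 0 +
    T x (fun j => (v j x, fderiv ℝ (v j) x)) i = f x i := congrFun (h2 x) i
  linarith

theorem fderiv_sum_clm (L : ι → V →L[ℝ] W) {v : ι → E → V} (hv : ∀ i, Differentiable ℝ (v i)) :
    (fderiv ℝ fun x => ∑ i, L i (v i x)) =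
      fun x => ∑ i, ContinuousLinearMap.compL ℝ E V W (L i) (fderiv ℝ (v i) x) :=
  funext fun x => (HasFDerivAt.fun_sum fun i _ =>
    (L i).hasFDerivAt.comp x (hv i x).hasFDerivAt).fderiv

omit [NormedSpace ℝ E] in
theorem hb_sum_clm (L : ι → V →L[ℝ] W) {g : ι → E → V} {P : ℝ} (h : ∀ i, HB α (g i) P P) :
    HB α (fun x => ∑ i, L i (g i x)) ((∑ i, ‖L i‖) * P) ((∑ i, ‖L i‖) * P) := by
  refine ⟨fun x => (norm_sum_le _ _).trans ?_, fun x y => ?_⟩
  · rw [Finset.sum_mul]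
    exact Finset.sum_le_sum fun i _ => (L i).le_opNorm_of_le ((h i).sup x)
  · rw [← Finset.sum_sub_distrib, mul_assoc, Finset.sum_mul]
    refine (norm_sum_le _ _).trans (Finset.sum_le_sum fun i _ => ?_)
    rw [← map_sub]
    exact (L i).le_opNorm_of_le ((h i).hol x y)

/-- assembling a vector valued function from its components -/
theorem assemble (L : ι → ℝ →L[ℝ] W) : ∃ D : ℝ, 0 ≤ D ∧ ∀ (v : ι → E → ℝ) (P : ℝ), 0 ≤ P →
    (∀ i, ContDiff ℝ 2 (v i) ∧ HB α (jet (v i)) P P) →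
    ContDiff ℝ 2 (fun x => ∑ i, L i (v i x)) ∧ HB α (fun x => ∑ i, L i (v i x)) (D * P) (D * P) ∧
      HB α (fderiv ℝ fun x => ∑ i, L i (v i x)) (D * P) (D * P) ∧
      HB α (fderiv ℝ (fderiv ℝ fun x => ∑ i, L i (v i x))) (D * P) (D * P) ∧
      ∀ x y, fderiv ℝ (fun x => ∑ i, L i (v i x)) x y = ∑ i, L i (fderiv ℝ (v i) x y) := by
  let L1 := fun i => ContinuousLinearMap.compL ℝ E ℝ W (L i)
  let L2 := fun i => ContinuousLinearMap.compL ℝ E (E →L[ℝ] ℝ) (E →L[ℝ] W) (L1 i)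
  have n0 : 0 ≤ ∑ i, ‖L i‖ := by positivity
  have n1 : 0 ≤ ∑ i, ‖L1 i‖ := by positivity
  have n2 : 0 ≤ ∑ i, ‖L2 i‖ := by positivity
  refine ⟨∑ i, ‖L i‖ + ∑ i, ‖L1 i‖ + ∑ i, ‖L2 i‖, by positivity, fun v P hP h => ?_⟩
  have e1 := fderiv_sum_clm L fun i => (h i).1.differentiable (by norm_num)
  have e2 := fderiv_sum_clm L1 fun i =>
    ((h i).1.fderiv_right (m := 1) (by norm_num)).differentiable (by norm_num)
  have key : ∀ X : ℝ, X ≤ ∑ i, ‖L i‖ + ∑ i, ‖L1 i‖ + ∑ i, ‖L2 i‖ →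
      X * P ≤ (∑ i, ‖L i‖ + ∑ i, ‖L1 i‖ + ∑ i, ‖L2 i‖) * P := fun X hX =>
    mul_le_mul_of_nonneg_right hX hP
  have j0 : ∀ i, HB α (v i) P P := fun i =>
    ⟨fun x => (norm_fst_le (jet (v i) x)).trans ((h i).2.sup x), fun x y =>
      (norm_fst_le (jet (v i) x - jet (v i) y)).trans ((h i).2.hol x y)⟩
  have j1 : ∀ i, HB α (fderiv ℝ (v i)) P P := fun i =>
    ⟨fun x => ((norm_fst_le _).trans (norm_snd_le (jet (v i) x))).trans ((h i).2.sup x),
      fun x y => ((norm_fst_le _).trans (norm_snd_le (jet (v i) x - jet (v i) y))).trans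
        ((h i).2.hol x y)⟩
  have j2 : ∀ i, HB α (fderiv ℝ (fderiv ℝ (v i))) P P := fun i =>
    ⟨fun x => ((norm_snd_le _).trans (norm_snd_le (jet (v i) x))).trans ((h i).2.sup x),
      fun x y => ((norm_snd_le _).trans (norm_snd_le (jet (v i) x - jet (v i) y))).trans
        ((h i).2.hol x y)⟩
  refine ⟨ContDiff.sum fun i _ => (L i).contDiff.comp (h i).1,
    (hb_sum_clm L j0).mono' (key _ (by linarith)) (key _ (by linarith)), ?_, ?_, fun x y => ?_⟩
  · rw [e1]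
    exact (hb_sum_clm L1 j1).mono' (key _ (by linarith)) (key _ (by linarith))
  · rw [e1, e2]
    exact (hb_sum_clm L2 j2).mono' (key _ (by linarith)) (key _ (by linarith))
  · rw [e1, ContinuousLinearMap.sum_apply]
    rfl

end Vale.Agent.P366Z.LinaH
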