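import Vale.Agent.P366Z.McA

/-!
# P366Z, row MC: the stress tensor of the Allen-Cahn equation
-/

open MeasureTheory Metric Filter Topology Set
open scoped ContDiff ENNReal
open Vale.Agent.P366.Stmt

noncomputable section

namespace Vale.Agent.P366Z

namespace McX

variable {n : ℕ} {g : Field n} {U w h χ P : E n → ℝ} {x : E n} {ε c s : ℝ}

/-- the factor `ε U ^ (-2 b)` -/
def fi (ε : ℝ) (U : E n → ℝ) : E n → ℝ := fun y => ε * U y ^ (-(2 * bb n))

/-- the energy density -/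
def en0 (g : Field n) (ε : ℝ) (U w : E n → ℝ) : E n → ℝ :=
  fun y => fi ε U y * ip g w w y / 2 + Wp (w y) / ε

/-- the tensor -/
def TT (g : Field n) (ε c : ℝ) (U w χ P : E n → ℝ) : Field n :=
  tt g (fun y => c * (χ y * en0 g ε U w y + P y)) (fun y => c * (χ y * fi ε U y)) w

theorem fi_sm (hU : Smooth U) (h0 : ∀ x, 0 < U x) : Smooth (fi ε U) :=
  contDiff_const.mul (hU.rpow h0 _)

theorem wp_sm (hw : Smooth w) : Smooth fun y => Wp (w y) / ε := by
  unfold Wp Smooth at *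
  fun_prop

theorem en0_sm (hg : Met g) (hU : Smooth U) (h0 : ∀ x, 0 < U x) (hw : Smooth w) :
    Smooth (en0 g ε U w) :=
  ((ContDiff.mul (fi_sm hU h0) (hg.sm_ip hw hw)).div_const 2).add (wp_sm hw)

theorem al_sm (hg : Met g) (hU : Smooth U) (h0 : ∀ x, 0 < U x) (hw : Smooth w) (hχ : Smooth χ)
    (hP : Smooth P) : Smooth fun y => c * (χ y * en0 g ε U w y + P y) :=
  contDiff_const.mul ((ContDiff.mul hχ (en0_sm hg hU h0 hw)).add hP)

theorem be_sm (hU : Smooth U) (h0 : ∀ x, 0 < U x) (hχ : Smooth χ) :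
    Smooth fun y => c * (χ y * fi ε U y) :=
  contDiff_const.mul (ContDiff.mul hχ (fi_sm hU h0))

theorem pd_fi (hU : Smooth U) (h0 : 0 < U x) (j : Fin n) :
    pd j (fi ε U) x = -(2 * bb n) * fi ε U x / U x * pd j U x := by
  unfold fi
  rw [pd_const_mul, pd_rpow (hU.diff x) h0.ne', Real.rpow_sub_one h0.ne']
  ring

theorem pd_wp (hw : Smooth w) (j : Fin n) :
    pd j (fun y => Wp (w y) / ε) x = -2 * w x * (1 - w x ^ 2) / ε * pd j w x := by
  have h1 : HasDerivAt (fun t : ℝ => Wp t / ε) (-2 * w x * (1 - w x ^ 2) / ε) (w x) := by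
    have h2 := ((((hasDerivAt_id (w x)).fun_pow 2).const_sub 1).fun_pow 2).div_const 2
    refine (h2.div_const ε).congr_deriv ?_
    simp only [id]
    norm_num
    ring
  exact pd_comp h1 (hw.diff x) j

theorem pd_en0 (hg : Met g) (hU : Smooth U) (h0 : ∀ x, 0 < U x) (hw : Smooth w) (j : Fin n) :
    pd j (en0 g ε U w) x = (-(2 * bb n) * fi ε U x / U x * pd j U x * ip g w w x +
      fi ε U x * pd j (ip g w w) x) / 2 + -2 * w x * (1 - w x ^ 2) / ε * pd j w x := by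
  have d1 := (fi_sm (ε := ε) hU h0).diff x
  have d2 := (hg.sm_ip hw hw).diff x
  have e : en0 g ε U w = fun y => fi ε U y * ip g w w y * 2⁻¹ + Wp (w y) / ε := by
    funext y
    rw [en0, div_eq_mul_inv]
  rw [e, pd_add ((d1.fun_mul d2).mul_const _) ((wp_sm hw).diff x), pd_mul_const, pd_mul d1 d2,
    pd_fi hU (h0 x), pd_wp hw]
  ring

theorem pd_l (hU : Smooth U) (hh : Smooth h) (h0 : 0 < U x) (h1 : s ^ 2 * h x ^ 2 < 1) (j : Fin n) :
    pd j (fun y => -(bb n / 2) * Real.log (U y * (1 + s * h y) / 2 * (U y * (1 - s * h y) / 2))) x =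
      -bb n / U x * pd j U x + bb n * s ^ 2 * h x / (1 - s ^ 2 * h x ^ 2) * pd j h x := by
  have e : (fun y => -(bb n / 2) * Real.log (U y * (1 + s * h y) / 2 * (U y * (1 - s * h y) / 2))) =
      fun y => -(bb n / 2) * Real.log (U y ^ 2 * (4⁻¹ - s ^ 2 / 4 * h y ^ 2)) := by
    funext y
    refine congrArg (fun t => -(bb n / 2) * Real.log t) ?_
    ring
  have d1 := (hU.diff x).fun_pow 2
  have d2 := (((hh.diff x).fun_pow 2).const_mul (s ^ 2 / 4)).const_sub 4⁻¹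
  have p1 : (4⁻¹ - s ^ 2 / 4 * h x ^ 2 : ℝ) ≠ 0 := by
    refine ne_of_gt ?_
    linarith
  have p2 : (1 - s ^ 2 * h x ^ 2 : ℝ) ≠ 0 := by
    refine ne_of_gt ?_
    linarith
  rw [e, pd_const_mul, pd_log (d1.fun_mul d2) (mul_ne_zero (pow_ne_zero 2 h0.ne') p1),
    pd_mul d1 d2, pd_const_sub, pd_const_mul, pd_pow (hU.diff x), pd_pow (hh.diff x)]
  have p3 : (4⁻¹ - s ^ 2 / 4 * h x ^ 2 : ℝ) = (1 - s ^ 2 * h x ^ 2) / 4 := by ring
  rw [p3]
  have := h0.ne'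
  field_simp
  norm_num
  ring

/-- the cancellation of the stress -/
theorem wq_TT (hg : Met g) (hn : 3 ≤ n) (hU : Smooth U) (h0 : ∀ x, 0 < U x) (hw : Smooth w)
    (hχ : Smooth χ) (hP : Smooth P) {v v' : E n → ℝ} {χw Pw lam : ℝ}
    (e1 : ∀ j, pd j χ x = χw * pd j w x) (e2 : ∀ j, pd j P x = Pw * pd j w x)
    (e3 : ∀ j, pd j (fun y => -(bb n / 2) * Real.log (v y * v' y)) x =
      -bb n / U x * pd j U x + lam * pd j h x) (j : Fin n) :
    wq g (TT g ε c U w χ P) v v' j x =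
      c * (χ x * (fi ε U x * wl g U w x / U x ^ 2 - -2 * w x * (1 - w x ^ 2) / ε) +
        (fi ε U x * ip g w w x / 2 - Wp (w x) / ε) * χw - Pw -
        n * χ x * lam * (fi ε U x * ip g w h x)) * pd j w x +
      c * χ x * (fi ε U x * ip g w w x) * lam * pd j h x := by
  have d1 := (fi_sm (ε := ε) hU h0).diff x
  have d2 := (en0_sm (ε := ε) hg hU h0 hw).diff x
  have a1 : pd j (fun y => c * (χ y * en0 g ε U w y + P y)) x =
      c * (χw * pd j w x * en0 g ε U w x + χ x * pd j (en0 g ε U w) x + Pw * pd j w x) := by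
    rw [pd_const_mul, pd_add ((hχ.diff x).fun_mul d2) (hP.diff x), pd_mul (hχ.diff x) d2, e1, e2]
  have a2 : ip g w (fun y => c * (χ y * fi ε U y)) x = c * χw * fi ε U x * ip g w w x +
      c * χ x * (-(2 * bb n) * fi ε U x / U x) * ip g w U x :=
    ip_of_pd_add' fun i => by
      rw [pd_const_mul, pd_mul (hχ.diff x) d1, e1, pd_fi hU (h0 x)]
      ring
  have a3 := ip_of_pd_add' (g := g) (u := w) e3
  have a4 := hg.wl_eq (hU.diff x) (hw.c2 x)
  have a5 : (n : ℝ) * bb n = 2 + 2 * bb n := n_bb hn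
  rw [TT, wq_tt hg (al_sm hg hU h0 hw hχ hP) (be_sm hU h0 hχ) hw, a1, a2, a3, e3,
    pd_en0 hg hU h0 hw, a4, hg.ip_sy U w, en0]
  have := (h0 x).ne'
  obtain ⟨u, hu⟩ : ∃ u, u = (U x)⁻¹ := ⟨_, rfl⟩
  have a6 : U x * u = 1 := by rw [hu, mul_inv_cancel₀ this]
  simp only [div_eq_mul_inv, ← inv_pow, ← hu]
  linear_combination (c * χ x * fi ε U x * ip g w U x * u * pd j w x) * a5 -
    (c * χ x * fi ε U x * pd j w x * (lap g w x * (1 + U x * u) + 2 * u * ip g w U x)) * a6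

theorem fi_ip (hg : Met g) (h0 : 0 < U x) (u v : E n → ℝ) :
    fi ε U x * ip g u v x = ε * ip (cf U g) u v x := by
  rw [hg.ip_cf h0, fi, mul_assoc]

theorem gn_up (hg : Met g) (h0 : 0 < U x) (u : E n → ℝ) :
    gn g u x = U x ^ bb n * gn (cf U g) u x := by
  rw [hg.gn_cf h0, ← mul_assoc, ← Real.rpow_add h0, add_neg_cancel, Real.rpow_zero, one_mul]

/-- the length of `W` -/
theorem cov_TT (hg : Met g) (hn : 3 ≤ n) (hU : Smooth U) (h0 : ∀ x, 0 < U x) (hw : Smooth w)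
    (hχ : Smooth χ) (hP : Smooth P) {v v' : E n → ℝ} {χw Pw lam R ξ X Y : ℝ}
    (e1 : ∀ j, pd j χ x = χw * pd j w x) (e2 : ∀ j, pd j P x = Pw * pd j w x)
    (e3 : ∀ j, pd j (fun y => -(bb n / 2) * Real.log (v y * v' y)) x =
      -bb n / U x * pd j U x + lam * pd j h x) (hε : 0 ≤ ε) (hc : 0 ≤ c) (hχ0 : 0 ≤ χ x)
    (hl : 0 ≤ lam) (hR : R = fi ε U x * wl g U w x / U x ^ 2 - -2 * w x * (1 - w x ^ 2) / ε)
    (hξ : ξ = ε * ip (cf U g) w w x / 2 - Wp (w x) / ε) (hX : X = gn (cf U g) w x)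
    (hY : Y = gn (cf U g) h x) : covNorm g (wq g (TT g ε c U w χ P) v v') x ≤
      U x ^ bb n * (c * (χ x * (|R| * X) + |ξ| * (|χw| * X) + |Pw| * X +
        (n + 1) * χ x * (ε * X ^ 2) * (lam * Y))) := by
  have hG := hg.cf hU h0
  have hX0 : 0 ≤ X := hX ▸ gn_nonneg _ _ _
  have hY0 : 0 ≤ Y := hY ▸ gn_nonneg _ _ _
  have hu : 0 < U x ^ bb n := Real.rpow_pos_of_pos (h0 x) _
  have b1 := hG.abs_ip_le w h x
  have b2 := hG.gn_sq w x
  refine (covNorm_le hg (wq_TT hg hn hU h0 hw hχ hP e1 e2 e3)).trans ?_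
  rw [← hR, fi_ip hg (h0 x), fi_ip hg (h0 x), ← hξ, gn_up hg (h0 x) w, gn_up hg (h0 x) h, ← b2,
    ← hX, ← hY]
  rw [← hX, ← hY] at b1
  obtain ⟨I, hI⟩ : ∃ I, I = ip (cf U g) w h x := ⟨_, rfl⟩
  rw [← hI] at b1 ⊢
  have b3 : |χ x * R + ξ * χw - Pw - n * χ x * lam * (ε * I)| ≤
      χ x * |R| + |ξ| * |χw| + |Pw| + n * χ x * lam * (ε * (X * Y)) := by
    refine (abs_sub _ _).trans (add_le_add ((abs_sub _ _).trans (add_le_add
      ((abs_add_le _ _).trans (add_le_add ?_ ?_)) le_rfl)) ?_)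
    · rw [abs_mul, abs_of_nonneg hχ0]
    · rw [abs_mul]
    · rw [abs_mul, abs_mul ε, abs_of_nonneg hε, abs_of_nonneg (by positivity)]
      gcongr
  rw [abs_mul c, abs_of_nonneg hc, abs_of_nonneg (a := c * χ x * (ε * X ^ 2) * lam) (by positivity)]
  have b4 := mul_le_mul_of_nonneg_right (mul_le_mul_of_nonneg_left b3 hc) (mul_nonneg hu.le hX0)
  refine (add_le_add b4 le_rfl).trans (le_of_eq ?_)
  ring

theorem mq_TT (hg : Met g) (hn : 3 ≤ n) (h0 : 0 < U x) {e ξ : ℝ} (hε : 0 ≤ ε) (hc : 0 ≤ c)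
    (hχ : 0 ≤ χ x) (hP : 0 ≤ P x) (he : e = ε * ip (cf U g) w w x / 2 + Wp (w x) / ε)
    (hξ : ξ = ε * ip (cf U g) w w x / 2 - Wp (w x) / ε) (he0 : 0 ≤ e) (h1 : χ x * ξ ≤ P x / 2) :
    c ^ 2 * (χ x * e + P x) * P x / 2 ≤ mq g (TT g ε c U w χ P) x := by
  have e1 := fi_ip (ε := ε) hg h0 w w
  have e2 : en0 g ε U w x = e := by rw [en0, e1, he]
  have e3 : 0 ≤ fi ε U x * ip g w w x :=
    mul_nonneg (mul_nonneg hε (Real.rpow_pos_of_pos h0 _).le) (hg.ip_nonneg w x)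
  have e4 : fi ε U x * ip g w w x = e + ξ := by rw [e1, he, hξ]; ring
  have e5 : c * (P x / 2) ≤ c * (P x - χ x * ξ) := mul_le_mul_of_nonneg_left (by linarith) hc
  refine le_trans ?_ (mq_tt (A := c * (χ x * e + P x)) (Bn := c * (P x - χ x * ξ)) hg hn
    (by simp only [e2]) ?_ ((by positivity : 0 ≤ c * (P x / 2)).trans e5)
    (mul_le_mul_of_nonneg_left ?_ hc))
  · have e6 := mul_le_mul_of_nonneg_left e5 (by positivity : 0 ≤ c * (χ x * e + P x))
    linarith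
  · simp only [e2]
    linear_combination (-c * χ x) * e4
  · have := mul_nonneg hχ (e4 ▸ e3)
    linarith

/-- the coefficient of a sheet -/
theorem cq_eq (hg : Met g) (hn : 3 ≤ n) (hU : Smooth U) (h0 : 0 < U x) {f f' : E n → ℝ}
    (hf : Smooth f) (f0 : 0 < f x) (f0' : 0 < f' x) {σ om : ℝ}
    (hσ : cl g U x = σ * U x ^ (2 * bb n) * U x) (hom : wl g U f x = om * U x ^ (n * bb n))
    (T : Field n) : cq g T (fun y => U y * f y) (fun y => U y * f' y) x = U x ^ bb n *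
      (f x ^ (-bb n) * σ / 4 - gam n * (f x ^ (-bb n - 1) * om) + mq g T x * f' x ^ bb n) := by
  obtain ⟨u, hu⟩ : ∃ u, u = U x ^ bb n := ⟨_, rfl⟩
  have u0 : 0 < u := hu ▸ Real.rpow_pos_of_pos h0 _
  have e1 : U x ^ (2 * bb n) = u ^ 2 := by rw [mul_comm, Real.rpow_mul h0.le, ← hu, Real.rpow_two]
  have e2 : U x ^ (n * bb n) = U x ^ 2 * u ^ 2 := by
    rw [n_bb hn, Real.rpow_add h0, e1, Real.rpow_two]
  have e3 : U x ^ (-bb n - 1) = u⁻¹ / U x := by
    rw [Real.rpow_sub_one h0.ne', Real.rpow_neg h0.le, ← hu]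
  have e4 : f x ^ (-bb n) = f x ^ (-bb n - 1) * f x := by
    rw [Real.rpow_sub_one f0.ne', div_mul_cancel₀ _ f0.ne']
  rw [cq, hg.cl_mul (hU.c2 x) (hf.c2 x) h0.ne', hσ, hom, Real.mul_rpow h0.le f0.le,
    Real.mul_rpow h0.le f0'.le, e1, e2, e3, e4, ← hu]
  have := h0.ne'
  have := u0.ne'
  field_simp

end McX

end Vale.Agent.P366Z
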