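import Vale.Agent.P366Z.Calc2
import Vale.Agent.P272.K.MP.Local
import Mathlib.Analysis.InnerProductSpace.Laplacian

/-!
# P366Z: tools for the expansion at infinity (strict minimum principle, reflections, barriers)
-/

open Metric Filter Topology Set
open scoped ContDiff
open Vale.Agent.P366.Stmt

noncomputable section

namespace Vale.Agent.P366Z

namespace Nw

variable {n : ℕ} {f u : E n → ℝ} {x e : E n}

theorem lap_min (hu : ContDiffAt ℝ 2 u x) (h : IsLocalMin u x) : 0 ≤ lap (eu n) u x := by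
  have h1 : lap (eu n) (fun y => -u y) x ≤ 0 := by
    rw [lap_eu]
    refine Finset.sum_nonpos fun i _ => ?_
    rw [pd_pd_eq hu.neg]
    exact P272.K.MP.fderiv2_nonpos_of_max h.neg hu.neg _
  rw [lap_neg] at h1
  linarith

/-- the minimum principle for strictly superharmonic functions -/
theorem smp {K O : Set (E n)} (hK : IsClosed K) (hO : IsOpen O) (hOK : O ⊆ K)
    (h2 : ∀ x ∈ K, ContDiffAt ℝ 2 u x) (hl : ∀ x ∈ O, lap (eu n) u x < 0)
    (hb : ∀ x ∈ K, x ∉ O → 0 ≤ u x) (hi : ∀ ε > 0, ∃ R, ∀ x ∈ K, R ≤ ‖x‖ → -ε ≤ u x) :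
    ∀ x ∈ K, 0 ≤ u x := by
  intro x₀ hx₀
  by_contra hneg
  have hneg := not_le.1 hneg
  obtain ⟨R, hR⟩ := hi (-u x₀ / 2) (by linarith)
  obtain ⟨x₁, h1, hmin⟩ := ((isCompact_closedBall (0 : E n) (max R ‖x₀‖)).inter_left
    hK).exists_isMinOn ⟨x₀, hx₀, mem_closedBall_zero_iff.2 (le_max_right _ _)⟩
    fun y hy => (h2 y hy.1).continuousAt.continuousWithinAt
  have h3 : u x₁ ≤ u x₀ := hmin ⟨hx₀, mem_closedBall_zero_iff.2 (le_max_right _ _)⟩
  have h4 : x₁ ∈ O := by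
    by_contra h
    linarith [hb x₁ h1.1 h]
  have h5 : ‖x₁‖ < R := by
    by_contra h
    linarith [hR x₁ h1.1 (not_lt.1 h)]
  refine (hl x₁ h4).not_ge (lap_min (h2 x₁ h1.1) (hmin.isLocalMin ?_))
  filter_upwards [hO.mem_nhds h4, (isOpen_lt continuous_norm continuous_const).mem_nhds h5]
    with y k1 k2
  exact ⟨hOK k1, mem_closedBall_zero_iff.2 ((le_of_lt k2).trans (le_max_left _ _))⟩

theorem lap_eq (hf : ContDiffAt ℝ 2 f x) : lap (eu n) f x = Laplacian.laplacian f x := by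
  rw [lap_eu, InnerProductSpace.laplacian_eq_iteratedFDeriv_orthonormalBasis f
    (EuclideanSpace.basisFun (Fin n) ℝ)]
  refine Finset.sum_congr rfl fun i _ => ?_
  rw [pd_pd_eq hf, iteratedFDeriv_two_apply]
  simp

theorem c2_comp (L : E n ≃ₗᵢ[ℝ] E n) (hf : ContDiffAt ℝ 2 f (L x)) :
    ContDiffAt ℝ 2 (fun y => f (L y)) x := hf.comp x L.contDiff.contDiffAt

theorem lap_iso (L : E n ≃ₗᵢ[ℝ] E n) (hf : ContDiffAt ℝ 2 f (L x)) :
    lap (eu n) (fun y => f (L y)) x = lap (eu n) f (L x) := by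
  rw [lap_eq (c2_comp L hf), lap_eq hf,
    InnerProductSpace.laplacian_eq_iteratedFDeriv_orthonormalBasis _
      (EuclideanSpace.basisFun (Fin n) ℝ),
    InnerProductSpace.laplacian_eq_iteratedFDeriv_orthonormalBasis f
      ((EuclideanSpace.basisFun (Fin n) ℝ).map L)]
  refine Finset.sum_congr rfl fun i _ => ?_
  have h := L.toContinuousLinearEquiv.iteratedFDerivWithin_comp_right f uniqueDiffOn_univ
    (mem_univ (L x)) 2
  rw [preimage_univ, iteratedFDerivWithin_univ, iteratedFDerivWithin_univ] at h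
  refine (DFunLike.congr_fun h _).trans ?_
  rw [ContinuousMultilinearMap.compContinuousLinearMap_apply]
  congr 1
  funext j
  fin_cases j <;> rfl

/-- the height over the hyperplane -/
def ht (e : E n) (y : E n) : ℝ := inner ℝ e y

theorem sm_ht {m : WithTop ℕ∞} (e : E n) : ContDiff ℝ m (ht e) := (innerSL ℝ e).contDiff

theorem pd_ht (e : E n) (i : Fin n) : pd i (ht e) = fun _ => e i := funext fun x => by
  rw [pd_of_hasFDerivAt (f := ht e) (innerSL ℝ e).hasFDerivAt]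
  simp [EuclideanSpace.inner_single_right]

theorem ht_eq (e y : E n) : ht e y = ∑ i, e i * y i := by
  simp [ht, PiLp.inner_apply, mul_comm]

theorem ht_le (he : ‖e‖ = 1) (y : E n) : ht e y ≤ ‖y‖ := by
  simpa [he, ht] using real_inner_le_norm e y

theorem lap_ht (e x : E n) : lap (eu n) (ht e) x = 0 := by
  simp [lap_eu, pd_ht, pd_const]

theorem lap_ht2 (he : ‖e‖ = 1) (x : E n) : lap (eu n) (fun y => ht e y * ht e y) x = 2 := by
  rw [met_eu.lap_mul (sm_ht e).contDiffAt (sm_ht e).contDiffAt, lap_ht, ip_eu]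
  simp only [pd_ht, ← sq]
  rw [← norm_sq_eq, he]
  norm_num

theorem ip_ht (hx : x ≠ 0) (e : E n) (p : ℝ) :
    ip (eu n) (ht e) (fun y => ‖y‖ ^ p) x = p * ht e x * ‖x‖ ^ (p - 2) := by
  rw [ip_eu, ht_eq, Finset.mul_sum, Finset.sum_mul]
  refine Finset.sum_congr rfl fun i _ => ?_
  rw [pd_ht, pd_norm_rpow hx]
  ring

theorem lap_dip (hx : x ≠ 0) (e : E n) :
    lap (eu n) (fun y => ht e y * ‖y‖ ^ (-n : ℝ)) x = 0 := by
  rw [met_eu.lap_mul (sm_ht e).contDiffAt (contDiffAt_norm_rpow hx _), lap_ht, ip_ht hx,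
    lap_eu_rpow hx]
  ring

theorem lap_quad (hx : x ≠ 0) (he : ‖e‖ = 1) :
    lap (eu n) (fun y => ht e y * ht e y * ‖y‖ ^ (-(n + 2) : ℝ)) x = 2 * ‖x‖ ^ (-(n + 2) : ℝ) := by
  have h : ip (eu n) (fun y => ht e y * ht e y) (fun y => ‖y‖ ^ (-(n + 2) : ℝ)) x =
      2 * ht e x * ip (eu n) (ht e) (fun y => ‖y‖ ^ (-(n + 2) : ℝ)) x := by
    rw [ip_eu, ip_eu, Finset.mul_sum]
    refine Finset.sum_congr rfl fun i _ => ?_
    rw [pd_mul (diff2 (sm_ht e).contDiffAt) (diff2 (sm_ht e).contDiffAt)]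
    ring
  rw [met_eu.lap_mul ((sm_ht e).mul (sm_ht e)).contDiffAt (contDiffAt_norm_rpow hx _),
    lap_ht2 he, h, ip_ht hx, lap_eu_rpow hx]
  ring

/-- the gradient estimate by reflection -/
theorem grad_le {ρ M S : ℝ} (hρ : 0 < ρ) (hM : 0 ≤ M) (hS : 0 ≤ S) (he : ‖e‖ = 1)
    (h : ∀ y : E n, ‖y‖ ≤ ρ → ContDiffAt ℝ 2 f y ∧ |f y| ≤ M ∧ |lap (eu n) f y| < S) :
    fderiv ℝ f 0 e ≤ (n + 1) * (S * ρ + 2 * M / ρ) := by
  set L : E n ≃ₗᵢ[ℝ] E n := (ℝ ∙ e)ᗮ.reflection with hL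
  set B : ℝ := S + 2 * M / ρ ^ 2 with hB
  have hB0 : 0 ≤ B := by positivity
  have hBS : S ≤ B := le_add_of_nonneg_right (by positivity)
  set q : E n → ℝ := fun y => 1 * ‖y‖ ^ 2 + -(n + 1 : ℝ) * (ht e y * ht e y) with hq
  set φ : E n → ℝ := fun y => ((n + 1) * B * ρ) * ht e y + B * q y with hφ
  have sq : ContDiff ℝ 2 q := (contDiff_const.mul contDiff_normSq).add
    (contDiff_const.mul ((sm_ht e).mul (sm_ht e)))
  have sφ : ContDiff ℝ 2 φ := (contDiff_const.mul (sm_ht e)).add (contDiff_const.mul sq)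
  have lφ : ∀ y, lap (eu n) φ y = -(2 * B) := fun y => by
    rw [hφ, met_eu.lap_lin (sm_ht e).contDiffAt sq.contDiffAt, hq, met_eu.lap_lin
      contDiff_normSq.contDiffAt ((sm_ht e).mul (sm_ht e)).contDiffAt, lap_ht, lap_ht2 he,
      lap_eu_normSq]
    ring
  have hLn : ∀ y : E n, ‖y‖ ≤ ρ → ‖L y‖ ≤ ρ := fun y hy => by rwa [L.norm_map]
  have key := smp (u := fun y => φ y - (f y - f (L y))) (K := {y | ‖y‖ ≤ ρ ∧ 0 ≤ ht e y})
    (O := {y | ‖y‖ < ρ ∧ 0 < ht e y})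
    ((isClosed_le continuous_norm continuous_const).inter
      (isClosed_le continuous_const (sm_ht (m := 0) e).continuous))
    ((isOpen_lt continuous_norm continuous_const).inter
      (isOpen_lt continuous_const (sm_ht (m := 0) e).continuous))
    (fun y hy => ⟨hy.1.le, hy.2.le⟩)
    (fun y hy => sφ.contDiffAt.sub ((h y hy.1).1.sub (c2_comp L (h _ (hLn y hy.1)).1)))
    (fun y hy => by
      have k1 := h y hy.1.le
      have k2 := h _ (hLn y hy.1.le)
      rw [met_eu.lap_sub sφ.contDiffAt (k1.1.sub (c2_comp L k2.1)),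
        met_eu.lap_sub k1.1 (c2_comp L k2.1), lap_iso L k2.1, lφ]
      linarith [(abs_lt.1 k1.2.2).1, (abs_lt.1 k2.2.2).2])
    (fun y hy hy' => by
      rcases hy.2.eq_or_lt with k | k
      · have : L y = y := Submodule.reflection_mem_subspace_eq_self
          (Submodule.mem_orthogonal_singleton_iff_inner_right.2 k.symm)
        simp only [this, hφ, hq, ← k, mul_zero, add_zero, zero_add, sub_self, sub_zero]
        positivity
      · have k0 : ‖y‖ = ρ := hy.1.eq_or_lt.resolve_right fun c => hy' ⟨c, k⟩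
        have k1 := abs_le.1 (h y hy.1).2.1
        have k2 := abs_le.1 (h _ (hLn y hy.1)).2.1
        have k3 := ht_le he y
        have k4 : 0 ≤ (n + 1) * B * (ht e y * (ρ - ht e y)) :=
          mul_nonneg (by positivity) (mul_nonneg k.le (by linarith))
        have k5 : B * ρ ^ 2 = S * ρ ^ 2 + 2 * M := by rw [hB]; field_simp
        have k6 : 0 ≤ S * ρ ^ 2 := by positivity
        simp only [hφ, hq, k0]
        nlinarith)
    (fun ε _ => ⟨ρ + 1, fun y hy k => absurd (k.trans hy.1) (by linarith)⟩)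
  have hd := (diff2 (h 0 (by simpa using hρ.le)).1).hasFDerivAt
  have d1 : HasDerivAt (fun t : ℝ => t • e) e 0 := by
    simpa using (hasDerivAt_id (0 : ℝ)).smul_const e
  have d2 : HasDerivAt (fun t : ℝ => f (t • e)) (fderiv ℝ f 0 e) 0 :=
    HasFDerivAt.comp_hasDerivAt_of_eq (0 : ℝ) hd d1 (by simp)
  have d3 : HasDerivAt (fun t : ℝ => f (-(t • e))) (fderiv ℝ f 0 (-e)) 0 :=
    HasFDerivAt.comp_hasDerivAt_of_eq (0 : ℝ) hd d1.neg (by simp)
  have d4 := le_of_tendsto (b := (n + 1) * B * ρ) (d2.fun_sub d3).tendsto_slope_zero_right (by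
    filter_upwards [Ioc_mem_nhdsGT hρ] with t ht'
    have m1 : ht e (t • e) = t := by
      rw [ht, inner_smul_right, real_inner_self_eq_norm_sq, he]; ring
    have m2 : ‖t • e‖ = t := by rw [norm_smul, he, mul_one, Real.norm_of_nonneg ht'.1.le]
    have m3 : L (t • e) = -(t • e) := by
      rw [map_smul, hL, Submodule.reflection_orthogonalComplement_singleton_eq_neg, smul_neg]
    have k := key (t • e) ⟨m2.trans_le ht'.2, m1.symm ▸ ht'.1.le⟩
    simp only [hφ, hq, m1, m2, m3] at k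
    simp only [zero_add, zero_smul, neg_zero, sub_self, sub_zero, smul_eq_mul]
    rw [inv_mul_le_iff₀ ht'.1]
    have : 0 ≤ B * (n * t ^ 2) := by positivity
    nlinarith)
  rw [map_neg] at d4
  have d5 : (n + 1) * B * ρ = (n + 1) * (S * ρ + 2 * M / ρ) := by rw [hB]; field_simp
  have d6 : 0 ≤ (n + 1) * B * ρ := by positivity
  linarith

theorem abs_pd_le' {ρ M S : ℝ} (hρ : 0 < ρ) (hM : 0 ≤ M) (hS : 0 ≤ S)
    (h : ∀ y : E n, ‖y‖ ≤ ρ → ContDiffAt ℝ 2 f y ∧ |f y| ≤ M ∧ |lap (eu n) f y| < S) (i : Fin n) :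
    |pd i f 0| ≤ (n + 1) * (S * ρ + 2 * M / ρ) := by
  rw [pd_eq (diff2 (h 0 (by simpa using hρ.le)).1), abs_le]
  have h1 := grad_le (e := -EuclideanSpace.single i 1) hρ hM hS (by simp) h
  rw [map_neg] at h1
  exact ⟨by linarith, grad_le hρ hM hS (by simp) h⟩

end Nw

end Vale.Agent.P366Z
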