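import Vale.Agent.P366Z.Sk
import Vale.Agent.P366Z.Int

/-!
# P366Z, row STAB: test functions and the inequality of Hardy
-/

open MeasureTheory Metric Filter Topology Set
open scoped ContDiff ENNReal
open Vale.Agent.P366.Stmt

noncomputable section

namespace Vale.Agent.P366Z

namespace StabH

variable {n : ℕ}

/-- the basis vectors -/
abbrev ee (i : Fin n) : E n := EuclideanSpace.single i 1

/-- integrable functions with the integral zero -/
def Nul (Z : E n → ℝ) : Prop := Integrable Z ∧ ∫ x, Z x = 0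

theorem Nul.add {Y Z : E n → ℝ} (h : Nul Y) (k : Nul Z) : Nul fun x => Y x + Z x :=
  ⟨h.1.add k.1, by rw [integral_add h.1 k.1, h.2, k.2, add_zero]⟩

theorem Nul.sub {Y Z : E n → ℝ} (h : Nul Y) (k : Nul Z) : Nul fun x => Y x - Z x :=
  ⟨h.1.sub k.1, by rw [integral_sub h.1 k.1, h.2, k.2, sub_zero]⟩

theorem Nul.mul {Z : E n → ℝ} (c : ℝ) (k : Nul Z) : Nul fun x => c * Z x :=
  ⟨k.1.const_mul c, by rw [integral_const_mul, k.2, mul_zero]⟩

theorem Nul.sum {ι : Type} [Fintype ι] {Z : ι → E n → ℝ} (k : ∀ i, Nul (Z i)) :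
    Nul fun x => ∑ i, Z i x :=
  ⟨integrable_finsetSum _ fun i _ => (k i).1, by
    rw [integral_finsetSum _ fun i _ => (k i).1]
    exact Finset.sum_eq_zero fun i _ => (k i).2⟩

theorem pd_off {T : E n → ℝ} {x : E n} (h : x ∉ tsupport T) (i : Fin n) : pd i T x = 0 := by
  rw [pd_congr (notMem_tsupport_iff_eventuallyEq.1 h)]
  exact pd_const 0 i x

theorem supp_pd {T : E n → ℝ} (h : HasCompactSupport T) (i : Fin n) :
    HasCompactSupport (pd i T) := HasCompactSupport.intro h fun _ hx => pd_off hx i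

theorem nul_pd {T : E n → ℝ} (hT : Smooth T) (h : HasCompactSupport T) (i : Fin n) :
    Nul (pd i T) :=
  ⟨(hT.pd i).cont.integrable_of_hasCompactSupport (supp_pd h i),
    integral_pd (lip_of_supp (ContDiff.of_le hT (by exact_mod_cast le_top)) h) h i⟩

theorem Nul.le {F Z : E n → ℝ} (h : Nul Z) (hF : Integrable F) (k : ∀ x, F x ≤ Z x) :
    ∫ x, F x ≤ 0 := (integral_mono hF h.1 k).trans_eq h.2

theorem Nul.abs_le {F Z b : E n → ℝ} (h : Nul Z) (hF : Integrable F) (hb : Integrable b)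
    (k : ∀ x, |Z x - F x| ≤ b x) : |∫ x, F x| ≤ ∫ x, b x := by
  have h1 : ∫ x, (Z x - F x) = -∫ x, F x := by rw [integral_sub h.1 hF, h.2, zero_sub]
  rw [← abs_neg, ← h1]
  exact abs_integral_le_integral_abs.trans (integral_mono (h.1.sub hF).abs hb k)

theorem pd_inv_dir {Q : E n → ℝ} {i : Fin n} (h : ∀ (x : E n) (t : ℝ), Q (x + t • ee i) = Q x)
    (x : E n) : pd i Q x = 0 := by
  unfold pd lineDeriv
  simp only [h, deriv_const]

/-- the test function of a rectangle -/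
theorem ex_test {i j : Fin n} (hij : i ≠ j) {r : ℝ} (hr : 0 < r) : ∃ κ : E n → ℝ, Continuous κ ∧
    (∀ x, 0 ≤ κ x) ∧ 0 < ∫ x, κ x ∧ (∀ x, κ x ≠ 0 → ‖x‖ ≤ 2 * r) ∧ ∀ a b : ℝ, ∃ T : E n → ℝ,
      Smooth T ∧ (∀ x, T x ≠ 0 → ∃ s ∈ Icc (0 : ℝ) 1, ∃ t ∈ Icc (0 : ℝ) 1,
        ‖x - ((s * a) • ee i + (t * b) • ee j)‖ ≤ 2 * r) ∧
      ∀ x, pd i (pd j T) x = κ x - κ (x - a • ee i) - κ (x - b • ee j) +
        κ (x - (a • ee i + b • ee j)) := by
  classical
  let θ : ℝ → ℝ := fun t => Real.smoothTransition (t / r)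
  have θs : ContDiff ℝ ∞ θ := Real.smoothTransition.contDiff.comp (contDiff_id.div_const r)
  have θd : ∀ t, HasDerivAt θ (deriv θ t) t := fun t =>
    (θs.differentiable (by simp) t).hasDerivAt
  have θ0 : ∀ t ≤ 0, θ t = 0 := fun t ht =>
    Real.smoothTransition.zero_of_nonpos (div_nonpos_of_nonpos_of_nonneg ht hr.le)
  have θ1 : ∀ t, r ≤ t → θ t = 1 := fun t ht =>
    Real.smoothTransition.one_of_one_le ((one_le_div hr).2 ht)
  have k0 : ∀ t, 0 ≤ deriv θ t := fun t => Monotone.deriv_nonneg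
    (Real.smoothTransition.monotone.comp fun a b h => div_le_div_of_nonneg_right h hr.le)
  have ks : ContDiff ℝ ∞ (deriv θ) := (contDiff_infty_iff_deriv.1 θs).2
  have k1 : ∀ t, deriv θ t ≠ 0 → |t| ≤ r := fun t ht => by
    by_contra h
    refine ht ?_
    rcases lt_abs.1 (not_le.1 h) with h | h
    · rw [Filter.EventuallyEq.deriv_eq (f := fun _ => 1)
        (eventually_of_mem (Ioi_mem_nhds h) fun s hs => θ1 s (le_of_lt hs)), deriv_const]
    · rw [Filter.EventuallyEq.deriv_eq (f := fun _ => 0)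
        (eventually_of_mem (Iio_mem_nhds (by linarith : t < 0)) fun s hs => θ0 s (le_of_lt hs)),
        deriv_const]
  obtain ⟨t₀, ht₀⟩ : ∃ t, deriv θ t ≠ 0 := by
    by_contra h
    push Not at h
    have := is_const_of_deriv_eq_zero (θs.differentiable (by simp)) h 0 r
    rw [θ0 0 le_rfl, θ1 r le_rfl] at this
    exact zero_ne_one this
  let σ : E n → ℝ := fun x => ∑ l ∈ (Finset.univ.erase i).erase j, x l ^ 2
  have σs : Smooth σ := ContDiff.sum fun l _ => (contDiff_coord l).pow 2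
  have σe : ∀ (x : E n) (s t : ℝ), σ (x - (s • ee i + t • ee j)) = σ x := fun x s t =>
    Finset.sum_congr rfl fun l hl => by
      have h1 := Finset.ne_of_mem_erase hl
      have h2 := Finset.ne_of_mem_erase (Finset.mem_of_mem_erase hl)
      simp [h1, h2]
  have σn : ∀ x : E n, ‖x‖ ^ 2 = x i ^ 2 + x j ^ 2 + σ x := fun x => by
    rw [norm_sq_eq, ← Finset.add_sum_erase _ _ (Finset.mem_univ i),
      ← Finset.add_sum_erase _ _ (Finset.mem_erase.2 ⟨hij.symm, Finset.mem_univ j⟩), add_assoc]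
  let Q : E n → ℝ := fun x => Real.smoothTransition (1 - σ x / r ^ 2)
  have Qs : Smooth Q :=
    Real.smoothTransition.contDiff.comp (contDiff_const.sub (ContDiff.div_const σs _))
  have Qe : ∀ (x : E n) (s t : ℝ), Q (x - (s • ee i + t • ee j)) = Q x := fun x s t => by
    simp only [Q, σe]
  have Qi : ∀ x, pd i Q x = 0 := pd_inv_dir fun x t => by simpa using Qe x (-t) 0
  have Qj : ∀ x, pd j Q x = 0 := pd_inv_dir fun x t => by simpa using Qe x 0 (-t)
  have Qn : ∀ x : E n, Q x ≠ 0 → |x i| ≤ r → |x j| ≤ r → ‖x‖ ≤ 2 * r := fun x h h1 h2 => by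
    have h3 : σ x / r ^ 2 < 1 := by
      by_contra k
      exact h (Real.smoothTransition.zero_of_nonpos (by linarith))
    rw [div_lt_one (by positivity)] at h3
    refine le_of_sq_le_sq ?_ (by positivity)
    rw [σn, ← sq_abs (x i), ← sq_abs (x j)]
    nlinarith [abs_nonneg (x i), abs_nonneg (x j)]
  have κs : Continuous fun x : E n => deriv θ (x i) * deriv θ (x j) * Q x :=
    (((ks.comp (contDiff_coord i)).mul (ks.comp (contDiff_coord j))).mul Qs).continuous
  have κ0 : ∀ x : E n, 0 ≤ deriv θ (x i) * deriv θ (x j) * Q x := fun x =>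
    mul_nonneg (mul_nonneg (k0 _) (k0 _)) (Real.smoothTransition.nonneg _)
  have κn : ∀ x : E n, deriv θ (x i) * deriv θ (x j) * Q x ≠ 0 → ‖x‖ ≤ 2 * r := fun x h =>
    Qn x (right_ne_zero_of_mul h) (k1 _ (left_ne_zero_of_mul (left_ne_zero_of_mul h)))
      (k1 _ (right_ne_zero_of_mul (left_ne_zero_of_mul h)))
  refine ⟨_, κs, κ0, κs.integral_pos_of_hasCompactSupport_nonneg_nonzero
    (supp_of_out (R := 3 * r) fun y hy => by
      by_contra h
      linarith [κn y h]) κ0 (x := t₀ • ee i + t₀ • ee j) ?_, κn, fun a b => ?_⟩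
  · have := Qe (t₀ • ee i + t₀ • ee j) t₀ t₀
    rw [← this]
    simp [hij, hij.symm, ht₀, Q, σ]
  have Pn : ∀ c y : ℝ, θ y - θ (y - c) ≠ 0 → ∃ s ∈ Icc (0 : ℝ) 1, |y - s * c| ≤ r := by
    intro c y h
    have h1 : ¬ (y ≤ 0 ∧ y - c ≤ 0) := fun k => h (by rw [θ0 _ k.1, θ0 _ k.2, sub_self])
    have h2 : ¬ (r ≤ y ∧ r ≤ y - c) := fun k => h (by rw [θ1 _ k.1, θ1 _ k.2, sub_self])
    by_cases h3 : y ≤ 0
    · have h4 : c < y := by
        by_contra k
        exact h1 ⟨h3, by linarith⟩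
      have hc : c < 0 := by linarith
      refine ⟨y / c, ⟨div_nonneg_of_nonpos h3 hc.le, (div_le_one_of_neg hc).2 h4.le⟩, ?_⟩
      rw [div_mul_cancel₀ _ hc.ne, sub_self, abs_zero]
      exact hr.le
    · by_cases h4 : y ≤ r
      · refine ⟨0, ⟨le_rfl, zero_le_one⟩, ?_⟩
        rw [zero_mul, sub_zero, abs_le]
        constructor <;> linarith
      · have h5 : y - c < r := by
          by_contra k
          exact h2 ⟨by linarith, by linarith⟩
        have hc : 0 < c := by linarith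
        refine ⟨(y - r) / c, ⟨div_nonneg (by linarith) hc.le, (div_le_one hc).2 (by linarith)⟩, ?_⟩
        rw [div_mul_cancel₀ _ hc.ne', sub_sub_cancel, abs_of_pos hr]
  have Ps : ∀ c : ℝ, ContDiff ℝ ∞ fun y => θ y - θ (y - c) := fun c =>
    θs.sub (θs.comp (contDiff_id.sub contDiff_const))
  have Pd : ∀ c y : ℝ, HasDerivAt (fun y => θ y - θ (y - c)) (deriv θ y - deriv θ (y - c)) y :=
    fun c y => (θd y).sub ((θd (y - c)).comp_sub_const y c)
  have s1 : Smooth fun x : E n => θ (x i) - θ (x i - a) := (Ps a).comp (contDiff_coord i)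
  have s2 : Smooth fun x : E n => θ (x j) - θ (x j - b) := (Ps b).comp (contDiff_coord j)
  have s3 : Smooth fun x : E n => deriv θ (x j) - deriv θ (x j - b) :=
    (ks.comp (contDiff_coord j)).sub (ks.comp ((contDiff_coord j).sub contDiff_const))
  have dc : ∀ (l : Fin n) (x : E n), DifferentiableAt ℝ (fun y : E n => y l) x := fun l x =>
    (contDiff_coord (m := 1) l).differentiable one_ne_zero x
  refine ⟨fun x => (θ (x i) - θ (x i - a)) * ((θ (x j) - θ (x j - b)) * Q x),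
    ContDiff.mul s1 (ContDiff.mul s2 Qs), fun x h => ?_, fun x => ?_⟩
  · obtain ⟨s, hs, h1⟩ := Pn _ _ (left_ne_zero_of_mul h)
    obtain ⟨t, ht, h2⟩ := Pn _ _ (left_ne_zero_of_mul (right_ne_zero_of_mul h))
    refine ⟨s, hs, t, ht, Qn _ ?_ (by simpa [hij] using h1) (by simpa [hij.symm] using h2)⟩
    rw [Qe]
    exact right_ne_zero_of_mul (right_ne_zero_of_mul h)
  · have e : pd j (fun x : E n => (θ (x i) - θ (x i - a)) * ((θ (x j) - θ (x j - b)) * Q x)) =
        fun x => (θ (x i) - θ (x i - a)) * ((deriv θ (x j) - deriv θ (x j - b)) * Q x) := by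
      funext y
      rw [pd_mul (s1.diff y) ((s2.diff y).fun_mul (Qs.diff y)), pd_mul (s2.diff y) (Qs.diff y), Qj,
        pd_comp (Pd a _) (dc i y), pd_comp (Pd b _) (dc j y), pd_coord, pd_coord, if_pos rfl,
        if_neg hij.symm]
      ring
    have e2 : pd i (fun x : E n => deriv θ (x j) - deriv θ (x j - b)) x = 0 :=
      pd_inv_dir (fun x t => by simp [hij.symm]) x
    have q1 : Q (x - a • ee i) = Q x := by simpa using Qe x a 0
    have q2 : Q (x - b • ee j) = Q x := by simpa using Qe x 0 b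
    rw [e, pd_mul (s1.diff x) ((s3.diff x).fun_mul (Qs.diff x)), pd_mul (s3.diff x) (Qs.diff x), Qi, e2,
      pd_comp (Pd a _) (dc i x), pd_coord, if_pos rfl, q1, q2, Qe]
    simp [hij, hij.symm]
    ring

/-- the function of the inequality of Hardy -/
structure Hf (τ K : ℝ) (H H' : ℝ → ℝ) : Prop where
  pos : 0 < K
  sm : ∀ t, 0 ≤ t → ContDiffAt ℝ ∞ H t
  der : ∀ t, 0 ≤ t → HasDerivAt H (H' t) t
  nn : ∀ t, 0 ≤ t → 0 ≤ H t
  zero : ∀ t, |t - 1| ≤ τ → H t = 0 ∧ H' t = 0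
  low : ∀ t, 0 ≤ t → |t - 1| ≤ 2 * τ + K * H t
  abs : ∀ t w B, 0 ≤ t → 0 ≤ B → w ^ 2 ≤ B * t → -(H' t * w) ≤ H t / 2 + K * B

theorem ex_H {τ : ℝ} (hτ : 0 < τ) : ∃ K H H', Hf τ K H H' := by
  let h : ℝ → ℝ := fun t => (t - 1) * Real.smoothTransition ((t - 1) ^ 2 / τ ^ 2 - 1)
  have hs : ContDiff ℝ ∞ h := (contDiff_id.sub contDiff_const).mul
    (Real.smoothTransition.contDiff.comp
      ((((contDiff_id.sub contDiff_const).pow 2).div_const _).sub contDiff_const))
  have h0 : ∀ t, |t - 1| ≤ τ → h t = 0 := fun t ht => mul_eq_zero_of_right _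
    (Real.smoothTransition.zero_of_nonpos (by
      rw [sub_nonpos, div_le_one (by positivity), ← sq_abs]
      exact pow_le_pow_left₀ (abs_nonneg _) ht 2))
  have h1 : ∀ t, 2 * τ ≤ |t - 1| → h t = t - 1 := fun t ht => by
    have : 1 ≤ (t - 1) ^ 2 / τ ^ 2 - 1 := by
      rw [le_sub_iff_add_le, le_div_iff₀ (by positivity), ← sq_abs (t - 1)]
      nlinarith
    simp only [h, Real.smoothTransition.one_of_one_le this, mul_one]
  have h2 : ∀ t, |h t| ≤ |t - 1| := fun t => by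
    rw [abs_mul, abs_of_nonneg (Real.smoothTransition.nonneg _)]
    exact mul_le_of_le_one_right (abs_nonneg _) (Real.smoothTransition.le_one _)
  have gs : ContDiff ℝ ∞ fun t => h t - (t - 1) := hs.sub (contDiff_id.sub contDiff_const)
  have gc : HasCompactSupport fun t => h t - (t - 1) :=
    HasCompactSupport.intro (isCompact_closedBall 1 (2 * τ)) fun t ht => by
      rw [mem_closedBall, Real.dist_eq, not_le] at ht
      rw [h1 t ht.le, sub_self]
  obtain ⟨A, hA⟩ := gc.deriv.exists_bound_of_continuous (gs.continuous_deriv (by simp))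
  have hd : ∀ t, HasDerivAt h (deriv h t) t := fun t => (hs.differentiable (by simp) t).hasDerivAt
  have hb : ∀ t, |deriv h t| ≤ A + 1 := fun t => by
    have := hA t
    rw [((hd t).fun_sub ((hasDerivAt_id' t).sub_const 1)).deriv, Real.norm_eq_abs] at this
    linarith [abs_sub_abs_le_abs_sub (deriv h t) 1, abs_one (α := ℝ)]
  have hA0 : 0 ≤ A := (norm_nonneg _).trans (hA 0)
  refine ⟨(2 * A + 3) ^ 2 + (1 + 1 / τ), fun t => h t ^ 2 / (1 + t),
    fun t => h t * (2 * deriv h t - h t / (1 + t)) / (1 + t), by positivity, fun t ht => ?_,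
    fun t ht => ?_, fun t ht => by positivity, fun t ht => by simp [h0 t ht], fun t ht => ?_,
    fun t w B ht hB hw => ?_⟩
  · exact (hs.pow 2).contDiffAt.div (contDiffAt_const.add contDiffAt_id) (by positivity)
  · refine (((hd t).pow 2).div ((hasDerivAt_id t).const_add 1) (by positivity)).congr_deriv ?_
    have : 1 + t ≠ 0 := by positivity
    simp only [Pi.pow_apply, id]
    field_simp
    ring
  · by_cases k : |t - 1| ≤ 2 * τ
    · exact k.trans (le_add_of_nonneg_right (by positivity))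
    · rw [h1 t (not_le.1 k).le, ← sq_abs (t - 1)]
      have a1 : 1 + t ≤ (1 + 1 / τ) * |t - 1| := by
        have a2 : 2 ≤ 1 / τ * |t - 1| := by
          rw [one_div, inv_mul_eq_div, le_div_iff₀ hτ]
          linarith
        nlinarith [le_abs_self (t - 1)]
      have a3 : |t - 1| ≤ (1 + 1 / τ) * (|t - 1| ^ 2 / (1 + t)) := by
        rw [← mul_div_assoc, le_div_iff₀ (by positivity)]
        nlinarith [abs_nonneg (t - 1)]
      have a4 : 0 ≤ (2 * A + 3) ^ 2 * (|t - 1| ^ 2 / (1 + t)) := by positivity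
      nlinarith
  · have a1 : |h t / (1 + t)| ≤ 1 := by
      rw [abs_div, abs_of_pos (by positivity : 0 < 1 + t), div_le_one (by positivity)]
      refine (h2 t).trans (abs_le.2 ⟨by linarith, by linarith⟩)
    set k := 2 * deriv h t - h t / (1 + t)
    have a2 : k ^ 2 ≤ (2 * A + 3) ^ 2 := by
      refine sq_le_sq' ?_ ?_ <;> linarith [abs_le.1 a1, abs_le.1 (hb t)]
    have a3 : k ^ 2 * w ^ 2 ≤ (2 * A + 3) ^ 2 * (B * (1 + t)) :=
      mul_le_mul a2 (by nlinarith) (sq_nonneg _) (sq_nonneg _)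
    have a4 : -(h t * k / (1 + t) * w) ≤ h t ^ 2 / (1 + t) / 2 + (2 * A + 3) ^ 2 * B := by
      rw [← sub_nonneg]
      have e : h t ^ 2 / (1 + t) / 2 + (2 * A + 3) ^ 2 * B - -(h t * k / (1 + t) * w) =
          (h t ^ 2 / 2 + (2 * A + 3) ^ 2 * (B * (1 + t)) + h t * k * w) / (1 + t) := by
        field_simp
        ring
      rw [e]
      refine div_nonneg ?_ (by positivity)
      nlinarith [sq_nonneg (h t + k * w), mul_nonneg (sq_nonneg k) (sq_nonneg w)]
    have a5 : 0 ≤ (1 + 1 / τ) * B := by positivity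
    linarith

/-- the inequality of Hardy -/
theorem hardy (hn : 3 ≤ n) {τ K A L e : ℝ} {H H' : ℝ → ℝ} (hH : Hf τ K H H') {ρ G ζ : E n → ℝ}
    (hρ : Smooth ρ) (ρ0 : ∀ x, 0 ≤ ρ x) (hL : 0 < L) (far : ∀ x, L ≤ ‖x‖ → |ρ x - 1| ≤ τ)
    (hζ : Smooth ζ) (ζ0 : ∀ x, 0 ≤ ζ x) (rad : ∀ x, 0 ≤ ∑ i, x i * pd i ζ x) (hG : Continuous G)
    (G0 : ∀ x, 0 ≤ G x) (hA : 0 ≤ A) (grad : ∀ x, ∑ i, pd i ρ x ^ 2 ≤ A * G x * ρ x)
    (hE : ∫ x, ζ x * cut L x * G x ≤ e) :
    Integrable (fun x => ζ x * (1 + ‖x‖ ^ 2)⁻¹ * H (ρ x)) ∧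
      ∫ x, ζ x * (1 + ‖x‖ ^ 2)⁻¹ * H (ρ x) ≤ 2 * K * A * e := by
  have Hs : Smooth fun x => H (ρ x) := contDiff_iff_contDiffAt.2 fun x =>
    (hH.sm _ (ρ0 x)).comp x (ContDiff.contDiffAt hρ)
  have q1 : Smooth fun x : E n => 1 + ‖x‖ ^ 2 := contDiff_const.add contDiff_normSq
  have qs : Smooth fun x : E n => (1 + ‖x‖ ^ 2)⁻¹ := ContDiff.inv q1 fun x => by positivity
  have i1 : Integrable fun x => ζ x * (1 + ‖x‖ ^ 2)⁻¹ * H (ρ x) :=
    integrable_of_out ((hζ.cont.mul qs.cont).mul Hs.cont) fun y hy => by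
      rw [(hH.zero _ (far y hy)).1, mul_zero]
  have i2 : Integrable fun x => ζ x * cut L x * G x :=
    integrable_of_out ((hζ.cont.mul (sm_cut L).cont).mul hG) fun y hy => by
      rw [cut_zero hL hy, mul_zero, zero_mul]
  have sc : ∀ i : Fin n, Smooth fun x : E n => x i := fun i => contDiff_coord i
  have hN : Nul fun x => ∑ i, pd i (fun y => ζ y * (y i * ((1 + ‖y‖ ^ 2)⁻¹ * H (ρ y)))) x :=
    Nul.sum fun i => nul_pd (ContDiff.mul hζ (ContDiff.mul (sc i) (ContDiff.mul qs Hs)))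
      (supp_of_out (R := L) fun y hy => by simp [(hH.zero _ (far y hy)).1]) i
  have key := hN.le ((i1.const_mul (1 / 2)).sub (i2.const_mul (K * A))) fun x => ?_
  · refine ⟨i1, ?_⟩
    simp only [Pi.sub_apply] at key
    rw [integral_sub (i1.const_mul _) (i2.const_mul _), integral_const_mul,
      integral_const_mul] at key
    nlinarith [mul_le_mul_of_nonneg_left hE (mul_nonneg hH.pos.le hA)]
  have hq : (0 : ℝ) < 1 + ‖x‖ ^ 2 := by positivity
  have e1 : ∀ i, pd i (fun y => ζ y * (y i * ((1 + ‖y‖ ^ 2)⁻¹ * H (ρ y)))) x =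
      x i * pd i ζ x * ((1 + ‖x‖ ^ 2)⁻¹ * H (ρ x)) + ζ x * ((1 + ‖x‖ ^ 2)⁻¹ * H (ρ x)) -
        x i ^ 2 * (2 * ζ x * (1 + ‖x‖ ^ 2)⁻¹ ^ 2 * H (ρ x)) +
        x i * pd i ρ x * (ζ x * (1 + ‖x‖ ^ 2)⁻¹ * H' (ρ x)) := fun i => by
    rw [pd_mul (hζ.diff x) (((sc i).diff x).fun_mul ((qs.diff x).fun_mul (Hs.diff x))),
      pd_mul ((sc i).diff x) ((qs.diff x).fun_mul (Hs.diff x)), pd_mul (qs.diff x) (Hs.diff x),
      pd_inv (q1.diff x) hq.ne', pd_const_add, pd_normSq, pd_coord, if_pos rfl,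
      pd_comp (hH.der _ (ρ0 x)) (hρ.diff x), inv_pow]
    ring
  simp only [e1, Finset.sum_add_distrib, Finset.sum_sub_distrib, ← Finset.sum_mul, ← norm_sq_eq,
    Finset.sum_const, Finset.card_univ, Fintype.card_fin, nsmul_eq_mul, Pi.sub_apply]
  set q := (1 + ‖x‖ ^ 2)⁻¹ with hq'
  have q0 : 0 < q := inv_pos.2 hq
  have q2 : ‖x‖ ^ 2 * q ≤ 1 := by
    rw [hq', ← div_eq_mul_inv, div_le_one hq]
    linarith
  have H0 := hH.nn _ (ρ0 x)
  have z0 : 0 ≤ ζ x * q * H (ρ x) := by have := ζ0 x; positivity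
  have a1 : 0 ≤ (∑ i, x i * pd i ζ x) * (q * H (ρ x)) := mul_nonneg (rad x) (by positivity)
  have a2 : ‖x‖ ^ 2 * (2 * ζ x * q ^ 2 * H (ρ x)) ≤ 2 * (ζ x * q * H (ρ x)) := by
    nlinarith [mul_le_mul_of_nonneg_right q2 z0]
  have a3 : 3 * (ζ x * q * H (ρ x)) ≤ n * (ζ x * (q * H (ρ x))) := by
    rw [← mul_assoc (ζ x)]
    exact mul_le_mul_of_nonneg_right (by exact_mod_cast hn) z0
  have a4 : -((∑ i, x i * pd i ρ x) * (ζ x * q * H' (ρ x))) ≤
      ζ x * q * H (ρ x) / 2 + K * A * (ζ x * cut L x * G x) := by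
    by_cases hx : ‖x‖ ≤ L
    · have b1 : (∑ i, x i * pd i ρ x) ^ 2 ≤ ‖x‖ ^ 2 * (A * G x) * ρ x := by
        refine (Finset.sum_mul_sq_le_sq_mul_sq _ _ _).trans ?_
        rw [← norm_sq_eq, mul_assoc]
        exact mul_le_mul_of_nonneg_left (grad x) (sq_nonneg _)
      have b0 : 0 ≤ A * G x := mul_nonneg hA (G0 x)
      have b2 := mul_le_mul_of_nonneg_left (hH.abs _ _ _ (ρ0 x) (by positivity) b1)
        (mul_nonneg (ζ0 x) q0.le)
      have b3 := mul_le_mul_of_nonneg_right q2 (mul_nonneg (mul_nonneg hH.pos.le b0) (ζ0 x))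
      rw [cut_one hx]
      nlinarith
    · rw [(hH.zero _ (far x (not_le.1 hx).le)).2]
      have := mul_nonneg (mul_nonneg hH.pos.le hA)
        (mul_nonneg (mul_nonneg (ζ0 x) (cut_nonneg L x)) (G0 x))
      linarith
  linarith

end StabH

end Vale.Agent.P366Z
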