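import Vale.Agent.P366Z.StabA

/-!
# P366Z, row STAB: the mixed second derivative of the square of an almost twistor spinor
-/

open MeasureTheory Metric Filter Topology Set
open scoped ContDiff ENNReal
open Vale.Agent.P366.Stmt

noncomputable section

namespace Vale.Agent.P366Z

namespace StabH

variable {n N : ℕ} {p q φ χ : E n → E N}

/-- the derivative of a vector valued function in a coordinate direction -/
def D (i : Fin n) (p : E n → E N) (x : E n) : E N := fderiv ℝ p x (ee i)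

theorem dif (hp : ContDiff ℝ ∞ p) (x : E n) : DifferentiableAt ℝ p x :=
  hp.differentiable (by simp) x

theorem sm_D (hp : ContDiff ℝ ∞ p) (i : Fin n) : ContDiff ℝ ∞ (D i p) :=
  (hp.fderiv_right (m := ∞) (by simp)).clm_apply contDiff_const

theorem sm_inner (hp : ContDiff ℝ ∞ p) (hq : ContDiff ℝ ∞ q) :
    Smooth fun x => inner ℝ (p x) (q x) := hp.inner ℝ hq

theorem sm_clm (A : E N →L[ℝ] E N) (hp : ContDiff ℝ ∞ p) : ContDiff ℝ ∞ fun x => A (p x) :=
  A.contDiff.comp hp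

theorem pd_inner (hp : ContDiff ℝ ∞ p) (hq : ContDiff ℝ ∞ q) (i : Fin n) (x : E n) :
    pd i (fun y => inner ℝ (p y) (q y)) x = inner ℝ (D i p x) (q x) + inner ℝ (p x) (D i q x) := by
  rw [pd_eq ((sm_inner hp hq).diff x), fderiv_inner_apply ℝ (dif hp x) (dif hq x), add_comm]
  rfl

theorem D_clm (A : E N →L[ℝ] E N) (hp : ContDiff ℝ ∞ p) (i : Fin n) (x : E n) :
    D i (fun y => A (p y)) x = A (D i p x) :=
  congrArg (fun T : E n →L[ℝ] E N => T (ee i)) (A.hasFDerivAt.comp x (dif hp x).hasFDerivAt).fderiv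

theorem D_sub (hp : ContDiff ℝ ∞ p) (hq : ContDiff ℝ ∞ q) (i : Fin n) (x : E n) :
    D i (fun y => p y - q y) x = D i p x - D i q x :=
  congrArg (fun T : E n →L[ℝ] E N => T (ee i)) (fderiv_fun_sub (dif hp x) (dif hq x))

theorem D_comm (hp : ContDiff ℝ ∞ p) (i j : Fin n) (x : E n) : D i (D j p) x = D j (D i p) x := by
  have h : ∀ i j, D i (D j p) x = fderiv ℝ (fderiv ℝ p) x (ee i) (ee j) := fun i j => by
    have h1 := ((hp.fderiv_right (m := ∞) (by simp)).differentiable (by simp) x).hasFDerivAt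
    have h2 := (h1.clm_apply (hasFDerivAt_const (ee j) x)).fderiv
    exact (congrArg (fun T : E n →L[ℝ] E N => T (ee i)) h2).trans (by simp)
  rw [h, h]
  exact ((hp.contDiffAt.of_le (m := 2) (by norm_cast)).isSymmSndFDerivAt (by simp)).eq _ _

variable (c : Cl n N)

theorem e_sq (i : Fin n) (u : E N) : c.e i (c.e i u) = -u := by
  have h := c.rel i i u
  rw [if_pos rfl, ← two_smul ℝ, neg_smul, ← smul_neg] at h
  exact smul_right_injective _ two_ne_zero h

theorem e_anti {i j : Fin n} (h : i ≠ j) (u : E N) : c.e i (c.e j u) = -c.e j (c.e i u) := by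
  have h1 := c.rel i j u
  rw [if_neg h] at h1
  exact eq_neg_of_add_eq_zero_left h1

theorem inner_self_e (i : Fin n) (u : E N) : inner ℝ (c.e i u) (c.e i u) = ‖u‖ ^ 2 := by
  rw [c.skew, e_sq, inner_neg_right, neg_neg, real_inner_self_eq_norm_sq]

theorem norm_e (i : Fin n) (u : E N) : ‖c.e i u‖ = ‖u‖ := by
  have h := inner_self_e c i u
  rw [real_inner_self_eq_norm_sq] at h
  exact (sq_eq_sq₀ (norm_nonneg _) (norm_nonneg _)).1 h

theorem inner_ee {i j : Fin n} (h : i ≠ j) (u : E N) : inner ℝ (c.e i u) (c.e j u) = 0 := by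
  have h1 := c.skew i u (c.e j u)
  have h2 := c.skew j u (c.e i u)
  rw [e_anti c h, inner_neg_right, neg_neg] at h1
  rw [real_inner_comm] at h2
  linarith

/-- the defect in the twistor equation -/
def tw (φ χ : E n → E N) (i : Fin n) (x : E n) : E N := D i φ x - c.e i (χ x)

theorem sm_tw (hφ : ContDiff ℝ ∞ φ) (hχ : ContDiff ℝ ∞ χ) (i : Fin n) :
    ContDiff ℝ ∞ (tw c φ χ i) := (sm_D hφ i).sub (sm_clm _ hχ)

theorem D_tw (hφ : ContDiff ℝ ∞ φ) (hχ : ContDiff ℝ ∞ χ) (i j : Fin n) (x : E n) :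
    D i (tw c φ χ j) x = D i (D j φ) x - c.e j (D i χ x) :=
  (D_sub (sm_D hφ j) (sm_clm _ hχ) i x).trans (by rw [D_clm _ hχ])

theorem curv (hφ : ContDiff ℝ ∞ φ) (hχ : ContDiff ℝ ∞ χ) {i j k : Fin n} (hij : i ≠ j)
    (hik : i ≠ k) (hjk : j ≠ k) (x : E n) : c.e i (D j χ x) + c.e j (D i χ x) =
      c.e j (c.e k (D i (tw c φ χ k) x)) - c.e j (c.e k (D k (tw c φ χ i) x)) +
      c.e i (c.e k (D j (tw c φ χ k) x)) - c.e i (c.e k (D k (tw c φ χ j) x)) := by
  rw [D_tw c hφ hχ, D_tw c hφ hχ, D_tw c hφ hχ, D_tw c hφ hχ, D_comm hφ k i, D_comm hφ k j]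
  simp only [map_sub, e_sq, map_neg]
  rw [e_anti c hjk (c.e i _), e_anti c hik (c.e j _), e_anti c hij (D k χ x), map_neg]
  abel

theorem bd (t : ℝ) (a b : E N) {s β : ℝ} (ha : ‖a‖ = s) (h : |t| * s * ‖b‖ ≤ β) :
    -β ≤ t * inner ℝ a b ∧ t * inner ℝ a b ≤ β := by
  refine abs_le.1 (le_trans ?_ h)
  rw [abs_mul, mul_assoc, ← ha]
  exact mul_le_mul_of_nonneg_left (abs_real_inner_le_norm a b) (abs_nonneg t)

/-- the identity of the rectangle -/
theorem rect (hφ : ContDiff ℝ ∞ φ) (hχ : ContDiff ℝ ∞ χ) {i j k : Fin n} (hij : i ≠ j)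
    (hik : i ≠ k) (hjk : j ≠ k) {T b : E n → ℝ} (hT : Smooth T) (hc : HasCompactSupport T)
    (hb : Integrable b) (h1 : ∀ l m x, |pd l T x| * ‖tw c φ χ m x‖ * ‖φ x‖ ≤ b x)
    (h2 : ∀ l m x, |T x| * ‖tw c φ χ m x‖ * ‖D l φ x‖ ≤ b x)
    (h3 : ∀ m x, |T x| * ‖χ x‖ * ‖tw c φ χ m x‖ ≤ b x) :
    |∫ x, pd i (pd j T) x * inner ℝ (φ x) (φ x)| ≤ 12 * ∫ x, b x := by
  have n1 : ∀ {S : E n → ℝ} {p q : E n → E N}, Smooth S → HasCompactSupport S → ContDiff ℝ ∞ p →
      ContDiff ℝ ∞ q → ∀ l, Nul fun x => pd l S x * inner ℝ (p x) (q x) +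
        S x * (inner ℝ (D l p x) (q x) + inner ℝ (p x) (D l q x)) := by
    intro S p q hS hc hp hq l
    have h := nul_pd (ContDiff.mul hS (sm_inner hp hq)) hc.mul_right l
    have e : pd l (fun x => S x * inner ℝ (p x) (q x)) = fun x => pd l S x * inner ℝ (p x) (q x) +
        S x * (inner ℝ (D l p x) (q x) + inner ℝ (p x) (D l q x)) := funext fun x => by
      rw [pd_mul (hS.diff x) ((sm_inner hp hq).diff x), pd_inner hp hq]
    rwa [e] at h
  have s := fun a b m => sm_clm (c.e a) (sm_clm (c.e b) (sm_tw c hφ hχ m))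
  have Z := ((((((((n1 (hT.pd j) (supp_pd hc j) hφ hφ i).add
    (n1 (hT.pd i) (supp_pd hc i) hφ hφ j)).mul (1 / 2)).sub
    (n1 hT hc (sm_clm (c.e i) hχ) hφ j)).sub (n1 hT hc (sm_clm (c.e j) hχ) hφ i)).add
    (n1 hT hc (s j k k) hφ i)).sub (n1 hT hc (s j k i) hφ k)).add
    (n1 hT hc (s i k k) hφ j)).sub (n1 hT hc (s i k j) hφ k)
  rw [← integral_const_mul]
  refine Z.abs_le ((((hT.pd j).pd i).cont.mul (sm_inner hφ hφ).cont).integrable_of_hasCompactSupport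
    (supp_pd (supp_pd hc j) i).mul_right) (hb.const_mul 12) fun x => ?_
  have dd : ∀ a b m l, D l (fun y => c.e a (c.e b (tw c φ χ m y))) x =
      c.e a (c.e b (D l (tw c φ χ m) x)) := fun a b m l => by
    rw [D_clm _ (sm_clm _ (sm_tw c hφ hχ m)), D_clm _ (sm_tw c hφ hχ m)]
  have hD : ∀ l, D l φ x = c.e l (χ x) + tw c φ χ l x := fun l => by rw [tw, add_sub_cancel]
  have cv := congrArg (fun u => T x * inner ℝ u (φ x)) (curv c hφ hχ hij hik hjk x)
  simp only [inner_add_left, inner_sub_left] at cv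
  have nn : ∀ a b (u : E N), ‖c.e a (c.e b u)‖ = ‖u‖ := fun a b u => by rw [norm_e, norm_e]
  have a1 := bd _ _ _ rfl (h1 j i x)
  have a2 := bd _ _ _ rfl (h1 i j x)
  have a3 := bd _ _ _ (norm_e c i _) (h3 j x)
  have a4 := bd _ _ _ (norm_e c j _) (h3 i x)
  have a5 := bd _ _ _ (nn j k _) (h1 i k x)
  have a6 := bd _ _ _ (nn j k _) (h1 k i x)
  have a7 := bd _ _ _ (nn i k _) (h1 j k x)
  have a8 := bd _ _ _ (nn i k _) (h1 k j x)
  have a9 := bd _ _ _ (nn j k _) (h2 i k x)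
  have a10 := bd _ _ _ (nn j k _) (h2 k i x)
  have a11 := bd _ _ _ (nn i k _) (h2 j k x)
  have a12 := bd _ _ _ (nn i k _) (h2 k j x)
  have b1 : ∀ l, inner ℝ (D l φ x) (φ x) = inner ℝ (c.e l (χ x)) (φ x) +
      inner ℝ (tw c φ χ l x) (φ x) := fun l => by rw [hD, inner_add_left]
  have b2 : inner ℝ (c.e i (χ x)) (D j φ x) = inner ℝ (c.e i (χ x)) (tw c φ χ j x) := by
    rw [hD, inner_add_right, inner_ee c hij, zero_add]
  have b3 : inner ℝ (c.e j (χ x)) (D i φ x) = inner ℝ (c.e j (χ x)) (tw c φ χ i x) := by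
    rw [hD, inner_add_right, inner_ee c hij.symm, zero_add]
  simp only [dd, D_clm _ hχ]
  rw [real_inner_comm (D i φ x) (φ x), real_inner_comm (D j φ x) (φ x), b1, b1, b2, b3,
    pd_comm (hT.c2 x) j i, abs_le]
  constructor <;> linarith [a1.1, a1.2, a2.1, a2.2, a3.1, a3.2, a4.1, a4.2, a5.1, a5.2, a6.1, a6.2,
    a7.1, a7.2, a8.1, a8.2, a9.1, a9.2, a10.1, a10.2, a11.1, a11.2, a12.1, a12.2]

end StabH

end Vale.Agent.P366Z
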