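import Vale.Agent.P366Z.StabB

/-!
# P366Z, row STAB: the alternating sum over the corners of a rectangle is small
-/

open MeasureTheory Metric Filter Topology Set
open scoped ContDiff ENNReal
open Vale.Agent.P366.Stmt

noncomputable section

namespace Vale.Agent.P366Z

namespace StabH

variable {n N : ℕ} {u : E n → ℝ} {φ : E n → E N} (c : Cl n N)

/-- the second component of the twistor spinor -/
def chi (u : E n → ℝ) (φ : E n → E N) (x : E n) : E N :=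
  (-(2 * u x)⁻¹) • ∑ l, pd l u x • c.e l (φ x)

/-- the square of the defect -/
def en (u : E n → ℝ) (φ : E n → E N) (x : E n) : ℝ := ∑ l, ‖tw c φ (chi c u φ) l x‖ ^ 2

theorem sm_chi (hu : Smooth u) (h0 : ∀ x, 0 < u x) (hφ : ContDiff ℝ ∞ φ) :
    ContDiff ℝ ∞ (chi c u φ) :=
  ContDiff.smul ((contDiff_const.mul hu).inv fun x => by have := h0 x; positivity).neg
    (ContDiff.sum fun l _ => ContDiff.smul (hu.pd l) (sm_clm _ hφ))

theorem en_nn (x : E n) : 0 ≤ en c u φ x := Finset.sum_nonneg fun _ _ => sq_nonneg _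

theorem le_en (l : Fin n) (x : E n) : ‖tw c φ (chi c u φ) l x‖ ^ 2 ≤ en c u φ x :=
  Finset.single_le_sum (f := fun l => ‖tw c φ (chi c u φ) l x‖ ^ 2) (fun _ _ => sq_nonneg _)
    (Finset.mem_univ l)

theorem cont_en (hu : Smooth u) (h0 : ∀ x, 0 < u x) (hφ : ContDiff ℝ ∞ φ) :
    Continuous (en c u φ) :=
  continuous_finsetSum _ fun l _ => (sm_tw c hφ (sm_chi c hu h0 hφ) l).continuous.norm.pow 2

theorem inner_chi (i : Fin n) (x : E n) :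
    inner ℝ (c.e i (chi c u φ x)) (φ x) = (2 * u x)⁻¹ * (pd i u x * ‖φ x‖ ^ 2) := by
  rw [c.skew, chi, real_inner_smul_left, sum_inner, Finset.sum_eq_single i
    (fun l _ h => by rw [real_inner_smul_left, inner_ee c h, mul_zero])
    (fun h => absurd (Finset.mem_univ i) h), real_inner_smul_left, inner_self_e]
  ring

theorem norm_chi (hu : Smooth u) {L : ℝ} (hL : 0 < L) {x : E n} (h1 : 1 / L ≤ u x)
    (h2 : ‖fderiv ℝ u x‖ ≤ L) : ‖chi c u φ x‖ ≤ n * L ^ 2 * ‖φ x‖ := by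
  have h0 : 0 < u x := lt_of_lt_of_le (by positivity) h1
  have a1 : (2 * u x)⁻¹ ≤ L := by
    rw [div_le_iff₀ hL] at h1
    rw [inv_le_iff_one_le_mul₀ (by positivity)]
    nlinarith
  have a2 : ‖∑ l, pd l u x • c.e l (φ x)‖ ≤ n * (L * ‖φ x‖) := by
    refine (norm_sum_le _ _).trans ((Finset.sum_le_card_nsmul _ _ (L * ‖φ x‖)
      fun l _ => ?_).trans_eq (by simp))
    rw [norm_smul, norm_e]
    exact mul_le_mul_of_nonneg_right ((abs_pd_le (hu.diff x) l).trans h2) (norm_nonneg _)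
  rw [chi, norm_smul, norm_neg, Real.norm_of_nonneg (by positivity)]
  exact (mul_le_mul a1 a2 (norm_nonneg _) hL.le).trans_eq (by ring)

theorem grad_rho (hu : Smooth u) (hφ : ContDiff ℝ ∞ φ) {L : ℝ} (hL : 0 < L) {x : E n}
    (h1 : 1 / L ≤ u x) : ∑ i, pd i (fun y => inner ℝ (φ y) (φ y) / u y) x ^ 2 ≤
      4 * L * en c u φ x * (inner ℝ (φ x) (φ x) / u x) := by
  have h0 : 0 < u x := lt_of_lt_of_le (by positivity) h1
  rw [en, Finset.mul_sum, Finset.sum_mul]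
  refine Finset.sum_le_sum fun i _ => ?_
  have e : pd i (fun y => inner ℝ (φ y) (φ y) / u y) x =
      2 * inner ℝ (tw c φ (chi c u φ) i x) (φ x) / u x := by
    rw [pd_div ((sm_inner hφ hφ).diff x) (hu.diff x) h0.ne', pd_inner hφ hφ,
      real_inner_comm (D i φ x) (φ x), tw, inner_sub_left, inner_chi, real_inner_self_eq_norm_sq]
    field_simp
    ring
  have a1 := real_inner_mul_inner_self_le (tw c φ (chi c u φ) i x) (φ x)
  rw [real_inner_self_eq_norm_sq (tw c φ _ i x)] at a1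
  have a2 : 0 ≤ ‖tw c φ (chi c u φ) i x‖ ^ 2 * inner ℝ (φ x) (φ x) :=
    mul_nonneg (sq_nonneg _) real_inner_self_nonneg
  rw [div_le_iff₀ hL] at h1
  rw [e, div_pow, ← mul_div_assoc, div_le_div_iff₀ (by positivity) h0]
  linarith [mul_le_mul_of_nonneg_right a1 h0.le,
    mul_le_mul_of_nonneg_left h1 (mul_nonneg a2 h0.le)]

theorem ex_small {C d : ℝ} (hC : 0 ≤ C) (hd : 0 < d) : ∃ e > (0 : ℝ), e * C ≤ d :=
  ⟨d / (C + 1), by positivity, by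
    rw [div_mul_eq_mul_div, div_le_iff₀ (by positivity)]
    nlinarith⟩

theorem ex_zeta {R R' : ℝ} (h0 : 0 < R) (h : R < R') : ∃ ζ : E n → ℝ, Smooth ζ ∧
    (∀ x, 0 ≤ ζ x ∧ ζ x ≤ 1) ∧ (∀ x, ‖x‖ ≤ R → ζ x = 0) ∧ (∀ x, R' ≤ ‖x‖ → ζ x = 1) ∧
    ∀ x, 0 ≤ ∑ i, x i * pd i ζ x := by
  have hd : 0 < R' ^ 2 - R ^ 2 := by nlinarith
  let θ : ℝ → ℝ := fun t => Real.smoothTransition ((t - R ^ 2) / (R' ^ 2 - R ^ 2))
  have θs : ContDiff ℝ ∞ θ :=
    Real.smoothTransition.contDiff.comp ((contDiff_id.sub contDiff_const).div_const _)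
  have k0 : ∀ t, 0 ≤ deriv θ t := fun t => Monotone.deriv_nonneg
    (Real.smoothTransition.monotone.comp fun a b h =>
      div_le_div_of_nonneg_right (sub_le_sub_right h _) hd.le)
  refine ⟨fun x => θ (‖x‖ ^ 2), θs.comp contDiff_normSq, fun x => ⟨Real.smoothTransition.nonneg _,
    Real.smoothTransition.le_one _⟩, fun x hx => Real.smoothTransition.zero_of_nonpos
      (div_nonpos_of_nonpos_of_nonneg (by nlinarith [norm_nonneg x]) hd.le),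
    fun x hx => Real.smoothTransition.one_of_one_le ((one_le_div hd).2 (by nlinarith)),
    fun x => Finset.sum_nonneg fun i _ => ?_⟩
  rw [pd_comp (θs.differentiable (by simp) _).hasDerivAt
    ((contDiff_normSq (m := 1)).differentiable one_ne_zero x), pd_normSq]
  nlinarith [mul_nonneg (k0 (‖x‖ ^ 2)) (mul_self_nonneg (x i))]

theorem amgm {s t G lam : ℝ} (hl : 0 < lam) (hs : s ^ 2 ≤ G) : s * t ≤ lam * t ^ 2 + lam⁻¹ * G := by
  have h1 : lam⁻¹ * s ^ 2 ≤ lam⁻¹ * G := mul_le_mul_of_nonneg_left hs (inv_pos.2 hl).le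
  have h2 : 0 ≤ lam⁻¹ * (s - lam * t) ^ 2 := by positivity
  have h3 : lam⁻¹ * (s - lam * t) ^ 2 = lam⁻¹ * s ^ 2 - 2 * (s * t) + lam * t ^ 2 := by
    field_simp
    ring
  have h4 : 0 ≤ lam * t ^ 2 := by positivity
  have h5 : 0 ≤ lam⁻¹ * s ^ 2 := by positivity
  linarith

/-- the energy bound in the form of test functions -/
def Eb (R e : ℝ) (G : E n → ℝ) : Prop := ∀ ψ : E n → ℝ, Continuous ψ → HasCompactSupport ψ →
  (∀ x, 0 ≤ ψ x ∧ ψ x ≤ 1) → (∀ x, ‖x‖ ≤ R → ψ x = 0) → ∫ x, ψ x * G x ≤ e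

theorem ex_P (hn : 3 ≤ n) {τ K L R M e : ℝ} {H H' : ℝ → ℝ} (hτ : 0 < τ) (hH : Hf τ K H H')
    (hL : 0 < L) (M0 : 0 < M) {ζ : E n → ℝ} (ζs : Smooth ζ) (ζ0 : ∀ x, 0 ≤ ζ x ∧ ζ x ≤ 1)
    (ζ1 : ∀ x, ‖x‖ ≤ R → ζ x = 0) (ζ3 : ∀ x, 0 ≤ ∑ i, x i * pd i ζ x) (hu : Smooth u)
    (hφ : ContDiff ℝ ∞ φ) (hb : ∀ x, 1 / L ≤ u x)
    (hlim : Tendsto (fun x => inner ℝ (φ x) (φ x) / u x) (cocompact (E n)) (𝓝 1))
    (hE : Eb R e (en c u φ)) : ∃ P : E n → ℝ, Integrable P ∧ (∀ x, 0 ≤ P x) ∧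
      ∫ x, P x ≤ K * (1 + (2 * M) ^ 2) * (2 * K * (4 * L)) * e ∧
      ∀ x, ζ x * cut M x * |inner ℝ (φ x) (φ x) / u x - 1| ≤ 2 * τ * (ζ x * cut M x) + P x := by
  have hK := hH.pos
  have u0 : ∀ x, 0 < u x := fun x => lt_of_lt_of_le (by positivity) (hb x)
  set ρ : E n → ℝ := fun x => inner ℝ (φ x) (φ x) / u x with hρ
  have ρs : Smooth ρ := ContDiff.div (sm_inner hφ hφ) hu fun x => (u0 x).ne'
  have ρ0 : ∀ x, 0 ≤ ρ x := fun x => div_nonneg real_inner_self_nonneg (u0 x).le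
  obtain ⟨L', L0, far⟩ : ∃ L', 0 < L' ∧ ∀ x : E n, L' ≤ ‖x‖ → |ρ x - 1| ≤ τ := by
    obtain ⟨S, hS, h⟩ := mem_cocompact.1 (hlim (closedBall_mem_nhds 1 hτ))
    obtain ⟨B, hB, h'⟩ := hS.isBounded.exists_pos_norm_lt
    exact ⟨B, hB, fun x hx => h fun k => (h' x k).not_ge hx⟩
  obtain ⟨i1, i2⟩ := hardy hn hH ρs ρ0 L0 far ζs (fun x => (ζ0 x).1) ζ3 (cont_en c hu u0 hφ)
    (en_nn c) (by positivity)
    (fun x => grad_rho c hu hφ hL (hb x)) (hE _ (ζs.cont.mul (sm_cut L').cont)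
      (supp_cut L0).mul_left (fun x => ⟨mul_nonneg (ζ0 x).1 (cut_nonneg _ x),
        mul_le_one₀ (ζ0 x).2 (cut_nonneg _ x) (cut_le_one _ x)⟩) fun x h => by
          show ζ x * _ = 0
          rw [ζ1 x h, zero_mul])
  refine ⟨fun x => K * (1 + (2 * M) ^ 2) * (ζ x * (1 + ‖x‖ ^ 2)⁻¹ * H (ρ x)), i1.const_mul _,
    fun x => ?_, ?_, fun x => ?_⟩
  · have := hH.nn _ (ρ0 x)
    have := (ζ0 x).1
    positivity
  · rw [integral_const_mul, mul_assoc _ _ e]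
    exact mul_le_mul_of_nonneg_left i2 (by positivity)
  · have a1 := mul_le_mul_of_nonneg_left (hH.low _ (ρ0 x)) (mul_nonneg (ζ0 x).1 (cut_nonneg M x))
    have a0 : 0 ≤ ζ x * (K * H (ρ x)) := mul_nonneg (ζ0 x).1 (mul_nonneg hK.le (hH.nn _ (ρ0 x)))
    have a2 : cut M x ≤ (1 + (2 * M) ^ 2) * (1 + ‖x‖ ^ 2)⁻¹ := by
      by_cases h : 2 * M ≤ ‖x‖
      · rw [cut_zero M0 h]
        positivity
      · rw [← div_eq_mul_inv]
        exact (cut_le_one _ x).trans ((one_le_div (by positivity)).2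
          (by nlinarith [norm_nonneg x]))
    have a3 := mul_le_mul_of_nonneg_left a2 a0
    show _ * |ρ x - 1| ≤ _
    linarith

theorem corner {κ ψ P ρ : E n → ℝ} {τ r L η K₀ : ℝ} (κc : Continuous κ) (κ0 : ∀ x, 0 ≤ κ x)
    (κn : ∀ x, κ x ≠ 0 → ‖x‖ ≤ 2 * r) (κb : ∀ x, κ x ≤ K₀) (hτ : 0 < τ) (hL : 0 < L)
    (τ1 : τ * (32 * L) ≤ η) (r1 : r * (32 * L) ≤ η) (hu : Smooth u) (hρ : Continuous ρ)
    (hb : ∀ x, 0 < u x ∧ u x ≤ L ∧ ‖fderiv ℝ u x‖ ≤ L) (Pi : Integrable P) (p0 : ∀ x, 0 ≤ P x)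
    (P1 : ∀ x, ψ x * |ρ x - 1| ≤ 2 * τ * ψ x + P x) (z : E n)
    (ψ1 : ∀ x, ‖x - z‖ ≤ 2 * r → ψ x = 1) : Integrable (fun x => κ (x - z) * (ρ x * u x)) ∧
      |(∫ x, κ (x - z) * (ρ x * u x)) - (∫ x, κ x) * u z| ≤
        (∫ x, κ x) * (η / 8) + K₀ * L * ∫ x, P x := by
  have κs : HasCompactSupport κ := supp_of_out (R := 2 * r + 1) fun y hy => by
    by_contra h
    linarith [κn y h]
  have hK₀ := (κ0 0).trans (κb 0)
  have k1 : Continuous fun x => κ (x - z) := κc.comp (continuous_id.sub continuous_const)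
  have k2 : HasCompactSupport fun x => κ (x - z) := κs.comp_homeomorph (Homeomorph.subRight z)
  have k3 : Integrable fun x => κ (x - z) := k1.integrable_of_hasCompactSupport k2
  have k4 : Integrable fun x => κ (x - z) * (ρ x * u x) :=
    (k1.mul (hρ.mul hu.cont)).integrable_of_hasCompactSupport k2.mul_right
  refine ⟨k4, ?_⟩
  rw [← integral_sub_right_eq_self κ z, ← integral_mul_const, ← integral_sub k4 (k3.mul_const _),
    ← integral_mul_const, ← integral_const_mul, ← integral_add (k3.mul_const _) (Pi.const_mul _)]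
  refine abs_integral_le_integral_abs.trans (integral_mono (k4.sub (k3.mul_const _)).abs
    ((k3.mul_const (η / 8)).add (Pi.const_mul (K₀ * L))) fun x => ?_)
  show |_| ≤ κ (x - z) * (η / 8) + K₀ * L * P x
  have := p0 x
  by_cases h : κ (x - z) = 0
  · simp only [h, zero_mul, sub_self, abs_zero, zero_add]
    positivity
  have a1 := P1 x
  rw [ψ1 x (κn _ h), one_mul, mul_one] at a1
  have a2 : |u x - u z| ≤ L * (2 * r) :=
    (convex_univ.norm_image_sub_le_of_norm_fderiv_le (fun y _ => hu.diff y)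
      (fun y _ => (hb y).2.2) (mem_univ z) (mem_univ x)).trans
      (mul_le_mul_of_nonneg_left (κn _ h) hL.le)
  have a3 : |ρ x * u x - u z| ≤ η / 8 + L * P x := by
    rw [show ρ x * u x - u z = (ρ x - 1) * u x + (u x - u z) by ring]
    refine (abs_add_le _ _).trans ?_
    rw [abs_mul, abs_of_pos (hb x).1]
    linarith [mul_le_mul a1 (hb x).2.1 (hb x).1.le (by positivity)]
  rw [← mul_sub, abs_mul, abs_of_nonneg (κ0 _)]
  linarith [mul_le_mul_of_nonneg_left a3 (κ0 (x - z)),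
    mul_le_mul_of_nonneg_right (κb (x - z)) (mul_nonneg hL.le this)]

theorem gen {K₀ K₁ ψ lam G f t s w s' : ℝ} (hl : 0 < lam) (a0 : 1 ≤ K₁) (h1 : |t| ≤ K₀ * ψ)
    (h2 : 0 ≤ s) (h3 : s ^ 2 ≤ G) (h4 : 0 ≤ w) (h5 : s' ^ 2 ≤ G) (h6 : w ≤ K₁ * f + s') :
    |t| * s * w ≤ K₀ * K₁ * (lam * (ψ * f ^ 2) + (lam⁻¹ + 1) * (ψ * G)) := by
  have a1 := amgm (t := f) hl h3
  have a2 : s * s' ≤ G := by nlinarith [sq_nonneg (s - s')]
  have a3 : s * w ≤ K₁ * (lam * f ^ 2 + (lam⁻¹ + 1) * G) := by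
    linarith [mul_le_mul_of_nonneg_left h6 h2, mul_le_mul_of_nonneg_left a1 (one_pos.le.trans a0),
      mul_le_mul_of_nonneg_right a0 ((sq_nonneg s).trans h3)]
  rw [mul_assoc]
  exact (mul_le_mul h1 a3 (mul_nonneg h2 h4) ((abs_nonneg _).trans h1)).trans_eq (by ring)

theorem rect' {i j k : Fin n} (hij : i ≠ j) (hik : i ≠ k) (hjk : j ≠ k) {T ψ : E n → ℝ}
    {K₀ L lam : ℝ} (hL : 0 < L) (hl : 0 < lam) (Ts : Smooth T) (Tc : HasCompactSupport T)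
    (ψc : Continuous ψ) (ψs : HasCompactSupport ψ)
    (Tb : ∀ x, |T x| ≤ K₀ * ψ x ∧ ∀ l, |pd l T x| ≤ K₀ * ψ x) (hu : Smooth u)
    (hφ : ContDiff ℝ ∞ φ) (hb : ∀ x, 1 / L ≤ u x ∧ u x ≤ L ∧ ‖fderiv ℝ u x‖ ≤ L) :
    |∫ x, pd i (pd j T) x * inner ℝ (φ x) (φ x)| ≤ 12 * (K₀ * (1 + n * L ^ 2) *
      (lam * (∫ x, ψ x * ‖φ x‖ ^ 2) + (lam⁻¹ + 1) * ∫ x, ψ x * en c u φ x)) := by
  have u0 : ∀ x, 0 < u x := fun x => lt_of_lt_of_le (by positivity) (hb x).1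
  have Ei : Integrable fun x => ψ x * en c u φ x :=
    (ψc.mul (cont_en c hu u0 hφ)).integrable_of_hasCompactSupport ψs.mul_right
  have φi : Integrable fun x => ψ x * ‖φ x‖ ^ 2 :=
    (ψc.mul (hφ.continuous.norm.pow 2)).integrable_of_hasCompactSupport ψs.mul_right
  have a0 : (1 : ℝ) ≤ 1 + n * L ^ 2 := le_add_of_nonneg_right (by positivity)
  have χb : ∀ x, ‖chi c u φ x‖ ≤ (1 + n * L ^ 2) * ‖φ x‖ := fun x => by
    linarith [norm_chi c (φ := φ) hu hL (hb x).1 (hb x).2.2, norm_nonneg (φ x)]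
  have z0 : ∀ x, (0 : ℝ) ^ 2 ≤ en c u φ x := fun x => by simpa using en_nn c x
  rw [← integral_const_mul, ← integral_const_mul, ← integral_add (φi.const_mul _) (Ei.const_mul _),
    ← integral_const_mul]
  refine rect c hφ (sm_chi c hu u0 hφ) hij hik hjk Ts Tc
    (((φi.const_mul lam).add (Ei.const_mul (lam⁻¹ + 1))).const_mul _)
    (fun l l' x => gen hl a0 ((Tb x).2 l) (norm_nonneg _) (le_en c l' x) (norm_nonneg _) (z0 x) ?_)
    (fun l l' x => gen hl a0 (Tb x).1 (norm_nonneg _) (le_en c l' x) (norm_nonneg _)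
      (le_en c l x) ?_) fun l x => ?_
  · linarith [mul_le_mul_of_nonneg_right a0 (norm_nonneg (φ x))]
  · rw [show D l φ x = c.e l (chi c u φ x) + tw c φ (chi c u φ) l x by rw [tw, add_sub_cancel]]
    refine (norm_add_le _ _).trans ?_
    rw [norm_e]
    linarith [χb x]
  · rw [mul_right_comm]
    exact gen hl a0 (Tb x).1 (norm_nonneg _) (le_en c l x) (norm_nonneg _) (z0 x)
      (by linarith [χb x])

theorem test_bd {κ T : E n → ℝ} {r B : ℝ} (κc : Continuous κ) (κn : ∀ x, κ x ≠ 0 → ‖x‖ ≤ r)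
    (Ts : Smooth T) (Tn : ∀ x, T x ≠ 0 → ‖x‖ ≤ B) : HasCompactSupport T ∧
    ∃ K₀, 0 < K₀ ∧ ∀ y, κ y ≤ K₀ ∧ |T y| ≤ K₀ ∧ ∀ l, |pd l T y| ≤ K₀ := by
  have Tc : HasCompactSupport T := supp_of_out (R := B + 1) fun y hy => by
    by_contra h
    linarith [Tn y h]
  have κs : HasCompactSupport κ := supp_of_out (R := r + 1) fun y hy => by
    by_contra h
    linarith [κn y h]
  obtain ⟨A, hA⟩ := κs.exists_bound_of_continuous κc
  obtain ⟨B, hB⟩ := Tc.exists_bound_of_continuous Ts.cont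
  obtain ⟨C, hC, hC'⟩ := (lip_of_supp (ContDiff.of_le Ts (by exact_mod_cast le_top)) Tc).pd_bd
  have a1 := (norm_nonneg _).trans (hA 0)
  have a2 := (norm_nonneg _).trans (hB 0)
  exact ⟨Tc, A + B + C, by positivity, fun y => ⟨by linarith [(le_abs_self _).trans (hA y)],
    by linarith [show |T y| ≤ B from hB y], fun l => by linarith [hC' y l]⟩⟩

theorem core (hn : 3 ≤ n) {i j k : Fin n} (hij : i ≠ j) (hik : i ≠ k) (hjk : j ≠ k)
    {L R₀ R₁ M η : ℝ} (hL : 0 < L) (hR : 0 < R₀) (hR' : R₀ < R₁) (hM : 0 < M) (hη : 0 < η)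
    (a b : ℝ) : ∃ e > (0 : ℝ), ∀ (N : ℕ) (c : Cl n N) (u : E n → ℝ) (φ : E n → E N) (x₀ : E n),
      Smooth u → ContDiff ℝ ∞ φ → (∀ x, 1 / L ≤ u x ∧ u x ≤ L ∧ ‖fderiv ℝ u x‖ ≤ L) →
      Tendsto (fun x => inner ℝ (φ x) (φ x) / u x) (cocompact (E n)) (𝓝 1) →
      Eb R₀ e (en c u φ) → (∀ s ∈ Icc (0 : ℝ) 1, ∀ t ∈ Icc (0 : ℝ) 1,
        R₁ ≤ ‖x₀ + ((s * a) • ee i + (t * b) • ee j)‖ ∧
          ‖x₀ + ((s * a) • ee i + (t * b) • ee j)‖ ≤ M) →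
      |u x₀ - u (x₀ + a • ee i) - u (x₀ + b • ee j) + u (x₀ + (a • ee i + b • ee j))| ≤ η := by
  obtain ⟨τ, hτ, τ1⟩ := ex_small (C := 32 * L) (by positivity) hη
  obtain ⟨r, hr, r1, r2⟩ : ∃ r > (0 : ℝ), r * (32 * L) ≤ η ∧ 4 * r ≤ R₁ - R₀ :=
    ⟨min τ ((R₁ - R₀) / 4), lt_min hτ (by linarith),
      (mul_le_mul_of_nonneg_right (min_le_left _ _) (by positivity)).trans τ1,
      by linarith [min_le_right τ ((R₁ - R₀) / 4)]⟩
  obtain ⟨κ, κc, κ0, κm, κn, hT⟩ := ex_test hij hr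
  obtain ⟨T, Ts, Tn, Te⟩ := hT a b
  obtain ⟨K, H, H', hH⟩ := ex_H hτ
  obtain ⟨ζ, ζs, ζ0, ζ1, ζ2, ζ3⟩ := ex_zeta (n := n) hR (by linarith : R₀ < R₁ - 2 * r)
  have hK := hH.pos
  obtain ⟨Tc, K₀, hK₀, b0⟩ := test_bd κc κn Ts (B := |a| + |b| + 2 * r) fun y h => by
    obtain ⟨s, hs, t, ht, h1⟩ := Tn y h
    have h2 := norm_sub_norm_le y ((s * a) • ee i + (t * b) • ee j)
    have h3 : ‖(s * a) • ee i + (t * b) • ee j‖ ≤ |a| + |b| := by
      refine (norm_add_le _ _).trans (add_le_add ?_ ?_) <;>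
        simp only [norm_smul, PiLp.norm_single, norm_one, mul_one, Real.norm_eq_abs, abs_mul]
      · exact mul_le_of_le_one_left (abs_nonneg _) (abs_le.2 ⟨by linarith [hs.1], hs.2⟩)
      · exact mul_le_of_le_one_left (abs_nonneg _) (abs_le.2 ⟨by linarith [ht.1], ht.2⟩)
    linarith
  obtain ⟨M', hM'⟩ : ∃ M', M' = M + 2 * r := ⟨_, rfl⟩
  have M0 : 0 < M' := by rw [hM']; positivity
  obtain ⟨ψ, hψ⟩ : ∃ ψ : E n → ℝ, ψ = fun x => ζ x * cut M' x := ⟨_, rfl⟩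
  have ψc : Continuous ψ := hψ ▸ ζs.cont.mul (sm_cut M').cont
  have ψs : HasCompactSupport ψ := hψ ▸ (supp_cut M0).mul_left
  have ψ0 : ∀ x, 0 ≤ ψ x ∧ ψ x ≤ 1 := hψ ▸ fun x => ⟨mul_nonneg (ζ0 x).1 (cut_nonneg _ x),
    mul_le_one₀ (ζ0 x).2 (cut_nonneg _ x) (cut_le_one _ x)⟩
  have ψ1 : ∀ z : E n, R₁ ≤ ‖z‖ ∧ ‖z‖ ≤ M → ∀ x, ‖x - z‖ ≤ 2 * r → ψ x = 1 := fun z h x h3 => by
    have := abs_le.1 ((abs_norm_sub_norm_le x z).trans h3)
    simp only [hψ, ζ2 x (by linarith), cut_one (show ‖x‖ ≤ M' by linarith), mul_one]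
  have ψi : Integrable ψ := ψc.integrable_of_hasCompactSupport ψs
  have V0 : 0 ≤ ∫ x, ψ x := integral_nonneg fun x => (ψ0 x).1
  obtain ⟨Kb, hKb⟩ : ∃ Kb, Kb = K₀ * (1 + n * L ^ 2) := ⟨_, rfl⟩
  obtain ⟨CH, hCH⟩ : ∃ CH, CH = K * (1 + (2 * M') ^ 2) * (2 * K * (4 * L)) := ⟨_, rfl⟩
  have Kb0 : 0 ≤ Kb := by rw [hKb]; positivity
  have CH0 : 0 ≤ CH := by rw [hCH]; positivity
  obtain ⟨lam, hl, l1⟩ := ex_small (C := 12 * Kb * L * (1 + 2 * τ) * ∫ x, ψ x)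
    (d := (∫ x, κ x) * η / 4) (by positivity) (by positivity)
  obtain ⟨e, he, e1⟩ := ex_small (C := 12 * Kb * (lam * L * CH + (lam⁻¹ + 1)) + 4 * K₀ * L * CH)
    (d := (∫ x, κ x) * η / 4) (by positivity) (by positivity)
  refine ⟨e, he, fun N c u φ x₀ hu hφ hb hlim hE hx => ?_⟩
  have u0 : ∀ x, 0 < u x := fun x => lt_of_lt_of_le (by positivity) (hb x).1
  obtain ⟨P, Pi, p0, Pe, P1⟩ := ex_P c hn hτ hH hL M0 ζs ζ0 ζ1 ζ3 hu hφ (fun x => (hb x).1) hlim hE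
  rw [← hCH] at Pe
  obtain ⟨ρ, hρ⟩ : ∃ ρ : E n → ℝ, ρ = fun x => inner ℝ (φ x) (φ x) / u x := ⟨_, rfl⟩
  replace P1 : ∀ x, ψ x * |ρ x - 1| ≤ 2 * τ * ψ x + P x := by rw [hψ, hρ]; exact P1
  have ρc : Continuous ρ := hρ ▸ (sm_inner hφ hφ).cont.div hu.cont fun x => (u0 x).ne'
  have ρ0 : ∀ x, 0 ≤ ρ x := hρ ▸ fun x => div_nonneg real_inner_self_nonneg (u0 x).le
  have fρ : ∀ x, inner ℝ (φ x) (φ x) = ρ x * u x :=
    hρ ▸ fun x => (div_mul_cancel₀ _ (u0 x).ne').symm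
  have Ee : ∫ x, ψ x * en c u φ x ≤ e := hE ψ ψc ψs ψ0 fun x h => by
    simp only [hψ, ζ1 x h, zero_mul]
  have cor := fun z hz => corner κc κ0 κn (fun x => (b0 x).1) hτ hL τ1 r1 hu ρc
    (fun x => ⟨u0 x, (hb x).2⟩) Pi p0 P1 z (ψ1 z hz)
  have Tb : ∀ x, |T (x - x₀)| ≤ K₀ * ψ x ∧ ∀ l, |pd l (fun x => T (x - x₀)) x| ≤ K₀ * ψ x := by
    intro x
    by_cases h : ψ x = 1
    · simp only [h, mul_one, pd_translate]
      exact (b0 _).2
    · have h1 : x ∉ tsupport fun x => T (x - x₀) := fun k => h (closure_minimal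
        (t := {x | ψ x = 1}) (fun y hy => by
          obtain ⟨s, hs, t, ht, h2⟩ := Tn _ hy
          exact ψ1 _ (hx s hs t ht) y (by rwa [sub_sub] at h2))
        (isClosed_eq ψc continuous_const) k)
      have h2 := mul_nonneg hK₀.le (ψ0 x).1
      exact ⟨by rwa [image_eq_zero_of_notMem_tsupport h1, abs_zero],
        fun l => by rwa [pd_off h1, abs_zero]⟩
  have φe : ∫ x, ψ x * ‖φ x‖ ^ 2 ≤ L * ((1 + 2 * τ) * (∫ x, ψ x) + CH * e) := by
    refine (integral_mono ((ψc.mul (hφ.continuous.norm.pow 2)).integrable_of_hasCompactSupport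
      ψs.mul_right) (((ψi.const_mul (1 + 2 * τ)).add Pi).const_mul L) fun x => ?_).trans ?_
    · show ψ x * ‖φ x‖ ^ 2 ≤ L * ((1 + 2 * τ) * ψ x + P x)
      rw [← real_inner_self_eq_norm_sq, fρ]
      have a1 := mul_le_mul_of_nonneg_left (hb x).2.1 (mul_nonneg (ψ0 x).1 (ρ0 x))
      have a2 := mul_le_mul_of_nonneg_left (le_abs_self (ρ x - 1)) (ψ0 x).1
      linarith [mul_le_mul_of_nonneg_left (a2.trans (P1 x)) hL.le]
    · simp only [_root_.Pi.add_apply]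
      rw [integral_const_mul, integral_add (ψi.const_mul _) Pi, integral_const_mul]
      exact mul_le_mul_of_nonneg_left (by linarith) hL.le
  have key := rect' c (T := fun x => T (x - x₀)) hij hik hjk hL hl
    (ContDiff.comp Ts (contDiff_id.sub contDiff_const))
    (Tc.comp_homeomorph (Homeomorph.subRight x₀)) ψc ψs Tb hu hφ hb
  have I0 : (0 : ℝ) ∈ Icc (0 : ℝ) 1 := ⟨le_rfl, zero_le_one⟩
  have I1 : (1 : ℝ) ∈ Icc (0 : ℝ) 1 := ⟨zero_le_one, le_rfl⟩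
  obtain ⟨c1, d1⟩ := cor x₀ (by simpa using hx 0 I0 0 I0)
  obtain ⟨c2, d2⟩ := cor (x₀ + a • ee i) (by simpa using hx 1 I1 0 I0)
  obtain ⟨c3, d3⟩ := cor (x₀ + b • ee j) (by simpa using hx 0 I0 1 I1)
  obtain ⟨c4, d4⟩ := cor (x₀ + (a • ee i + b • ee j)) (by simpa using hx 1 I1 1 I1)
  have e2 : pd j (fun x => T (x - x₀)) = fun x => pd j T (x - x₀) :=
    funext fun x => pd_translate x₀ j
  have e3 : ∀ x, pd i (pd j fun x => T (x - x₀)) x * inner ℝ (φ x) (φ x) =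
      κ (x - x₀) * (ρ x * u x) - κ (x - (x₀ + a • ee i)) * (ρ x * u x) -
        κ (x - (x₀ + b • ee j)) * (ρ x * u x) +
        κ (x - (x₀ + (a • ee i + b • ee j))) * (ρ x * u x) := fun x => by
    rw [e2, pd_translate, Te, sub_sub x, sub_sub x, sub_sub x, fρ]
    ring
  have c12 : Integrable fun x => κ (x - x₀) * (ρ x * u x) -
      κ (x - (x₀ + a • ee i)) * (ρ x * u x) := c1.sub c2
  have c13 : Integrable fun x => κ (x - x₀) * (ρ x * u x) - κ (x - (x₀ + a • ee i)) * (ρ x * u x) -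
      κ (x - (x₀ + b • ee j)) * (ρ x * u x) := c12.sub c3
  rw [← hKb, integral_congr_ae (Eventually.of_forall e3), integral_add c13 c4,
    integral_sub c12 c3, integral_sub c1 c2] at key
  have f1 := mul_le_mul_of_nonneg_left φe (show 0 ≤ 12 * Kb * lam by positivity)
  have f2 := mul_le_mul_of_nonneg_left Ee (show 0 ≤ 12 * Kb * (lam⁻¹ + 1) by positivity)
  have f3 := mul_le_mul_of_nonneg_left Pe (mul_nonneg hK₀.le hL.le)
  refine le_of_mul_le_mul_left ?_ κm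
  rw [← abs_of_pos κm, ← abs_mul, abs_of_pos κm, abs_le]
  rw [abs_le] at key d1 d2 d3 d4
  constructor <;> linarith [key.1, key.2, d1.1, d1.2, d2.1, d2.2, d3.1, d3.2, d4.1, d4.2]

end StabH

end Vale.Agent.P366Z
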